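import Vale.Agent.P204.Gen.Core
import Vale.Agent.P204.Torus.Phase2Defs

/-!
P204 on a closed four-manifold: the statements exchanged between the modules (owner helper17).

Each is proved by one module; a module which needs another one takes the statement as an argument.
They are plain propositions, assumed in no hand-in.
-/

open MeasureTheory Filter Topology
open scoped BigOperators ContDiff

namespace Vale.Agent.P204.Gen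

open Vale.Agent.P204.Torus

variable {X : Type*} [TopologicalSpace X] [MeasurableSpace X]

/-- Calculus and integration on the atlas. -/
structure Basic (G : Geo X) : Prop where
  finite_μ : IsFiniteMeasure G.μ
  smooth_meas : ∀ α, G.Smooth2 α → Measurable α
  smooth_bound : ∀ α, G.Smooth2 α → ∃ C, ∀ x, ‖α x‖ ≤ C
  smooth_mem : ∀ α, G.Smooth2 α → MemLp α 2 G.μ
  smooth_d : ∀ η, G.Smooth1 η → G.Smooth2 (G.d η)
  stokes : ∀ η ξ, G.Smooth1 η → G.Smooth1 ξ → G.pairing (G.d η) (G.d ξ) = 0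
  dense : ∀ f, MemLp f 2 G.μ → ∀ δ > 0, ∃ α, G.Smooth2 α ∧ G.n2 (fun x => f x - α x) ≤ δ
  riesz : ∀ L : (X → Form) → ℝ,
    (∀ α β, G.Smooth2 α → G.Smooth2 β → L (α + β) = L α + L β) →
    (∀ (a : ℝ) α, G.Smooth2 α → L (a • α) = a * L α) →
    (∃ C, ∀ α, G.Smooth2 α → |L α| ≤ C * G.n2 α) →
    ∃ f, MemLp f 2 G.μ ∧ ∀ α, G.Smooth2 α → G.pairing f α = L α

/-- The Sobolev estimates of the regulariser. -/
structure RegFacts (G : Geo X) : Prop where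
  exists_scale : ∃ ε₁ : ℝ, 0 < ε₁ ∧ ε₁ ≤ 1 ∧ ∀ ε, 0 < ε → ε ≤ ε₁ →
    (∀ α, G.Smooth2 α → G.Smooth2 (G.reg ε α) ∧ G.Smooth2 (G.regT ε α)) ∧
    (∀ η, G.Smooth1 η → G.Smooth1 (G.reg1 ε η) ∧ G.reg ε (G.d η) = G.d (G.reg1 ε η)) ∧
    (∀ η, G.Smooth1 η → G.Smooth1 (G.regT1 ε η) ∧ G.regT ε (G.d η) = G.d (G.regT1 ε η)) ∧
    (∀ α, G.Smooth2 α → G.WeakClosed α → G.WeakClosed (G.reg ε α)) ∧
    (∀ α β, G.Smooth2 α → G.Smooth2 β →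
      G.reg ε (α + β) = G.reg ε α + G.reg ε β) ∧
    (∀ (a : ℝ) α, G.Smooth2 α → G.reg ε (a • α) = a • G.reg ε α) ∧
    ∀ α β, G.Smooth2 α → G.Smooth2 β → G.pairing (G.reg ε α) β = G.pairing α (G.regT ε β)
  gain : ∀ k, ∃ C ε₁, 0 < ε₁ ∧ ∀ ε, 0 < ε → ε ≤ ε₁ → ∀ α, G.Smooth2 α →
    G.sob k ε (G.reg ε α) ≤ C * G.n2 α
  bounded : ∀ k, ∃ C ε₁, 0 < ε₁ ∧ ∀ ε, 0 < ε → ε ≤ ε₁ → ∀ α, G.Smooth2 α →
    G.sob k 1 (G.reg ε α) ≤ C * G.sob k 1 α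
  key : ∀ k, ∃ C ε₁, 0 < ε₁ ∧ ∀ l ε, 0 < l → l ≤ 1 → 0 < ε → ε ≤ ε₁ → ∀ α, G.Smooth2 α →
    ∃ γ β, G.Smooth2 γ ∧ G.Smooth2 β ∧ α = G.reg (l * ε) γ + β ∧
      G.n2 γ ≤ C * G.sob k ε α ∧ G.sob k (l * ε) β ≤ C * l ^ k * G.sob k ε α
  comm : ∀ F, G.SmoothOp F → ∀ k, ∃ C ε₁, 0 < ε₁ ∧ ∀ ε, 0 < ε → ε ≤ ε₁ → ∀ α, G.Smooth2 α →
    G.sob k ε (fun x => F x (G.reg ε α x) - G.reg ε (fun y => F y (α y)) x) ≤ C * ε * G.n2 α
  near : ∀ α, G.Smooth2 α → ∃ C ε₁, 0 < ε₁ ∧ ∀ ε, 0 < ε → ε ≤ ε₁ →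
    G.n2 (fun x => G.regT ε α x - α x) ≤ C * ε ^ 2 ∧
    G.n2 (fun x => G.reg ε α x - α x) ≤ C * ε ^ 2
  closed_dense : ∀ w, MemLp w 2 G.μ → G.WeakClosed w → ∀ δ > 0,
    ∃ α, G.Smooth2 α ∧ G.WeakClosed α ∧ G.n2 (fun x => w x - α x) ≤ δ

/-- The Sobolev inequalities on `X`. -/
structure SobFacts (G : Geo X) : Prop where
  sup : ∃ C, ∀ α, G.Smooth2 α → ∀ x, ‖α x‖ ≤ C * G.sob pU 1 α
  mult : ∀ F, G.SmoothOp F → ∀ k, ∃ C, ∀ α, G.Smooth2 α →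
    G.sob k 1 (fun x => F x (α x)) ≤ C * G.sob k 1 α

/-- The regulariser at a point, in a chart: an average of congruences close to the identity. -/
structure AvgRep (G : Geo X) : Prop where
  rep : ∀ (i : Fin G.n) (K : Set X), IsCompact K → K ⊆ (G.φ i).source →
    (∀ z ∈ K, ∀ᶠ u in nhds (G.φ i z), G.χ i u = 1) →
    ∃ C c ε₁ : ℝ, 0 < C ∧ 0 < c ∧ 0 < ε₁ ∧ ∀ z ∈ K, ∀ ε, 0 < ε → ε ≤ ε₁ →
    ∃ m : Measure (V × (V →L[ℝ] V)), IsProbabilityMeasure m ∧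
      (∀ᵐ p ∂m, p.1 ∈ (G.φ i).target ∧ ‖p.1 - G.φ i z‖ ≤ C * ε ∧
        ‖p.2 - ContinuousLinearMap.id ℝ V‖ ≤ C * ε) ∧
      (m.map Prod.fst ≤ ENNReal.ofReal (C / ε ^ 4) • volume) ∧
      (ENNReal.ofReal (c / ε ^ 4) • volume.restrict (Metric.closedBall (G.φ i z) (c * ε)) ≤
        m.map Prod.fst) ∧
      ∀ α, G.Smooth2 α →
        G.rep2 i (G.reg ε α) (G.φ i z) = ∫ p, pull p.2 (G.rep2 i α p.1) ∂m

/-- A closed form with a prescribed anti-invariant part. -/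
structure GSolve (S : GSetup X) : Prop where
  exists_G : ∃ (G : (X → Form) → X → Form) (C : ℝ),
    ∀ η, S.Smooth2 η → (∀ x, piP (S.J x) (η x) = 0) →
      S.Smooth2 (G η) ∧ S.WeakClosed (G η) ∧ (∀ x, piM (S.J x) (G η x) = η x) ∧
      (∀ x, ‖G η x‖ ≤ C * S.sob pU 1 η) ∧
      (∀ η', S.Smooth2 η' → (∀ x, piP (S.J x) (η' x) = 0) → G (η + η') = G η + G η') ∧
      ∀ a : ℝ, G (a • η) = a • G η

open Classical in
/-- A one-form of the chart `i`, cut off and read on `X`. -/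
noncomputable def Geo.fromChart1 (G : Geo X) (i : Fin G.n) (b : V → V) (x : X) : V :=
  if x ∈ (G.φ i).source then pullV (G.dT i x).inverse (G.χ i (G.φ i x) • b (G.φ i x)) else 0

/-- The test form of the monotonicity formula centred at the point `y` of the chart `i`. -/
noncomputable def LocalChart.alX {S : GSetup X} {i : Fin S.n} (L : LocalChart S i) (r : ℝ)
    (y : V) : X → Form :=
  S.d (S.fromChart1 i (L.loc.prim r y))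

/-- The current of `T` in the chart `i`. -/
def IsLocal {S : GSetup X} (T : Positive S) {i : Fin S.n} {L : LocalChart S i}
    (Tc : Current L.loc) : Prop :=
  Tc.ν = T.locMeasure i ∧ ∀ᵐ u ∂Tc.ν, Tc.h u = T.locH i u

/-- The monotonicity inequality of the first estimate. -/
def MonoFirst {S : GSetup X} {T : GCurrent S} (D : GUData T) : Prop :=
  ∃ C ε₁, 0 < C ∧ 0 < ε₁ ∧ ∀ r, 0 < r → r ≤ ε₁ → ∀ y,
    T.dens r y ≤ C * (1 + ∫ z, 1 / (r + S.dX z y) ∂T.ν + D.Xn r + D.Yn r)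

/-- The energy inequality of the first estimate. -/
def EnergyFirst {S : GSetup X} {T : GCurrent S} (D : GUData T) : Prop :=
  ∃ C ε₁, 0 ≤ C ∧ 0 < ε₁ ∧ ∀ ε, 0 < ε → ε ≤ ε₁ → ∀ M, 0 ≤ M → (∀ y, T.dens ε y ≤ M) →
    D.Xn ε ^ 2 ≤ C * (1 + M) + C * Real.sqrt (1 + M) * D.Yn ε + C * ε ^ 2 * D.Yn ε ^ 2

/-- The commutator of the regularised anti-invariant part. -/
def SeComm {S : GSetup X} {T : GCurrent S} (D : GUData T) : Prop :=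
  ∃ C ε₁, 0 < ε₁ ∧ ∀ ε, 0 < ε → ε ≤ ε₁ →
    S.n2 (fun x => piP (S.J x) (D.Se ε x)) ≤ C * ε * D.Yn ε

/-- The inequality between the dual norm and the first norm. -/
def YKey {S : GSetup X} {T : GCurrent S} (D : GUData T) : Prop :=
  ∃ C ε₁, 0 < ε₁ ∧ 0 ≤ C ∧ (∀ ε, 0 < ε → ε ≤ ε₁ → D.Yn ε ≤ C / ε ^ pU) ∧
    ∀ l ε, 0 < l → l ≤ 1 → 0 < ε → ε ≤ ε₁ →
      D.Yn ε ≤ C * D.Xn (l * ε) + C * l ^ kS * D.Yn (l * ε)

/-- Weighted regularised currents exist. -/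
def RegRepExists {S : GSetup X} (T : Positive S) : Prop :=
  ∃ ε₁, 0 < ε₁ ∧ ∀ ε, 0 < ε → ε ≤ ε₁ → ∀ w : X → ℝ, Measurable w → (∀ y, |w y| ≤ 1) →
    ∃ f, T.RegRep w ε f

/-- Pointwise bounds of the regularised weighted currents. -/
def RegBound {S : GSetup X} (T : Positive S) : Prop :=
  ∃ C R ε₁, 0 < C ∧ 0 < R ∧ 0 < ε₁ ∧ ∀ ε, 0 < ε → ε ≤ ε₁ → ∀ w : X → ℝ, Measurable w →
    (∀ y, |w y| ≤ 1) → ∀ f, T.RegRep w ε f → ∀ᵐ x ∂S.μ, ‖f x‖ ≤ C * T.ball4W w (R * ε) x ∧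
      ‖piM (S.J x) (f x)‖ ≤ C * ε * T.ball4W w (R * ε) x ∧
      ((∀ y, 0 ≤ w y) →
        S.Psd x (piP (S.J x) (f x) + (C * ε ^ 2 * T.ball4W w (R * ε) x) • S.Om x))

/-- Ball masses against the density. -/
def BallSquare {S : GSetup X} (T : Positive S) : Prop :=
  ∀ C : ℝ, 0 < C → ∃ K ε₁, 0 < ε₁ ∧ ∀ ε, 0 < ε → ε ≤ ε₁ →
    (∫ x, T.ball4 (C * ε) x ∂S.μ ≤ K) ∧
    ∀ M, 0 ≤ M → (∀ y, T.dens ε y ≤ M) →
      ∫ x, ε ^ 2 * T.ball4 (C * ε) x ^ 2 ∂S.μ ≤ K * M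

/-- Weighted ball masses against the density. -/
def BallPair {S : GSetup X} (T : Positive S) : Prop :=
  ∀ C : ℝ, 0 < C → ∃ K ε₁, 0 < ε₁ ∧ ∀ ε, 0 < ε → ε ≤ ε₁ → ∀ w : X → ℝ, Measurable w →
    (∀ y, |w y| ≤ 1) →
    ∫ x, ε ^ 2 * (T.ball4W w (C * ε) x * T.ball4 (C * ε) x) ∂S.μ ≤
      K * ∫ y, |w y| * T.dens ε y ∂T.ν

/-- The result of the first estimate. -/
def Phase1Done {S : GSetup X} {T : GCurrent S} (D : GUData T) : Prop :=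
  T.DensBound ∧ D.Bounded

/-- The results on the energy of the regularised currents. -/
structure EnergyFacts {S : GSetup X} {T : GCurrent S} (D : GUData T) (L : D.SLimit) : Prop where
  limit : Tendsto (fun ε => S.pairing (D.Te ε) (D.Te ε)) (𝓝[>] 0) (𝓝 (-L.σ))
  lower : ∃ C ε₁, 0 ≤ C ∧ 0 < ε₁ ∧ ∀ ε, 0 < ε → ε ≤ ε₁ → ∀ w : X → ℝ, Measurable w →
    (∀ y, 0 ≤ w y) → (∀ y, w y ≤ 1) → ∀ f, T.RegRep w ε f →
      -(C * ∫ y, w y * T.dens ε y ∂T.ν) ≤ S.pairing f (D.Te ε)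
  near_exact : ∀ δ > 0, ∃ ε₁ > 0, ∀ ε, 0 < ε → ε ≤ ε₁ → ∃ η, S.Smooth1 η ∧
    ∀ w : X → ℝ, Measurable w → (∀ y, |w y| ≤ 1) → ∀ f, T.RegRep w ε f →
      |S.pairing f (D.Te ε) - T.app fun z => w z • S.d η z| ≤ δ

/-- The pairs at distance `ε`, in the chart `i`. -/
def PairMass {S : GSetup X} (T : Positive S) : Prop :=
  ∀ i, ∃ C B, 0 < C ∧ 0 < B ∧
    (∀ y z, y ∈ tsupport (S.χ i) → z ∈ tsupport (S.χ i) →
      0 ≤ q (T.locH i y) (T.locH i z) + C * dist0 (y - z) ^ 2) ∧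
    ∀ ε, 0 < ε → ε ≤ 1 → ∫ y, ∫ z, (if dist0 (y - z) ≤ ε then
      (q (T.locH i y) (T.locH i z) + C * dist0 (y - z) ^ 2) / ε ^ 4 else 0)
        ∂T.locMeasure i ∂T.locMeasure i ≤ B

/-- The cut-off at the density. -/
def CutFamily {S : GSetup X} (T : Positive S) : Prop :=
  ∃ C, 0 ≤ C ∧ ∀ τ > 0, ∃ (g : ℕ → X → ℝ) (v : X → ℝ),
    (∀ k, S.Smooth0 (g k) ∧ Measurable (g k) ∧ ∀ x, g k x ∈ Set.Icc (0 : ℝ) 1) ∧
    (Measurable v ∧ ∀ x, Tendsto (fun k => 1 - g k x) atTop (𝓝 (v x))) ∧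
    (∀ η, S.Smooth1 η → Tendsto (fun k => T.app fun z => g k z • S.d η z) atTop (𝓝 0)) ∧
    ∀ δ > 0, ∀ᶠ j in atTop, ∫ y, v y * T.dens (scale j) y ∂T.ν ≤ C * τ + δ

end Vale.Agent.P204.Gen
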