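import Vale.Agent.P204.Gen.AvgRep.Rand
import Vale.Agent.P204.Gen.Interface

/-!
P204, general four-manifold, module AvgRep: the regulariser at a point, read in a chart.

Split the list of averages at the chart `i` itself. The average of the chart `i` is a plain
translation, so the law of the final point has a bounded density at scale `ε⁻⁴`, also bounded
below near the centre, whatever the other translations do.
-/

open MeasureTheory Filter Topology
open scoped ENNReal ContDiff

namespace Vale.Agent.P204.Gen.AvgAux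

open Vale.Agent.P204.Torus

/-- The average of the chart itself is an average of translations. -/
lemma avg_self {X : Type*} [TopologicalSpace X] [T2Space X] [MeasurableSpace X] {G : Geo X}
    {i : Fin G.n} {K : Set V} {R ρb ε : ℝ} (hε : 0 < ε) (hR : 0 < R)
    (hK : Metric.cthickening (2 * R) K ⊆ (G.φ i).target)
    (hχ : ∀ u ∈ Metric.cthickening (2 * R) K, G.χ i u = 1) {β : X → Form} {B2 : V → Form}
    (hfold : ∀ v ∈ Metric.cthickening ρb K, G.rep2 i β v = B2 v)
    (hρ0 : 0 ≤ ρb - ε) (hρR : ρb ≤ R) :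
    ∀ v ∈ Metric.cthickening (ρb - ε) K,
      G.rep2 i (G.avg i ε β) v = ∫ t, B2 (v + t) ∂rhoM ε := by
  intro v hv
  have hRsub : Metric.cthickening R K ⊆ (G.φ i).target :=
    (Metric.cthickening_mono (by linarith) K).trans hK
  have hvR : v ∈ Metric.cthickening R K := Metric.cthickening_mono (by linarith) K hv
  refine rep2_avg G (hRsub hvR) _ ?_
  filter_upwards [ae_small hε] with t ht
  have hvt : v + t ∈ Metric.cthickening ρb K := by
    have := mem_nb (by linarith) hε.le hv (v := v + t) (by simpa using ht)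
    simpa using this
  have hvtT : v + t ∈ (G.φ i).target :=
    hRsub (Metric.cthickening_mono (by linarith) K hvt)
  have hthick : v ∈ Metric.thickening (2 * R) K :=
    Metric.cthickening_subset_thickening' (by linarith) (by linarith) K hvR
  have hev : ∀ᶠ w in 𝓝 v,
      G.shift i t ((G.φ i).symm w) = (G.φ i).symm (w + t) ∧ sh G i i t w = w + t ∧
        w + t ∈ (G.φ i).target := by
    filter_upwards [Metric.isOpen_thickening.mem_nhds hthick,
      (continuous_add_const t).continuousAt.preimage_mem_nhds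
        ((G.φ i).open_target.mem_nhds hvtT)] with w hw hwt
    have hw' := Metric.thickening_subset_cthickening _ _ hw
    obtain ⟨e1, e2⟩ := sh_self G (hK hw') (hχ w hw') hwt
    exact ⟨e1, e2, hwt⟩
  have hsh : sh G i i t =ᶠ[𝓝 v] fun w => w + t := hev.mono fun w hw => hw.2.1
  have hd : HasFDerivAt (sh G i i t) (1 : V →L[ℝ] V) v :=
    ((hasFDerivAt_id v).add_const t).congr_of_eventuallyEq hsh
  refine ⟨?_, ?_, hd.differentiableAt, ?_⟩
  · rw [hev.self_of_nhds.1]
    exact (G.φ i).map_target hvtT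
  · filter_upwards [hev] with w hw
    rw [hw.1]
    exact (G.φ i).map_target hw.2.2
  · rw [hd.fderiv, pull_one, hsh.eq_of_nhds]
    exact hfold _ hvt

variable {X : Type*} [TopologicalSpace X] [T2Space X] [MeasurableSpace X] {G : Geo X}
  {i : Fin G.n} {K : Set V} {R : ℝ} {la lb : List (Fin G.n)} {Ca Cb η θa θb ε : ℝ}
  (Za : Rand G i K R la Ca η θa ε) (Zb : Rand G i K R lb Cb η θb ε)

/-- The law of all translations. -/
noncomputable def tot : Measure ((Za.P × Zb.P) × V) := (Za.μ.prod Zb.μ).prod (rhoM ε)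

/-- The final point. -/
noncomputable def pos (u0 : V) (w : (Za.P × Zb.P) × V) : V :=
  Zb.F w.1.2 (Za.F w.1.1 u0 + w.2)

/-- The final congruence. -/
noncomputable def con (u0 : V) (w : (Za.P × Zb.P) × V) : V →L[ℝ] V :=
  (Zb.A w.1.2 (Za.F w.1.1 u0 + w.2)).comp (Za.A w.1.1 u0)

omit [T2Space X] in
lemma measurable_mid (u0 : V) :
    Measurable fun w : (Za.P × Zb.P) × V => (w.1.2, Za.F w.1.1 u0 + w.2) :=
  (measurable_snd.comp measurable_fst).prodMk
    ((Za.measF.comp ((measurable_fst.comp measurable_fst).prodMk measurable_const)).add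
      measurable_snd)

omit [T2Space X] in
lemma measurable_pos (u0 : V) : Measurable (pos Za Zb u0) :=
  Zb.measF.comp (measurable_mid Za Zb u0)

omit [T2Space X] in
lemma measurable_con (u0 : V) : Measurable (con Za Zb u0) :=
  (continuous_fst.clm_comp continuous_snd).measurable.comp
    ((Zb.measA.comp (measurable_mid Za Zb u0)).prodMk
      (Za.measA.comp ((measurable_fst.comp measurable_fst).prodMk measurable_const)))

variable {u0 : V} (hε : 0 < ε) (hu0 : u0 ∈ K) (hCa : 0 ≤ Ca) (hCb : 0 ≤ Cb)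
  (hroom : (Ca + Cb + 3) * ε ≤ R)

include hε hu0 hCa hCb hroom

omit [T2Space X] in
lemma pos_spec : ∀ᵐ w ∂tot Za Zb,
    pos Za Zb u0 w ∈ Metric.cthickening R K ∧ ‖pos Za Zb u0 w - u0‖ ≤ (Ca + Cb + 1) * ε ∧
      ‖con Za Zb u0 w - 1‖ ≤ (Ca + 2 * Cb) * ε := by
  have := isProb_rhoM hε
  have hCaε : 0 ≤ Ca * ε := mul_nonneg hCa hε.le
  have hCbε : 0 ≤ Cb * ε := mul_nonneg hCb hε.le
  filter_upwards [Measure.quasiMeasurePreserving_snd.ae (ae_small hε),
    Measure.quasiMeasurePreserving_fst.ae (Measure.quasiMeasurePreserving_fst.ae Za.good),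
    Measure.quasiMeasurePreserving_fst.ae (Measure.quasiMeasurePreserving_snd.ae Zb.good)]
    with w ht ha hb
  have hu : u0 ∈ Metric.cthickening 0 K := Metric.self_subset_cthickening K hu0
  obtain ⟨-, a2, a3⟩ := ha 0 le_rfl (by linarith) u0 hu
  set v := Za.F w.1.1 u0 + w.2 with hv
  have hvn : ‖v - u0‖ ≤ (Ca + 1) * ε := by
    rw [hv, add_sub_right_comm]
    refine (norm_add_le _ _).trans ?_
    linarith
  have hvK : v ∈ Metric.cthickening ((Ca + 1) * ε) K :=
    Metric.mem_cthickening_of_dist_le v u0 _ K hu0 (by rwa [dist_eq_norm])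
  obtain ⟨-, b2, b3⟩ := hb ((Ca + 1) * ε) (by linarith) (by linarith) v hvK
  have hp : ‖pos Za Zb u0 w - u0‖ ≤ (Ca + Cb + 1) * ε := by
    have := norm_sub_le_norm_sub_add_norm_sub (Zb.F w.1.2 v) v u0
    change ‖Zb.F w.1.2 v - u0‖ ≤ _
    linarith
  refine ⟨Metric.mem_cthickening_of_dist_le _ u0 _ K hu0
    (by rw [dist_eq_norm]; linarith), hp, ?_⟩
  have h1 : ‖(1 : V →L[ℝ] V)‖ ≤ 1 := ContinuousLinearMap.norm_id_le
  have hA : ‖Za.A w.1.1 u0‖ ≤ 2 := by
    have := norm_le_insert' (Za.A w.1.1 u0) 1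
    linarith [Za.eps_small]
  have heq : con Za Zb u0 w - 1 =
      (Zb.A w.1.2 v - 1).comp (Za.A w.1.1 u0) + (Za.A w.1.1 u0 - 1) := by
    ext x
    simp [con, hv]
  rw [heq]
  refine (norm_add_le _ _).trans ?_
  have := (ContinuousLinearMap.opNorm_comp_le (Zb.A w.1.2 v - 1) (Za.A w.1.1 u0)).trans
    (mul_le_mul b3 hA (norm_nonneg _) hCbε)
  linarith

omit [T2Space X] in
/-- The last maps are close to the identity on a ball around the centre. -/
lemma last_bilip (hhalf : Cb * ε ≤ 1 / 2) : ∀ᵐ q ∂Za.μ.prod Zb.μ,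
    ‖Za.F q.1 u0 - u0‖ ≤ Ca * ε ∧
    ∀ x ∈ Metric.closedBall u0 ((Ca + 3) * ε), ∀ y ∈ Metric.closedBall u0 ((Ca + 3) * ε),
      ‖(Zb.F q.2 x - x) - (Zb.F q.2 y - y)‖ ≤ 1 / 2 * ‖x - y‖ ∧
        ‖x - y‖ ≤ 2 * ‖Zb.F q.2 x - Zb.F q.2 y‖ ∧
        ‖Zb.F q.2 x - Zb.F q.2 y‖ ≤ 2 * ‖x - y‖ := by
  have hCaε : 0 ≤ Ca * ε := mul_nonneg hCa hε.le
  have hCbε : 0 ≤ Cb * ε := mul_nonneg hCb hε.le
  filter_upwards [Measure.quasiMeasurePreserving_fst.ae Za.good,
    Measure.quasiMeasurePreserving_snd.ae Zb.good] with q ha hb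
  refine ⟨(ha 0 le_rfl (by linarith) u0 (Metric.self_subset_cthickening K hu0)).2.1,
    fun x hx y hy => ?_⟩
  have hball : ∀ v ∈ Metric.closedBall u0 ((Ca + 3) * ε),
      v ∈ Metric.cthickening ((Ca + 3) * ε) K := fun v hv =>
    Metric.mem_cthickening_of_dist_le v u0 _ K hu0 hv
  exact near_bilip (D := Zb.A q.2) (convex_closedBall _ _) hhalf
    (fun v hv => (hb _ (by positivity) (by linarith) v (hball v hv)).1)
    (fun v hv => (hb _ (by positivity) (by linarith) v (hball v hv)).2.2.trans le_rfl) hx hy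

omit [T2Space X] in
lemma pos_upper (hhalf : Cb * ε ≤ 1 / 2) :
    (tot Za Zb).map (pos Za Zb u0) ≤ ENNReal.ofReal (16 * kap0 / ε ^ 4) • volume := by
  have hpr := isProb_rhoM hε
  refine Measure.le_iff.2 fun s hs => ?_
  rw [Measure.map_apply (measurable_pos Za Zb u0) hs, tot,
    Measure.prod_apply (measurable_pos Za Zb u0 hs), Measure.smul_apply, smul_eq_mul]
  refine (lintegral_mono_ae (g := fun _ => ENNReal.ofReal (16 * kap0 / ε ^ 4) * volume s) ?_).trans
    (by simp)
  filter_upwards [last_bilip Za Zb hε hu0 hCa hCb hroom hhalf] with q ⟨hq, hbil⟩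
  set T := (Prod.mk q ⁻¹' (pos Za Zb u0 ⁻¹' s)) ∩ Metric.closedBall (0 : V) ε with hT
  have h1 : rhoM ε (Prod.mk q ⁻¹' (pos Za Zb u0 ⁻¹' s)) ≤ rhoM ε T := by
    refine measure_mono_ae ?_
    filter_upwards [ae_small hε] with t ht h
    exact ⟨h, mem_closedBall_zero_iff.2 ht⟩
  have hmem : ∀ t ∈ T, Za.F q.1 u0 + t ∈ Metric.closedBall u0 ((Ca + 3) * ε) := fun t ht => by
    rw [mem_closedBall_iff_norm, add_sub_right_comm]
    refine (norm_add_le _ _).trans ?_
    have := mem_closedBall_zero_iff.1 ht.2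
    linarith
  have h2 : volume T ≤ 16 * volume ((fun t => Zb.F q.2 (Za.F q.1 u0 + t)) '' T) :=
    volume_le_image fun x hx y hy => by
      simpa using (hbil _ (hmem x hx) _ (hmem y hy)).2.1
  have h3 : (fun t => Zb.F q.2 (Za.F q.1 u0 + t)) '' T ⊆ s := by
    rintro - ⟨t, ht, rfl⟩
    exact ht.1
  refine (h1.trans ((rhoM_le ε) T)).trans ?_
  rw [Measure.smul_apply, smul_eq_mul]
  refine (mul_le_mul' le_rfl (h2.trans (mul_le_mul' le_rfl (measure_mono h3)))).trans (le_of_eq ?_)
  rw [← mul_assoc, show (16 : ℝ≥0∞) = ENNReal.ofReal 16 by simp,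
    ← ENNReal.ofReal_mul (div_nonneg kap0_pos.le (by positivity))]
  congr 2
  ring

omit [T2Space X] in
lemma pos_lower (hhalf : Cb * ε ≤ 1 / 2) (hηa : Ca * η ≤ 1 / 16)
    (hηb : Cb * η ≤ 1 / 16) (hθa : 0 ≤ θa) {c : ℝ} (hc1 : c ≤ 1 / 16)
    (hc2 : 16 * c ≤ kap0 * (θa * θb)) :
    ENNReal.ofReal (c / ε ^ 4) • volume.restrict (Metric.closedBall u0 (c * ε)) ≤
      (tot Za Zb).map (pos Za Zb u0) := by
  have hpr := isProb_rhoM hε
  have hCaε : 0 ≤ Ca * ε := mul_nonneg hCa hε.le
  have hCbε : 0 ≤ Cb * ε := mul_nonneg hCb hε.le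
  refine Measure.le_iff.2 fun s hs => ?_
  rw [Measure.map_apply (measurable_pos Za Zb u0) hs, tot,
    Measure.prod_apply (measurable_pos Za Zb u0 hs), Measure.smul_apply, smul_eq_mul,
    Measure.restrict_apply hs]
  set W := s ∩ Metric.closedBall u0 (c * ε)
  set L := ENNReal.ofReal (kap0 / ε ^ 4 / 16) * volume W with hL
  have hkey : ∀ᵐ q ∂(Za.μ.prod Zb.μ).restrict (Za.E ×ˢ Zb.E),
      L ≤ rhoM ε (Prod.mk q ⁻¹' (pos Za Zb u0 ⁻¹' s)) := by
    filter_upwards [ae_restrict_of_ae (last_bilip Za Zb hε hu0 hCa hCb hroom hhalf),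
      ae_restrict_mem (Za.E_meas.prod Zb.E_meas)] with q ⟨hq, hbil⟩ ⟨hqa, hqb⟩
    set a := Za.F q.1 u0 with ha
    have hak : ‖a - u0‖ ≤ ε / 16 := by
      refine (Za.small q.1 hqa 0 le_rfl (by linarith) u0
        (Metric.self_subset_cthickening K hu0)).trans ?_
      rw [← mul_assoc, div_eq_mul_inv, mul_comm ε]
      exact mul_le_mul_of_nonneg_right (by linarith) hε.le
    have haS : a ∈ Metric.closedBall u0 ((Ca + 3) * ε) := by
      rw [mem_closedBall_iff_norm]; linarith
    have haG : ‖Zb.F q.2 a - a‖ ≤ ε / 16 := by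
      refine (Zb.small q.2 hqb ((Ca + 3) * ε) (by positivity) (by linarith) a
        (Metric.mem_cthickening_of_dist_le a u0 _ K hu0 haS)).trans ?_
      rw [← mul_assoc, div_eq_mul_inv, mul_comm ε]
      exact mul_le_mul_of_nonneg_right (by linarith) hε.le
    set T := (Prod.mk q ⁻¹' (pos Za Zb u0 ⁻¹' s)) ∩ Metric.closedBall (0 : V) (ε / 2) with hT
    have hTm : MeasurableSet T :=
      ((measurable_pos Za Zb u0).comp measurable_prodMk_left hs).inter
        Metric.isClosed_closedBall.measurableSet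
    have hsub : W ⊆ (fun t => Zb.F q.2 (a + t)) '' T := by
      rintro w ⟨hws, hwb⟩
      rw [mem_closedBall_iff_norm] at hwb
      have hcε : c * ε ≤ ε / 16 := by
        rw [div_eq_mul_inv, mul_comm ε]
        exact mul_le_mul_of_nonneg_right (by linarith) hε.le
      have hwS : w ∈ Metric.closedBall u0 ((Ca + 3) * ε) := by
        rw [mem_closedBall_iff_norm]; linarith
      have hsubS : Metric.closedBall w (ε / 4) ⊆ Metric.closedBall u0 ((Ca + 3) * ε) := by
        refine Metric.closedBall_subset_closedBall' ?_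
        rw [dist_eq_norm]; linarith
      have hGw : ‖Zb.F q.2 w - w‖ ≤ ε / 4 / 2 := by
        have h1 := (hbil w hwS a haS).1
        have h2 := norm_le_insert' (Zb.F q.2 w - w) (Zb.F q.2 a - a)
        have h3 := norm_sub_le_norm_sub_add_norm_sub w u0 a
        rw [norm_sub_rev u0 a] at h3
        linarith
      obtain ⟨v, hv, hGv⟩ := near_surj (fun x hx y hy => (hbil x hx y hy).1) (by positivity)
        hsubS hGw
      refine ⟨v - a, ⟨?_, ?_⟩, by simpa using hGv⟩
      · change Zb.F q.2 (Za.F q.1 u0 + (v - a)) ∈ s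
        rw [← ha, add_sub_cancel, hGv]
        exact hws
      · rw [mem_closedBall_iff_norm] at hv
        rw [mem_closedBall_zero_iff]
        have h1 := norm_sub_le_norm_sub_add_norm_sub v w a
        have h2 := norm_sub_le_norm_sub_add_norm_sub w u0 a
        rw [norm_sub_rev u0 a] at h2
        linarith
    have himg : volume ((fun t => Zb.F q.2 (a + t)) '' T) ≤ 16 * volume T := by
      refine volume_image_le fun x hx y hy => ?_
      have hm : ∀ t ∈ T, a + t ∈ Metric.closedBall u0 ((Ca + 3) * ε) := fun t ht => by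
        rw [mem_closedBall_iff_norm, add_sub_right_comm]
        refine (norm_add_le _ _).trans ?_
        have := mem_closedBall_zero_iff.1 ht.2
        linarith
      simpa using (hbil _ (hm x hx) _ (hm y hy)).2.2
    refine le_trans ?_ ((le_rhoM hε hTm Set.inter_subset_right).trans
      (measure_mono Set.inter_subset_left))
    rw [hL, show ENNReal.ofReal (kap0 / ε ^ 4) * volume T =
      ENNReal.ofReal (kap0 / ε ^ 4 / 16) * (16 * volume T) by
        rw [← mul_assoc, show (16 : ℝ≥0∞) = ENNReal.ofReal 16 by simp,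
          ← ENNReal.ofReal_mul (by have := kap0_pos; positivity)]
        congr 2
        ring]
    exact mul_le_mul' le_rfl ((measure_mono hsub).trans himg)
  refine le_trans ?_ ((lintegral_mono_ae hkey).trans (setLIntegral_le_lintegral _ _))
  rw [setLIntegral_const, Measure.prod_prod, hL]
  refine le_trans ?_ (mul_le_mul' le_rfl (mul_le_mul' Za.E_le Zb.E_le))
  rw [← ENNReal.ofReal_mul hθa, mul_right_comm,
    ← ENNReal.ofReal_mul (by have := kap0_pos; positivity)]
  refine mul_le_mul' (ENNReal.ofReal_le_ofReal ?_) le_rfl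
  calc c / ε ^ 4 = 16 * c / ε ^ 4 / 16 := by ring
    _ ≤ kap0 * (θa * θb) / ε ^ 4 / 16 := by gcongr
    _ = _ := by ring

omit [T2Space X] in
lemma fubini_center {B B2 : V → Form} {M : ℝ} (hBm : Measurable B) (hBb : ∀ v, ‖B v‖ ≤ M)
    (hB2m : Measurable B2) (hB2b : ∀ v, ‖B2 v‖ ≤ 288 * M)
    (hB2f : ∀ v ∈ Metric.cthickening (R - Cb * ε) K,
      B2 v = ∫ q, pull (Zb.A q v) (B (Zb.F q v)) ∂Zb.μ)
    (hmeas : Measurable fun w => pull (con Za Zb u0 w) (B (pos Za Zb u0 w))) :
    (fun p => pull (Za.A p u0) (∫ t, B2 (Za.F p u0 + t) ∂rhoM ε)) =ᵐ[Za.μ] fun p =>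
      ∫ q, ∫ t, pull (con Za Zb u0 ((p, q), t)) (B (pos Za Zb u0 ((p, q), t))) ∂rhoM ε ∂Zb.μ := by
  have hpr := isProb_rhoM hε
  have hCaε : 0 ≤ Ca * ε := mul_nonneg hCa hε.le
  have hCbε : 0 ≤ Cb * ε := mul_nonneg hCb hε.le
  have h1 : ‖(1 : V →L[ℝ] V)‖ ≤ 1 := ContinuousLinearMap.norm_id_le
  have hsm1 := Za.eps_small
  have hsm2 := Zb.eps_small
  set ρb := R - Cb * ε with hρb
  have hρb0 : 0 ≤ ρb := by linarith
  filter_upwards [Za.good] with p hp
  obtain ⟨-, a2, a3⟩ := hp 0 le_rfl (by linarith) u0 (Metric.self_subset_cthickening K hu0)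
  set a := Za.F p u0 with ha
  have hAn : ‖Za.A p u0‖ ≤ 2 := by
    have := norm_le_insert' (Za.A p u0) 1
    linarith
  set H : Zb.P × V → Form :=
    fun z => pull (con Za Zb u0 ((p, z.1), z.2)) (B (pos Za Zb u0 ((p, z.1), z.2))) with hH
  have hv : ∀ᵐ t ∂rhoM ε, a + t ∈ Metric.cthickening ρb K := by
    filter_upwards [ae_small hε] with t ht
    refine Metric.cthickening_mono (show (Ca + 1) * ε ≤ ρb by linarith) K
      (Metric.mem_cthickening_of_dist_le _ u0 _ K hu0 ?_)
    rw [dist_eq_norm, add_sub_right_comm]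
    refine (norm_add_le _ _).trans ?_
    linarith
  have hHi : Integrable H (Zb.μ.prod (rhoM ε)) := by
    refine integrable_bdd (K := 72 * (4 : ℝ) ^ 2 * M)
      (hmeas.comp ((measurable_const.prodMk measurable_fst).prodMk measurable_snd)) ?_
    filter_upwards [Measure.quasiMeasurePreserving_fst.ae Zb.good,
      Measure.quasiMeasurePreserving_snd.ae hv] with z hz hzv
    obtain ⟨-, -, b3⟩ := hz ρb hρb0 (by linarith) _ hzv
    refine (norm_pull_le _ _).trans ?_
    gcongr
    · have := norm_le_insert' (Zb.A z.1 (a + z.2)) 1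
      refine (ContinuousLinearMap.opNorm_comp_le _ _).trans ?_
      calc ‖Zb.A z.1 (a + z.2)‖ * ‖Za.A p u0‖ ≤ 2 * 2 :=
            mul_le_mul (by linarith) hAn (norm_nonneg _) zero_le_two
        _ = 4 := by norm_num
    · exact hBb _
  change pull (Za.A p u0) (∫ t, B2 (a + t) ∂rhoM ε) = ∫ q, ∫ t, H (q, t) ∂rhoM ε ∂Zb.μ
  rw [integral_integral_swap (f := fun q t => H (q, t)) hHi, ← pullC_apply,
    ← ContinuousLinearMap.integral_comp_comm]
  swap
  · exact integrable_bdd (K := 288 * M) (hB2m.comp (measurable_const.add measurable_id))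
      (Eventually.of_forall fun t => hB2b _)
  refine integral_congr_ae ?_
  filter_upwards [hv] with t ht
  rw [hB2f _ ht, ← ContinuousLinearMap.integral_comp_comm]
  · simp only [hH, pullC_apply, pull_comp, con, pos, ha]
  · exact integrable_bdd ((Zb.meas_pull hBm).comp (measurable_id.prodMk measurable_const))
      (Zb.pull_bound hBb hρb0 (by linarith) ht)

/-- The averages at the centre are the integral against the final point and congruence. -/
lemma rep_center (hK : Metric.cthickening (2 * R) K ⊆ (G.φ i).target)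
    (hχ : ∀ u ∈ Metric.cthickening (2 * R) K, G.χ i u = 1) {α : X → Form} (hα : G.Smooth2 α)
    (hcpt : IsCompact K) :
    G.rep2 i ((la ++ i :: lb).foldr (fun j γ => G.avg j ε γ) α) u0 =
      ∫ w, pull (con Za Zb u0 w) (G.rep2 i α (pos Za Zb u0 w)) ∂tot Za Zb := by
  classical
  have hpr := isProb_rhoM hε
  have hCaε : 0 ≤ Ca * ε := mul_nonneg hCa hε.le
  have hCbε : 0 ≤ Cb * ε := mul_nonneg hCb hε.le
  have hR : 0 < R := by linarith
  have hRsub : Metric.cthickening R K ⊆ (G.φ i).target :=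
    (Metric.cthickening_mono (by linarith) K).trans hK
  set B := (Metric.cthickening R K).piecewise (G.rep2 i α) (fun _ => 0) with hB
  have hBm : Measurable B := ((hα i).continuousOn.mono hRsub).measurable_piecewise
    continuousOn_const Metric.isClosed_cthickening.measurableSet
  obtain ⟨M0, hM0⟩ := hcpt.cthickening.exists_bound_of_continuousOn
    ((hα i).continuousOn.mono hRsub)
  have hBb : ∀ v, ‖B v‖ ≤ max M0 0 := fun v => by
    by_cases hv : v ∈ Metric.cthickening R K
    · simp only [hB, Set.piecewise_eq_of_mem _ _ _ hv]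
      exact (hM0 v hv).trans (le_max_left _ _)
    · simp [hB, hv]
  set M := max M0 0
  have hBα : ∀ v ∈ Metric.cthickening R K, G.rep2 i α v = B v := fun v hv => by simp [hB, hv]
  set ρb := R - Cb * ε with hρb
  have hρb0 : 0 ≤ ρb := by linarith
  set B2 := (Metric.cthickening ρb K).indicator
    fun v => ∫ q, pull (Zb.A q v) (B (Zb.F q v)) ∂Zb.μ with hB2
  have hB2b : ∀ v, ‖B2 v‖ ≤ 288 * M := fun v => by
    by_cases hv : v ∈ Metric.cthickening ρb K
    · rw [hB2, Set.indicator_of_mem hv]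
      refine (norm_integral_le_of_norm_le_const
        (Zb.pull_bound hBb hρb0 (by linarith) hv)).trans ?_
      simp
    · rw [hB2, Set.indicator_of_notMem hv, norm_zero]
      have : 0 ≤ M := le_max_right _ _
      linarith
  have hB2m : Measurable B2 :=
    ((Zb.meas_pull hBm).stronglyMeasurable.integral_prod_left'.measurable).indicator
      Metric.isClosed_cthickening.measurableSet
  set B1 : V → Form := fun v => ∫ t, B2 (v + t) ∂rhoM ε with hB1
  have hB1b : ∀ v, ‖B1 v‖ ≤ 288 * M := fun v =>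
    (norm_integral_le_of_norm_le_const (Eventually.of_forall fun t => hB2b (v + t))).trans
      (by simp)
  have hB1m : Measurable B1 :=
    ((hB2m.comp (measurable_fst.add measurable_snd)).stronglyMeasurable.integral_prod_right'
      ).measurable
  have hfold : ∀ v ∈ Metric.cthickening ρb K,
      G.rep2 i (lb.foldr (fun j γ => G.avg j ε γ) α) v = B2 v := fun v hv => by
    rw [hB2, Set.indicator_of_mem hv]
    exact Zb.rep α B R hBm ⟨M, hBb⟩ le_rfl hBα ρb hρb0 (by linarith) v hv
  have hmid : ∀ v ∈ Metric.cthickening (ρb - ε) K,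
      G.rep2 i (G.avg i ε (lb.foldr (fun j γ => G.avg j ε γ) α)) v = B1 v :=
    avg_self hε hR hK hχ hfold (by linarith) (by linarith)
  rw [List.foldr_append, List.foldr_cons,
    Za.rep _ B1 (ρb - ε) hB1m ⟨_, hB1b⟩ (by linarith) hmid 0 le_rfl (by linarith) u0
      (Metric.self_subset_cthickening K hu0)]
  have hspec := pos_spec Za Zb hε hu0 hCa hCb hroom
  have hrhs : ∫ w, pull (con Za Zb u0 w) (G.rep2 i α (pos Za Zb u0 w)) ∂tot Za Zb =
      ∫ w, pull (con Za Zb u0 w) (B (pos Za Zb u0 w)) ∂tot Za Zb := by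
    refine integral_congr_ae ?_
    filter_upwards [hspec] with w hw
    rw [hBα _ hw.1]
  have hmeas : Measurable fun w => pull (con Za Zb u0 w) (B (pos Za Zb u0 w)) :=
    measurable_pull (measurable_con Za Zb u0) (hBm.comp (measurable_pos Za Zb u0))
  have h1 : ‖(1 : V →L[ℝ] V)‖ ≤ 1 := ContinuousLinearMap.norm_id_le
  have hsm1 := Za.eps_small
  have hsm2 := Zb.eps_small
  have hint : Integrable (fun w => pull (con Za Zb u0 w) (B (pos Za Zb u0 w))) (tot Za Zb) := by
    have : IsFiniteMeasure (tot Za Zb) := by unfold tot; infer_instance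
    refine integrable_bdd (K := 72 * (4 : ℝ) ^ 2 * M) hmeas ?_
    filter_upwards [hspec] with w hw
    have := norm_le_insert' (con Za Zb u0 w) 1
    refine (norm_pull_le _ _).trans ?_
    gcongr
    · linarith [hw.2.2]
    · exact hBb _
  unfold tot at hint
  rw [hrhs, tot, integral_prod _ hint, integral_prod _ hint.integral_prod_left]
  refine integral_congr_ae ?_
  exact fubini_center Za Zb hε hu0 hCa hCb hroom hBm hBb hB2m hB2b (fun v hv => by
    rw [hB2, Set.indicator_of_mem hv]) hmeas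

end Vale.Agent.P204.Gen.AvgAux

namespace Vale.Agent.P204.Gen

open Vale.Agent.P204.Torus AvgAux

/-- The regulariser at a point, in a chart, is an average of congruences close to the identity. -/
theorem avgRep {X : Type*} [TopologicalSpace X] [T2Space X] [MeasurableSpace X] (G : Geo X) :
    AvgRep G := by
  constructor
  intro i K₀ hK₀ hsub hχ
  set K := G.φ i '' K₀ with hKdef
  have hK : IsCompact K := hK₀.image_of_continuousOn ((G.φ i).continuousOn.mono hsub)
  set O := (G.φ i).target ∩ interior {u | G.χ i u = 1} with hO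
  have hKO : K ⊆ O := by
    rintro - ⟨z, hz, rfl⟩
    exact ⟨(G.φ i).map_source (hsub hz), mem_interior_iff_mem_nhds.2 (hχ z hz)⟩
  obtain ⟨R2, hR2, hth⟩ :=
    hK.exists_cthickening_subset_open ((G.φ i).open_target.inter isOpen_interior) hKO
  set R := R2 / 2 with hR
  have hRpos : 0 < R := by positivity
  have h2R : 2 * R = R2 := by rw [hR]; ring
  have htarget : Metric.cthickening (2 * R) K ⊆ (G.φ i).target := by
    rw [h2R]; exact fun u hu => (hth hu).1
  have hone : ∀ u ∈ Metric.cthickening (2 * R) K, G.χ i u = 1 := by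
    rw [h2R]; exact fun u hu => interior_subset (s := {u | G.χ i u = 1}) (hth hu).2
  obtain ⟨la, lb, hl⟩ := List.mem_iff_append.1 (List.mem_finRange i)
  obtain ⟨Ca, εa, hCa, hεa, hZa⟩ := exists_rand G hK hRpos htarget la
  obtain ⟨Cb, εb, hCb, hεb, hZb⟩ := exists_rand G hK hRpos htarget lb
  set η := 1 / (16 * (Ca + Cb + 1)) with hη
  have hη0 : 0 < η := by positivity
  have hη2 : η ≤ 1 / 2 := by
    rw [hη]; gcongr; linarith
  have hηa : Ca * η ≤ 1 / 16 := by
    rw [hη, mul_one_div, div_le_iff₀ (by positivity)]; linarith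
  have hηb : Cb * η ≤ 1 / 16 := by
    rw [hη, mul_one_div, div_le_iff₀ (by positivity)]; linarith
  obtain ⟨θa, hθa, hZa⟩ := hZa η hη0 hη2
  obtain ⟨θb, hθb, hZb⟩ := hZb η hη0 hη2
  set C := max (Ca + 2 * Cb + 1) (16 * kap0) with hC
  set c := min (1 / 16) (kap0 * (θa * θb) / 16) with hc
  set ε₁ := min (min εa εb) (min (R / (Ca + Cb + 3)) (1 / (2 * (Cb + 1)))) with hε₁
  have hk := kap0_pos
  refine ⟨C, c, ε₁, lt_max_of_lt_left (by positivity), lt_min (by norm_num) (by positivity),
    lt_min (lt_min hεa hεb) (lt_min (by positivity) (by positivity)), fun z hz ε hε hεle => ?_⟩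
  simp only [hε₁, le_min_iff] at hεle
  obtain ⟨⟨hεa', hεb'⟩, hεR, hεh⟩ := hεle
  obtain ⟨Za⟩ := hZa ε hε hεa'
  obtain ⟨Zb⟩ := hZb ε hε hεb'
  have hroom : (Ca + Cb + 3) * ε ≤ R := by
    rw [le_div_iff₀ (by positivity)] at hεR; linarith
  have hhalf : Cb * ε ≤ 1 / 2 := by
    rw [le_div_iff₀ (by positivity)] at hεh; linarith
  have hu0 : G.φ i z ∈ K := Set.mem_image_of_mem _ hz
  have hpr := isProb_rhoM hε
  have : IsProbabilityMeasure (tot Za Zb) := by unfold tot; infer_instance
  set u0 := G.φ i z with hu0def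
  have hΦ : Measurable fun w => (pos Za Zb u0 w, con Za Zb u0 w) :=
    (measurable_pos Za Zb u0).prodMk (measurable_con Za Zb u0)
  refine ⟨(tot Za Zb).map fun w => (pos Za Zb u0 w, con Za Zb u0 w),
    Measure.isProbabilityMeasure_map hΦ.aemeasurable, ?_, ?_, ?_, fun α hα => ?_⟩
  · have hset : MeasurableSet {p : V × (V →L[ℝ] V) | p.1 ∈ (G.φ i).target ∧
        ‖p.1 - u0‖ ≤ C * ε ∧ ‖p.2 - ContinuousLinearMap.id ℝ V‖ ≤ C * ε} :=
      (measurable_fst (G.φ i).open_target.measurableSet).inter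
        ((isClosed_le (continuous_fst.sub continuous_const).norm
          continuous_const).measurableSet.inter
          (isClosed_le (continuous_snd.sub continuous_const).norm continuous_const).measurableSet)
    rw [ae_map_iff hΦ.aemeasurable hset]
    filter_upwards [pos_spec Za Zb hε hu0 hCa hCb hroom] with w ⟨h1, h2, h3⟩
    have hCle : Ca + 2 * Cb + 1 ≤ C := le_max_left _ _
    refine ⟨htarget (Metric.cthickening_mono (by linarith) K h1), h2.trans ?_, h3.trans ?_⟩
    · exact mul_le_mul_of_nonneg_right (by linarith) hε.le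
    · exact mul_le_mul_of_nonneg_right (by linarith) hε.le
  · rw [Measure.map_map measurable_fst hΦ]
    refine (pos_upper Za Zb hε hu0 hCa hCb hroom hhalf).trans (Measure.le_iff'.2 fun s => ?_)
    rw [Measure.smul_apply, Measure.smul_apply, smul_eq_mul, smul_eq_mul]
    gcongr
    exact le_max_right _ _
  · rw [Measure.map_map measurable_fst hΦ]
    exact pos_lower Za Zb hε hu0 hCa hCb hroom hhalf hηa hηb hθa.le (min_le_left _ _)
      (by have := min_le_right (1 / 16 : ℝ) (kap0 * (θa * θb) / 16); linarith)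
  · rw [Geo.reg, hl, rep_center Za Zb hε hu0 hCa hCb hroom htarget hone hα hK]
    refine (integral_map (φ := fun w => (pos Za Zb u0 w, con Za Zb u0 w))
      (f := fun p => pull p.2 (G.rep2 i α p.1)) hΦ.aemeasurable ?_).symm
    classical
    have hm : Measurable fun p : V × (V →L[ℝ] V) =>
        pull p.2 ((G.φ i).target.piecewise (G.rep2 i α) (fun _ => 0) p.1) :=
      measurable_pull measurable_snd (((hα i).continuousOn.measurable_piecewise
        continuousOn_const (G.φ i).open_target.measurableSet).comp measurable_fst)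
    refine hm.aestronglyMeasurable.congr (Eventually.of_forall fun p => ?_)
    by_cases hp : p.1 ∈ (G.φ i).target
    · simp [hp]
    · simp [hp, Geo.rep2]

end Vale.Agent.P204.Gen
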