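import Vale.Agent.P204.Gen.EnergyBase

/-!
P204 on a closed four-manifold: the balls of the distance have volume at most `r⁴`, and the bounds
of the ball masses against the density (helper61).
-/

open MeasureTheory Filter Topology Set
open scoped BigOperators

namespace Vale.Agent.P204.Gen

open Vale.Agent.P204.Torus

variable {X : Type*} [TopologicalSpace X] [T2Space X] [CompactSpace X] [MeasurableSpace X]
  [BorelSpace X]

omit [T2Space X] in
/-- The balls of the distance have volume at most `r⁴`. -/
theorem Geo.ballVolume (G : Geo X) : BallVolume G := by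
  have hi : ∀ i, ∃ C, 0 < C ∧ ∀ x ∈ tsupport (G.ψ i), ∀ y ∈ tsupport (G.ψ i),
      ‖G.φ i x - G.φ i y‖ ≤ C * G.dX x y :=
    fun i => G.exists_le_dX (isClosed_tsupport _).isCompact (G.ψ_supp i)
  choose C hC hCb using hi
  refine ⟨∑ i, (4 * C i) ^ 4, Finset.sum_nonneg fun i _ => by positivity, fun y r hr => ?_⟩
  set A := {x | G.dX y x ≤ r}
  have hA : MeasurableSet A :=
    measurableSet_le (G.continuous_dX_right y).measurable measurable_const
  have key : ∀ i, ((((volume : Measure V).restrict (G.φ i).target).map (G.φ i).symm).restrict
      {x | G.tr x = i}) A ≤ ENNReal.ofReal ((4 * C i) ^ 4 * r ^ 4) := by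
    intro i
    have hm : AEMeasurable (G.φ i).symm ((volume : Measure V).restrict (G.φ i).target) :=
      (G.φ i).continuousOn_symm.aemeasurable (G.φ i).open_target.measurableSet
    have hB : MeasurableSet (A ∩ {x | G.tr x = i}) :=
      hA.inter (G.tr_meas (measurableSet_singleton i))
    rw [Measure.restrict_apply hA, Measure.map_apply_of_aemeasurable hm hB,
      Measure.restrict_apply' (G.φ i).open_target.measurableSet]
    rcases ((G.φ i).symm ⁻¹' (A ∩ {x | G.tr x = i}) ∩ (G.φ i).target).eq_empty_or_nonempty with
      he | ⟨u₀, hu₀, hu₀t⟩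
    · rw [he, measure_empty]
      exact bot_le
    have hsupp : ∀ {u}, (G.φ i).symm u ∈ {x | G.tr x = i} →
        (G.φ i).symm u ∈ tsupport (G.ψ i) := fun {u} hu => by
      have hu' : G.tr ((G.φ i).symm u) = i := hu
      have h := subset_tsupport _ (G.tr_pos ((G.φ i).symm u)).ne'
      rwa [hu'] at h
    refine (measure_mono (t := Metric.closedBall u₀ (2 * C i * r)) ?_).trans (le_of_eq ?_)
    · rintro u ⟨hu, hut⟩
      have h := hCb i _ (hsupp hu.2) _ (hsupp hu₀.2)
      rw [(G.φ i).right_inv hut, (G.φ i).right_inv hu₀t] at h
      rw [Metric.mem_closedBall, dist_eq_norm]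
      refine h.trans ?_
      have h1 : G.dX y ((G.φ i).symm u) ≤ r := hu.1
      have h2 : G.dX y ((G.φ i).symm u₀) ≤ r := hu₀.1
      have h3 := G.dX_triangle ((G.φ i).symm u) y ((G.φ i).symm u₀)
      rw [G.dX_comm ((G.φ i).symm u) y] at h3
      calc C i * G.dX ((G.φ i).symm u) ((G.φ i).symm u₀) ≤ C i * (2 * r) :=
            mul_le_mul_of_nonneg_left (by linarith) (hC i).le
        _ = 2 * C i * r := by ring
    · rw [Real.volume_pi_closedBall _ (by have := hC i; positivity), Fintype.card_fin]
      congr 1
      ring
  refine ENNReal.toReal_le_of_le_ofReal (by positivity) ?_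
  rw [Geo.μ, Measure.sum_fintype, Measure.finsetSum_apply, Finset.sum_mul,
    ENNReal.ofReal_sum_of_nonneg fun i _ => by positivity]
  exact Finset.sum_le_sum fun i _ => key i

namespace Positive

variable {S : GSetup X} (T : Positive S)

/-- The ball masses against the density. -/
theorem ballSquare [IsFiniteMeasure S.μ] : BallSquare T := fun C hC => by
  have := T.finite
  obtain ⟨Kp, hKp, hpair⟩ := T.exists_ball_product S.toGeo.ballVolume hC
  obtain ⟨Cv, hCv, hvol⟩ := S.toGeo.ballVolume
  refine ⟨max (Cv * T.ν.real univ) (Kp * T.ν.real univ), 1, one_pos, fun ε hε _ =>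
    ⟨?_, fun M hM0 hM => ?_⟩⟩
  · classical
    set r := C * ε with hr
    have hr0 : 0 < r := mul_pos hC hε
    set P := fun x z => if S.dX z x ≤ r then (r ^ 4)⁻¹ else 0 with hP
    have hPm : Measurable (Function.uncurry P) :=
      Measurable.ite (measurableSet_le (S.measurable_dX.comp measurable_swap) measurable_const)
        measurable_const measurable_const
    have hPi : Integrable (Function.uncurry P) (S.μ.prod T.ν) :=
      Integrable.of_bound hPm.aestronglyMeasurable (r ^ 4)⁻¹ (Eventually.of_forall fun p => by
        simp only [Function.uncurry, hP]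
        split_ifs
        · rw [Real.norm_of_nonneg (by positivity)]
        · rw [norm_zero]; positivity)
    have hb : ∀ x, T.ball4 r x = ∫ z, P x z ∂T.ν := fun x => by
      rw [show (fun z => P x z) = {z | S.dX z x ≤ r}.indicator fun _ => (r ^ 4)⁻¹ from
        funext fun z => by simp [hP, Set.indicator_apply],
        integral_indicator_const _ (measurableSet_ball r x), smul_eq_mul, ball4, div_eq_mul_inv]
    simp only [hb]
    rw [integral_integral_swap hPi]
    refine le_trans ?_ (le_max_left _ _)
    refine (integral_mono_of_nonneg (Eventually.of_forall fun z => integral_nonneg fun x => ?_)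
      (integrable_const Cv) (Eventually.of_forall fun z => ?_)).trans_eq ?_
    · simp only [hP]
      split_ifs <;> positivity
    · have hs : MeasurableSet {x | S.dX z x ≤ r} :=
        measurableSet_le (S.continuous_dX_right z).measurable measurable_const
      simp only
      rw [show (fun x => P x z) = {x | S.dX z x ≤ r}.indicator fun _ => (r ^ 4)⁻¹ from
        funext fun x => by simp [hP, Set.indicator_apply], integral_indicator_const _ hs,
        smul_eq_mul, ← div_eq_mul_inv, div_le_iff₀ (by positivity)]
      exact hvol z r hr0
    · rw [integral_const, smul_eq_mul, mul_comm]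
  · have h := hpair ε hε (fun _ => 1) measurable_const (fun _ => by simp)
    simp only [← T.ball4_eq, ← sq] at h
    refine h.trans ?_
    refine le_trans (mul_le_mul_of_nonneg_left ((integral_mono_of_nonneg
      (Eventually.of_forall fun y => mul_nonneg (abs_nonneg _) (T.dens_nonneg ε y))
      (integrable_const M) (Eventually.of_forall fun y => ?_)).trans_eq
        (by rw [integral_const, smul_eq_mul])) hKp) ?_
    · simpa using hM y
    · rw [← mul_assoc]
      exact mul_le_mul_of_nonneg_right (le_max_right _ _) hM0

/-- The weighted ball masses against the density. -/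
theorem ballPair [IsFiniteMeasure S.μ] : BallPair T := T.ballPair_of_volume S.toGeo.ballVolume

end Positive

end Vale.Agent.P204.Gen
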