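import Vale.Agent.P204.Gen.IntegralFields
import Vale.Agent.P204.Gen.Interface

/-!
P204 on a closed four-manifold: calculus and integration on the atlas, `Basic G`, and the
comparison of `sob 0` with `n2` (helper66, module `Integral`).
-/

open MeasureTheory Set Filter Topology
open scoped BigOperators ContDiff ENNReal RealInnerProductSpace

namespace Vale.Agent.P204.Gen

open Vale.Agent.P204.Torus

variable {X : Type*} [TopologicalSpace X] [MeasurableSpace X] [BorelSpace X] [T2Space X]
  [CompactSpace X] {G : Geo X}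

namespace Geo

omit [T2Space X] [CompactSpace X] in
/-- The measure is finite. -/
lemma isFiniteMeasure_μ (G : Geo X) : IsFiniteMeasure G.μ := by
  refine ⟨?_⟩
  rw [μ, Measure.sum_apply _ MeasurableSet.univ, tsum_fintype]
  refine ENNReal.sum_lt_top.2 fun i _ => ?_
  refine lt_of_le_of_lt (Measure.restrict_apply_le _ _) ?_
  rw [Measure.map_apply_of_aemeasurable (G.aemeasurable_symm i) MeasurableSet.univ, preimage_univ,
    Measure.restrict_apply_univ]
  have hsub : (G.φ i).target ⊆ Icc (0 : V) 1 := (G.target_sub i).trans fun u hu =>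
    ⟨fun k => (hu k (mem_univ k)).1.le, fun k => (hu k (mem_univ k)).2.le⟩
  exact (measure_mono hsub).trans_lt isCompact_Icc.measure_lt_top

omit [T2Space X] [CompactSpace X] in
lemma measurable_smooth2 {α : X → Form} (hα : G.Smooth2 α) : Measurable α := by
  classical
  have hg : ∀ i, Measurable
      ((G.φ i).source.piecewise (fun x => G.rep2 i α (G.φ i x)) fun _ => (0 : Form)) := fun i =>
    (((hα i).continuousOn.comp (G.φ i).continuousOn (G.φ i).mapsTo)).measurable_piecewise
      continuousOn_const (G.φ i).open_source.measurableSet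
  have h : Measurable fun p : Fin G.n × X =>
      (G.φ p.1).source.piecewise (fun x => G.rep2 p.1 α (G.φ p.1 x)) (fun _ => (0 : Form)) p.2 :=
    measurable_from_prod_countable_right hg
  have e : α = fun x => (G.φ (G.tr x)).source.piecewise
      (fun x' => G.rep2 (G.tr x) α (G.φ (G.tr x) x')) (fun _ => (0 : Form)) x := funext fun x => by
    rw [piecewise_eq_of_mem _ _ _ (G.mem_ch x)]
    exact (G.rep2_tr α x).symm
  rw [e]
  exact h.comp (G.tr_meas.prodMk measurable_id)

omit [BorelSpace X] in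
lemma exists_bound_smooth2 {α : X → Form} (hα : G.Smooth2 α) : ∃ C, ∀ x, ‖α x‖ ≤ C := by
  have hb : ∀ i, ∃ C, ∀ u ∈ G.φ i '' tsupport (G.ψ i), ‖G.rep2 i α u‖ ≤ C := fun i =>
    ((G.isCompact_supp i).image_of_continuousOn
      ((G.φ i).continuousOn.mono (G.ψ_supp i))).exists_bound_of_continuousOn
        ((hα i).continuousOn.mono (by
          rintro _ ⟨x, hx, rfl⟩
          exact (G.φ i).map_source (G.ψ_supp i hx)))
  choose C hC using hb
  refine ⟨∑ i, |C i|, fun x => ?_⟩
  rw [← G.rep2_tr α x, ch]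
  exact (hC _ _ (mem_image_of_mem _ (subset_tsupport _ (G.tr_pos x).ne'))).trans
    ((le_abs_self _).trans (Finset.single_le_sum (f := fun i => |C i|) (fun i _ => abs_nonneg _)
      (Finset.mem_univ _)))

lemma memLp_smooth2 {α : X → Form} (hα : G.Smooth2 α) : MemLp α 2 G.μ := by
  obtain ⟨C, hC⟩ := exists_bound_smooth2 hα
  have := G.isFiniteMeasure_μ
  exact MemLp.of_bound (measurable_smooth2 hα).aestronglyMeasurable C
    (Eventually.of_forall hC)

omit [BorelSpace X] [T2Space X] [CompactSpace X] in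
lemma continuous_q₂ : Continuous fun p : Form × Form => q p.1 p.2 := by
  simp only [q]
  fun_prop

omit [BorelSpace X] [T2Space X] [CompactSpace X] in
lemma d_eq_zero (G : Geo X) {a : X → V} {x : X} (h : a =ᶠ[𝓝 x] 0) : G.d a x = 0 := by
  have hk := G.mem_ch x
  set k := G.tr x
  have e : G.rep1 k a =ᶠ[𝓝 (G.φ k x)] fun _ => 0 := by
    have hc := (G.φ k).continuousAt_symm ((G.φ k).map_source hk)
    rw [ContinuousAt, (G.φ k).left_inv hk] at hc
    filter_upwards [hc.eventually h] with v hv
    simp only [rep1]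
    split
    · rw [hv, Pi.zero_apply, pullV_zero]
    · rfl
  show d1 (G.rep1 k a) (G.φ k x) = 0
  rw [d1_congr e, d1_zero]

omit [T2Space X] [CompactSpace X] in
/-- A pairing supported in one chart, computed there. -/
lemma pairing_chart {j : Fin G.n} {α β : X → Form} (hα : AEStronglyMeasurable α G.μ)
    (hβ : AEStronglyMeasurable β G.μ)
    (h0 : ∀ x ∉ (G.φ j).source, q (α x) (β x) = 0) :
    G.pairing α β = ∫ v in (G.φ j).target, q (G.rep2 j α v) (G.rep2 j β v) := by
  rw [pairing, ← setIntegral_eq_integral_of_forall_compl_eq_zero h0,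
    G.integral_chart j (continuous_q₂.comp_aestronglyMeasurable (hα.prodMk hβ))]
  refine setIntegral_congr_fun (G.φ j).open_target.measurableSet fun v hv => ?_
  simp only [rep2, if_pos hv, q_pull, jac, smul_eq_mul, Function.comp_apply]

/-- Stokes for a field cut off in one chart. -/
lemma stokes_cut {η ξ : X → V} (hη : G.Smooth1 η) (hξ : G.Smooth1 ξ) (j : Fin G.n) :
    G.pairing (G.d fun x => G.ψ j x • η x) (G.d ξ) = 0 := by
  classical
  have hsm : G.Smooth1 fun x => G.ψ j x • η x := (smooth0_psi j).smul1 hη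
  have hzero : ∀ x ∉ tsupport (G.ψ j), G.d (fun x => G.ψ j x • η x) x = 0 := fun x hx =>
    G.d_eq_zero (by
      filter_upwards [(isClosed_tsupport (G.ψ j)).isOpen_compl.mem_nhds hx] with y hy
      simp [image_eq_zero_of_notMem_tsupport hy])
  rw [pairing_chart (j := j) (measurable_smooth2 (G.smooth2_d hsm)).aestronglyMeasurable
    (measurable_smooth2 (G.smooth2_d hξ)).aestronglyMeasurable
    fun x hx => by rw [hzero x fun h => hx (G.ψ_supp j h), q_zero_left]]
  set b := G.rep1 j fun x => G.ψ j x • η x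
  set L := G.φ j '' tsupport (G.ψ j)
  have hL : IsCompact L :=
    (G.isCompact_supp j).image_of_continuousOn ((G.φ j).continuousOn.mono (G.ψ_supp j))
  have hLt : L ⊆ (G.φ j).target := by
    rintro _ ⟨x, hx, rfl⟩
    exact (G.φ j).map_source (G.ψ_supp j hx)
  have hb0 : ∀ v ∉ L, b v = 0 := fun v hv => by
    simp only [b, rep1]
    split
    · rename_i hvt
      rw [image_eq_zero_of_notMem_tsupport fun h =>
        hv ⟨_, h, (G.φ j).right_inv hvt⟩, zero_smul, pullV_zero]
    · rfl
  obtain ⟨hb, hbc⟩ := contDiff_of_chart (G.φ j).open_target (hsm j) hL hLt hb0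
  obtain ⟨hc, -⟩ := contDiff_of_chart (f := fun v => G.χ j v • G.rep1 j ξ v)
    (G.φ j).open_target ((G.χ_smooth j).contDiffOn.smul (hξ j)) (G.χ_cpt j) (G.χ_supp j)
    fun v hv => by rw [image_eq_zero_of_notMem_tsupport hv, zero_smul]
  have hd0 : ∀ v ∉ L, d1 b v = 0 := fun v hv => by
    rw [d1_congr (c := fun _ => 0), d1_zero]
    filter_upwards [hL.isClosed.isOpen_compl.mem_nhds hv] with w hw
    exact hb0 w hw
  rw [setIntegral_congr_fun (G.φ j).open_target.measurableSet
    (g := fun v => q (d1 b v) (d1 (fun v => G.χ j v • G.rep1 j ξ v) v)) fun v hv => by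
      simp only
      rw [G.rep2_d hsm hv, G.rep2_d hξ hv]
      by_cases hvL : v ∈ L
      · obtain ⟨x, hx, rfl⟩ := hvL
        congr 1
        refine d1_congr ?_
        filter_upwards [G.χ_one j x hx] with w hw
        rw [hw, one_smul]
      · rw [hd0 v hvL, q_zero_left, q_zero_left],
    setIntegral_eq_integral_of_forall_compl_eq_zero fun v hv => by
      rw [hd0 v fun h => hv (hLt h), q_zero_left]]
  exact integral_q_d1 hb hbc hc

lemma integrable_q_d {η ξ : X → V} (hη : G.Smooth1 η) (hξ : G.Smooth1 ξ) :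
    Integrable (fun x => q (G.d η x) (G.d ξ x)) G.μ := by
  obtain ⟨C₁, h₁⟩ := exists_bound_smooth2 (G.smooth2_d hη)
  obtain ⟨C₂, h₂⟩ := exists_bound_smooth2 (G.smooth2_d hξ)
  have := G.isFiniteMeasure_μ
  have hp : AEStronglyMeasurable (fun x => (G.d η x, G.d ξ x)) G.μ :=
    (measurable_smooth2 (G.smooth2_d hη)).aestronglyMeasurable.prodMk
      (measurable_smooth2 (G.smooth2_d hξ)).aestronglyMeasurable
  have hm : AEStronglyMeasurable (fun x => q (G.d η x) (G.d ξ x)) G.μ :=
    Continuous.comp_aestronglyMeasurable (g := fun p : Form × Form => q p.1 p.2)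
      (f := fun x => (G.d η x, G.d ξ x)) continuous_q₂ hp
  refine Integrable.of_bound hm (6 * (C₁ * C₂)) (Eventually.of_forall fun x => ?_)
  exact (abs_q_le _ _).trans (mul_le_mul_of_nonneg_left (mul_le_mul (h₁ x) (h₂ x) (norm_nonneg _)
    ((norm_nonneg _).trans (h₁ x))) (by norm_num))

lemma d_sum_cut {η : X → V} (hη : G.Smooth1 η) (s : Finset (Fin G.n)) :
    G.Smooth1 (fun x => ∑ j ∈ s, G.ψ j x • η x) ∧
      G.d (fun x => ∑ j ∈ s, G.ψ j x • η x) =
        fun x => ∑ j ∈ s, G.d (fun y => G.ψ j y • η y) x := by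
  classical
  induction s using Finset.induction with
  | empty =>
    refine ⟨fun i => (contDiffOn_const (c := (0 : V))).congr fun u _ => ?_, funext fun x => ?_⟩
    · simp [rep1, pullV_zero]
    · rw [Finset.sum_empty]
      exact G.d_eq_zero (Eventually.of_forall fun y => by simp)
  | @insert j s hj ih =>
    have e : (fun x => ∑ k ∈ insert j s, G.ψ k x • η x) =
        (fun x => G.ψ j x • η x) + fun x => ∑ k ∈ s, G.ψ k x • η x :=
      funext fun x => Finset.sum_insert hj
    refine ⟨fun i => ?_, funext fun x => ?_⟩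
    · rw [e, rep1_add]
      exact ((smooth0_psi j).smul1 hη i).add (ih.1 i)
    · rw [e, G.d_add ((smooth0_psi j).smul1 hη) ih.1, ih.2, Finset.sum_insert hj]
      rfl

/-- Stokes. -/
theorem stokes {η ξ : X → V} (hη : G.Smooth1 η) (hξ : G.Smooth1 ξ) :
    G.pairing (G.d η) (G.d ξ) = 0 := by
  classical
  have hη' : (fun x => ∑ j, G.ψ j x • η x) = η := funext fun x => by
    rw [← Finset.sum_smul, G.ψ_sum, one_smul]
  have hd := (d_sum_cut hη Finset.univ).2
  rw [hη'] at hd
  have hq : ∀ (s : Finset (Fin G.n)) (f : Fin G.n → Form) (b : Form),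
      q (∑ j ∈ s, f j) b = ∑ j ∈ s, q (f j) b := fun s f b => by
    induction s using Finset.induction with
    | empty => simp [q_zero_left]
    | @insert j s hj ih => rw [Finset.sum_insert hj, Finset.sum_insert hj, q_add_left, ih]
  rw [pairing, hd]
  simp only [hq]
  rw [integral_finsetSum _ fun j _ => integrable_q_d ((smooth0_psi j).smul1 hη) hξ]
  exact Finset.sum_eq_zero fun j _ => stokes_cut hη hξ j

/-! ## The Hilbert space -/

variable (G) in
/-- Smooth forms as elements of the Hilbert space. -/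
noncomputable def smoothToLp : G.smoothForms →ₗ[ℝ] Lp Form 2 G.μ where
  toFun α := (memLp_smooth2 α.2).toLp _
  map_add' α β := MemLp.toLp_add (memLp_smooth2 α.2) (memLp_smooth2 β.2)
  map_smul' c α := MemLp.toLp_const_smul c (memLp_smooth2 α.2)

omit [T2Space X] [CompactSpace X] [BorelSpace X] in
lemma n2_eq_norm {f : X → Form} (hf : MemLp f 2 G.μ) : G.n2 f = ‖hf.toLp f‖ := by
  rw [n2, ← Real.sqrt_sq (norm_nonneg (hf.toLp f))]
  congr 1
  rw [← real_inner_self_eq_norm_sq, L2.inner_def]
  refine integral_congr_ae ?_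
  filter_upwards [hf.coeFn_toLp] with x hx
  rw [hx, real_inner_self_eq_norm_sq]

omit [T2Space X] [CompactSpace X] [BorelSpace X] in
lemma memLp_swL {f : X → Form} (hf : MemLp f 2 G.μ) : MemLp (fun x => swL (f x)) 2 G.μ :=
  hf.of_le (swL.continuous.comp_aestronglyMeasurable hf.1)
    (Eventually.of_forall fun x => (norm_swL (f x)).le)

omit [T2Space X] [CompactSpace X] [BorelSpace X] in
lemma pairing_swL (v : Lp Form 2 G.μ) {α : X → Form} (hα : MemLp α 2 G.μ) :
    G.pairing (fun x => swL (v x)) α = ⟪v, hα.toLp α⟫ := by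
  rw [L2.inner_def, pairing]
  refine integral_congr_ae ?_
  filter_upwards [hα.coeFn_toLp] with x hx
  rw [hx, ← inner_swL, swL_swL]

/-- Riesz representation through the wedge pairing. -/
theorem riesz (L : (X → Form) → ℝ)
    (hadd : ∀ α β, G.Smooth2 α → G.Smooth2 β → L (α + β) = L α + L β)
    (hsmul : ∀ (a : ℝ) α, G.Smooth2 α → L (a • α) = a * L α)
    (hb : ∃ C, ∀ α, G.Smooth2 α → |L α| ≤ C * G.n2 α) :
    ∃ f, MemLp f 2 G.μ ∧ ∀ α, G.Smooth2 α → G.pairing f α = L α := by
  obtain ⟨C, hC⟩ := hb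
  set Φ := G.smoothToLp
  let Lf : G.smoothForms →ₗ[ℝ] ℝ :=
    { toFun := fun α => L α.1
      map_add' := fun α β => hadd _ _ α.2 β.2
      map_smul' := fun c α => hsmul c _ α.2 }
  have hLf : ∀ α, |Lf α| ≤ C * ‖Φ α‖ := fun α => by
    have h := hC α.1 α.2
    rwa [n2_eq_norm (memLp_smooth2 α.2)] at h
  have hker : ∀ α β, Φ α = Φ β → Lf α = Lf β := fun α β h => by
    have h1 := hLf (α - β)
    rw [map_sub, map_sub, h, sub_self, norm_zero, mul_zero] at h1
    exact sub_eq_zero.1 (abs_nonpos_iff.1 h1)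
  choose pre hpre using fun w : LinearMap.range Φ => w.2
  let f₀ : LinearMap.range Φ →ₗ[ℝ] ℝ :=
    { toFun := fun w => Lf (pre w)
      map_add' := fun w w' => by
        rw [← map_add]
        exact hker _ _ (by rw [map_add, hpre, hpre, hpre]; rfl)
      map_smul' := fun c w => by
        rw [RingHom.id_apply, ← map_smul]
        exact hker _ _ (by rw [map_smul, hpre, hpre]; rfl) }
  let f₁ : StrongDual ℝ (LinearMap.range Φ) := f₀.mkContinuous C fun w => by
    refine (hLf (pre w)).trans_eq ?_
    rw [hpre]; rfl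
  obtain ⟨g, hg, -⟩ := exists_extension_norm_eq (LinearMap.range Φ) f₁
  set v := (InnerProductSpace.toDual ℝ (Lp Form 2 G.μ)).symm g with hv
  refine ⟨fun x => swL (v x), memLp_swL (Lp.memLp v), fun α hα => ?_⟩
  rw [pairing_swL v (memLp_smooth2 hα), hv, InnerProductSpace.toDual_symm_apply]
  have h1 := hg ⟨Φ ⟨α, hα⟩, LinearMap.mem_range_self Φ _⟩
  refine Eq.trans h1 ?_
  exact hker _ ⟨α, hα⟩ (hpre _)

omit [T2Space X] [CompactSpace X] in
lemma aestronglyMeasurable_rep2 {j : Fin G.n} {h : X → Form} (hh : AEStronglyMeasurable h G.μ) :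
    AEStronglyMeasurable (G.rep2 j h) (volume.restrict (G.φ j).target) := by
  refine (continuous_pull₂.comp_aestronglyMeasurable
    ((G.aemeasurable_dT j).aestronglyMeasurable.prodMk
      (G.aestronglyMeasurable_chart hh))).congr ?_
  filter_upwards [ae_restrict_mem (G.φ j).open_target.measurableSet] with v hv
  simp [rep2, hv]

/-- A square integrable field killing all smooth fields vanishes. -/
lemma ae_eq_zero_of_pairing {h : X → Form} (hm : Measurable h) (hh : MemLp h 2 G.μ)
    (h0 : ∀ α, G.Smooth2 α → G.pairing h α = 0) : ∀ᵐ x ∂G.μ, h x = 0 := by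
  have := G.isFiniteMeasure_μ
  have hint : Integrable h G.μ := hh.integrable (by norm_num)
  have hj : ∀ j, ∀ᵐ x ∂G.μ.restrict (G.φ j).source, h x = 0 := by
    intro j
    have hU := (G.φ j).open_target
    have hli : LocallyIntegrableOn (G.rep2 j h) (G.φ j).target := by
      rw [locallyIntegrableOn_iff hU.isLocallyClosed]
      intro k hk hkc
      obtain ⟨C, hC0, hC⟩ := G.exists_dT_bound j
        (hkc.image_of_continuousOn ((G.φ j).continuousOn_symm.mono hk))
        (by rintro _ ⟨v, hv, rfl⟩; exact (G.φ j).map_target (hk hv))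
      refine Integrable.mono' (((integrable_chart (j := j) hint.norm).mono_set hk).const_mul
        (C * C)) ((aestronglyMeasurable_rep2 hh.1).mono_set hk) ?_
      filter_upwards [ae_restrict_mem hkc.isClosed.measurableSet] with v hv
      obtain ⟨-, h2, h3⟩ := hC _ (mem_image_of_mem _ hv)
      simp only [rep2, if_pos (hk hv), smul_eq_mul, jac]
      refine ((h3 _).1).trans ?_
      calc C * ‖h ((G.φ j).symm v)‖
          ≤ C * (C * (G.dT j ((G.φ j).symm v)).det) * ‖h ((G.φ j).symm v)‖ :=
            mul_le_mul_of_nonneg_right (le_mul_of_one_le_right hC0.le h2) (norm_nonneg _)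
        _ = _ := by ring
    have hz := IsOpen.ae_eq_zero_of_integral_contDiff_smul_eq_zero hU hli fun g hg hgc hgs => by
      have hI : Integrable fun v => g v • G.rep2 j h v := by
        refine (hli.integrableOn_compact_subset hgs hgc).continuousOn_smul
          hg.continuous.continuousOn hgc |>.integrable_of_forall_notMem_eq_zero fun v hv => ?_
        rw [image_eq_zero_of_notMem_tsupport hv, zero_smul]
      refine ext_inner_right ℝ fun b => ?_
      rw [inner_zero_left]
      set β : V → Form := fun v => g v • swL b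
      have hβt : tsupport β ⊆ tsupport g := tsupport_smul_subset_left g fun _ => swL b
      have hsm : G.Smooth2 (G.fromChart2 j β) :=
        smooth2_fromChart2 (hg.smul contDiff_const) hgc.smul_right (hβt.trans hgs)
      have h1 := h0 _ hsm
      rw [pairing_chart (j := j) hh.1 (measurable_smooth2 hsm).aestronglyMeasurable
        fun x hx => by rw [fromChart2, if_neg hx, q_zero_right]] at h1
      rw [← h1, real_inner_comm, ← integral_inner hI b,
        ← setIntegral_eq_integral_of_forall_compl_eq_zero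
          (s := (G.φ j).target) fun v hv => by
            rw [image_eq_zero_of_notMem_tsupport fun h => hv (hgs h), zero_smul, inner_zero_right]]
      refine setIntegral_congr_fun hU.measurableSet fun v hv => ?_
      rw [rep2_fromChart2 β hv, q_smul_right, q_comm, ← inner_swL, swL_swL, inner_smul_right]
    have hz' : ∀ᵐ v ∂(volume.restrict (G.φ j).target), h ((G.φ j).symm v) = 0 := by
      filter_upwards [ae_restrict_of_ae hz, ae_restrict_mem hU.measurableSet] with v hv hv'
      have h4 := hv hv'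
      simp only [rep2, if_pos hv'] at h4
      have h5 := det_mul_norm_le _ (G.dT_det_pos ((G.φ j).map_target hv')) (h ((G.φ j).symm v))
      rw [h4, norm_zero, mul_zero] at h5
      exact norm_le_zero_iff.1 (nonpos_of_mul_nonpos_right h5
        (G.dT_det_pos ((G.φ j).map_target hv')))
    rw [G.restrict_μ j, ae_map_iff (G.aemeasurable_symm_chartVol j)
      (measurableSet_eq_fun hm measurable_const)]
    exact (withDensity_absolutelyContinuous _ _).ae_le hz'
  have hcov : (⋃ j, (G.φ j).source) = univ :=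
    eq_univ_of_forall fun x => mem_iUnion.2 ⟨_, G.mem_ch x⟩
  have h1 := (ae_restrict_iUnion_iff (fun j => (G.φ j).source) fun x => h x = 0).2 hj
  rwa [hcov, Measure.restrict_univ] at h1

/-- Smooth forms are dense. -/
theorem dense_smooth2 (f : X → Form) (hf : MemLp f 2 G.μ) (δ : ℝ) (hδ : 0 < δ) :
    ∃ α, G.Smooth2 α ∧ G.n2 (fun x => f x - α x) ≤ δ := by
  have hperp : (LinearMap.range G.smoothToLp)ᗮ = ⊥ := by
    refine (Submodule.eq_bot_iff _).2 fun v hv => ?_
    have hz : ∀ α, G.Smooth2 α → G.pairing (fun x => swL (v x)) α = 0 := fun α hα => by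
      rw [pairing_swL v (memLp_smooth2 hα)]
      exact (Submodule.mem_orthogonal' _ _).1 hv _
        (LinearMap.mem_range_self G.smoothToLp ⟨α, hα⟩)
    refine (Lp.eq_zero_iff_ae_eq_zero).2 ?_
    filter_upwards [ae_eq_zero_of_pairing (swL.continuous.measurable.comp
      (Lp.stronglyMeasurable v).measurable) (memLp_swL (Lp.memLp v)) hz] with x hx
    have := norm_swL (v x)
    simp only [Function.comp_apply] at hx
    rw [hx, norm_zero] at this
    simpa using norm_eq_zero.1 this.symm
  have hd : hf.toLp f ∈ (LinearMap.range G.smoothToLp).topologicalClosure := by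
    rw [Submodule.topologicalClosure_eq_top_iff.2 hperp]; exact Submodule.mem_top
  rw [← SetLike.mem_coe, Submodule.topologicalClosure_coe, Metric.mem_closure_iff] at hd
  obtain ⟨w, ⟨⟨α, hα⟩, rfl⟩, hw⟩ := hd δ hδ
  refine ⟨α, hα, ?_⟩
  rw [dist_eq_norm, smoothToLp, LinearMap.coe_mk, AddHom.coe_mk,
    ← MemLp.toLp_sub hf (memLp_smooth2 hα), ← n2_eq_norm] at hw
  exact hw.le

/-- `sob 0` and `n2` are comparable. -/
theorem exists_sob_zero_equiv (G : Geo X) : ∃ C, 0 < C ∧ ∀ (ε : ℝ) (α : X → Form),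
    MemLp α 2 G.μ → G.sob 0 ε α ≤ C * G.n2 α ∧ G.n2 α ≤ C * G.sob 0 ε α := by
  classical
  have hB := fun i => G.exists_dT_bound i (G.isCompact_supp i) (G.ψ_supp i)
  choose B hB0 hB using hB
  set T := 1 + ∑ i, B i with hTdef
  have hT : ∀ i, B i ≤ T := fun i =>
    (Finset.single_le_sum (f := B) (fun k _ => (hB0 k).le) (Finset.mem_univ i)).trans
      (le_add_of_nonneg_left zero_le_one)
  have hT1 : 1 ≤ T := le_add_of_nonneg_right (Finset.sum_nonneg fun i _ => (hB0 i).le)
  refine ⟨(G.n + 1) * T ^ 3, by positivity, fun ε α hα => ?_⟩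
  set J : Fin G.n → ℝ := fun i => ∫ x, G.ψ i x ^ 2 * ‖α x‖ ^ 2 ∂G.μ with hJdef
  have hα2 : Integrable (fun x => ‖α x‖ ^ 2) G.μ := hα.integrable_norm_pow two_ne_zero
  have hψ1 : ∀ i x, G.ψ i x ^ 2 ≤ 1 := fun i x => by
    refine pow_le_one₀ (G.ψ_nonneg i x) ?_
    rw [← G.ψ_sum x]
    exact Finset.single_le_sum (fun k _ => G.ψ_nonneg k x) (Finset.mem_univ i)
  have hψα : ∀ i, Integrable (fun x => G.ψ i x ^ 2 * ‖α x‖ ^ 2) G.μ := fun i =>
    hα2.bdd_mul ((G.ψ_cont i).pow 2).aestronglyMeasurable (c := 1) (Eventually.of_forall fun x => by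
      rw [Real.norm_of_nonneg (sq_nonneg _)]; exact hψ1 i x)
  have hloc : ∀ i, hsq 0 ε (G.locF i α) ≤ T ^ 3 * J i ∧ J i ≤ T ^ 3 * hsq 0 ε (G.locF i α) := by
    intro i
    set r := G.rep2 i fun x => G.ψ i x • α x
    have e1 : hsq 0 ε (G.locF i α) = ∫ v in (G.φ i).target, ‖r v‖ ^ 2 := by
      rw [hsq, locF, setIntegral_congr_fun (show MeasurableSet cube from MeasurableSet.univ_pi fun _ => measurableSet_Ico) (g := fun v => ‖r v‖ ^ 2)
        fun v hv => by
          simp only [r]
          rw [pext_eq_self _ hv]]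
      refine setIntegral_eq_of_subset_of_forall_sdiff_eq_zero (show MeasurableSet cube from MeasurableSet.univ_pi fun _ => measurableSet_Ico)
        ((G.target_sub i).trans Q0_subset_cube) fun v hv => ?_
      simp [r, rep2, hv.2]
    have e2 : J i = ∫ v in (G.φ i).target,
        G.jac i v • (G.ψ i ((G.φ i).symm v) ^ 2 * ‖α ((G.φ i).symm v)‖ ^ 2) := by
      rw [← G.integral_chart i (hψα i).1, setIntegral_eq_integral_of_forall_compl_eq_zero]
      intro x hx
      rw [image_eq_zero_of_notMem_tsupport fun h => hx (G.ψ_supp i h)]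
      simp
    have hI := integrable_chart (j := i) (hψα i)
    have hptw : ∀ v ∈ (G.φ i).target,
        ‖r v‖ ^ 2 ≤ T ^ 3 *
          (G.jac i v • (G.ψ i ((G.φ i).symm v) ^ 2 * ‖α ((G.φ i).symm v)‖ ^ 2)) ∧
        G.jac i v • (G.ψ i ((G.φ i).symm v) ^ 2 * ‖α ((G.φ i).symm v)‖ ^ 2) ≤
          T ^ 3 * ‖r v‖ ^ 2 := by
      intro v hv
      set x := (G.φ i).symm v with hx
      simp only [r, rep2, if_pos hv, jac, ← hx, pull_smul, norm_smul, smul_eq_mul, mul_pow,
        Real.norm_eq_abs, sq_abs]
      by_cases hxs : x ∈ tsupport (G.ψ i)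
      · obtain ⟨h1, h2, h3⟩ := hB i x hxs
        obtain ⟨h3a, h3b⟩ := h3 (α x)
        set D := (G.dT i x).det
        set a := ‖α x‖
        set p := ‖pull (G.dT i x) (α x)‖
        have hpa : p ≤ T * a := h3a.trans (mul_le_mul_of_nonneg_right (hT i) (norm_nonneg _))
        have hap : a ≤ T * p := h3b.trans (mul_le_mul_of_nonneg_right (hT i) (norm_nonneg _))
        have hDp : 0 < D := G.dT_det_pos (G.ψ_supp i hxs)
        have hD1 : 1 ≤ T * D := h2.trans (mul_le_mul_of_nonneg_right (hT i) hDp.le)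
        constructor
        · calc G.ψ i x ^ 2 * p ^ 2 ≤ G.ψ i x ^ 2 * (T * a) ^ 2 := by gcongr
            _ ≤ G.ψ i x ^ 2 * (T * a) ^ 2 * (T * D) := le_mul_of_one_le_right (by positivity) hD1
            _ = _ := by ring
        · calc D * (G.ψ i x ^ 2 * a ^ 2) ≤ T * (G.ψ i x ^ 2 * (T * p) ^ 2) := by
                gcongr
                exact h1.trans (hT i)
            _ = _ := by ring
      · rw [image_eq_zero_of_notMem_tsupport hxs]
        simp
    have hr : IntegrableOn (fun v => ‖r v‖ ^ 2) (G.φ i).target := by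
      refine Integrable.mono' (hI.const_mul (T ^ 3)) ((continuous_norm.pow 2)
        |>.comp_aestronglyMeasurable (aestronglyMeasurable_rep2
          ((G.ψ_cont i).aestronglyMeasurable.smul hα.1))) ?_
      filter_upwards [ae_restrict_mem (G.φ i).open_target.measurableSet] with v hv
      rw [Real.norm_of_nonneg (sq_nonneg _)]
      exact (hptw v hv).1
    rw [e1, e2, ← integral_const_mul, ← integral_const_mul]
    exact ⟨setIntegral_mono_on hr (hI.const_mul _) (G.φ i).open_target.measurableSet
        fun v hv => (hptw v hv).1,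
      setIntegral_mono_on hI (hr.const_mul _) (G.φ i).open_target.measurableSet
        fun v hv => (hptw v hv).2⟩
  set Q := ∫ x, ‖α x‖ ^ 2 ∂G.μ with hQ
  set H := ∑ i, hsq 0 ε (G.locF i α) with hH
  have hn : (0 : ℝ) ≤ G.n := Nat.cast_nonneg _
  have hQ0 : 0 ≤ Q := integral_nonneg fun _ => sq_nonneg _
  have hH0 : 0 ≤ H := Finset.sum_nonneg fun i _ => by
    rw [hsq]; exact integral_nonneg fun _ => sq_nonneg _
  have hJQ : ∀ i, J i ≤ Q := fun i => integral_mono (hψα i) hα2 fun x =>
    mul_le_of_le_one_left (sq_nonneg _) (hψ1 i x)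
  have hQJ : Q ≤ G.n * ∑ i, J i := by
    rw [hJdef, ← integral_finsetSum _ fun i _ => hψα i, ← integral_const_mul]
    refine integral_mono hα2 ((integrable_finsetSum _ fun i _ => hψα i).const_mul _) fun x => ?_
    have h1 : (∑ i, G.ψ i x) ^ 2 ≤ (G.n : ℝ) * ∑ i, G.ψ i x ^ 2 := by
      simpa using sq_sum_le_card_mul_sum_sq (s := Finset.univ) (f := fun i => G.ψ i x)
    rw [G.ψ_sum, one_pow] at h1
    simp only [← Finset.sum_mul, ← mul_assoc]
    exact le_mul_of_one_le_left (sq_nonneg _) h1
  have hHQ : H ≤ G.n * T ^ 3 * Q := by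
    calc H ≤ ∑ _i : Fin G.n, T ^ 3 * Q := Finset.sum_le_sum fun i _ =>
          (hloc i).1.trans (mul_le_mul_of_nonneg_left (hJQ i) (by positivity))
      _ = _ := by simp; ring
  have hQH : Q ≤ G.n * T ^ 3 * H := by
    refine hQJ.trans ?_
    rw [mul_assoc]
    refine mul_le_mul_of_nonneg_left ?_ hn
    rw [hH, Finset.mul_sum]
    exact Finset.sum_le_sum fun i _ => (hloc i).2
  have hK : (G.n : ℝ) * T ^ 3 ≤ ((G.n + 1) * T ^ 3) ^ 2 := by
    have : 1 ≤ T ^ 3 := one_le_pow₀ hT1
    nlinarith
  constructor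
  · rw [sob, n2, ← hH, ← hQ]
    calc Real.sqrt H ≤ Real.sqrt (((G.n + 1) * T ^ 3) ^ 2 * Q) :=
          Real.sqrt_le_sqrt (hHQ.trans (mul_le_mul_of_nonneg_right hK hQ0))
      _ = _ := by rw [Real.sqrt_mul (sq_nonneg _), Real.sqrt_sq (by positivity)]
  · rw [sob, n2, ← hH, ← hQ]
    calc Real.sqrt Q ≤ Real.sqrt (((G.n + 1) * T ^ 3) ^ 2 * H) :=
          Real.sqrt_le_sqrt (hQH.trans (mul_le_mul_of_nonneg_right hK hH0))
      _ = _ := by rw [Real.sqrt_mul (sq_nonneg _), Real.sqrt_sq (by positivity)]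

/-- A measure bound on compact parts of a chart. -/
theorem exists_map_le (G : Geo X) (i : Fin G.n) {K : Set X} (hK : IsCompact K)
    (hKs : K ⊆ (G.φ i).source) : ∃ C, 0 < C ∧
      (G.μ.restrict K).map (G.φ i) ≤ ENNReal.ofReal C • volume.restrict cube := by
  obtain ⟨C, hC, hCb⟩ := G.exists_dT_bound i hK hKs
  refine ⟨C, hC, Measure.le_iff.2 fun s hs => ?_⟩
  have hcube : (G.φ i).target ⊆ cube :=
    (G.target_sub i).trans fun u hu k hk => ⟨(hu k hk).1.le, (hu k hk).2⟩
  have hφ : AEMeasurable (G.φ i) (G.μ.restrict K) :=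
    ((G.φ i).continuousOn.mono hKs).aemeasurable hK.measurableSet
  have hφ' : ∀ v ∈ (G.φ i).target, G.φ i ((G.φ i).symm v) = v := fun v hv => (G.φ i).right_inv hv
  have hm : MeasurableSet ((G.φ i).target ∩ (G.φ i).symm ⁻¹' K) :=
    G.measurableSet_chart i hK.measurableSet
  rw [Measure.map_apply_of_aemeasurable hφ hs,
    show G.μ.restrict K = (G.μ.restrict (G.φ i).source).restrict K by
      rw [Measure.restrict_restrict hK.measurableSet, inter_eq_left.2 hKs],
    Measure.restrict_apply' hK.measurableSet, G.restrict_μ i,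
    Measure.map_apply₀ (G.aemeasurable_symm_chartVol i), chartVol, withDensity_apply',
    Measure.restrict_restrict' (G.φ i).open_target.measurableSet]
  · rw [Measure.smul_apply, smul_eq_mul, Measure.restrict_apply hs, ← setLIntegral_const]
    have hsub : (G.φ i).symm ⁻¹' (G.φ i ⁻¹' s ∩ K) ∩ (G.φ i).target ⊆ s ∩ cube :=
      fun v hv => ⟨by simpa [hφ' v hv.2] using hv.1.1, hcube hv.2⟩
    refine (setLIntegral_mono measurable_const fun v hv => ?_).trans (lintegral_mono_set hsub)
    exact ENNReal.ofReal_le_ofReal (hCb _ hv.1.2).1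
  · refine (NullMeasurableSet.inter ?_ hK.measurableSet.nullMeasurableSet)
    rw [← G.restrict_μ i]
    exact ((G.φ i).continuousOn.aemeasurable (G.φ i).open_source.measurableSet).nullMeasurableSet_preimage hs

end Geo

/-- Calculus and integration on the atlas hold. -/
theorem basic (G : Geo X) : Basic G where
  finite_μ := G.isFiniteMeasure_μ
  smooth_meas _ := Geo.measurable_smooth2
  smooth_bound _ := Geo.exists_bound_smooth2
  smooth_mem _ := Geo.memLp_smooth2
  smooth_d _ := G.smooth2_d
  stokes _ _ := Geo.stokes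
  dense f hf δ hδ := Geo.dense_smooth2 f hf δ hδ
  riesz := Geo.riesz

end Vale.Agent.P204.Gen
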