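import Vale.Agent.P204.Gen.GeoClosed
import Vale.Agent.P204.Gen.Integral

/-!
P204 on a closed four-manifold, module GeoBasic: weakly closed is closed in every chart.
-/

open Set Filter Topology MeasureTheory
open scoped ContDiff BigOperators

namespace Vale.Agent.P204.Gen

open Vale.Agent.P204.Torus

namespace Geo

variable {X : Type*} [TopologicalSpace X] [MeasurableSpace X] [BorelSpace X] [T2Space X]
  [CompactSpace X] (G : Geo X)

theorem pairingChart : G.PairingChart := by
  intro i α β ha hb hs
  have h0 : ∀ x ∉ (G.φ i).source, q (α x) (β x) = 0 := fun x hx => by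
    rw [image_eq_zero_of_notMem_tsupport fun h => hx (hs h), q_zero_right]
  rw [pairing_chart (measurable_smooth2 ha).aestronglyMeasurable
    (measurable_smooth2 hb).aestronglyMeasurable h0]
  exact setIntegral_eq_integral_of_forall_compl_eq_zero fun u hu => by
    rw [G.rep2_of_notMem α hu, q_zero_left]

/-- A smooth two-form is weakly closed iff it is closed in every chart. -/
theorem weakClosed_iff {α : X → Form} (ha : G.Smooth2 α) :
    G.WeakClosed α ↔ ∀ i, ∀ u ∈ (G.φ i).target, ∀ a b c,
      ev (fderiv ℝ (G.rep2 i α) u a) b c + ev (fderiv ℝ (G.rep2 i α) u b) c a +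
        ev (fderiv ℝ (G.rep2 i α) u c) a b = 0 :=
  ⟨fun hw _ _ hu a b c => closed_of_weakClosed G.pairingChart ha hw hu a b c,
    fun hc => weakClosed_of_closed (basic G) G.pairingChart ha hc⟩

end Geo

end Vale.Agent.P204.Gen
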