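import Vale.Agent.P204.Gen.Bridge
import Vale.Agent.P204.Gen.GeoClosedIff

/-!
P204: the closedness hypothesis of the bridge from the module on closed forms.
-/

namespace Vale.Agent.P204.Four

open Vale.Agent.P204.Torus Vale.Agent.P204.Gen

universe u

/-- The literal statement from the theorem for every `GSetup`. -/
theorem tamedToCompatible_of_main
    (main : ∀ (X : Type u) [TopologicalSpace X] [T2Space X] [CompactSpace X] [MeasurableSpace X]
      [BorelSpace X] (S : GSetup X), ∃ α, S.Compatible α) :
    TamedToCompatible.{u} :=
  tamedToCompatible_of_gsetup (fun _ _ _ _ _ _ G _ ha => G.weakClosed_iff ha) main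

end Vale.Agent.P204.Four
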