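import Vale.Agent.P204.Gen.EnergyBase

/-!
P204 on a closed four-manifold: the energy of the regularised currents (module 16, helper61).
-/

open MeasureTheory Filter Topology
open scoped BigOperators ContDiff

namespace Vale.Agent.P204.Gen

open Vale.Agent.P204.Torus

variable {X : Type*} [TopologicalSpace X] [T2Space X] [CompactSpace X] [MeasurableSpace X]
  [BorelSpace X] {S : GSetup X} {T : GCurrent S} (D : GUData T)

namespace GUData

omit [T2Space X] [CompactSpace X] [BorelSpace X] in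
lemma Se_mem {ε : ℝ} (h0 : 0 < ε) (h1 : ε ≤ D.ε₀) : MemLp (D.Se ε) 2 S.μ :=
  (D.Ue_mem ε h0 h1).sub (D.Te_rep ε h0 h1).1

/-- The norms of a weighted regularised current. -/
lemma exists_rep_bound (hB : Basic S.toGeo) (hW : RegBound T.toPositive)
    (hBS : BallSquare T.toPositive) (hd : T.DensBound) :
    ∃ K ε₁, 0 ≤ K ∧ 0 < ε₁ ∧ ∀ ε, 0 < ε → ε ≤ ε₁ → ∀ w : X → ℝ, Measurable w → (∀ y, |w y| ≤ 1) →
      ∀ f, T.RegRep w ε f → S.n2 f ≤ K / ε ∧
        MemLp (fun x => piM (S.J x) (f x)) 2 S.μ ∧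
        S.n2 (fun x => piM (S.J x) (f x)) ≤ K ∧ S.n1 (fun x => piM (S.J x) (f x)) ≤ K * ε := by
  have := hB.finite_μ
  have := T.finite
  obtain ⟨Cp, hCp, hproj⟩ := S.exists_bound_proj
  obtain ⟨C, R, e1, hC, hR0, he1, hW⟩ := hW
  obtain ⟨M0, hM0⟩ := hd
  obtain ⟨K0, e2, he2, hBS⟩ := hBS R hR0
  set M := max M0 0
  set K := C * max K0 0 + C * Real.sqrt (max K0 0 * M)
  refine ⟨K, min (min e1 e2) 1, by positivity, lt_min (lt_min he1 he2) one_pos,
    fun ε hε hle w hw hb f hf => ?_⟩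
  obtain ⟨h12, h1⟩ := le_min_iff.1 hle
  obtain ⟨hle1, hle2⟩ := le_min_iff.1 h12
  set r := R * ε
  have hr : 0 < r := mul_pos hR0 hε
  obtain ⟨hb1, hb2⟩ := hBS ε hε hle2
  have hb2 := hb2 M (le_max_right _ _) fun y => (hM0 ε hε h1 y).trans (le_max_left _ _)
  have hae : ∀ᵐ x ∂S.μ, ‖f x‖ ≤ C * T.ball4 r x ∧
      ‖piM (S.J x) (f x)‖ ≤ C * ε * T.ball4 r x := by
    filter_upwards [hW ε hε hle1 w hw hb f hf] with x hx
    have hwle := T.toPositive.ball4W_le (r := r) hw hb x
    exact ⟨hx.1.trans (mul_le_mul_of_nonneg_left hwle hC.le),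
      hx.2.1.trans (mul_le_mul_of_nonneg_left hwle (by positivity))⟩
  have hi : Integrable (fun x => T.ball4 r x) S.μ :=
    Integrable.of_bound (T.toPositive.measurable_ball4 r).aestronglyMeasurable
      (T.ν.real Set.univ / r ^ 4) (Eventually.of_forall fun x => by
        rw [Real.norm_eq_abs, abs_of_nonneg (T.toPositive.ball4_nonneg r x)]
        exact T.toPositive.ball4_le hr x)
  have hsq : Integrable (fun x => T.ball4 r x ^ 2) S.μ :=
    Integrable.of_bound ((T.toPositive.measurable_ball4 r).pow_const 2).aestronglyMeasurable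
      ((T.ν.real Set.univ / r ^ 4) ^ 2) (Eventually.of_forall fun x => by
        rw [Real.norm_eq_abs, abs_of_nonneg (sq_nonneg _)]
        exact pow_le_pow_left₀ (div_nonneg measureReal_nonneg (by positivity))
          (T.toPositive.ball4_le hr x) 2)
  have hM' : MemLp (fun x => piM (S.J x) (f x)) 2 S.μ :=
    MemLp.of_bound (hproj f hf.1.1).2.1 (C * ε * (T.ν.real Set.univ / r ^ 4))
      (hae.mono fun x hx => hx.2.trans
        (mul_le_mul_of_nonneg_left (T.toPositive.ball4_le hr x) (by positivity)))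
  have hl2 : ∀ (g : X → Form) (a : ℝ), 0 ≤ a → (∀ᵐ x ∂S.μ, ‖g x‖ ≤ a * T.ball4 r x) →
      S.n2 g ≤ a / ε * Real.sqrt (max K0 0 * M) := fun g a ha hg => by
    refine Real.sqrt_le_iff.2 ⟨by positivity, ?_⟩
    rw [mul_pow, Real.sq_sqrt (by positivity)]
    refine (integral_mono_of_nonneg (Eventually.of_forall fun x => sq_nonneg _)
      (hsq.const_mul (a ^ 2)) (hg.mono fun x hx => (pow_le_pow_left₀ (norm_nonneg _) hx 2).trans_eq
        (mul_pow _ _ _))).trans ?_
    rw [integral_const_mul, div_pow, div_mul_eq_mul_div, le_div_iff₀ (by positivity), mul_assoc]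
    refine mul_le_mul_of_nonneg_left ?_ (sq_nonneg _)
    rw [mul_comm, ← integral_const_mul]
    exact hb2.trans (mul_le_mul_of_nonneg_right (le_max_left _ _) (le_max_right _ _))
  refine ⟨(hl2 f C hC.le (hae.mono fun x hx => hx.1)).trans ?_, hM',
    (hl2 _ (C * ε) (by positivity) (hae.mono fun x hx => hx.2)).trans ?_, ?_⟩
  · rw [div_mul_eq_mul_div]
    exact div_le_div_of_nonneg_right (le_add_of_nonneg_left (by positivity)) hε.le
  · rw [mul_div_assoc, div_self hε.ne', mul_one]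
    exact le_add_of_nonneg_left (by positivity)
  · refine (integral_mono_of_nonneg (Eventually.of_forall fun x => norm_nonneg _)
      (hi.const_mul (C * ε)) (hae.mono fun x hx => hx.2)).trans ?_
    rw [integral_const_mul]
    refine (mul_le_mul_of_nonneg_left (hb1.trans (le_max_left K0 0)) (by positivity)).trans ?_
    rw [mul_right_comm]
    exact mul_le_mul_of_nonneg_right (le_add_of_nonneg_right (by positivity)) hε.le

/-- The cross term of a weighted regularised current and the anti-invariant part. -/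
lemma cross_small (hB : Basic S.toGeo) (hW : RegBound T.toPositive)
    (hBS : BallSquare T.toPositive) (hd : T.DensBound) (L : D.SLimit) :
    ∀ δ > 0, ∃ ε₁ > 0, ∀ ε, 0 < ε → ε ≤ ε₁ → ∀ w : X → ℝ, Measurable w → (∀ y, |w y| ≤ 1) →
      ∀ f, T.RegRep w ε f → |S.pairing f (D.Se ε)| ≤ δ := by
  intro δ hδ
  have := hB.finite_μ
  obtain ⟨Cp, hCp, hproj⟩ := S.exists_bound_proj
  obtain ⟨K, e1, hK, he1, hK'⟩ := exists_rep_bound hB hW hBS hd
  obtain ⟨η, hη, hsm⟩ := L.Se_small K (δ / 2) (by positivity)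
  set a := 6 * Cp * K
  obtain ⟨e3, he3, hpp⟩ := mem_nhdsGT_iff_exists_Ioc_subset.1 (L.piP_small.eventually
    (eventually_le_nhds (show (0 : ℝ) < δ / 2 / (a + 1) by positivity)))
  refine ⟨min (min e1 η) (min (min e3 D.ε₀) (η / (K + 1))),
    lt_min (lt_min he1 hη) (lt_min (lt_min he3 D.ε₀_pos) (by positivity)),
    fun ε hε hle w hw hb f hf => ?_⟩
  obtain ⟨h12, h345⟩ := le_min_iff.1 hle
  obtain ⟨hle1, hle2⟩ := le_min_iff.1 h12
  obtain ⟨h34, hle5⟩ := le_min_iff.1 h345
  obtain ⟨hle3, hle4⟩ := le_min_iff.1 h34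
  obtain ⟨hf2, hMm, hM2, hM1⟩ := hK' ε hε hle1 w hw hb f hf
  have hS := D.Se_mem hε hle4
  obtain ⟨hPfm, -, hPfb⟩ := hproj f hf.1.1
  obtain ⟨hPSm, -, hPSb⟩ := hproj _ hS.1
  have hPf : MemLp (fun x => piP (S.J x) (f x)) 2 S.μ :=
    hf.1.of_le_mul hPfm (c := Cp) (Eventually.of_forall hPfb)
  have hPS : MemLp (fun x => piP (S.J x) (D.Se ε x)) 2 S.μ :=
    hS.of_le_mul hPSm (c := Cp) (Eventually.of_forall hPSb)
  have e : S.pairing f (D.Se ε) =
      S.pairing (fun x => piP (S.J x) (f x)) (fun x => piP (S.J x) (D.Se ε x)) +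
        S.pairing (D.Se ε) (fun x => piM (S.J x) (f x)) := by
    rw [Geo.pairing, Geo.pairing, Geo.pairing,
      ← integral_add (S.integrable_q hPf hPS) (S.integrable_q hS hMm)]
    refine integral_congr_ae (Eventually.of_forall fun x => ?_)
    have h1 : q (f x) (D.Se ε x) = q (piP (S.J x) (f x)) (piP (S.J x) (D.Se ε x)) +
        q (piM (S.J x) (f x)) (piM (S.J x) (D.Se ε x)) := (S.pt x).q_decomp 0 _ _
    have h2 : q (D.Se ε x) (piM (S.J x) (f x)) =
        q (piP (S.J x) (D.Se ε x)) (piP (S.J x) (piM (S.J x) (f x))) +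
          q (piM (S.J x) (D.Se ε x)) (piM (S.J x) (piM (S.J x) (f x))) := (S.pt x).q_decomp 0 _ _
    have h3 : piP (S.J x) (piM (S.J x) (f x)) = 0 := (S.pt x).piP_piM 0 _
    have h4 : piM (S.J x) (piM (S.J x) (f x)) = piM (S.J x) (f x) := (S.pt x).piM_piM 0 _
    rw [h3, h4, q_zero_right, zero_add] at h2
    show q (f x) (D.Se ε x) = q _ _ + q (D.Se ε x) (piM (S.J x) (f x))
    rw [h1, h2, q_comm (piM (S.J x) (f x))]
  rw [e]
  refine (abs_add_le _ _).trans ?_
  have k1 : |S.pairing (fun x => piP (S.J x) (f x)) (fun x => piP (S.J x) (D.Se ε x))| ≤ δ / 2 := by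
    refine (S.abs_pairing_le hPf hPS).trans ?_
    have hnP : S.n2 (fun x => piP (S.J x) (f x)) ≤ Cp * (K / ε) := by
      refine Real.sqrt_le_iff.2 ⟨by positivity, (integral_mono hPf.norm.integrable_sq
        (hf.1.norm.integrable_sq.const_mul (Cp ^ 2)) fun x =>
        (pow_le_pow_left₀ (norm_nonneg _) (hPfb x) 2).trans_eq (mul_pow _ _ _)).trans ?_⟩
      rw [integral_const_mul, mul_pow]
      refine mul_le_mul_of_nonneg_left ?_ (sq_nonneg _)
      rw [← Real.sq_sqrt (integral_nonneg fun x => sq_nonneg ‖f x‖)]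
      exact pow_le_pow_left₀ (Real.sqrt_nonneg _) hf2 2
    have k2 : S.n2 (fun x => piP (S.J x) (D.Se ε x)) / ε ≤ δ / 2 / (a + 1) := hpp ⟨hε, hle3⟩
    have ha : 0 ≤ a := by positivity
    calc 6 * (S.n2 (fun x => piP (S.J x) (f x)) * S.n2 (fun x => piP (S.J x) (D.Se ε x)))
        ≤ 6 * (Cp * (K / ε) * S.n2 (fun x => piP (S.J x) (D.Se ε x))) := by
          gcongr
          exact S.n2_nonneg _
      _ = a * (S.n2 (fun x => piP (S.J x) (D.Se ε x)) / ε) := by simp only [a]; ring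
      _ ≤ a * (δ / 2 / (a + 1)) := mul_le_mul_of_nonneg_left k2 ha
      _ ≤ δ / 2 := by
          rw [← mul_div_assoc, div_le_iff₀ (by positivity)]
          nlinarith
  have k3 : |S.pairing (D.Se ε) (fun x => piM (S.J x) (f x))| ≤ δ / 2 := by
    refine hsm ε hε hle2 _ hMm hM2 (hM1.trans ?_)
    have k := (le_div_iff₀ (by positivity : 0 < K + 1)).1 hle5
    linarith
  linarith

/-- The limit of the energy of the regularised current. -/
lemma energy_limit (hB : Basic S.toGeo) (hW : RegBound T.toPositive)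
    (hBS : BallSquare T.toPositive) (hd : T.DensBound) (L : D.SLimit) :
    Tendsto (fun ε => S.pairing (D.Te ε) (D.Te ε)) (𝓝[>] 0) (𝓝 (-L.σ)) := by
  have hc : Tendsto (fun ε => S.pairing (D.Te ε) (D.Se ε)) (𝓝[>] 0) (𝓝 0) := by
    rw [Metric.tendsto_nhds]
    intro δ hδ
    obtain ⟨e1, he1, h⟩ := cross_small D hB hW hBS hd L (δ / 2) (by positivity)
    filter_upwards [Ioc_mem_nhdsGT (lt_min he1 D.ε₀_pos)] with ε hε
    have h2 := h ε hε.1 (hε.2.trans (min_le_left _ _)) (fun _ => 1) measurable_const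
      (fun _ => by simp) _ (D.Te_rep ε hε.1 (hε.2.trans (min_le_right _ _)))
    rw [Real.dist_eq, sub_zero]
    linarith
  have h := (hc.const_mul (-2 : ℝ)).sub L.σ_lim
  rw [mul_zero, zero_sub] at h
  refine h.congr' ?_
  filter_upwards [Ioc_mem_nhdsGT D.ε₀_pos] with ε hε
  have hT := (D.Te_rep ε hε.1 hε.2).1
  have hS := D.Se_mem hε.1 hε.2
  have e : S.pairing (D.Te ε) (D.Te ε) + 2 * S.pairing (D.Te ε) (D.Se ε) +
      S.pairing (D.Se ε) (D.Se ε) = S.pairing (D.Ue ε) (D.Ue ε) := by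
    simp only [Geo.pairing]
    rw [← integral_const_mul,
      ← integral_add (S.integrable_q hT hT) ((S.integrable_q hT hS).const_mul 2),
      ← integral_add ((S.integrable_q hT hT).fun_add ((S.integrable_q hT hS).const_mul 2))
        (S.integrable_q hS hS)]
    refine integral_congr_ae (Eventually.of_forall fun x => ?_)
    simp only [Se, q_sub_left, q_sub_right, q_comm (D.Te ε x) (D.Ue ε x)]
    ring
  rw [D.Ue_q ε hε.1 hε.2] at e
  linarith

/-- The energy against a nonnegative weight is bounded below by the weighted density. -/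
lemma energy_lower (hB : Basic S.toGeo) (hW : RegBound T.toPositive)
    (hP : BallPair T.toPositive) :
    ∃ C ε₁, 0 ≤ C ∧ 0 < ε₁ ∧ ∀ ε, 0 < ε → ε ≤ ε₁ → ∀ w : X → ℝ, Measurable w →
      (∀ y, 0 ≤ w y) → (∀ y, w y ≤ 1) → ∀ f, T.RegRep w ε f →
        -(C * ∫ y, w y * T.dens ε y ∂T.ν) ≤ S.pairing f (D.Te ε) := by
  have := hB.finite_μ
  have := T.finite
  obtain ⟨Cp, hCp, hproj⟩ := S.exists_bound_proj
  obtain ⟨C, R, e1, hC, hR0, he1, hW⟩ := hW
  obtain ⟨K0, e2, he2, hball⟩ := hP R hR0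
  set K := max K0 0
  obtain ⟨CO, hCO⟩ := hB.smooth_bound S.om S.om_smooth
  set O := Cp * max CO 0
  have hO0 : 0 ≤ O := by positivity
  set A := 12 * C * C * Cp * O + 6 * C * C * O * O + 6 * C * C
  have hA : 0 ≤ A := by positivity
  refine ⟨A * K, min (min e1 D.ε₀) (min e2 1), by positivity,
    lt_min (lt_min he1 D.ε₀_pos) (lt_min he2 one_pos),
    fun ε hε hle w hw h0 hle1 f hf => ?_⟩
  obtain ⟨h12, h21⟩ := le_min_iff.1 hle
  obtain ⟨hl2, h1⟩ := le_min_iff.1 h21
  obtain ⟨hla, hlb⟩ := le_min_iff.1 h12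
  have hb : ∀ y, |w y| ≤ 1 := fun y => by rw [abs_of_nonneg (h0 y)]; exact hle1 y
  set r := R * ε
  have hr : 0 < r := mul_pos hR0 hε
  have hT := D.Te_rep ε hε hlb
  have hOm : ∀ x, ‖S.Om x‖ ≤ O := fun x =>
    ((hproj S.om (hB.smooth_mem _ S.om_smooth).1).2.2 x).trans
      (mul_le_mul_of_nonneg_left ((hCO x).trans (le_max_left _ _)) hCp)
  have hae : ∀ᵐ x ∂S.μ, -(A * (ε ^ 2 * (T.ball4W w r x * T.ball4 r x))) ≤
      q (f x) (D.Te ε x) := by
    filter_upwards [hW ε hε hla w hw hb f hf,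
      hW ε hε hla (fun _ => 1) measurable_const (fun _ => by simp) _ hT] with x hx hy
    rw [← T.toPositive.ball4_eq] at hy
    set b := T.ball4W w r x
    set b' := T.ball4 r x
    have hb0 : 0 ≤ b := T.toPositive.ball4W_nonneg r x
    have hb0' : 0 ≤ b' := div_nonneg measureReal_nonneg (by positivity)
    set P := piP (S.J x) (f x)
    set P' := piP (S.J x) (D.Te ε x)
    set m := piM (S.J x) (f x)
    set m' := piM (S.J x) (D.Te ε x)
    have hpos : 0 ≤ q (P + (C * ε ^ 2 * b) • S.Om x) (P' + (C * ε ^ 2 * b') • S.Om x) :=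
      (S.pt x).q_psd_psd (x := 0) (hx.2.2 h0) (hy.2.2 fun _ => zero_le_one)
    have e : q (f x) (D.Te ε x) = q P P' + q m m' := (S.pt x).q_decomp 0 _ _
    have hP : ‖P‖ ≤ Cp * (C * b) := ((hproj f hf.1.1).2.2 x).trans
      (mul_le_mul_of_nonneg_left hx.1 hCp)
    have hP' : ‖P'‖ ≤ Cp * (C * b') := ((hproj _ hT.1.1).2.2 x).trans
      (mul_le_mul_of_nonneg_left hy.1 hCp)
    simp only [q_add_left, q_add_right, q_smul_left, q_smul_right] at hpos
    have q1 : q P (S.Om x) ≤ 6 * (Cp * (C * b) * O) := (le_abs_self _).trans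
      ((abs_q_le _ _).trans (mul_le_mul_of_nonneg_left
        (mul_le_mul hP (hOm x) (norm_nonneg _) (by positivity)) (by norm_num)))
    have q2 : q (S.Om x) P' ≤ 6 * (O * (Cp * (C * b'))) := (le_abs_self _).trans
      ((abs_q_le _ _).trans (mul_le_mul_of_nonneg_left
        (mul_le_mul (hOm x) hP' (norm_nonneg _) hO0) (by norm_num)))
    have q3 : q (S.Om x) (S.Om x) ≤ 6 * (O * O) := (le_abs_self _).trans
      ((abs_q_le _ _).trans (mul_le_mul_of_nonneg_left
        (mul_le_mul (hOm x) (hOm x) (norm_nonneg _) hO0) (by norm_num)))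
    have q4 : -(6 * (C * ε * b * (C * ε * b'))) ≤ q m m' := neg_le_of_abs_le
      ((abs_q_le _ _).trans (mul_le_mul_of_nonneg_left
        (mul_le_mul hx.2.1 hy.2.1 (norm_nonneg _) (by positivity)) (by norm_num)))
    have p1 := mul_le_mul_of_nonneg_left q1 (by positivity : 0 ≤ C * ε ^ 2 * b')
    have p2 := mul_le_mul_of_nonneg_left q2 (by positivity : 0 ≤ C * ε ^ 2 * b)
    have p3 := mul_le_mul_of_nonneg_left q3
      (by positivity : 0 ≤ C * ε ^ 2 * b * (C * ε ^ 2 * b'))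
    have p4 : C * ε ^ 2 * b * (C * ε ^ 2 * b') * (6 * (O * O)) ≤
        6 * C * C * O * O * (ε ^ 2 * (b * b')) := by
      have hε2 : ε ^ 2 ≤ 1 := pow_le_one₀ hε.le h1
      have := mul_le_mul_of_nonneg_left hε2
        (by positivity : 0 ≤ 6 * C * C * O * O * (ε ^ 2 * (b * b')))
      linarith
    have hA' : A * (ε ^ 2 * (b * b')) = C * ε ^ 2 * b' * (6 * (Cp * (C * b) * O)) +
        C * ε ^ 2 * b * (6 * (O * (Cp * (C * b')))) +
        6 * C * C * O * O * (ε ^ 2 * (b * b')) + 6 * (C * ε * b * (C * ε * b')) := by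
      simp only [A]; ring
    rw [e, hA']
    linarith
  have hbm : Integrable (fun x => A * (ε ^ 2 * (T.ball4W w r x * T.ball4 r x))) S.μ := by
    refine ((Integrable.of_bound ((T.toPositive.measurable_ball4W hw r).mul
      (T.toPositive.measurable_ball4 r)).aestronglyMeasurable ((T.ν.real Set.univ / r ^ 4) ^ 2)
      (Eventually.of_forall fun x => ?_)).const_mul _).const_mul _
    have b0 := T.toPositive.ball4W_nonneg (w := w) r x
    have b1 : 0 ≤ T.ball4 r x := div_nonneg measureReal_nonneg (by positivity)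
    simp only [Pi.mul_apply, norm_mul, Real.norm_eq_abs, abs_of_nonneg b0, abs_of_nonneg b1, sq]
    exact mul_le_mul ((T.toPositive.ball4W_le hw hb x).trans (T.toPositive.ball4_le hr x))
      (T.toPositive.ball4_le hr x) b1 (by positivity)
  have k := integral_mono_ae hbm.neg (S.integrable_q hf.1 hT.1) hae
  simp only [Pi.neg_apply, integral_neg, integral_const_mul] at k
  have k2 := mul_le_mul_of_nonneg_left ((hball ε hε hl2 w hw hb).trans (mul_le_mul_of_nonneg_right
    (le_max_left K0 0) (integral_nonneg fun y => mul_nonneg (abs_nonneg _)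
      (T.toPositive.dens_nonneg ε y)))) hA
  have hwe : ∫ y, |w y| * T.dens ε y ∂T.ν = ∫ y, w y * T.dens ε y ∂T.ν :=
    integral_congr_ae (Eventually.of_forall fun y => by simp only [abs_of_nonneg (h0 y)])
  rw [hwe, integral_const_mul] at k2
  refine le_trans ?_ k
  change -(A * K * ∫ y, w y * T.dens ε y ∂T.ν) ≤ _
  linarith

/-- The pairings with the regularised current are those with exact forms. -/
lemma energy_near_exact (hB : Basic S.toGeo) (hR : RegFacts S.toGeo)
    (hW : RegBound T.toPositive) (hBS : BallSquare T.toPositive) (hd : T.DensBound)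
    (L : D.SLimit) :
    ∀ δ > 0, ∃ ε₁ > 0, ∀ ε, 0 < ε → ε ≤ ε₁ → ∃ η, S.Smooth1 η ∧
      ∀ w : X → ℝ, Measurable w → (∀ y, |w y| ≤ 1) → ∀ f, T.RegRep w ε f →
        |S.pairing f (D.Te ε) - T.app fun z => w z • S.d η z| ≤ δ := by
  intro δ hδ
  obtain ⟨K, e1, hK, he1, hK'⟩ := exists_rep_bound hB hW hBS hd
  obtain ⟨e2, he2, hcross⟩ := cross_small D hB hW hBS hd L (δ / 2) (by positivity)
  obtain ⟨e3, he3, -, hsc⟩ := hR.exists_scale
  refine ⟨min (min e1 e2) (min e3 D.ε₀), lt_min (lt_min he1 he2) (lt_min he3 D.ε₀_pos),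
    fun ε hε hle => ?_⟩
  obtain ⟨h12, h34⟩ := le_min_iff.1 hle
  obtain ⟨hl1, hl2⟩ := le_min_iff.1 h12
  obtain ⟨hl3, hl4⟩ := le_min_iff.1 h34
  obtain ⟨η, hη, hηd⟩ := D.Ue_exact ε hε hl4 (δ / 2 * ε / (6 * K + 1)) (by positivity)
  obtain ⟨-, hd1, -⟩ := hsc ε hε hl3
  refine ⟨S.reg1 ε η, (hd1 η hη).1, fun w hw hb f hf => ?_⟩
  have hU := D.Ue_mem ε hε hl4
  have hT := (D.Te_rep ε hε hl4).1
  have hS := D.Se_mem hε hl4
  have hdm := hB.smooth_mem _ (hB.smooth_d η hη)
  have e1' : S.pairing f (D.Te ε) = S.pairing f (D.Ue ε) - S.pairing f (D.Se ε) := by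
    rw [← S.pairing_sub_right hf.1 hU hS]
    exact congrArg _ (funext fun x => by simp [Se])
  have e2' : (T.app fun z => w z • S.d (S.reg1 ε η) z) = S.pairing f (S.d η) := by
    rw [← (hd1 η hη).2, hf.2 (S.d η) (hB.smooth_d η hη)]
  rw [e1', e2', sub_right_comm, ← S.pairing_sub_right hf.1 hU hdm]
  refine (abs_sub _ _).trans ?_
  have k1 := (S.abs_pairing_le hf.1 (hU.sub hdm)).trans (mul_le_mul_of_nonneg_left
    (mul_le_mul (hK' ε hε hl1 w hw hb f hf).1 hηd (S.n2_nonneg _) (by positivity))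
    (by norm_num : (0 : ℝ) ≤ 6))
  have k2 : 6 * (K / ε * (δ / 2 * ε / (6 * K + 1))) ≤ δ / 2 := by
    rw [show 6 * (K / ε * (δ / 2 * ε / (6 * K + 1))) = δ / 2 * (6 * K / (6 * K + 1)) by field_simp]
    exact mul_le_of_le_one_right (by positivity) ((div_le_one (by positivity)).2 (by linarith))
  have k3 := hcross ε hε hl2 w hw hb f hf
  simp only [Pi.sub_def] at k1
  linarith

/-- Module 16. -/
theorem energyFacts (hB : Basic S.toGeo) (hR : RegFacts S.toGeo) (hP : BallPair T.toPositive)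
    (hW : RegBound T.toPositive) (hBS : BallSquare T.toPositive) (hd : T.DensBound)
    (L : D.SLimit) : EnergyFacts D L :=
  ⟨energy_limit D hB hW hBS hd L, energy_lower D hB hW hP,
    energy_near_exact D hB hR hW hBS hd L⟩

end GUData

end Vale.Agent.P204.Gen
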