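import Vale.Agent.P204.Gen.Core

/-!
P204, general four-manifold: constants of the pointwise algebra which are uniform on `X`.

The values `(J x, om x)` in the coordinates in use lie in a compact set of tamed pairs: the closure
of those coordinates over `{tr = i}` is compact inside the chart `i`, and at every point there the
pair is conjugate to the one at the point by an invertible change of coordinates.
-/

open Filter Topology Set
open scoped BigOperators ContDiff

namespace Vale.Agent.P204.Gen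

open Vale.Agent.P204.Torus

namespace Geo

variable {X : Type*} [TopologicalSpace X] [MeasurableSpace X] (G : Geo X)

lemma tr_mem_tsupport (x : X) : x ∈ tsupport (G.ψ (G.tr x)) :=
  subset_tsupport _ (G.tr_pos x).ne'

lemma tr_source (x : X) : x ∈ (G.φ (G.tr x)).source :=
  G.ψ_supp _ (G.tr_mem_tsupport x)

lemma dT_at_tr (x : X) : G.dT (G.tr x) x = ContinuousLinearMap.id ℝ V := by
  have hx := G.tr_source x
  rw [dT, ch]
  have h : (fun u => G.φ (G.tr x) ((G.φ (G.tr x)).symm u)) =ᶠ[𝓝 (G.φ (G.tr x) x)] id := by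
    filter_upwards [(G.φ (G.tr x)).open_target.mem_nhds ((G.φ (G.tr x)).map_source hx)] with u hu
    exact (G.φ (G.tr x)).right_inv hu
  rw [h.fderiv_eq, fderiv_id]

lemma dT_pos_of_source {i : Fin G.n} {x : X} (hx : x ∈ (G.φ i).source) : 0 < (G.dT i x).det := by
  refine G.trans_pos i (G.tr x) (G.φ i x) ⟨(G.φ i).map_source hx, ?_⟩
  show (G.φ i).symm (G.φ i x) ∈ (G.φ (G.tr x)).source
  rw [(G.φ i).left_inv hx]
  exact G.tr_source x

end Geo

/-- The set of tamed pairs. -/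
def tamedPairs : Set ((V →L[ℝ] V) × Form) :=
  {p | (∀ u, p.1 (p.1 u) = -u) ∧ (∀ u, u ≠ 0 → 0 < ev p.2 u (p.1 u)) ∧ 0 < q p.2 p.2}

/-- A tamed pair as a constant setup. -/
noncomputable def pairSetup {p : (V →L[ℝ] V) × Form} (hp : p ∈ tamedPairs) : Setup where
  J _ := p.1
  om _ := p.2
  J_smooth := ⟨contDiff_const, fun _ _ => rfl⟩
  J_sq _ := hp.1
  om_smooth := ⟨contDiff_const, fun _ _ => rfl⟩
  tames _ := hp.2.1
  orient _ := hp.2.2

lemma q_ne_of_tames {α : Form} {A : V → V} (h : ∀ u, u ≠ 0 → 0 < ev α u (A u)) : q α α ≠ 0 := by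
  intro hq
  have hP : α 0 * α 3 + α 1 * α 4 + α 2 * α 5 = 0 := by simp only [q] at hq; linarith
  have key : ∀ v : V, (∀ w, ev α v w = 0) → v = 0 := fun v hv => by
    by_contra h0
    have := h v h0
    rw [hv] at this
    exact lt_irrefl _ this
  have h0 : (![0, α 3, α 4, α 5] : V) = 0 := key _ fun w => by
    simp only [ev_def, Matrix.cons_val_zero, Matrix.cons_val_one, Matrix.cons_val]
    linear_combination (-w 0) * hP
  have h1 : (![α 3, 0, -α 2, α 1] : V) = 0 := key _ fun w => by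
    simp only [ev_def, Matrix.cons_val_zero, Matrix.cons_val_one, Matrix.cons_val]
    linear_combination w 1 * hP
  have h2 : (![α 4, α 2, 0, -α 0] : V) = 0 := key _ fun w => by
    simp only [ev_def, Matrix.cons_val_zero, Matrix.cons_val_one, Matrix.cons_val]
    linear_combination w 2 * hP
  have a3 : α 3 = 0 := by simpa using congrFun h0 1
  have a4 : α 4 = 0 := by simpa using congrFun h0 2
  have a5 : α 5 = 0 := by simpa using congrFun h0 3
  have a1 : α 1 = 0 := by simpa using congrFun h1 3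
  have a2 : α 2 = 0 := by simpa using congrFun h2 1
  have a0 : α 0 = 0 := by simpa using congrFun h2 3
  have he : ev α (e 0) (A (e 0)) = 0 := by simp [ev_def, a0, a1, a2, a3, a4, a5]
  have := h (e 0) fun hh => by simpa [e] using congrFun hh 0
  linarith

/-- Positive forms of positive degree on a compact family are bounded below on the sphere. -/
lemma exists_lower_on {P W : Type*} [TopologicalSpace P] [NormedAddCommGroup W] [NormedSpace ℝ W]
    [FiniteDimensional ℝ W] {K : Set P} (hK : IsCompact K) {C : Set (P × W)} (hC : IsClosed C)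
    (f : P × W → ℝ) (hf : Continuous f)
    (hhom : ∀ p w (s : ℝ), 0 < s → (p, w) ∈ C → (p, s • w) ∈ C ∧ f (p, s • w) = s ^ 2 * f (p, w))
    (h0 : ∀ p, f (p, 0) = 0) (hpos : ∀ p ∈ K, ∀ w, (p, w) ∈ C → w ≠ 0 → 0 < f (p, w)) :
    ∃ c, 0 < c ∧ ∀ p ∈ K, ∀ w, (p, w) ∈ C → c * ‖w‖ ^ 2 ≤ f (p, w) := by
  have hcomp : IsCompact ((K ×ˢ Metric.sphere (0 : W) 1) ∩ C) :=
    (hK.prod (isCompact_sphere _ _)).inter_right hC
  obtain ⟨c, hc, hcle⟩ := hcomp.exists_forall_le' hf.continuousOn (a := 0) fun p hp =>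
    hpos p.1 hp.1.1 p.2 hp.2 (norm_ne_zero_iff.1 (by
      have := hp.1.2; rw [mem_sphere_zero_iff_norm] at this; simp [this]))
  refine ⟨c, hc, fun p hp w hw => ?_⟩
  rcases eq_or_ne w 0 with rfl | hne
  · rw [h0]; simp
  have hn : 0 < ‖w‖ := norm_pos_iff.2 hne
  obtain ⟨h1, h2⟩ := hhom p w ‖w‖⁻¹ (inv_pos.2 hn) hw
  have := hcle (p, ‖w‖⁻¹ • w) ⟨⟨hp, by
    rw [mem_sphere_zero_iff_norm]; simp [norm_smul, hn.ne']⟩, h1⟩
  rw [h2, inv_pow, inv_mul_eq_div, le_div_iff₀ (pow_pos hn 2)] at this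
  exact this

lemma continuous_piP_pair' :
    Continuous fun p : ((V →L[ℝ] V) × Form) × Form => piP p.1.1 p.2 := by
  have hf : ∀ k, Continuous fun p : ((V →L[ℝ] V) × Form) × Form => p.2 k := fun k =>
    (PiLp.continuous_apply 2 _ k).comp continuous_snd
  have hA : ∀ (j i : Fin 4), Continuous fun p : ((V →L[ℝ] V) × Form) × Form => p.1.1 (e j) i :=
    fun j i => (continuous_apply i).comp
      ((continuous_fst.comp continuous_fst).clm_apply continuous_const)
  have hp : Continuous fun p : ((V →L[ℝ] V) × Form) × Form => pull p.1.1 p.2 := by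
    refine (PiLp.continuous_toLp 2 fun _ : Fin 6 => ℝ).comp (continuous_pi fun k => ?_)
    unfold ev
    fun_prop
  exact (continuous_snd.add hp).const_smul (1 / 2 : ℝ)

lemma exists_ev_lower {K : Set ((V →L[ℝ] V) × Form)} (hK : IsCompact K) (hsub : K ⊆ tamedPairs) :
    ∃ c, 0 < c ∧ ∀ p ∈ K, ∀ u, c * ‖u‖ ^ 2 ≤ ev p.2 u (p.1 u) := by
  obtain ⟨c1, hc1, h1⟩ := exists_lower_on hK (C := univ) isClosed_univ
    (fun z : ((V →L[ℝ] V) × Form) × V => ev z.1.2 z.2 (z.1.1 z.2))
    (by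
      have hf : ∀ k, Continuous fun z : ((V →L[ℝ] V) × Form) × V => z.1.2 k := fun k =>
        (PiLp.continuous_apply 2 _ k).comp (continuous_snd.comp continuous_fst)
      have h2 : Continuous fun z : ((V →L[ℝ] V) × Form) × V => z.1.1 z.2 :=
        (continuous_fst.comp continuous_fst).clm_apply continuous_snd
      have h3 : ∀ i, Continuous fun z : ((V →L[ℝ] V) × Form) × V => z.1.1 z.2 i := fun i =>
        (continuous_apply i).comp h2
      unfold ev
      fun_prop)
    (fun p w s _ _ => ⟨mem_univ _, by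
      simp only [map_smul, ev_smul_left, ev_smul_right]; ring⟩)
    (fun p => by simp [ev_def])
    (fun p hp w _ hw => (hsub hp).2.1 w hw)
  exact ⟨c1, hc1, fun p hp u => h1 p hp u (mem_univ _)⟩

lemma exists_anti_lower {K : Set ((V →L[ℝ] V) × Form)} (hK : IsCompact K) (hsub : K ⊆ tamedPairs) :
    ∃ c, 0 < c ∧ ∀ p ∈ K, ∀ n, piP p.1 n = 0 → c * ‖n‖ ^ 2 ≤ q n n := by
  obtain ⟨c2, hc2, h2⟩ := exists_lower_on hK (W := Form)
    (C := {z : ((V →L[ℝ] V) × Form) × Form | piP z.1.1 z.2 = 0})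
    (isClosed_eq continuous_piP_pair' continuous_const) (fun z => q z.2 z.2)
    (by unfold q; fun_prop)
    (fun p w s _ hw => ⟨by
      show piP p.1 (s • w) = 0
      rw [piP_smul, show piP p.1 w = 0 from hw, smul_zero],
      by simp only [q_smul_left, q_smul_right]; ring⟩)
    (fun p => q_zero_left _)
    (fun p hp w hw h0 => (pairSetup (hsub hp)).q_anti_pos (x := 0) hw h0)
  exact ⟨c2, hc2, fun p hp n hn => h2 p hp n hn⟩

lemma norm_proj_le {A : V →L[ℝ] V} {M1 : ℝ} (hA : ‖A‖ ≤ M1) (α : Form) :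
    ‖piP A α‖ ≤ (1 + 6 * (12 * M1 ^ 2)) * ‖α‖ ∧ ‖piM A α‖ ≤ (1 + 6 * (12 * M1 ^ 2)) * ‖α‖ := by
  have hq : ‖pull A α‖ ≤ 6 * (12 * M1 ^ 2) * ‖α‖ := by
    refine (norm_le_sum _).trans ((Finset.sum_le_sum fun k _ =>
      (?_ : _ ≤ 12 * M1 ^ 2 * ‖α‖)).trans (le_of_eq (by simp; ring)))
    rw [pull, ofSkew_apply]
    refine (abs_ev_le _ _ _).trans ?_
    have hj : ∀ i, ‖A (e i)‖ ≤ M1 := fun i => (A.le_opNorm _).trans
      ((mul_le_of_le_one_right (norm_nonneg _) (le_of_eq (by simp [e, Pi.norm_single]))).trans hA)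
    calc 12 * (‖α‖ * (‖A (e (fi k))‖ * ‖A (e (se k))‖)) ≤ 12 * (‖α‖ * (M1 * M1)) := by
          have := (norm_nonneg _).trans hA
          gcongr <;> exact hj _
      _ = _ := by ring
  have hnn := norm_nonneg (α + pull A α)
  have hnn' := norm_nonneg (α - pull A α)
  constructor
  · rw [piP, norm_smul, Real.norm_eq_abs, abs_of_pos (by norm_num : (0 : ℝ) < 1 / 2)]
    linarith [norm_add_le α (pull A α)]
  · rw [piM, norm_smul, Real.norm_eq_abs, abs_of_pos (by norm_num : (0 : ℝ) < 1 / 2)]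
    linarith [norm_sub_le α (pull A α)]

lemma q_piP_pair_pos {p : (V →L[ℝ] V) × Form} (hp : p ∈ tamedPairs) :
    0 < q (piP p.1 p.2) (piP p.1 p.2) / 2 :=
  (pairSetup hp).kap_pos 0

/-- The uniform constants on a compact set of tamed pairs. -/
lemma exists_pair_bounds {K : Set ((V →L[ℝ] V) × Form)} (hK : IsCompact K) (hsub : K ⊆ tamedPairs) :
    ∃ c M, 0 < c ∧ 0 < M ∧ ∀ p ∈ K,
      (∀ u, c * ‖u‖ ^ 2 ≤ ev (piP p.1 p.2) u (p.1 u)) ∧
      c ≤ q (piP p.1 p.2) (piP p.1 p.2) / 2 ∧ ‖p.1‖ ≤ M ∧ ‖piP p.1 p.2‖ ≤ M ∧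
      (∀ n, piP p.1 n = 0 → c * ‖n‖ ^ 2 ≤ q n n) ∧
      ∀ α, ‖piP p.1 α‖ ≤ M * ‖α‖ ∧ ‖piM p.1 α‖ ≤ M * ‖α‖ := by
  have hOm : Continuous fun p : (V →L[ℝ] V) × Form => piP p.1 p.2 :=
    continuous_piP_pair'.comp (continuous_id.prodMk continuous_snd)
  obtain ⟨c1, hc1, h1⟩ := exists_ev_lower hK hsub
  obtain ⟨c2, hc2, h2⟩ := exists_anti_lower hK hsub
  have hk : Continuous fun p : (V →L[ℝ] V) × Form =>
      q (piP p.1 p.2) (piP p.1 p.2) / 2 := by
    exact (Setup.continuous_q hOm hOm).div_const 2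
  have hpos : ∀ p ∈ K, (0 : ℝ) < q (piP p.1 p.2) (piP p.1 p.2) / 2 := fun p hp =>
    q_piP_pair_pos (hsub hp)
  obtain ⟨c3, hc3, h3⟩ := hK.exists_forall_le'
    (f := fun p : (V →L[ℝ] V) × Form => q (piP p.1 p.2) (piP p.1 p.2) / 2) hk.continuousOn hpos
  obtain ⟨M1, hM1⟩ := hK.exists_bound_of_continuousOn
    (f := fun p : (V →L[ℝ] V) × Form => p.1) continuous_fst.continuousOn
  obtain ⟨M2, hM2⟩ := hK.exists_bound_of_continuousOn hOm.continuousOn
  set Mp := 1 + 6 * (12 * M1 ^ 2) with hMp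
  refine ⟨min c1 (min c2 c3), max 1 (max M1 (max M2 Mp)), lt_min hc1 (lt_min hc2 hc3),
    zero_lt_one.trans_le (le_max_left _ _), fun p hp => ⟨fun u => ?_, ?_, ?_, ?_, fun n hn => ?_,
      fun α => ?_⟩⟩
  · refine (mul_le_mul_of_nonneg_right (min_le_left _ _) (sq_nonneg _)).trans ?_
    refine (h1 p hp u).trans (le_of_eq ?_)
    show ev p.2 u (p.1 u) = _
    rw [ev_piP, (hsub hp).1 u, ev_neg_right, ← ev_skew]
    ring
  · exact ((min_le_right _ _).trans (min_le_right _ _)).trans (h3 p hp)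
  · exact (hM1 p hp).trans ((le_max_left _ _).trans (le_max_right _ _))
  · exact (hM2 p hp).trans ((le_max_left _ _).trans ((le_max_right _ _).trans (le_max_right _ _)))
  · refine (mul_le_mul_of_nonneg_right ((min_le_right _ _).trans (min_le_left _ _))
      (sq_nonneg _)).trans (h2 p hp n hn)
  · refine ⟨(norm_proj_le (hM1 p hp) α).1.trans ?_, (norm_proj_le (hM1 p hp) α).2.trans ?_⟩ <;>
      exact mul_le_mul_of_nonneg_right
        ((le_max_right _ _).trans ((le_max_right _ _).trans (le_max_right _ _))) (norm_nonneg _)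

namespace GSetup

variable {X : Type*} [TopologicalSpace X] [CompactSpace X] [T2Space X] [MeasurableSpace X]
  (S : GSetup X)

omit [CompactSpace X] [T2Space X] in
/-- The pair read in a chart is tamed at every point of the chart. -/
lemma rep_tamed {i : Fin S.n} {u : V} (hu : u ∈ (S.φ i).target)
    (hq : 0 ≤ q (S.rep2 i S.om u) (S.rep2 i S.om u)) :
    (S.repE i S.J u, S.rep2 i S.om u) ∈ tamedPairs := by
  set x := (S.φ i).symm u with hx
  have hxs : x ∈ (S.φ i).source := (S.φ i).map_target hu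
  set A := S.dT i x with hA
  have hdet : 0 < A.det := S.dT_pos_of_source hxs
  have hb : IsUnit (A.toLinearMap.det) := isUnit_iff_ne_zero.2 (ne_of_gt hdet)
  let E : V ≃L[ℝ] V := (LinearMap.equivOfIsUnitDet hb).toContinuousLinearEquiv
  have hE : (E : V →L[ℝ] V) = A := by
    ext v
    simp [E]
  have hrep : S.repE i S.J u = (E.symm : V →L[ℝ] V).comp ((S.J x).comp (E : V →L[ℝ] V)) := by
    rw [Geo.repE, if_pos hu, ← hx, ← hA, ← hE, ContinuousLinearMap.inverse_equiv]
  have hrep2 : S.rep2 i S.om u = pull (E : V →L[ℝ] V) (S.om x) := by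
    rw [Geo.rep2, if_pos hu, ← hx, ← hA, ← hE]
  have ht : ∀ v, v ≠ 0 → 0 < ev (S.rep2 i S.om u) v (S.repE i S.J u v) := fun v hv => by
    rw [hrep, hrep2, ev_pull]
    simpa using S.tames x (E v) (by simpa using hv)
  refine ⟨fun v => ?_, ht, lt_of_le_of_ne hq (Ne.symm (q_ne_of_tames ht))⟩
  show S.repE i S.J u (S.repE i S.J u v) = -v
  rw [hrep]
  simp [S.J_sq]

omit [CompactSpace X] [T2Space X] in
lemma rep_tr (x : X) :
    (S.repE (S.tr x) S.J (S.φ (S.tr x) x), S.rep2 (S.tr x) S.om (S.φ (S.tr x) x))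
      = (S.J x, S.om x) := by
  have hx := S.tr_source x
  have ht := (S.φ (S.tr x)).map_source hx
  simp only [Geo.repE, Geo.rep2, if_pos ht, (S.φ (S.tr x)).left_inv hx, S.dT_at_tr,
    ContinuousLinearMap.inverse_id]
  refine Prod.ext (ContinuousLinearMap.ext fun v => rfl) (form_ext fun a b => ?_)
  simp [ev_pull]

omit [T2Space X] in
/-- The coordinates in use at the points of the chart `i`, closed up. -/
lemma core_compact (i : Fin S.n) : IsCompact (closure ((S.φ i) '' {x | S.tr x = i})) ∧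
    closure ((S.φ i) '' {x | S.tr x = i}) ⊆ (S.φ i).target := by
  have hcpt : IsCompact ((S.φ i) '' tsupport (S.ψ i)) :=
    (isClosed_tsupport _).isCompact.image_of_continuousOn
      ((S.φ i).continuousOn.mono (S.ψ_supp i))
  have h1 : closure ((S.φ i) '' {x | S.tr x = i}) ⊆ (S.φ i) '' tsupport (S.ψ i) := by
    refine closure_minimal (image_mono fun x hx => ?_) hcpt.isClosed
    have : S.tr x = i := hx
    rw [← this]
    exact S.tr_mem_tsupport x
  refine ⟨hcpt.of_isClosed_subset isClosed_closure h1, h1.trans ?_⟩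
  rintro _ ⟨x, hx, rfl⟩
  exact (S.φ i).map_source (S.ψ_supp i hx)

omit [T2Space X] in
/-- The pairs on the closed coordinate cores are tamed. -/
lemma core_tamed (i : Fin S.n) {u : V} (hu : u ∈ closure ((S.φ i) '' {x | S.tr x = i})) :
    (S.repE i S.J u, S.rep2 i S.om u) ∈ tamedPairs := by
  obtain ⟨-, hsub⟩ := S.core_compact i
  refine S.rep_tamed (hsub hu) ?_
  have hfc : ContinuousOn (fun v => q (S.rep2 i S.om v) (S.rep2 i S.om v)) (S.φ i).target := by
    have h : ∀ k, ContinuousOn (fun v => S.rep2 i S.om v k) (S.φ i).target := fun k =>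
      (PiLp.continuous_apply 2 _ k).comp_continuousOn (S.om_smooth i).continuousOn
    unfold q
    fun_prop
  refine le_on_closure (f := fun _ => (0 : ℝ)) ?_ continuousOn_const (hfc.mono hsub) hu
  rintro _ ⟨x, hx, rfl⟩
  have hxi : S.tr x = i := hx
  subst hxi
  have h := congrArg Prod.snd (S.rep_tr x)
  simp only at h
  show 0 ≤ q _ _
  rw [h]
  exact (S.orient x).le

omit [MeasurableSpace X] [T2Space X] in
/-- Uniform constants of the pointwise algebra. -/
theorem exists_pt_bounds [MeasurableSpace X] (S : GSetup X) : ∃ c M, 0 < c ∧ 0 < M ∧ ∀ x,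
    (∀ u, c * ‖u‖ ^ 2 ≤ ev (S.Om x) u (S.J x u)) ∧ c ≤ q (S.Om x) (S.Om x) / 2 ∧
    ‖S.J x‖ ≤ M ∧ ‖S.Om x‖ ≤ M ∧
    (∀ n, piP (S.J x) n = 0 → c * ‖n‖ ^ 2 ≤ q n n) ∧
    ∀ α, ‖piP (S.J x) α‖ ≤ M * ‖α‖ ∧ ‖piM (S.J x) α‖ ≤ M * ‖α‖ := by
  set F : Fin S.n → V → (V →L[ℝ] V) × Form := fun i u => (S.repE i S.J u, S.rep2 i S.om u)
  set Z : Fin S.n → Set V := fun i => closure ((S.φ i) '' {x | S.tr x = i}) with hZ
  have hZt : ∀ i, IsCompact (Z i) ∧ Z i ⊆ (S.φ i).target := S.core_compact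
  have hFc : ∀ i, ContinuousOn (F i) (S.φ i).target := fun i =>
    (S.J_smooth i).continuousOn.prodMk (S.om_smooth i).continuousOn
  have hat : ∀ x, F (S.tr x) (S.φ (S.tr x) x) = (S.J x, S.om x) := S.rep_tr
  set K := ⋃ i, F i '' Z i with hK
  have hKc : IsCompact K := isCompact_iUnion fun i =>
    (hZt i).1.image_of_continuousOn ((hFc i).mono (hZt i).2)
  have hsub : K ⊆ tamedPairs := by
    rintro p hp
    obtain ⟨i, u, hu, rfl⟩ := mem_iUnion.1 hp
    exact S.core_tamed i hu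
  obtain ⟨c, M, hc, hM, h⟩ := exists_pair_bounds hKc hsub
  refine ⟨c, M, hc, hM, fun x => ?_⟩
  have hxK : (S.J x, S.om x) ∈ K := by
    refine mem_iUnion.2 ⟨S.tr x, S.φ (S.tr x) x, subset_closure ⟨x, rfl, rfl⟩, hat x⟩
  have h' := h _ hxK
  simp only [show S.Om x = piP (S.J x) (S.om x) from rfl]
  exact h'

end GSetup

end Vale.Agent.P204.Gen
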