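import Mathlib

/-!
P204, general four-manifold: the iteration over scales behind the first estimate.

`X e` is the norm of the regularised anti-invariant part, `Y e` its dual semiclassical norm and
`D e` the density at scale `e`. If `Y e ≤ C X (l e) + C l ^ k Y (l e)` for every `l ≤ 1`, the energy
identity bounds `X` by `√(1 + D)` up to a small multiple of `Y`, and `Y` grows at most like
`e ^ (-p)`, then `X` and `Y` are bounded by `√(1 + D)`.
-/

open Filter Topology

namespace Vale.Agent.P204.Gen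

/-- The quadratic energy estimate in linear form. -/
lemma energy_linear {x y d e C δ : ℝ} (hy : 0 ≤ y) (hd : 0 ≤ d) (_ : 0 ≤ e) (hC : 0 ≤ C)
    (hδ : 0 < δ) (hCe : C * e ^ 2 ≤ δ ^ 2 / 2)
    (h : x ^ 2 ≤ C * (1 + d) + C * Real.sqrt (1 + d) * y + C * e ^ 2 * y ^ 2) :
    x ≤ (C + 1 + C / δ) * Real.sqrt (1 + d) + δ * y := by
  set s := Real.sqrt (1 + d)
  have hs : s ^ 2 = 1 + d := Real.sq_sqrt (by linarith)
  have hs0 : 0 ≤ s := Real.sqrt_nonneg _
  have hCd : 0 ≤ C / δ := div_nonneg hC hδ.le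
  have e1 : C / δ * s * (δ * y) = C * s * y := by field_simp
  have key : x ^ 2 ≤ ((C + 1 + C / δ) * s + δ * y) ^ 2 := by
    rw [← hs] at h
    have : C * e ^ 2 * y ^ 2 ≤ δ ^ 2 / 2 * y ^ 2 := mul_le_mul_of_nonneg_right hCe (sq_nonneg y)
    have h1 : C * s ^ 2 ≤ (C + 1) ^ 2 * s ^ 2 :=
      mul_le_mul_of_nonneg_right (by nlinarith) (sq_nonneg s)
    nlinarith [mul_nonneg (mul_nonneg hC hs0) hy, mul_nonneg (mul_nonneg hCd hs0) hs0,
      mul_nonneg (mul_nonneg hδ.le hy) hs0, mul_nonneg hC (mul_nonneg (mul_nonneg hδ.le hy) hs0),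
      sq_nonneg (δ * y), sq_nonneg (C / δ * s)]
  exact le_of_pow_le_pow_left₀ two_ne_zero (by positivity) key

/-- The iteration of `Y e ≤ C √(1 + D (l e)) + q Y (l e)`. -/
lemma iterate_scale {Y D : ℝ → ℝ} {e₀ l q C B : ℝ} {p : ℕ} (hl : 0 < l) (hl1 : l ≤ 1)
    (hq : 0 ≤ q) (hql : q ≤ l ^ (p + 1) / 2) (hC : 0 ≤ C)
    (hDl : ∀ e, 0 < e → e ≤ e₀ → D (l * e) ≤ D e / l ^ 2)
    (hB : ∀ e, 0 < e → e ≤ e₀ → Y e ≤ B / e ^ p)
    (hrec : ∀ e, 0 < e → e ≤ e₀ → Y e ≤ C * Real.sqrt (1 + D (l * e)) + q * Y (l * e))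
    {e : ℝ} (he : 0 < e) (he0 : e ≤ e₀) : Y e ≤ 2 * C / l * Real.sqrt (1 + D e) := by
  have hsl : ∀ e, 0 < e → e ≤ e₀ →
      Real.sqrt (1 + D (l * e)) ≤ Real.sqrt (1 + D e) / l := fun e he he0 => by
    rw [le_div_iff₀ hl, mul_comm]
    calc l * Real.sqrt (1 + D (l * e)) = Real.sqrt (l ^ 2 * (1 + D (l * e))) := by
          rw [Real.sqrt_mul (sq_nonneg l), Real.sqrt_sq hl.le]
      _ ≤ Real.sqrt (1 + D e) := Real.sqrt_le_sqrt (by
          have h := hDl e he he0
          rw [le_div_iff₀ (by positivity)] at h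
          nlinarith [pow_le_one₀ (n := 2) hl.le hl1])
  have hq2 : q / l ≤ 1 / 2 := by
    rw [div_le_iff₀ hl]
    nlinarith [pow_le_pow_of_le_one hl.le hl1 (Nat.le_add_left 1 p)]
  have step : ∀ n : ℕ, ∀ e, 0 < e → e ≤ e₀ →
      Y e ≤ 2 * C / l * Real.sqrt (1 + D e) + q ^ n * Y (l ^ n * e) := by
    intro n
    induction n with
    | zero =>
      intro e _ _
      have : 0 ≤ 2 * C / l * Real.sqrt (1 + D e) := by positivity
      simpa using this
    | succ n ih =>
      intro e he he0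
      have hle : l * e ≤ e₀ := le_trans (mul_le_of_le_one_left he.le hl1) he0
      have h2 := mul_le_mul_of_nonneg_left (ih (l * e) (by positivity) hle) hq
      have h3 := hsl e he he0
      have h4 : 0 ≤ 2 * C / l * Real.sqrt (1 + D e) := by positivity
      calc Y e ≤ C * Real.sqrt (1 + D (l * e)) + q * Y (l * e) := hrec e he he0
        _ ≤ C * (Real.sqrt (1 + D e) / l) +
            (q * (2 * C / l * Real.sqrt (1 + D (l * e))) + q * (q ^ n * Y (l ^ n * (l * e)))) := by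
            rw [← mul_add]
            gcongr
        _ ≤ C * (Real.sqrt (1 + D e) / l) +
            (q / l * (2 * C / l * Real.sqrt (1 + D e)) + q * (q ^ n * Y (l ^ n * (l * e)))) := by
            have : q * (2 * C / l * Real.sqrt (1 + D (l * e))) ≤
                q * (2 * C / l * (Real.sqrt (1 + D e) / l)) := by gcongr
            have e' : q * (2 * C / l * (Real.sqrt (1 + D e) / l)) =
                q / l * (2 * C / l * Real.sqrt (1 + D e)) := by ring
            linarith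
        _ ≤ _ := by
            have h5 := mul_le_mul_of_nonneg_right hq2 h4
            rw [pow_succ' q, pow_succ l, mul_assoc q, mul_assoc (l ^ n)]
            have e' : C * (Real.sqrt (1 + D e) / l) =
                1 / 2 * (2 * C / l * Real.sqrt (1 + D e)) := by ring
            linarith
  have htail : ∀ n : ℕ, q ^ n * Y (l ^ n * e) ≤ (1 / 2) ^ n * (|B| / e ^ p) := fun n => by
    have hn : l ^ n * e ≤ e₀ := le_trans (mul_le_of_le_one_left he.le (pow_le_one₀ hl.le hl1)) he0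
    calc q ^ n * Y (l ^ n * e) ≤ q ^ n * (|B| / (l ^ n * e) ^ p) := by
          refine mul_le_mul_of_nonneg_left ((hB _ (by positivity) hn).trans ?_) (pow_nonneg hq n)
          gcongr
          exact le_abs_self B
      _ = (q / l ^ p) ^ n * (|B| / e ^ p) := by
          rw [mul_pow, ← pow_mul, mul_comm n p, pow_mul, div_pow]
          field_simp
      _ ≤ (1 / 2) ^ n * (|B| / e ^ p) := by
          refine mul_le_mul_of_nonneg_right (pow_le_pow_left₀ (by positivity) ?_ n) (by positivity)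
          rw [div_le_iff₀ (by positivity)]
          calc q ≤ l ^ (p + 1) / 2 := hql
            _ ≤ 1 / 2 * l ^ p := by
                rw [pow_succ]; nlinarith [pow_pos hl p]
  have hlim : Tendsto (fun n : ℕ => 2 * C / l * Real.sqrt (1 + D e) + (1 / 2) ^ n * (|B| / e ^ p))
      atTop (𝓝 (2 * C / l * Real.sqrt (1 + D e))) := by
    simpa using ((tendsto_pow_atTop_nhds_zero_of_lt_one (by norm_num : (0 : ℝ) ≤ 1 / 2)
      (by norm_num)).mul_const (|B| / e ^ p)).const_add (2 * C / l * Real.sqrt (1 + D e))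
  exact ge_of_tendsto hlim (Eventually.of_forall fun n =>
    (step n e he he0).trans (by linarith [htail n]))

/-- The first estimate: `X` and `Y` are bounded by `√(1 + D)`. -/
theorem exists_bound_scale {X Y D : ℝ → ℝ} {e₀ C B : ℝ} {p k : ℕ} (he₀ : 0 < e₀) (hC : 0 ≤ C)
    (hk : p + 2 ≤ k) (hY0 : ∀ e, 0 < e → 0 ≤ Y e) (hD0 : ∀ e, 0 < e → 0 ≤ D e)
    (hDl : ∀ l e, 0 < l → l ≤ 1 → 0 < e → e ≤ e₀ → D (l * e) ≤ D e / l ^ 2)
    (hB : ∀ e, 0 < e → e ≤ e₀ → Y e ≤ B / e ^ p)
    (hkey : ∀ l e, 0 < l → l ≤ 1 → 0 < e → e ≤ e₀ →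
      Y e ≤ C * X (l * e) + C * l ^ k * Y (l * e))
    (henergy : ∀ e, 0 < e → e ≤ e₀ →
      X e ^ 2 ≤ C * (1 + D e) + C * Real.sqrt (1 + D e) * Y e + C * e ^ 2 * Y e ^ 2) :
    ∃ K e₁, 0 < e₁ ∧ 0 ≤ K ∧ ∀ e, 0 < e → e ≤ e₁ →
      Y e ≤ K * Real.sqrt (1 + D e) ∧ X e ≤ K * Real.sqrt (1 + D e) := by
  set l : ℝ := 1 / (4 * (C + 1)) with hl
  have hlp : 0 < l := by positivity
  have hl1 : l ≤ 1 := by rw [hl, div_le_one (by positivity)]; linarith
  have hCl : C * l ^ k ≤ l ^ (p + 1) / 4 := by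
    calc C * l ^ k ≤ C * l ^ (p + 2) :=
          mul_le_mul_of_nonneg_left (pow_le_pow_of_le_one hlp.le hl1 hk) hC
      _ = C * l * l ^ (p + 1) := by ring
      _ ≤ 1 / 4 * l ^ (p + 1) := mul_le_mul_of_nonneg_right (by
          rw [hl, mul_one_div, div_le_iff₀ (by positivity)]; linarith) (by positivity)
      _ = l ^ (p + 1) / 4 := by ring
  set δ : ℝ := l ^ (p + 1) / (4 * (C + 1)) with hδ
  have hδp : 0 < δ := by positivity
  set e₂ : ℝ := δ / Real.sqrt (2 * (C + 1))
  have he₂ : 0 < e₂ := by positivity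
  set M := C + 1 + C / δ
  have hM : 0 ≤ M := by positivity
  have hlin : ∀ e, 0 < e → e ≤ min e₀ e₂ → X e ≤ M * Real.sqrt (1 + D e) + δ * Y e :=
    fun e he hle => by
      refine energy_linear (hY0 e he) (hD0 e he) he.le hC hδp ?_
        (henergy e he (hle.trans (min_le_left _ _)))
      have h1 : e ^ 2 ≤ δ ^ 2 / (2 * (C + 1)) := by
        have h2 := pow_le_pow_left₀ he.le (hle.trans (min_le_right _ _)) 2
        rwa [div_pow, Real.sq_sqrt (by positivity)] at h2
      calc C * e ^ 2 ≤ (C + 1) * (δ ^ 2 / (2 * (C + 1))) := by gcongr; linarith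
        _ = δ ^ 2 / 2 := by field_simp
  refine ⟨M + (δ + 1) * (2 * (C * M) / l), min e₀ e₂, lt_min he₀ he₂, by positivity,
    fun e he hle => ?_⟩
  have hY : Y e ≤ 2 * (C * M) / l * Real.sqrt (1 + D e) := by
    refine iterate_scale (q := C * δ + C * l ^ k) (p := p) hlp hl1 (by positivity) ?_
      (by positivity) (fun e he h => hDl l e hlp hl1 he (h.trans (min_le_left _ _)))
      (fun e he h => hB e he (h.trans (min_le_left _ _))) (fun e he h => ?_) he hle
    · have h1 : C * δ ≤ l ^ (p + 1) / 4 := by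
        rw [hδ, ← mul_div_assoc, div_le_div_iff₀ (by positivity) (by norm_num)]
        nlinarith [pow_pos hlp (p + 1)]
      linarith
    · have hle' : l * e ≤ min e₀ e₂ := le_trans (mul_le_of_le_one_left he.le hl1) h
      have h1 := hkey l e hlp hl1 he (h.trans (min_le_left _ _))
      have h2 := mul_le_mul_of_nonneg_left (hlin _ (by positivity) hle') hC
      nlinarith
  have hs := Real.sqrt_nonneg (1 + D e)
  have hN : 0 ≤ 2 * (C * M) / l := by positivity
  have hN' : 0 ≤ 2 * (C * M) / l * Real.sqrt (1 + D e) := mul_nonneg hN hs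
  have hN'' : 0 ≤ δ * (2 * (C * M) / l * Real.sqrt (1 + D e)) := mul_nonneg hδp.le hN'
  refine ⟨hY.trans ?_, (hlin e he hle).trans ?_⟩
  · nlinarith [mul_nonneg hM hs]
  · nlinarith [mul_le_mul_of_nonneg_left hY hδp.le]

end Vale.Agent.P204.Gen
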