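import Vale.Agent.P204.Gen.EnergyBase
import Vale.Agent.P204.Gen.PtBounds
import Vale.Agent.P204.Gen.ScaleIter
import Vale.Agent.P204.Torus.Integrals

/-!
P204 on a closed four-manifold, first estimate (module 14, helper12): the vanishing square of the
regularised current gives the energy inequality, and with monotonicity and the inequality between
the two norms the density and the anti-invariant part are bounded.
-/

open MeasureTheory Filter Topology
open scoped BigOperators ContDiff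

namespace Vale.Agent.P204.Gen

open Vale.Agent.P204.Torus

variable {X : Type*} [TopologicalSpace X] [MeasurableSpace X]

/-- The vanishing square at one point, solved for the anti-invariant part. -/
lemma GSetup.pointwise_sq (S : GSetup X) {c Mp : ℝ} (hc : 0 < c) (hMp : 0 ≤ Mp) {x : X}
    (hb : (‖S.Om x‖ ≤ Mp) ∧ (∀ n, piP (S.J x) n = 0 → c * ‖n‖ ^ 2 ≤ q n n) ∧
      ∀ α, ‖piP (S.J x) α‖ ≤ Mp * ‖α‖) {Se Te : Form} {C ε B : ℝ} (hC : 0 ≤ C) (hε : 0 < ε)
    (hε1 : ε ≤ 1) (hB : 0 ≤ B) (hT : ‖Te‖ ≤ C * B) (hTm : ‖piM (S.J x) Te‖ ≤ C * ε * B)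
    (hpsd : S.Psd x (piP (S.J x) Te + (C * ε ^ 2 * B) • S.Om x)) :
    ‖Se‖ ^ 2 ≤ 4 / c * q (Se + Te) (Se + Te) + (24 / c + 2) * ‖piP (S.J x) Se‖ ^ 2 +
      48 * Mp * C / c / ε * (‖piP (S.J x) Se‖ * (ε * B)) +
      (288 / c ^ 2 + 72 * Mp ^ 2 / c) * C ^ 2 * (ε * B) ^ 2 := by
  obtain ⟨hO, hanti, hproj⟩ := hb
  set a := piP (S.J x) Se
  set b := piM (S.J x) Se
  set pT := piP (S.J x) Te
  set mT := piM (S.J x) Te
  set A := ε * B with hA
  set k := C * ε ^ 2 * B with hk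
  have hk0 : 0 ≤ k := by positivity
  have e1 : q (Se + Te) (Se + Te) = q a a + q b b + 2 * q a pT + 2 * q b mT +
      (q pT pT + q mT mT) := by
    have h1 : q Se Se = q a a + q b b := (S.pt x).q_decomp 0 _ _
    have h2 : q Se Te = q a pT + q b mT := (S.pt x).q_decomp 0 _ _
    have h3 : q Te Te = q pT pT + q mT mT := (S.pt x).q_decomp 0 _ _
    rw [q_add_left, q_add_right, q_add_right, q_comm Te Se, h1, h2, h3]
    ring
  have hbb : c * ‖b‖ ^ 2 ≤ q b b := hanti b ((S.pt x).piP_piM 0 _)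
  have hmm : 0 ≤ q mT mT :=
    le_trans (by positivity) (hanti mT ((S.pt x).piP_piM 0 _))
  have hpT : ‖pT‖ ≤ Mp * (C * B) :=
    (hproj Te).trans (mul_le_mul_of_nonneg_left hT hMp)
  have hpos : 0 ≤ q (pT + k • S.Om x) (pT + k • S.Om x) :=
    (S.pt x).q_psd_psd (x := 0) hpsd hpsd
  simp only [q_add_left, q_add_right, q_smul_left, q_smul_right, q_comm (S.Om x) pT] at hpos
  have k1 : q pT (S.Om x) ≤ 6 * (Mp * (C * B) * Mp) := (le_abs_self _).trans
    ((abs_q_le _ _).trans (mul_le_mul_of_nonneg_left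
      (mul_le_mul hpT hO (norm_nonneg _) (by positivity)) (by norm_num)))
  have k2 : q (S.Om x) (S.Om x) ≤ 6 * (Mp * Mp) := (le_abs_self _).trans
    ((abs_q_le _ _).trans (mul_le_mul_of_nonneg_left
      (mul_le_mul hO hO (norm_nonneg _) hMp) (by norm_num)))
  have k3 := mul_le_mul_of_nonneg_left k1 hk0
  have k4 : k * k * q (S.Om x) (S.Om x) ≤ 6 * Mp ^ 2 * C ^ 2 * A ^ 2 := by
    refine (mul_le_mul_of_nonneg_left k2 (by positivity)).trans ?_
    rw [hk, hA]
    have h2 : ε ^ 2 ≤ 1 := pow_le_one₀ hε.le hε1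
    have := mul_le_mul_of_nonneg_left h2 (by positivity : 0 ≤ 6 * Mp ^ 2 * C ^ 2 * (ε * B) ^ 2)
    linarith
  have k3' : k * (6 * (Mp * (C * B) * Mp)) = 6 * Mp ^ 2 * C ^ 2 * A ^ 2 := by
    rw [hk, hA]; ring
  have k5 := (abs_le.1 (abs_q_le a a)).1
  have k6 := (abs_le.1 ((abs_q_le a pT).trans (mul_le_mul_of_nonneg_left
    (mul_le_mul_of_nonneg_left hpT (norm_nonneg a)) (by norm_num : (0 : ℝ) ≤ 6)))).1
  have hTm' : ‖mT‖ ≤ C * A := hTm.trans_eq (by rw [hA]; ring)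
  have k7 := (abs_le.1 ((abs_q_le b mT).trans (mul_le_mul_of_nonneg_left
    (mul_le_mul_of_nonneg_left hTm' (norm_nonneg b)) (by norm_num : (0 : ℝ) ≤ 6)))).1
  have k8 : 12 * (‖b‖ * (C * A)) ≤ c / 2 * ‖b‖ ^ 2 + 72 * C ^ 2 / c * A ^ 2 := by
    have := div_nonneg (sq_nonneg (c * ‖b‖ - 12 * C * A)) (by positivity : 0 ≤ 2 * c)
    have e : (c * ‖b‖ - 12 * C * A) ^ 2 / (2 * c) =
        c / 2 * ‖b‖ ^ 2 - 12 * (‖b‖ * (C * A)) + 72 * C ^ 2 / c * A ^ 2 := by
      field_simp; ring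
    linarith
  have k9 : ‖a‖ * (Mp * (C * B)) = Mp * C / ε * (‖a‖ * A) := by
    rw [hA]; field_simp
  have key : c / 2 * ‖b‖ ^ 2 ≤ q (Se + Te) (Se + Te) + 6 * ‖a‖ ^ 2 +
      12 * (Mp * C / ε * (‖a‖ * A)) + (72 * C ^ 2 / c + 18 * Mp ^ 2 * C ^ 2) * A ^ 2 := by
    rw [← k9, e1, sq ‖a‖]
    linarith
  have hsum : ‖Se‖ ^ 2 ≤ 2 * ‖a‖ ^ 2 + 2 * ‖b‖ ^ 2 := by
    have h0 : ‖Se‖ ≤ ‖a‖ + ‖b‖ := by
      conv_lhs => rw [← piP_add_piM (S.J x) Se]
      exact norm_add_le _ _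
    have := pow_le_pow_left₀ (norm_nonneg _) h0 2
    nlinarith [sq_nonneg (‖a‖ - ‖b‖)]
  have key2 := mul_le_mul_of_nonneg_left key (by positivity : 0 ≤ 4 / c)
  have e2 : 4 / c * (c / 2 * ‖b‖ ^ 2) = 2 * ‖b‖ ^ 2 := by field_simp; ring
  have e3 : 4 / c * (q (Se + Te) (Se + Te) + 6 * ‖a‖ ^ 2 +
      12 * (Mp * C / ε * (‖a‖ * A)) + (72 * C ^ 2 / c + 18 * Mp ^ 2 * C ^ 2) * A ^ 2) =
      4 / c * q (Se + Te) (Se + Te) + 24 / c * ‖a‖ ^ 2 +
      48 * Mp * C / c / ε * (‖a‖ * A) + (288 / c ^ 2 + 72 * Mp ^ 2 / c) * C ^ 2 * A ^ 2 := by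
    field_simp; ring
  linarith

namespace GUData

variable {S : GSetup X} {T : GCurrent S} (D : GUData T)

lemma Yn_nonneg (ε : ℝ) : 0 ≤ D.Yn ε :=
  Real.sSup_nonneg (by rintro r ⟨α, -, -, rfl⟩; exact abs_nonneg _)

lemma Xn_nonneg (ε : ℝ) : 0 ≤ D.Xn ε := Real.sqrt_nonneg _

/-- The energy inequality of the first estimate. -/
theorem energyFirst [T2Space X] [CompactSpace X] [BorelSpace X] (hB : Basic S.toGeo)
    (hW : RegBound T.toPositive) (hBS : BallSquare T.toPositive) (hcm : SeComm D) :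
    EnergyFirst D := by
  have := hB.finite_μ
  have := T.finite
  obtain ⟨c, Mp, hc, hMp, hpt⟩ := S.exists_pt_bounds
  obtain ⟨C, R, e1, hC, hR, he1, hW⟩ := hW
  obtain ⟨K0, e2, he2, hBS⟩ := hBS R hR
  obtain ⟨Cc0, e3, he3, hcm⟩ := hcm
  obtain ⟨Cp, -, hproj⟩ := S.exists_bound_proj
  set Cc := max Cc0 0
  set K := max K0 0
  set K2 := 24 / c + 2
  set K3 := 48 * Mp * C / c
  set K4 := (288 / c ^ 2 + 72 * Mp ^ 2 / c) * C ^ 2
  refine ⟨K4 * K + K3 * Cc * Real.sqrt K + K2 * Cc ^ 2,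
    min (min e1 e2) (min (min e3 D.ε₀) 1), by positivity,
    lt_min (lt_min he1 he2) (lt_min (lt_min he3 D.ε₀_pos) one_pos),
    fun ε hε hle M hM0 hM => ?_⟩
  obtain ⟨h12, h345⟩ := le_min_iff.1 hle
  obtain ⟨hl1, hl2⟩ := le_min_iff.1 h12
  obtain ⟨h34, hε1⟩ := le_min_iff.1 h345
  obtain ⟨hl3, hl4⟩ := le_min_iff.1 h34
  set r := R * ε
  have hr : 0 < r := mul_pos hR hε
  have hT := D.Te_rep ε hε hl4
  have hU := D.Ue_mem ε hε hl4
  have hS : MemLp (D.Se ε) 2 S.μ := hU.sub hT.1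
  set a := fun x => piP (S.J x) (D.Se ε x)
  set A := fun x => ε * T.ball4 r x
  have hA0 : ∀ x, 0 ≤ A x := fun x => mul_nonneg hε.le (T.toPositive.ball4_nonneg r x)
  have ha : MemLp a 2 S.μ :=
    hS.of_le_mul (hproj _ hS.1).1 (c := Mp) (Eventually.of_forall fun x =>
      ((hpt x).2.2.2.2.2 _).1)
  have hAm : MemLp A 2 S.μ :=
    MemLp.of_bound ((T.toPositive.measurable_ball4 r).const_mul ε).aestronglyMeasurable
      (ε * (T.ν.real Set.univ / r ^ 4)) (Eventually.of_forall fun x => by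
        rw [Real.norm_eq_abs, abs_of_nonneg (hA0 x)]
        exact mul_le_mul_of_nonneg_left (T.toPositive.ball4_le hr x) hε.le)
  have haA : Integrable (fun x => ‖a x‖ * A x) S.μ := by
    refine Integrable.mono' (ha.norm.integrable_sq.add hAm.integrable_sq)
      (ha.1.norm.mul hAm.1) (Eventually.of_forall fun x => ?_)
    rw [Real.norm_eq_abs, Pi.add_apply, abs_of_nonneg (mul_nonneg (norm_nonneg _) (hA0 x))]
    nlinarith [sq_nonneg (‖a x‖ - A x), norm_nonneg (a x), hA0 x]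
  have hae : ∀ᵐ x ∂S.μ, ‖D.Se ε x‖ ^ 2 ≤ 4 / c * q (D.Ue ε x) (D.Ue ε x) + K2 * ‖a x‖ ^ 2 +
      K3 / ε * (‖a x‖ * A x) + K4 * A x ^ 2 := by
    filter_upwards [hW ε hε hl1 (fun _ => 1) measurable_const (fun _ => by simp) _ hT] with x hx
    rw [← T.toPositive.ball4_eq] at hx
    obtain ⟨-, -, -, hO, hanti, hp⟩ := hpt x
    have e : D.Ue ε x = D.Se ε x + D.Te ε x := by simp only [Se, sub_add_cancel]
    rw [e]
    exact S.pointwise_sq hc hMp.le ⟨hO, hanti, fun α => (hp α).1⟩ hC.le hε hε1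
      (T.toPositive.ball4_nonneg r x) hx.1 hx.2.1 (hx.2.2 fun _ => zero_le_one)
  have hiU := S.integrable_q hU hU
  have i1 := ha.norm.integrable_sq
  have i2 := hAm.integrable_sq
  have h := integral_mono_ae hS.norm.integrable_sq
    ((((hiU.const_mul (4 / c)).fun_add (i1.const_mul K2)).fun_add
      (haA.const_mul (K3 / ε))).fun_add (i2.const_mul K4)) hae
  rw [integral_add (((hiU.const_mul (4 / c)).fun_add (i1.const_mul K2)).fun_add
      (haA.const_mul (K3 / ε))) (i2.const_mul K4),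
    integral_add ((hiU.const_mul (4 / c)).fun_add (i1.const_mul K2)) (haA.const_mul (K3 / ε)),
    integral_add (hiU.const_mul (4 / c)) (i1.const_mul K2),
    integral_const_mul, integral_const_mul, integral_const_mul, integral_const_mul,
    show ∫ x, q (D.Ue ε x) (D.Ue ε x) ∂S.μ = 0 from D.Ue_q ε hε hl4, mul_zero, zero_add] at h
  set Y := D.Yn ε
  have hY : 0 ≤ Y := D.Yn_nonneg ε
  have hX : D.Xn ε ^ 2 = ∫ x, ‖D.Se ε x‖ ^ 2 ∂S.μ :=
    Real.sq_sqrt (integral_nonneg fun _ => sq_nonneg _)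
  have hna : S.n2 a ≤ Cc * ε * Y := (hcm ε hε hl3).trans
    (mul_le_mul_of_nonneg_right (mul_le_mul_of_nonneg_right (le_max_left _ _) hε.le) hY)
  have ha2 : ∫ x, ‖a x‖ ^ 2 ∂S.μ ≤ Cc ^ 2 * (ε ^ 2 * Y ^ 2) := by
    have h2 := pow_le_pow_left₀ (S.n2_nonneg a) hna 2
    rw [Geo.n2, Real.sq_sqrt (integral_nonneg fun _ => sq_nonneg _)] at h2
    linarith
  have hA2 : ∫ x, A x ^ 2 ∂S.μ ≤ K * M := by
    have e : (fun x => A x ^ 2) = fun x => ε ^ 2 * T.ball4 r x ^ 2 :=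
      funext fun x => by simp only [A]; ring
    rw [e]
    exact ((hBS ε hε hl2).2 M hM0 hM).trans (mul_le_mul_of_nonneg_right (le_max_left _ _) hM0)
  have hcross : ∫ x, ‖a x‖ * A x ∂S.μ ≤ Cc * ε * Y * Real.sqrt (K * M) := by
    refine (Real.le_sqrt_of_sq_le (integral_mul_sq_le i1 i2 haA)).trans ?_
    rw [Real.sqrt_mul (integral_nonneg fun _ => sq_nonneg _)]
    exact mul_le_mul hna (Real.sqrt_le_sqrt hA2) (Real.sqrt_nonneg _) (by positivity)
  have t1 : K3 / ε * ∫ x, ‖a x‖ * A x ∂S.μ ≤ K3 * Cc * Real.sqrt K * (Real.sqrt (1 + M) * Y) := by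
    refine (mul_le_mul_of_nonneg_left hcross (by positivity)).trans ?_
    rw [Real.sqrt_mul (le_max_right _ _),
      show K3 / ε * (Cc * ε * Y * (Real.sqrt K * Real.sqrt M)) =
        K3 * Cc * Real.sqrt K * (Real.sqrt M * Y) by field_simp]
    gcongr
    linarith
  have t2 := mul_le_mul_of_nonneg_left ha2 (show 0 ≤ K2 by positivity)
  have t3 : K4 * ∫ x, A x ^ 2 ∂S.μ ≤ K4 * K * (1 + M) :=
    (mul_le_mul_of_nonneg_left hA2 (show 0 ≤ K4 by positivity)).trans (by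
      rw [← mul_assoc]
      exact mul_le_mul_of_nonneg_left (by linarith) (by positivity))
  have q1 : 0 ≤ K2 * Cc ^ 2 := by positivity
  have q2 : 0 ≤ K3 * Cc * Real.sqrt K := by positivity
  have q3 : 0 ≤ K4 * K := by positivity
  have z1 : 0 ≤ Real.sqrt (1 + M) * Y := by positivity
  have z2 : 0 ≤ ε ^ 2 * Y ^ 2 := by positivity
  have z3 : 0 ≤ 1 + M := by linarith
  rw [hX]
  nlinarith [mul_nonneg q1 z1, mul_nonneg q1 z3, mul_nonneg q2 z2, mul_nonneg q2 z3,
    mul_nonneg q3 z1, mul_nonneg q3 z2]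

end GUData

namespace Positive

variable {S : GSetup X} (T : Positive S) [BorelSpace X]

lemma integrable_dens_weight {r : ℝ} (hr : 0 < r) (y : X) :
    Integrable (fun z => r ^ 2 / (r ^ 2 + S.dX z y ^ 2) ^ 2) T.ν := by
  have := T.finite
  have hm : Measurable fun z => r ^ 2 / (r ^ 2 + S.dX z y ^ 2) ^ 2 :=
    (measurable_const (a := r ^ 2)).div (((measurable_const (a := r ^ 2)).add
      ((S.measurable_dX.comp (measurable_id.prodMk measurable_const)).pow_const 2)).pow_const 2)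
  refine Integrable.of_bound hm.aestronglyMeasurable ((r ^ 2)⁻¹) (Eventually.of_forall fun z => ?_)
  rw [Real.norm_eq_abs, abs_of_nonneg (by positivity), div_le_iff₀ (by positivity),
    ← div_le_iff₀' (by positivity), div_inv_eq_mul]
  nlinarith [sq_nonneg (S.dX z y), mul_nonneg (sq_nonneg r) (sq_nonneg (S.dX z y))]

/-- The density at a smaller scale. -/
lemma dens_scale_le {l e : ℝ} (hl : 0 < l) (hl1 : l ≤ 1) (he : 0 < e) (y : X) :
    T.dens (l * e) y ≤ T.dens e y / l ^ 2 := by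
  rw [dens, dens, ← integral_div]
  refine integral_mono (T.integrable_dens_weight (mul_pos hl he) y)
    ((T.integrable_dens_weight he y).div_const _) fun z => ?_
  set d := S.dX z y
  simp only
  rw [div_div, div_le_div_iff₀ (by positivity) (by positivity)]
  have h : l ^ 2 * (e ^ 2 + d ^ 2) ≤ (l * e) ^ 2 + d ^ 2 := by
    have := mul_le_mul_of_nonneg_right (pow_le_one₀ (n := 2) hl.le hl1) (sq_nonneg d)
    rw [mul_pow]
    linarith
  have h2 := mul_le_mul_of_nonneg_left (pow_le_pow_left₀ (by positivity) h 2) (sq_nonneg e)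
  calc (l * e) ^ 2 * ((e ^ 2 + d ^ 2) ^ 2 * l ^ 2)
      = e ^ 2 * (l ^ 2 * (e ^ 2 + d ^ 2)) ^ 2 := by ring
    _ ≤ e ^ 2 * ((l * e) ^ 2 + d ^ 2) ^ 2 := h2

/-- The potential of order one at scale `r`. -/
lemma inv_potential_le {r R M : ℝ} (hr : 0 < r) (hrR : r ≤ R)
    (hM : ∀ ρ, r ≤ ρ → ρ ≤ R → ∀ y, T.dens ρ y ≤ M) (hM0 : 0 ≤ M) (y : X) :
    ∫ z, 1 / (r + S.dX z y) ∂T.ν ≤ 2 * T.ν.real Set.univ / R + 16 * R * M := by
  have := T.finite
  obtain ⟨N, hN⟩ := pow_unbounded_of_one_lt (R / r) (one_lt_two (α := ℝ))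
  rw [div_lt_iff₀ hr] at hN
  set F := (Finset.range N).filter (fun k : ℕ => 2 ^ k * r ≤ R)
  have hi : ∀ k : ℕ, Integrable (fun z => 2 ^ k * r *
      ((2 ^ k * r) ^ 2 / ((2 ^ k * r) ^ 2 + S.dX z y ^ 2) ^ 2)) T.ν := fun k =>
    (T.integrable_dens_weight (by positivity) y).const_mul _
  refine (integral_mono_of_nonneg (Eventually.of_forall fun z => ?_)
    ((integrable_const (2 / R)).add
      ((integrable_finsetSum F fun k _ => hi k).const_mul 8))
    (Eventually.of_forall fun z => ?_)).trans ?_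
  · have := S.dX_nonneg z y
    positivity
  · simp only [Pi.add_apply]
    refine (inv_le_dyadic hr hrR (S.dX_nonneg z y) hN).trans (le_of_eq ?_)
    congr 2
    exact Finset.sum_congr rfl fun k _ => by ring
  · simp only [Pi.add_apply]
    rw [integral_add (integrable_const _) ((integrable_finsetSum F fun k _ => hi k).const_mul 8),
      integral_const, integral_const_mul, integral_finsetSum F fun k _ => hi k]
    simp only [smul_eq_mul, integral_const_mul]
    have hsum : ∑ k ∈ F, 2 ^ k * r * T.dens (2 ^ k * r) y ≤ 2 * R * M := by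
      refine (Finset.sum_le_sum fun k hk => mul_le_mul_of_nonneg_left (hM _ ?_ ?_ y)
        (by positivity)).trans ?_
      · exact le_mul_of_one_le_left hr.le (one_le_pow₀ one_le_two)
      · exact (Finset.mem_filter.1 hk).2
      · rw [← Finset.sum_mul]
        exact mul_le_mul_of_nonneg_right (dyadic_sum_le hr (hr.le.trans hrR) N) hM0
    change T.ν.real Set.univ * (2 / R) + 8 * ∑ k ∈ F, 2 ^ k * r * T.dens (2 ^ k * r) y ≤ _
    rw [show 2 * T.ν.real Set.univ / R = T.ν.real Set.univ * (2 / R) by ring]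
    linarith

end Positive

namespace GUData

variable {S : GSetup X} {T : GCurrent S} (D : GUData T)

/-- The first estimate: the density and the anti-invariant part are bounded. -/
theorem phase1Done [BorelSpace X] (hM : MonoFirst D) (hY : YKey D) (hE : EnergyFirst D) :
    Phase1Done D := by
  have := T.finite
  obtain ⟨CE, eE, hCE, heE, hE⟩ := hE
  obtain ⟨CY, eY, heY, hCY, hYb, hYk⟩ := hY
  obtain ⟨C, eM, hC, heM, hM⟩ := hM
  set m := T.ν.real Set.univ
  have hm : 0 ≤ m := measureReal_nonneg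
  set Dm : ℝ → ℝ := fun e => ⨆ y, T.dens e y with hDm
  have hDm0 : ∀ e, 0 ≤ Dm e := fun e => Real.iSup_nonneg fun y => T.toPositive.dens_nonneg e y
  have hle : ∀ e, 0 < e → ∀ y, T.dens e y ≤ Dm e := fun e he y =>
    le_ciSup ⟨m / e ^ 2, by rintro _ ⟨z, rfl⟩; exact T.toPositive.dens_le_mass he z⟩ y
  set C0 := CE + CY
  obtain ⟨K, e4, he4, hK, hXY⟩ := exists_bound_scale (X := D.Xn) (Y := D.Yn) (D := Dm)
    (C := C0) (B := CY) (p := pU) (k := kS) (lt_min heE heY) (by positivity) (by decide)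
    (fun e _ => D.Yn_nonneg e) (fun e _ => hDm0 e)
    (fun l e hl hl1 he _ => Real.iSup_le (fun y => (T.toPositive.dens_scale_le hl hl1 he y).trans
      (div_le_div_of_nonneg_right (hle e he y) (sq_nonneg l)))
      (div_nonneg (hDm0 e) (sq_nonneg l)))
    (fun e he h => hYb e he (h.trans (min_le_right _ _)))
    (fun l e hl hl1 he h => (hYk l e hl hl1 he (h.trans (min_le_right _ _))).trans (by
      have := D.Xn_nonneg (l * e)
      have := D.Yn_nonneg (l * e)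
      gcongr <;> simp only [C0] <;> linarith))
    (fun e he h => (hE e he (h.trans (min_le_left _ _)) (Dm e) (hDm0 e) (hle e he)).trans (by
      have := hDm0 e
      have := D.Yn_nonneg e
      gcongr <;> simp only [C0] <;> linarith))
  set R := min (min eM e4) (1 / (64 * C))
  have hR : 0 < R := lt_min (lt_min heM he4) (by positivity)
  have hR1 : R ≤ eM := (min_le_left _ _).trans (min_le_left _ _)
  have hR2 : R ≤ e4 := (min_le_left _ _).trans (min_le_right _ _)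
  have hR3 : 64 * C * R ≤ 1 := by
    have := min_le_right (min eM e4) (1 / (64 * C))
    rw [mul_comm, ← le_div_iff₀ (by positivity)]
    exact this
  set Bd := 2 * (C * (1 + 2 * m / R) + 1 / 4 + 4 * C ^ 2 * K ^ 2)
  have hBd : 0 ≤ Bd := by positivity
  have key : ∀ r, 0 < r → r ≤ R → ∀ y, T.dens r y ≤ Bd := by
    intro r hr hrR
    set A : Set ℝ := insert 0 {d | ∃ ρ y, r ≤ ρ ∧ ρ ≤ R ∧ T.dens ρ y = d}
    have hbd : BddAbove A := bddAbove_insert.2 ⟨m / r ^ 2, by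
      rintro d ⟨ρ, y, h1, -, rfl⟩
      exact (T.toPositive.dens_le_mass (hr.trans_le h1) y).trans
        (div_le_div_of_nonneg_left hm (by positivity) (pow_le_pow_left₀ hr.le h1 2))⟩
    set s := sSup A
    have hs : ∀ ρ, r ≤ ρ → ρ ≤ R → ∀ y, T.dens ρ y ≤ s :=
      fun ρ h1 h2 y => le_csSup hbd (Set.mem_insert_of_mem _ ⟨ρ, y, h1, h2, rfl⟩)
    have hs0 : 0 ≤ s := le_csSup hbd (Set.mem_insert _ _)
    have hstep : ∀ d ∈ A,
        d ≤ C * (1 + (2 * m / R + 16 * R * s) + 2 * K * Real.sqrt (1 + s)) := by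
      rintro d (rfl | ⟨ρ, y, h1, h2, rfl⟩)
      · positivity
      have hρ := hr.trans_le h1
      refine (hM ρ hρ (h2.trans hR1) y).trans (mul_le_mul_of_nonneg_left ?_ hC.le)
      obtain ⟨h3, h4⟩ := hXY ρ hρ (h2.trans hR2)
      have h5 : Real.sqrt (1 + Dm ρ) ≤ Real.sqrt (1 + s) :=
        Real.sqrt_le_sqrt (by linarith [Real.iSup_le (hs ρ h1 h2) hs0])
      have h6 := mul_le_mul_of_nonneg_left h5 hK
      have h7 := T.toPositive.inv_potential_le hρ h2 (fun σ k1 k2 => hs σ (h1.trans k1) k2) hs0 y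
      linarith
    have hs2 : s ≤ C * (1 + (2 * m / R + 16 * R * s) + 2 * K * Real.sqrt (1 + s)) :=
      csSup_le (Set.insert_nonempty _ _) hstep
    have h1 := mul_le_mul_of_nonneg_right hR3 hs0
    have h2 : C * (2 * K * Real.sqrt (1 + s)) ≤ (1 + s) / 4 + 4 * C ^ 2 * K ^ 2 := by
      nlinarith [Real.sq_sqrt (by linarith : (0 : ℝ) ≤ 1 + s),
        sq_nonneg (Real.sqrt (1 + s) / 2 - 2 * C * K)]
    intro y
    refine (hs r le_rfl hrR y).trans ?_
    simp only [Bd]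
    linarith
  refine ⟨⟨Bd + m / R ^ 2, fun r hr _ y => ?_⟩,
    ⟨K * Real.sqrt (1 + Bd), R, hR, fun ε hε hεR => ?_⟩⟩
  · have : 0 ≤ m / R ^ 2 := by positivity
    rcases le_total r R with h | h
    · linarith [key r hr h y]
    · linarith [(T.toPositive.dens_le_mass hr y).trans
        (div_le_div_of_nonneg_left hm (by positivity) (pow_le_pow_left₀ hR.le h 2))]
  · obtain ⟨h1, h2⟩ := hXY ε hε (hεR.trans hR2)
    have h3 : K * Real.sqrt (1 + Dm ε) ≤ K * Real.sqrt (1 + Bd) :=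
      mul_le_mul_of_nonneg_left (Real.sqrt_le_sqrt (by
        linarith [Real.iSup_le (key ε hε hεR) hBd])) hK
    exact ⟨h2.trans h3, h1.trans h3⟩

end GUData

end Vale.Agent.P204.Gen
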