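import Vale.Agent.P204.Torus.Facts

/-!
P204, general four-manifold: positive forms under a congruence near the identity.

A `Datum` is a tamed complex structure on one tangent space, read in a chart. It is a constant
`Setup` on the torus, so the pointwise algebra of the torus proof applies to it. A positive
invariant form `h` at `D'` is moved to `D` by `pull L`, with `L`, `D'` within `ε` of `1`, `D`; the
errors are `ε` for the anti-invariant part and the trace, and `ε ^ 2` for positivity.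
-/

namespace Vale.Agent.P204.Gen

open Vale.Agent.P204.Torus

/-- A complex structure and a positive invariant form on one tangent space. -/
structure Datum where
  /-- The complex structure. -/
  J : V →L[ℝ] V
  /-- The invariant form. -/
  Om : Form
  sq : ∀ u, J (J u) = -u
  inv : piM J Om = 0
  pos : ∀ u, u ≠ 0 → 0 < ev Om u (J u)
  orient : 0 < q Om Om

namespace Datum

/-- The constant structure on the torus. -/
noncomputable def setup (D : Datum) : Setup where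
  J := fun _ => D.J
  om := fun _ => D.Om
  J_smooth := ⟨contDiff_const, fun _ _ => rfl⟩
  J_sq := fun _ => D.sq
  om_smooth := ⟨contDiff_const, fun _ _ => rfl⟩
  tames := fun _ => D.pos
  orient := fun _ => D.orient

lemma setup_Om (D : Datum) (x : V) : D.setup.Om x = D.Om := by
  change piP D.J D.Om = D.Om
  conv_rhs => rw [← piP_add_piM D.J D.Om, D.inv, add_zero]

/-- A positive invariant form. -/
def Psd (D : Datum) (h : Form) : Prop := D.setup.Psd 0 h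

lemma psd_iff (D : Datum) (h : Form) :
    D.Psd h ↔ piM D.J h = 0 ∧ ∀ u, 0 ≤ ev h u (D.J u) := Iff.rfl

/-- Uniform bounds. -/
structure Bdd (D : Datum) (c M : ℝ) : Prop where
  lower : ∀ u, c * ‖u‖ ^ 2 ≤ ev D.Om u (D.J u)
  kap_ge : c ≤ q D.Om D.Om / 2
  J_le : ‖D.J‖ ≤ M
  Om_le : ‖D.Om‖ ≤ M

/-- The pair `(L, D')` is within `ε` of `(1, D)`. -/
structure Near (L : V →L[ℝ] V) (D D' : Datum) (M ε : ℝ) : Prop where
  L_sub : ‖L - 1‖ ≤ ε
  J_sub : ‖D.J - D'.J‖ ≤ ε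
  Om_sub : ‖D.Om - D'.Om‖ ≤ ε
  eps_le : ε ≤ M

end Datum

open Datum

lemma norm_e (i : Fin 4) : ‖e i‖ = 1 := by simp [e, Pi.norm_single]

/-- A two-form is bounded by its values on the basis. -/
lemma norm_le_of_ev {α : Form} {K : ℝ} (h : ∀ i j, |ev α (e i) (e j)| ≤ K) : ‖α‖ ≤ 6 * K := by
  have hk : ∀ k, α k = ev α (e (fi k)) (e (se k)) := fun k => by
    conv_lhs => rw [← ofSkew_ev α]
    rw [ofSkew_apply]
  refine (norm_le_sum α).trans ((Finset.sum_le_sum fun k _ => ?_).trans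
    (le_of_eq (by simp : (∑ _k : Fin 6, K) = 6 * K)))
  rw [hk k]
  exact h _ _

namespace Datum

variable {D D' : Datum} {h : Form} {c M ε : ℝ} {L : V →L[ℝ] V}

lemma B_self_le (hh : D.Psd h) (u : V) :
    q D.Om D.Om / 2 * ev h u (D.J u) ≤ ev D.Om u (D.J u) * q h D.Om := by
  rcases eq_or_ne u 0 with rfl | hu
  · simp [ev_def]
  obtain ⟨F, hF⟩ := D.setup.exists_frame 0 hu
  set s := Real.sqrt (D.setup.g 0 u u) with hs
  have hs2 : s * s = D.setup.g 0 u u := Real.mul_self_sqrt (D.setup.g_pos 0 hu).le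
  have hB : ev h u (D.J u) = s * s * co F.c h 0 := by
    have h1 : D.setup.B 0 h (F.c 0) (F.c 0) = co F.c h 0 := by
      rw [F.B_eq hh.1, show F.t (F.c 0) = fun j => if (0 : Fin 4) = j then 1 else 0 from
        funext (F.orth 0)]
      simp
    change D.setup.B 0 h u u = _
    rw [hF, D.setup.B_smul_left, D.setup.B_smul_right, h1]
    ring
  have hO : q h D.Om = D.setup.kap 0 * (co F.c h 0 + co F.c h 3) := by
    rw [← D.setup_Om 0]; exact F.q_Om h
  have hk : D.setup.kap 0 = q D.Om D.Om / 2 := by rw [Setup.kap, D.setup_Om]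
  have hg : ev D.Om u (D.J u) = s * s := by rw [hs2, Setup.g, D.setup_Om]; rfl
  obtain ⟨hp, hr, -⟩ := D.setup.coord_psd hh F
  rw [hB, hO, hg, ← hk]
  have hkp := D.setup.kap_pos 0
  nlinarith [mul_nonneg (mul_nonneg (mul_self_nonneg s) hkp.le) hr]

lemma B_self_nonneg (hh : D.Psd h) (u : V) : 0 ≤ ev h u (D.J u) := hh.2 u

/-- The quadratic form of a normalised positive form is bounded. -/
lemma B_self_le_norm (hD : D.Bdd c M) (hc : 0 < c) (hh : D.Psd h) (htr : q h D.Om = 1) (u : V) :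
    ev h u (D.J u) ≤ 12 * M ^ 2 / c * ‖u‖ ^ 2 := by
  have h1 := B_self_le hh u
  rw [htr, mul_one] at h1
  have h2 : ev D.Om u (D.J u) ≤ 12 * M ^ 2 * ‖u‖ ^ 2 := by
    refine ((le_abs_self _).trans (abs_ev_le _ _ _)).trans ?_
    have hM : 0 ≤ M := (norm_nonneg _).trans hD.J_le
    calc 12 * (‖D.Om‖ * (‖u‖ * ‖D.J u‖)) ≤ 12 * (M * (‖u‖ * (M * ‖u‖))) := by
          gcongr
          · exact hD.Om_le
          · exact (D.J.le_opNorm u).trans (mul_le_mul_of_nonneg_right hD.J_le (norm_nonneg _))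
      _ = _ := by ring
  have h3 : c * ev h u (D.J u) ≤ q D.Om D.Om / 2 * ev h u (D.J u) :=
    mul_le_mul_of_nonneg_right hD.kap_ge (hh.2 u)
  rw [div_mul_eq_mul_div, le_div_iff₀ hc]
  linarith

/-- A normalised positive form is bounded. -/
lemma norm_le (hD : D.Bdd c M) (hc : 0 < c) (hh : D.Psd h) (htr : q h D.Om = 1) :
    ‖h‖ ≤ 72 * M ^ 2 / c := by
  have hb := fun i => B_self_le_norm hD hc hh htr (e i)
  simp only [norm_e, one_pow, mul_one] at hb
  refine (norm_le_of_ev (K := 12 * M ^ 2 / c) fun i j => ?_).trans (le_of_eq (by ring))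
  set v := -D.J (e j) with hv
  have h1 : ev h (e i) (e j) = D.setup.B 0 h (e i) v := by
    change _ = ev h (e i) (D.J v)
    rw [hv, map_neg, D.sq, neg_neg]
  have h2 : D.setup.B 0 h v v = ev h (e j) (D.J (e j)) := by
    change ev h v (D.J v) = _
    rw [hv, map_neg, D.sq, neg_neg, ev_neg_left, ← ev_skew]
  have hcs := D.setup.B_cs hh (e i) v
  have h3 : D.setup.B 0 h (e i) (e i) ≤ 12 * M ^ 2 / c := hb i
  rw [h2, ← h1] at hcs
  have h4 : 0 ≤ 12 * M ^ 2 / c := le_trans (hh.2 _) (hb i)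
  refine abs_le_of_sq_le_sq' ?_ h4 |> fun hh' => abs_le.2 hh'
  calc ev h (e i) (e j) ^ 2 ≤ _ := hcs
    _ ≤ 12 * M ^ 2 / c * (12 * M ^ 2 / c) := mul_le_mul h3 (hb j) (hh.2 _) h4
    _ = _ := by ring

lemma Near.L_apply_le (hn : Near L D D' M ε) (u : V) :
    ‖L u - u‖ ≤ ε * ‖u‖ ∧ ‖L u‖ ≤ (1 + M) * ‖u‖ := by
  have h1 : ‖L u - u‖ ≤ ε * ‖u‖ :=
    ((L - 1).le_opNorm u).trans (mul_le_mul_of_nonneg_right hn.L_sub (norm_nonneg _))
  refine ⟨h1, ?_⟩
  have h2 : ε * ‖u‖ ≤ M * ‖u‖ := mul_le_mul_of_nonneg_right hn.eps_le (norm_nonneg _)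
  have h3 := norm_le_insert' (L u) u
  linarith

lemma Near.eps_nonneg (hn : Near L D D' M ε) : 0 ≤ ε := (norm_nonneg _).trans hn.L_sub

lemma Near.comm_le (hn : Near L D D' M ε) (hD : D.Bdd c M) (hD' : D'.Bdd c M) (u : V) :
    ‖D'.J (L u) - L (D.J u)‖ ≤ (2 * M + 1) * ε * ‖u‖ := by
  have hu := hn.L_apply_le u
  have hJu := hn.L_apply_le (D.J u)
  have hε := hn.eps_nonneg
  have heq : D'.J (L u) - L (D.J u) =
      D'.J (L u - u) - (D.J - D'.J) u - (L (D.J u) - D.J u) := by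
    rw [map_sub, sub_apply]; abel
  have a1 : ‖D'.J (L u - u)‖ ≤ M * (ε * ‖u‖) :=
    (D'.J.le_opNorm _).trans (mul_le_mul hD'.J_le hu.1 (norm_nonneg _)
      ((norm_nonneg _).trans hD'.J_le))
  have a2 : ‖(D.J - D'.J) u‖ ≤ ε * ‖u‖ :=
    ((D.J - D'.J).le_opNorm u).trans (mul_le_mul_of_nonneg_right hn.J_sub (norm_nonneg _))
  have a3 : ‖L (D.J u) - D.J u‖ ≤ ε * (M * ‖u‖) := hJu.1.trans (mul_le_mul_of_nonneg_left
    ((D.J.le_opNorm u).trans (mul_le_mul_of_nonneg_right hD.J_le (norm_nonneg _))) hε)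
  rw [heq]
  have b1 := norm_sub_le (D'.J (L u - u) - (D.J - D'.J) u) (L (D.J u) - D.J u)
  have b2 := norm_sub_le (D'.J (L u - u)) ((D.J - D'.J) u)
  linarith

/-- The quadratic form of the pulled back form, compared with the original one. -/
lemma Near.key (hn : Near L D D' M ε) (hD : D.Bdd c M) (hD' : D'.Bdd c M) (hc : 0 < c)
    (hh : D'.Psd h) (htr : q h D'.Om = 1) (u : V) :
    ev h (L u) (D'.J (L u)) ≤ 2 * ev (pull L h) u (D.J u)
        + 12 * M ^ 4 / c * (2 * M + 1) ^ 2 * ε ^ 2 * ‖u‖ ^ 2 ∧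
      ev (pull L h) u (D.J u) ≤ 2 * ev h (L u) (D'.J (L u))
        + 12 * M ^ 4 / c * (2 * M + 1) ^ 2 * ε ^ 2 * ‖u‖ ^ 2 := by
  set w := D'.J (L u) - L (D.J u) with hw
  set e' := D'.J w with he'
  have hM : 0 ≤ M := (norm_nonneg _).trans hD.J_le
  have h1 : ev (pull L h) u (D.J u) =
      D'.setup.B 0 h (L u) (L u) + D'.setup.B 0 h (L u) e' := by
    change _ = ev h (L u) (D'.J (L u)) + ev h (L u) (D'.J e')
    rw [ev_pull, he', D'.sq, hw, neg_sub, ← ev_add_right, add_sub_cancel]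
  have hen : ‖e'‖ ≤ M * ((2 * M + 1) * ε * ‖u‖) :=
    (D'.J.le_opNorm _).trans (mul_le_mul hD'.J_le (hn.comm_le hD hD' u) (norm_nonneg _) hM)
  have hBe : D'.setup.B 0 h e' e' ≤ 12 * M ^ 4 / c * (2 * M + 1) ^ 2 * ε ^ 2 * ‖u‖ ^ 2 := by
    refine (B_self_le_norm hD' hc hh htr e').trans ?_
    calc 12 * M ^ 2 / c * ‖e'‖ ^ 2 ≤ 12 * M ^ 2 / c * (M * ((2 * M + 1) * ε * ‖u‖)) ^ 2 := by
          gcongr
      _ = _ := by ring
  have hcs := D'.setup.B_cs hh (L u) e'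
  have hu0 := D'.setup.B_nonneg hh (L u)
  have he0 := D'.setup.B_nonneg hh e'
  have hab : |D'.setup.B 0 h (L u) e'| ≤
      (D'.setup.B 0 h (L u) (L u) + D'.setup.B 0 h e' e') / 2 := by
    refine abs_le.2 (abs_le_of_sq_le_sq' ?_ (by linarith))
    nlinarith [sq_nonneg (D'.setup.B 0 h (L u) (L u) - D'.setup.B 0 h e' e')]
  have hab' := abs_le.1 hab
  rw [h1]
  change D'.setup.B 0 h (L u) (L u) ≤ _ ∧ _ ≤ 2 * D'.setup.B 0 h (L u) (L u) + _
  constructor <;> linarith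

lemma B_parallelogram (hh : D.Psd h) (u v : V) :
    ev h (u + v) (D.J (u + v)) ≤ 2 * ev h u (D.J u) + 2 * ev h v (D.J v) := by
  have h0 := hh.2 (u + (-1 : ℝ) • v)
  change 0 ≤ D.setup.B 0 h (u + (-1 : ℝ) • v) (u + (-1 : ℝ) • v) at h0
  change D.setup.B 0 h (u + v) (u + v) ≤
    2 * D.setup.B 0 h u u + 2 * D.setup.B 0 h v v
  simp only [Setup.B_add_left, Setup.B_add_right, Setup.B_smul_left, Setup.B_smul_right] at h0 ⊢
  linarith

/-- The quadratic form along a map near the identity. -/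
lemma Near.B_comp_le (hn : Near L D D' M ε) (hD' : D'.Bdd c M) (hc : 0 < c)
    (hh : D'.Psd h) (htr : q h D'.Om = 1) (u : V) :
    ev h u (D'.J u) ≤ 2 * ev h (L u) (D'.J (L u)) + 24 * M ^ 2 / c * ε ^ 2 * ‖u‖ ^ 2 ∧
      ev h (L u) (D'.J (L u)) ≤ 2 * ev h u (D'.J u) + 24 * M ^ 2 / c * ε ^ 2 * ‖u‖ ^ 2 := by
  have hb : ∀ v : V, ‖v‖ ≤ ε * ‖u‖ →
      2 * ev h v (D'.J v) ≤ 24 * M ^ 2 / c * ε ^ 2 * ‖u‖ ^ 2 := fun v hv => by
    have h1 := B_self_le_norm hD' hc hh htr v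
    have h2 : ‖v‖ ^ 2 ≤ (ε * ‖u‖) ^ 2 := pow_le_pow_left₀ (norm_nonneg _) hv 2
    have h3 := mul_le_mul_of_nonneg_left h2 (show 0 ≤ 12 * M ^ 2 / c by positivity)
    calc 2 * ev h v (D'.J v) ≤ 2 * (12 * M ^ 2 / c * (ε * ‖u‖) ^ 2) := by linarith
      _ = _ := by ring
  have hu := (hn.L_apply_le u).1
  constructor
  · have h1 := B_parallelogram hh (L u) (u - L u)
    rw [add_sub_cancel] at h1
    have h2 := hb (u - L u) (by rwa [norm_sub_rev])
    linarith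
  · have h1 := B_parallelogram hh u (L u - u)
    rw [add_sub_cancel] at h1
    have h2 := hb (L u - u) hu
    linarith

/-- The anti-invariant part of a moved form. -/
lemma Near.piM_le (hn : Near L D D' M ε) (hD : D.Bdd c M) (hD' : D'.Bdd c M) (hh : D'.Psd h) :
    ‖piM D.J (pull L h)‖ ≤ 72 * (M * (1 + M) * (2 * M + 1)) * ε * ‖h‖ := by
  have hM : 0 ≤ M := (norm_nonneg _).trans hD.J_le
  have hε := hn.eps_nonneg
  refine (norm_le_of_ev (K := 12 * (M * (1 + M) * (2 * M + 1)) * ε * ‖h‖) fun i j => ?_).trans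
    (le_of_eq (by ring))
  set a := e i
  set b := e j
  have ha : ‖a‖ = 1 := norm_e i
  have hb : ‖b‖ = 1 := norm_e j
  have hinv : ev h (L a) (L b) = ev h (D'.J (L a)) (D'.J (L b)) :=
    (D'.setup.ev_inv hh.1 (L a) (L b)).symm
  have hval : ev (piM D.J (pull L h)) a b = (ev h (D'.J (L a) - L (D.J a)) (D'.J (L b))
      + ev h (L (D.J a)) (D'.J (L b) - L (D.J b))) / 2 := by
    have hl : ∀ p r w : V, ev h (p - r) w = ev h p w - ev h r w := fun p r w => by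
      simp only [ev_def, Pi.sub_apply]; ring
    have hr : ∀ p r w : V, ev h w (p - r) = ev h w p - ev h w r := fun p r w => by
      simp only [ev_def, Pi.sub_apply]; ring
    rw [piM, ev_smul, ev_sub, ev_pull, ev_pull, ev_pull, hinv, hl, hr]
    ring
  have hLa := (hn.L_apply_le a).2
  have hLb := (hn.L_apply_le b).2
  have hLJ := (hn.L_apply_le (D.J a)).2
  rw [ha, mul_one] at hLa
  rw [hb, mul_one] at hLb
  have d1 := hn.comm_le hD hD' a
  have d2 := hn.comm_le hD hD' b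
  rw [ha, mul_one] at d1
  rw [hb, mul_one] at d2
  have d3 : ‖D'.J (L b)‖ ≤ M * (1 + M) :=
    (D'.J.le_opNorm _).trans (mul_le_mul hD'.J_le hLb (norm_nonneg _) hM)
  have d4 : ‖L (D.J a)‖ ≤ M * (1 + M) := by
    refine hLJ.trans ?_
    rw [mul_comm M]
    refine mul_le_mul_of_nonneg_left ((D.J.le_opNorm a).trans ?_) (by linarith)
    rw [ha, mul_one]
    exact hD.J_le
  rw [hval, abs_div, abs_two, div_le_iff₀ two_pos]
  refine (abs_add_le _ _).trans ((add_le_add (abs_ev_le _ _ _) (abs_ev_le _ _ _)).trans ?_)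
  have e1 := mul_le_mul d1 d3 (norm_nonneg _) (by positivity)
  have e2 := mul_le_mul d4 d2 (norm_nonneg _) (by positivity)
  have e3 := mul_le_mul_of_nonneg_left e1 (norm_nonneg h)
  have e4 := mul_le_mul_of_nonneg_left e2 (norm_nonneg h)
  linarith

/-- Pulling back by a map near the identity moves a form little. -/
lemma Near.pull_sub_le (hn : Near L D D' M ε) (h : Form) :
    ‖pull L h - h‖ ≤ 72 * (2 + M) * ε * ‖h‖ := by
  refine (norm_le_of_ev (K := 12 * (2 + M) * ε * ‖h‖) fun i j => ?_).trans (le_of_eq (by ring))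
  have hval : ev (pull L h - h) (e i) (e j) =
      ev h (L (e i) - e i) (L (e j)) + ev h (e i) (L (e j) - e j) := by
    rw [ev_sub, ev_pull]
    simp only [ev_def, Pi.sub_apply]; ring
  have h1 := hn.L_apply_le (e i)
  have h2 := hn.L_apply_le (e j)
  rw [norm_e, mul_one, mul_one] at h1 h2
  rw [hval]
  refine (abs_add_le _ _).trans ((add_le_add (abs_ev_le _ _ _) (abs_ev_le _ _ _)).trans ?_)
  have e1 := mul_le_mul_of_nonneg_left
    (mul_le_mul h1.1 h2.2 (norm_nonneg _) hn.eps_nonneg) (norm_nonneg h)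
  have e2 := mul_le_mul_of_nonneg_left h2.1 (norm_nonneg h)
  rw [norm_e, one_mul]
  linarith

end Datum

/-- A normalised positive form moved by a congruence near the identity: positivity up to `ε ^ 2`,
anti-invariant part and trace up to `ε`, and the quadratic form comparable with the original. -/
theorem exists_move {c M : ℝ} (hc : 0 < c) (hM : 0 < M) :
    ∃ C, 0 < C ∧ ∀ (D D' : Datum) (L : V →L[ℝ] V) (h : Form) (ε : ℝ),
      D.Bdd c M → D'.Bdd c M → Near L D D' M ε → D'.Psd h → q h D'.Om = 1 →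
      D.Psd (piP D.J (pull L h) + (C * ε ^ 2) • D.Om) ∧
        ‖piM D.J (pull L h)‖ ≤ C * ε ∧
        |q (piP D.J (pull L h)) D.Om - 1| ≤ C * ε ∧
        ∀ u,
          ev h u (D'.J u) ≤ 4 * ev (piP D.J (pull L h)) u (D.J u) + C * ε ^ 2 * ‖u‖ ^ 2 ∧
          ev h (L u) (D'.J (L u)) ≤
            2 * ev (piP D.J (pull L h)) u (D.J u) + C * ε ^ 2 * ‖u‖ ^ 2 ∧
          ev (piP D.J (pull L h)) u (D.J u) ≤ 4 * ev h u (D'.J u) + C * ε ^ 2 * ‖u‖ ^ 2 := by
  set K := 12 * M ^ 4 / c * (2 * M + 1) ^ 2 with hK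
  set T := 24 * M ^ 2 / c with hT
  set N := 72 * M ^ 2 / c with hN
  set P := 72 * (M * (1 + M) * (2 * M + 1)) with hP
  set R := 6 * (72 * (2 + M) * N * M + N) with hR
  have hK0 : 0 ≤ K := by positivity
  have hT0 : 0 ≤ T := by positivity
  have hN0 : 0 < N := by positivity
  have hP0 : 0 ≤ P := by positivity
  have hR0 : 0 < R := by positivity
  refine ⟨2 * K + 2 * T + K / c + P * N + R, by positivity,
    fun D D' L h ε hD hD' hn hh htr => ?_⟩
  set C := 2 * K + 2 * T + K / c + P * N + R with hC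
  have hKc : 0 ≤ K / c := by positivity
  have hPN : 0 ≤ P * N := by positivity
  have hε := hn.eps_nonneg
  have hnorm : ‖h‖ ≤ N := norm_le hD' hc hh htr
  have hev : ∀ u, ev (piP D.J (pull L h)) u (D.J u) = ev (pull L h) u (D.J u) := fun u => by
    simpa [setup] using D.setup.ev_piP_self 0 (pull L h) u
  have hw : ∀ u : V, 0 ≤ ε ^ 2 * ‖u‖ ^ 2 := fun u => by positivity
  have hscale : ∀ (a : ℝ) (u : V), a ≤ C → a * ε ^ 2 * ‖u‖ ^ 2 ≤ C * ε ^ 2 * ‖u‖ ^ 2 :=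
    fun a u ha => by
      rw [mul_assoc, mul_assoc]
      exact mul_le_mul_of_nonneg_right ha (hw u)
  refine ⟨⟨?_, fun u => ?_⟩, ?_, ?_, fun u => ?_⟩
  · change piM D.J _ = 0
    rw [piM_add, piM_smul, D.inv, smul_zero, add_zero]
    exact D.setup.piM_piP 0 _
  · change 0 ≤ ev _ u (D.J u)
    rw [ev_add, ev_smul, hev]
    have h1 := (hn.key hD hD' hc hh htr u).1
    have h2 := hh.2 (L u)
    change 0 ≤ ev h (L u) (D'.J (L u)) at h2
    have h3 := mul_le_mul_of_nonneg_left (hD.lower u)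
      (show 0 ≤ C * ε ^ 2 by positivity)
    have h4 : C * ε ^ 2 * (c * ‖u‖ ^ 2) = C * c * ε ^ 2 * ‖u‖ ^ 2 := by ring
    have h5 : K ≤ C * c := by
      rw [← div_le_iff₀ hc]; linarith
    have h6 : K * ε ^ 2 * ‖u‖ ^ 2 ≤ C * c * ε ^ 2 * ‖u‖ ^ 2 := by gcongr
    have h7 : 0 ≤ K * ε ^ 2 * ‖u‖ ^ 2 := by positivity
    linarith
  · refine (hn.piM_le hD hD' hh).trans ?_
    calc P * ε * ‖h‖ ≤ P * ε * N := mul_le_mul_of_nonneg_left hnorm (by positivity)
      _ = P * N * ε := by ring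
      _ ≤ C * ε := mul_le_mul_of_nonneg_right (by linarith) hε
  · have hq : q (piP D.J (pull L h)) D.Om = q (pull L h) D.Om := by
      have := D.setup.q_piP_left 0 (pull L h) D.Om
      simp only [setup] at this
      rw [this]
      conv_rhs => rw [← piP_add_piM D.J D.Om, D.inv, add_zero]
    rw [hq, ← htr, show q (pull L h) D.Om - q h D'.Om =
      q (pull L h - h) D.Om + q h (D.Om - D'.Om) by rw [q_sub_left, q_sub_right]; ring]
    refine (abs_add_le _ _).trans ((add_le_add (abs_q_le _ _) (abs_q_le _ _)).trans ?_)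
    calc 6 * (‖pull L h - h‖ * ‖D.Om‖) + 6 * (‖h‖ * ‖D.Om - D'.Om‖)
          ≤ 6 * (72 * (2 + M) * ε * N * M) + 6 * (N * ε) := by
          gcongr
          · exact (hn.pull_sub_le h).trans (by gcongr)
          · exact hD.Om_le
          · exact hn.Om_sub
      _ = R * ε := by rw [hR]; ring
      _ ≤ C * ε := mul_le_mul_of_nonneg_right (by linarith) hε
  · obtain ⟨k1, k2⟩ := hn.key hD hD' hc hh htr u
    obtain ⟨b1, b2⟩ := hn.B_comp_le hD' hc hh htr u
    rw [hev]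
    refine ⟨?_, ?_, ?_⟩
    · have := hscale (2 * K + T) u (by linarith)
      linarith
    · have := hscale K u (by linarith)
      linarith
    · have := hscale (K + 2 * T) u (by linarith)
      linarith

/-- Two positive forms at nearby points pair almost nonnegatively. -/
theorem exists_pair_lower {c M : ℝ} (hc : 0 < c) (hM : 0 < M) :
    ∃ C, 0 < C ∧ ∀ (D D' : Datum) (h h' : Form) (ε : ℝ),
      D.Bdd c M → D'.Bdd c M → Near 1 D D' M ε →
      D.Psd h → q h D.Om = 1 → D'.Psd h' → q h' D'.Om = 1 → -(C * ε ^ 2) ≤ q h h' := by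
  obtain ⟨C, hC, hmove⟩ := exists_move hc hM
  refine ⟨C, hC, fun D D' h h' ε hD hD' hn hh htr hh' htr' => ?_⟩
  have h1 := D.setup.q_psd_psd hh (hmove D D' 1 h' ε hD hD' hn hh' htr').1
  have h2 : pull (1 : V →L[ℝ] V) h' = h' := form_ext fun u v => by simp [ev_pull]
  have h3 := D.setup.q_inv_piP hh.1 h'
  change q h h' = q h (piP D.J h') at h3
  rw [q_add_right, q_smul_right, htr, mul_one, h2, ← h3] at h1
  linarith

/-- A form and its congruent, both moved to `D`: the second one dominates a multiple of the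
first. -/
lemma Datum.Near.pair_data {c M C E A ε : ℝ} {D D' : Datum} {L : V →L[ℝ] V} {h : Form}
    (hc : 0 < c) (hC : 0 < C) (hE : E = 5 * C / c + 9 * C) (hA : A = 1 + C * M)
    (hmove : ∀ (D D' : Datum) (L : V →L[ℝ] V) (h : Form) (ε : ℝ),
      D.Bdd c M → D'.Bdd c M → Near L D D' M ε → D'.Psd h → q h D'.Om = 1 →
      D.Psd (piP D.J (pull L h) + (C * ε ^ 2) • D.Om) ∧
        ‖piM D.J (pull L h)‖ ≤ C * ε ∧
        |q (piP D.J (pull L h)) D.Om - 1| ≤ C * ε ∧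
        ∀ u,
          ev h u (D'.J u) ≤ 4 * ev (piP D.J (pull L h)) u (D.J u) + C * ε ^ 2 * ‖u‖ ^ 2 ∧
          ev h (L u) (D'.J (L u)) ≤
            2 * ev (piP D.J (pull L h)) u (D.J u) + C * ε ^ 2 * ‖u‖ ^ 2 ∧
          ev (piP D.J (pull L h)) u (D.J u) ≤ 4 * ev h u (D'.J u) + C * ε ^ 2 * ‖u‖ ^ 2)
    (hD : D.Bdd c M) (hD' : D'.Bdd c M) (hn : Near L D D' M ε) (hh : D'.Psd h)
    (htr : q h D'.Om = 1) :
    D.Psd (piP D.J h + (C * ε ^ 2) • D.Om) ∧
      D.Psd (piP D.J (pull L h) + (C * ε ^ 2) • D.Om) ∧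
      D.Psd ((16 : ℝ) • (piP D.J (pull L h) + (C * ε ^ 2) • D.Om) + (E * ε ^ 2) • D.Om
        - (piP D.J h + (C * ε ^ 2) • D.Om)) ∧
      (|q (piP D.J h) D.Om| ≤ A ∧ |q (piP D.J (pull L h)) D.Om| ≤ A) ∧
      ‖piM D.J h‖ ≤ C * ε ∧ ‖piM D.J (pull L h)‖ ≤ C * ε := by
  have hε := hn.eps_nonneg
  have hpull : ∀ h : Form, pull (1 : V →L[ℝ] V) h = h := fun h =>
    form_ext fun u v => by simp [ev_pull]
  have hE0 : 0 < E := by rw [hE]; positivity
  have hn1 : Near 1 D D' M ε := ⟨by simpa using hε, hn.J_sub, hn.Om_sub, hn.eps_le⟩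
  obtain ⟨p1, m1, r1, b1⟩ := hmove D D' 1 h ε hD hD' hn1 hh htr
  obtain ⟨p2, m2, r2, b2⟩ := hmove D D' L h ε hD hD' hn hh htr
  simp only [hpull] at p1 m1 r1 b1
  have hCε : C * ε ≤ C * M := mul_le_mul_of_nonneg_left hn.eps_le hC.le
  refine ⟨p1, p2, ⟨?_, fun u => ?_⟩, ⟨?_, ?_⟩, m1, m2⟩
  · have e1 : piM D.J (piP D.J h + (C * ε ^ 2) • D.Om) = 0 := p1.1
    have e2 : piM D.J (piP D.J (pull L h) + (C * ε ^ 2) • D.Om) = 0 := p2.1
    change piM D.J _ = 0
    rw [piM_sub, piM_add, piM_smul, piM_smul, e1, e2, D.inv]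
    simp
  · change 0 ≤ ev _ u (D.J u)
    rw [ev_sub, ev_add, ev_smul, ev_smul, ev_add, ev_add, ev_smul]
    obtain ⟨a1, a2, a3⟩ := b1 u
    obtain ⟨c1, c2, c3⟩ := b2 u
    have k1 : ev (piP D.J h) u (D.J u) ≤
        4 * ev h u (D'.J u) + C * ε ^ 2 * ‖u‖ ^ 2 := a3
    have h3 := mul_le_mul_of_nonneg_left (hD.lower u)
      (show 0 ≤ E * ε ^ 2 by positivity)
    have h5 : 5 * C ≤ E * c := by
      rw [← div_le_iff₀ hc, hE]; linarith
    have h6 : 5 * C * (ε ^ 2 * ‖u‖ ^ 2) ≤ E * c * (ε ^ 2 * ‖u‖ ^ 2) :=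
      mul_le_mul_of_nonneg_right h5 (by positivity)
    have h7 : 0 ≤ C * ε ^ 2 * ev D.Om u (D.J u) := by
      refine mul_nonneg (by positivity) ?_
      exact le_trans (mul_nonneg hc.le (sq_nonneg ‖u‖)) (hD.lower u)
    linarith
  · have := abs_le.1 r1
    rw [abs_le, hA]; constructor <;> linarith
  · have := abs_le.1 r2
    rw [abs_le, hA]; constructor <;> linarith

/-- The pairing of two positive forms is controlled by that of their pullbacks by congruences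
near the identity. -/
theorem exists_pair_congr {c M : ℝ} (hc : 0 < c) (hM : 0 < M) :
    ∃ C, 0 < C ∧ ∀ (D D₁ D₂ : Datum) (L₁ L₂ : V →L[ℝ] V) (h₁ h₂ : Form) (ε : ℝ),
      D.Bdd c M → D₁.Bdd c M → D₂.Bdd c M → Near L₁ D D₁ M ε → Near L₂ D D₂ M ε →
      D₁.Psd h₁ → q h₁ D₁.Om = 1 → D₂.Psd h₂ → q h₂ D₂.Om = 1 →
      q h₁ h₂ ≤ 256 * q (pull L₁ h₁) (pull L₂ h₂) + C * ε ^ 2 := by
  obtain ⟨C, hC, hmove⟩ := exists_move hc hM
  set A := 1 + C * M with hA
  set E := (5 * C) / c + 9 * C with hE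
  have hE0 : 0 < E := by positivity
  have hA0 : 0 < A := by positivity
  set G := 1542 * C ^ 2 + 514 * (C * A) + 32 * (E * A)
    + (256 * C ^ 2 + 32 * (E * C) + E ^ 2) * M ^ 2 * (12 * M ^ 2) with hG
  refine ⟨G, by positivity,
    fun D D₁ D₂ L₁ L₂ h₁ h₂ ε hD hD₁ hD₂ n₁ n₂ hh₁ t₁ hh₂ t₂ => ?_⟩
  have hε := n₁.eps_nonneg
  have he2 : 0 ≤ ε ^ 2 := sq_nonneg ε
  have he4 : ε ^ 2 * ε ^ 2 ≤ M ^ 2 * ε ^ 2 :=
    mul_le_mul_of_nonneg_right (pow_le_pow_left₀ hε n₁.eps_le 2) he2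
  have hOm : 0 ≤ q D.Om D.Om ∧ q D.Om D.Om ≤ 12 * M ^ 2 := by
    refine ⟨D.orient.le, (le_abs_self _).trans ((abs_q_le _ _).trans ?_)⟩
    have := mul_le_mul hD.Om_le hD.Om_le (norm_nonneg _) hM.le
    nlinarith [sq_nonneg M]
  have hpull : ∀ h : Form, pull (1 : V →L[ℝ] V) h = h := fun h =>
    form_ext fun u v => by simp [ev_pull]
  obtain ⟨g₁, H₁, K₁, ⟨ta₁, tb₁⟩, ma₁, mb₁⟩ :=
    n₁.pair_data hc hC hE hA hmove hD hD₁ hh₁ t₁
  obtain ⟨g₂, H₂, K₂, ⟨ta₂, tb₂⟩, ma₂, mb₂⟩ :=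
    n₂.pair_data hc hC hE hA hmove hD hD₂ hh₂ t₂
  have hOmP : D.Psd D.Om := by
    have := D.setup.psd_Om 0
    rwa [D.setup_Om] at this
  have P₁ : D.Psd ((16 : ℝ) • (piP D.J (pull L₁ h₁) + (C * ε ^ 2) • D.Om) + (E * ε ^ 2) • D.Om) :=
    D.setup.psd_add (D.setup.psd_smul (by norm_num) H₁)
      (D.setup.psd_smul (by positivity) hOmP)
  have s1 := D.setup.q_psd_psd K₁ g₂
  have s2 := D.setup.q_psd_psd P₁ K₂
  simp only [q_sub_left, q_sub_right, q_add_left, q_add_right, q_smul_left, q_smul_right] at s1 s2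
  have hsplit : ∀ a b : Form,
      q (piP D.J a) (piP D.J b) = q a b - q (piM D.J a) (piM D.J b) := fun a b => by
    have := D.setup.q_decomp 0 a b
    simp only [setup] at this
    linarith
  have hsmall : ∀ a b : Form, ‖a‖ ≤ C * ε → ‖b‖ ≤ C * ε → |q a b| ≤ 6 * C ^ 2 * ε ^ 2 :=
    fun a b ha hb => (abs_q_le a b).trans (le_trans (mul_le_mul_of_nonneg_left
      (mul_le_mul ha hb (norm_nonneg _) (by positivity)) (by norm_num)) (le_of_eq (by ring)))
  have S1 := abs_le.1 (hsmall _ _ ma₁ ma₂)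
  have S2 := abs_le.1 (hsmall _ _ mb₁ mb₂)
  have lin : ∀ (k x : ℝ), 0 ≤ k → |x| ≤ A →
      -(k * A) * ε ^ 2 ≤ k * ε ^ 2 * x ∧ k * ε ^ 2 * x ≤ k * A * ε ^ 2 := fun k x hk hx => by
    obtain ⟨x1, x2⟩ := abs_le.1 hx
    have hkε : 0 ≤ k * ε ^ 2 := mul_nonneg hk he2
    exact ⟨by nlinarith [mul_le_mul_of_nonneg_left x1 hkε],
      by nlinarith [mul_le_mul_of_nonneg_left x2 hkε]⟩
  have quart : ∀ k : ℝ, 0 ≤ k → 0 ≤ k * (ε ^ 2 * ε ^ 2) * q D.Om D.Om ∧
      k * (ε ^ 2 * ε ^ 2) * q D.Om D.Om ≤ k * M ^ 2 * (12 * M ^ 2) * ε ^ 2 := fun k hk => by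
    refine ⟨mul_nonneg (by positivity) hOm.1, ?_⟩
    calc k * (ε ^ 2 * ε ^ 2) * q D.Om D.Om
          ≤ k * (M ^ 2 * ε ^ 2) * (12 * M ^ 2) :=
          mul_le_mul (mul_le_mul_of_nonneg_left he4 hk) hOm.2 hOm.1 (by positivity)
      _ = _ := by ring
  simp only [q_comm D.Om] at s1 s2
  have l1 := lin C _ hC.le ta₁
  have l2 := lin C _ hC.le ta₂
  have l3 := lin C _ hC.le tb₁
  have l4 := lin C _ hC.le tb₂
  have l5 := lin E _ hE0.le tb₁
  have l6 := lin E _ hE0.le tb₂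
  have q1 := quart (C ^ 2) (sq_nonneg C)
  have q2 := quart (E * C) (by positivity)
  have q3 := quart (E ^ 2) (sq_nonneg E)
  rw [hsplit (pull L₁ h₁) (pull L₂ h₂)] at s2
  rw [hsplit h₁ h₂] at s1
  linarith [l1.1, l2.1, l3.2, l4.2, l5.2, l6.2, q1.1, q1.2, q2.2, q3.2]

lemma Datum.exists_iota (D : Datum) (w : V) : ∃ v, iota v D.Om = w := by
  obtain ⟨v, hv⟩ := D.setup.exists_iota 0 w
  exact ⟨v, by rwa [D.setup_Om] at hv⟩

lemma Datum.iota_bound {D : Datum} {c M : ℝ} (hD : D.Bdd c M) (hc : 0 < c) (v : V) :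
    ‖v‖ ≤ 4 * M / c * ‖iota v D.Om‖ := by
  have hM : 0 ≤ M := (norm_nonneg _).trans hD.J_le
  have h : c * ‖v‖ ^ 2 ≤ 4 * (‖iota v D.Om‖ * (M * ‖v‖)) := by
    refine ((hD.lower v).trans ((le_of_eq (pair_iota v D.Om (D.J v)).symm).trans
      ((le_abs_self _).trans (abs_pair_le _ _)))).trans ?_
    gcongr
    exact (D.J.le_opNorm v).trans (mul_le_mul_of_nonneg_right hD.J_le (norm_nonneg _))
  rcases eq_or_lt_of_le (norm_nonneg v) with h0 | h0
  · rw [← h0]; positivity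
  · rw [div_mul_eq_mul_div, le_div_iff₀ hc]
    nlinarith

/-- The direction attached to a covector and a positive form, measured by a nearby one. -/
theorem exists_vec_bound {c M : ℝ} (hc : 0 < c) (hM : 0 < M) :
    ∃ C, 0 < C ∧ ∀ (D D' : Datum) (h h' : Form) (ε : ℝ) (η : V),
      D.Bdd c M → D'.Bdd c M → Near 1 D D' M ε →
      D.Psd h → q h D.Om = 1 → D'.Psd h' → q h' D'.Om = 1 →
      ‖Setup.vec h η‖ ≤ C * ‖η‖ ∧
        ev h' (Setup.vec h η) (D'.J (Setup.vec h η)) ≤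
          C * ‖η‖ ^ 2 * (q h h' + C * ε ^ 2) := by
  obtain ⟨C₁, hC₁, hmove⟩ := exists_move hc hM
  set A := 72 * (72 * M ^ 2 / c) with hA
  set G := 4 * (12 * M ^ 2 * (4 * M / c) ^ 2) with hG
  have hA0 : 0 < A := by positivity
  have hG0 : 0 < G := by positivity
  set C := A + G + C₁ + C₁ * A ^ 2 / G with hC
  have hCG : 0 ≤ C₁ * A ^ 2 / G := by positivity
  refine ⟨C, by positivity, fun D D' h h' ε η hD hD' hn hh htr hh' htr' => ?_⟩
  set v := Setup.vec h η with hv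
  have hvn : ‖v‖ ≤ A * ‖η‖ := by
    refine (pi_norm_le_iff_of_nonneg (by positivity)).2 fun i => ?_
    rw [Real.norm_eq_abs]
    refine (abs_q_le _ _).trans ?_
    calc 6 * (‖h‖ * ‖wedge (e i) η‖) ≤ 6 * (72 * M ^ 2 / c * (12 * (1 * ‖η‖))) := by
          gcongr
          · exact Datum.norm_le hD hc hh htr
          · exact (norm_wedge_le _ _).trans (by rw [norm_e])
      _ = _ := by rw [hA]; ring
  refine ⟨hvn.trans (mul_le_mul_of_nonneg_right (by linarith) (norm_nonneg _)), ?_⟩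
  obtain ⟨hp, -, -, hmv⟩ := hmove D D' 1 h' ε hD hD' hn hh' htr'
  have hpull : pull (1 : V →L[ℝ] V) h' = h' := form_ext fun u w => by simp [ev_pull]
  simp only [hpull] at hp hmv
  obtain ⟨w, hw⟩ := D.exists_iota η
  have hmain := D.setup.B_vec_le hh hp w
  have hinv : q h (piP D.J h') = q h h' := (D.setup.q_inv_piP hh.1 h').symm
  rw [D.setup_Om, htr, mul_one, hw, ← hv, q_add_right, q_smul_right, htr, mul_one, hinv] at hmain
  have hg : D.setup.g 0 w w ≤ 12 * M ^ 2 * ((4 * M / c) ^ 2 * ‖η‖ ^ 2) := by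
    change ev (D.setup.Om 0) w (D.J w) ≤ _
    rw [D.setup_Om]
    refine ((le_abs_self _).trans (abs_ev_le _ _ _)).trans ?_
    calc 12 * (‖D.Om‖ * (‖w‖ * ‖D.J w‖)) ≤ 12 * (M * (‖w‖ * (M * ‖w‖))) := by
          gcongr
          · exact hD.Om_le
          · exact (D.J.le_opNorm w).trans (mul_le_mul_of_nonneg_right hD.J_le (norm_nonneg _))
      _ = 12 * M ^ 2 * ‖w‖ ^ 2 := by ring
      _ ≤ _ := by
        refine mul_le_mul_of_nonneg_left ?_ (by positivity)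
        rw [← mul_pow, ← hw]
        exact pow_le_pow_left₀ (norm_nonneg _) (Datum.iota_bound hD hc w) 2
  have hpos : 0 ≤ q h h' + C₁ * ε ^ 2 := by
    have := D.setup.q_psd_psd hh hp
    rw [q_add_right, q_smul_right, htr, mul_one, hinv] at this
    exact this
  have h3 : ev (piP D.J h') v (D.J v) ≤
      12 * M ^ 2 * ((4 * M / c) ^ 2 * ‖η‖ ^ 2) * (q h h' + C₁ * ε ^ 2) := by
    refine le_trans ?_ (hmain.trans (mul_le_mul_of_nonneg_right hg hpos))
    change _ ≤ ev _ v (D.J v)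
    rw [ev_add, ev_smul]
    refine le_add_of_nonneg_right (mul_nonneg (by positivity) ?_)
    exact le_trans (mul_nonneg hc.le (sq_nonneg ‖v‖)) (hD.lower v)
  have h5 : ‖v‖ ^ 2 ≤ A ^ 2 * ‖η‖ ^ 2 := by
    rw [← mul_pow]; exact pow_le_pow_left₀ (norm_nonneg _) hvn 2
  have h6 := mul_le_mul_of_nonneg_left h5 (show 0 ≤ C₁ * ε ^ 2 by positivity)
  calc ev h' v (D'.J v) ≤ 4 * (12 * M ^ 2 * ((4 * M / c) ^ 2 * ‖η‖ ^ 2) * (q h h' + C₁ * ε ^ 2))
        + C₁ * ε ^ 2 * (A ^ 2 * ‖η‖ ^ 2) := by linarith [(hmv v).1]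
    _ = G * ‖η‖ ^ 2 * (q h h' + (C₁ + C₁ * A ^ 2 / G) * ε ^ 2) := by
        rw [hG]; field_simp; ring
    _ ≤ C * ‖η‖ ^ 2 * (q h h' + C * ε ^ 2) := by
        refine mul_le_mul (mul_le_mul_of_nonneg_right (by linarith) (sq_nonneg _)) ?_ ?_
          (by positivity)
        · gcongr; linarith
        · have : 0 ≤ C₁ * A ^ 2 / G * ε ^ 2 := by positivity
          linarith

end Vale.Agent.P204.Gen
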