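import Vale.Agent.P204.Gen.PtBounds
import Vale.Agent.P204.Gen.Congr

/-!
P204 on a closed four-manifold: the density of a positive current is bounded.
-/

namespace Vale.Agent.P204.Gen

open Vale.Agent.P204.Torus

variable {X : Type*} [TopologicalSpace X] [T2Space X] [CompactSpace X] [MeasurableSpace X]

/-- The density of a positive current is bounded. -/
theorem Positive.exists_h_bound {S : GSetup X} (T : Positive S) : ∃ N, ∀ x, ‖T.h x‖ ≤ N := by
  obtain ⟨c, M, hc, -, h⟩ := S.exists_pt_bounds
  refine ⟨72 * M ^ 2 / c, fun x => ?_⟩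
  obtain ⟨h1, h2, h3, h4, -, -⟩ := h x
  let D : Datum :=
    { J := S.J x
      Om := S.Om x
      sq := S.J_sq x
      inv := (S.pt x).piM_piP 0 _
      pos := fun u hu => lt_of_lt_of_le (by have := norm_pos_iff.2 hu; positivity) (h1 u)
      orient := by linarith }
  exact Datum.norm_le (D := D) ⟨h1, h2, h3, h4⟩ hc (T.psd x) (T.trace x)

end Vale.Agent.P204.Gen
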