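import Vale.Agent.P204.Gen.GSLimit
import Vale.Agent.P204.Gen.Integral
import Vale.Agent.P204.Gen.HBound

/-!
P204 on a closed four-manifold: module 15 in the shape used by the assembly (helper65).
-/

open MeasureTheory

namespace Vale.Agent.P204.Gen

variable {X : Type*} [TopologicalSpace X] [T2Space X] [CompactSpace X] [MeasurableSpace X]
  [BorelSpace X]

lemma sobZero (G : Geo X) : SobZero G := by
  obtain ⟨C, -, hC⟩ := Geo.exists_sob_zero_equiv G
  exact ⟨C, fun α hα => hC 1 α ((basic G).smooth_mem α hα)⟩

/-- Bounded regularisations make the anti-invariant part square integrable. -/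
theorem exists_slimit {S : GSetup X} (hR : RegFacts S.toGeo) (hS : SobFacts S.toGeo)
    (T : GCurrent S) (D : GUData T) (hb : D.Bounded) : Nonempty D.SLimit := by
  obtain ⟨M, hM⟩ := T.toPositive.exists_h_bound
  exact D.slimit (basic S.toGeo) hR hS (sobZero S.toGeo) hM hb

end Vale.Agent.P204.Gen
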