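import Vale.Agent.P204.Gen.GeoLin

/-!
P204 on a closed four-manifold, module GeoBasic: closed two-forms on an open set of `V` are the
forms which are orthogonal to all exact forms with compact support.
-/

open Set Filter Topology MeasureTheory
open scoped ContDiff BigOperators

namespace Vale.Agent.P204.Gen

open Vale.Agent.P204.Torus

/-- The cyclic sum of the derivative of a two-form. -/
noncomputable def cyc (a : V → Form) (x u v w : V) : ℝ :=
  ev (fderiv ℝ a x u) v w + ev (fderiv ℝ a x v) w u + ev (fderiv ℝ a x w) u v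

/-- The four coordinates of the differential of a two-form. -/
noncomputable def dvec (a : V → Form) (x : V) : V :=
  ![cyc a x (e 1) (e 2) (e 3), cyc a x (e 0) (e 2) (e 3), cyc a x (e 0) (e 3) (e 1),
    cyc a x (e 0) (e 1) (e 2)]

lemma cyc_congr {a a' : V → Form} {x : V} (h : a =ᶠ[𝓝 x] a') (u v w : V) :
    cyc a x u v w = cyc a' x u v w := by simp only [cyc, h.fderiv_eq]

lemma cyc_eq_zero_of_dvec {a : V → Form} {x : V} (h : dvec a x = 0) (u v w : V) :
    cyc a x u v w = 0 := by
  have h0 : cyc a x (e 1) (e 2) (e 3) = 0 := congrFun h 0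
  have h1 : cyc a x (e 0) (e 2) (e 3) = 0 := congrFun h 1
  have h2 : cyc a x (e 0) (e 3) (e 1) = 0 := congrFun h 2
  have h3 : cyc a x (e 0) (e 1) (e 2) = 0 := congrFun h 3
  have hl : ∀ (z : V) (k : Fin 6), fderiv ℝ a x z k =
      z 0 * fderiv ℝ a x (e 0) k + z 1 * fderiv ℝ a x (e 1) k + z 2 * fderiv ℝ a x (e 2) k
        + z 3 * fderiv ℝ a x (e 3) k := fun z k => by
    conv_lhs => rw [sum_e z]
    simp [Fin.sum_univ_four]
  simp only [cyc, ev_def] at h0 h1 h2 h3 ⊢
  simp only [e, Pi.single_eq_same, Pi.single_eq_of_ne, ne_eq, Fin.reduceEq, not_false_eq_true,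
    mul_one, mul_zero, sub_zero, zero_sub, add_zero, zero_add] at h0 h1 h2 h3
  simp only [hl u, hl v, hl w, e]
  linear_combination
    (u 1 * (v 2 * w 3 - v 3 * w 2) - u 2 * (v 1 * w 3 - v 3 * w 1)
      + u 3 * (v 1 * w 2 - v 2 * w 1)) * h0
    + (u 0 * (v 2 * w 3 - v 3 * w 2) - u 2 * (v 0 * w 3 - v 3 * w 0)
      + u 3 * (v 0 * w 2 - v 2 * w 0)) * h1
    + (u 0 * (v 3 * w 1 - v 1 * w 3) - u 3 * (v 0 * w 1 - v 1 * w 0)
      + u 1 * (v 0 * w 3 - v 3 * w 0)) * h2
    + (u 0 * (v 1 * w 2 - v 2 * w 1) - u 1 * (v 0 * w 2 - v 2 * w 0)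
      + u 2 * (v 0 * w 1 - v 1 * w 0)) * h3

lemma continuousOn_dvec {U : Set V} (hU : IsOpen U) {a : V → Form} (ha : ContDiffOn ℝ 1 a U) :
    ContinuousOn (dvec a) U := by
  have hc := ha.continuousOn_fderiv_of_isOpen hU le_rfl
  have h : ∀ u v w, ContinuousOn (fun x => cyc a x u v w) U := fun u v w => by
    have hk : ∀ z k, ContinuousOn (fun x => fderiv ℝ a x z k) U := fun z k =>
      ((EuclideanSpace.proj (𝕜 := ℝ) k).continuous.comp_continuousOn
        (hc.clm_apply continuousOn_const))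
    simp only [cyc, ev_def]
    fun_prop (disch := assumption)
  refine continuousOn_pi.2 fun k => ?_
  fin_cases k <;> simp [dvec] <;> exact h _ _ _

/-- The pairing of a covector against the differential of a two-form. -/
def pair3 (b D : V) : ℝ := -(b 0 * D 0) + b 1 * D 1 + b 2 * D 2 + b 3 * D 3

lemma integral_fderiv_eq_zero {g : V → ℝ} (hg : ContDiff ℝ 1 g) (hc : HasCompactSupport g)
    (z : V) : ∫ x, fderiv ℝ g x z = 0 := by
  have h1 : Continuous fun x => fderiv ℝ g x z :=
    (hg.continuous_fderiv one_ne_zero).clm_apply continuous_const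
  have h := integral_mul_fderiv_eq_neg_fderiv_mul_of_integrable (𝕜 := ℝ) (μ := volume)
    (f := fun _ : V => (1 : ℝ)) (g := g) (v := z) (by simp)
    (by simpa using h1.integrable_of_hasCompactSupport (hc.fderiv_apply ℝ z))
    (by simpa using hg.continuous.integrable_of_hasCompactSupport hc)
    (fun _ _ => differentiableAt_const _) (fun x _ => hg.differentiable one_ne_zero x)
  simpa using h

/-- Integration by parts against an exact form with compact support. -/
theorem integral_q_d1_eq {U : Set V} (hU : IsOpen U) {a : V → Form} (ha : ContDiffOn ℝ 1 a U)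
    {b : V → V} (hb : ContDiff ℝ 1 b) (hc : HasCompactSupport b) (hs : tsupport b ⊆ U) :
    ∫ x, q (a x) (d1 b x) = -∫ x, pair3 (b x) (dvec a x) := by
  have hout : ∀ x, x ∉ tsupport b → b =ᶠ[𝓝 x] fun _ => 0 := fun x hx =>
    notMem_tsupport_iff_eventuallyEq.1 hx
  have hg : ∀ k l, ContDiff ℝ 1 (fun x => a x k * b x l) ∧
      HasCompactSupport fun x => a x k * b x l := fun k l => by
    refine ⟨contDiff_iff_contDiffAt.2 fun x => ?_, hc.mono' fun x hx => subset_tsupport _ fun h0 =>
      hx (by simp [h0])⟩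
    by_cases hx : x ∈ tsupport b
    · exact (((contDiffOn_piLp (p := 2)).1 ha k).contDiffAt (hU.mem_nhds (hs hx))).mul
        (contDiff_pi.1 hb l).contDiffAt
    · refine (contDiffAt_const (c := (0 : ℝ))).congr_of_eventuallyEq ?_
      filter_upwards [hout x hx] with y hy
      simp [hy]
  set P := fun (i : Fin 4) (k : Fin 6) (l : Fin 4) (x : V) =>
    fderiv ℝ (fun y => a y k * b y l) x (e i) with hP
  have hint : ∀ i k l, Integrable (P i k l) ∧ ∫ x, P i k l x = 0 := fun i k l =>
    ⟨(((hg k l).1.continuous_fderiv one_ne_zero).clm_apply continuous_const)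
      |>.integrable_of_hasCompactSupport ((hg k l).2.fderiv_apply ℝ (e i)),
      integral_fderiv_eq_zero (hg k l).1 (hg k l).2 (e i)⟩
  have hpt : ∀ x, q (a x) (d1 b x) + pair3 (b x) (dvec a x) =
      (P 2 0 3 x - P 3 0 2 x) + (P 3 1 1 x - P 1 1 3 x) + (P 1 2 2 x - P 2 2 1 x)
        + (P 0 3 1 x - P 1 3 0 x) + (P 0 4 2 x - P 2 4 0 x) + (P 0 5 3 x - P 3 5 0 x) := by
    intro x
    by_cases hx : x ∈ tsupport b
    · have hd := (ha.contDiffAt (hU.mem_nhds (hs hx))).differentiableAt one_ne_zero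
      have hak : ∀ k, HasFDerivAt (fun y => a y k)
          ((EuclideanSpace.proj (𝕜 := ℝ) k).comp (fderiv ℝ a x)) x := fun k =>
        (EuclideanSpace.proj (𝕜 := ℝ) k).hasFDerivAt.comp x hd.hasFDerivAt
      have hbl : ∀ l, HasFDerivAt (fun y => b y l)
          ((ContinuousLinearMap.proj (R := ℝ) (φ := fun _ : Fin 4 => ℝ) l).comp (fderiv ℝ b x)) x :=
        fun l => (ContinuousLinearMap.proj (R := ℝ) (φ := fun _ : Fin 4 => ℝ) l).hasFDerivAt.comp x
          (hb.differentiable one_ne_zero x).hasFDerivAt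
      have hp : ∀ i k l, P i k l x =
          a x k * fderiv ℝ b x (e i) l + b x l * fderiv ℝ a x (e i) k := fun i k l => by
        simp only [hP]
        rw [((hak k).fun_mul (hbl l)).fderiv]
        simp
      simp only [hp, q, d1_apply, pair3, dvec, cyc, ev_def, fi, se, Matrix.cons_val_zero,
        Matrix.cons_val_one, Matrix.cons_val, e, Pi.single_eq_same, Pi.single_eq_of_ne, ne_eq,
        Fin.reduceEq, not_false_eq_true]
      ring
    · have h0 : b x = 0 := (hout x hx).self_of_nhds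
      have hp : ∀ i k l, P i k l x = 0 := fun i k l => by
        simp only [hP]
        rw [Filter.EventuallyEq.fderiv_eq (f := fun _ => (0 : ℝ))
          ((hout x hx).mono fun y hy => by simp [hy])]
        simp
      simp [hp, pair3, h0, d1_apply, q, (hout x hx).fderiv_eq]
  have hb1 : Integrable fun x => pair3 (b x) (dvec a x) := by
    have hco := continuousOn_dvec hU ha
    have hcont : Continuous fun x => pair3 (b x) (dvec a x) := by
      refine continuous_iff_continuousAt.2 fun x => ?_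
      by_cases hx : x ∈ tsupport b
      · have hD := fun l => ((continuous_apply l).continuousAt).comp
          (hco.continuousAt (hU.mem_nhds (hs hx)))
        have hB := fun l => ((continuous_apply l).comp hb.continuous).continuousAt (x := x)
        exact ((((hB 0).mul (hD 0)).neg.add ((hB 1).mul (hD 1))).add ((hB 2).mul (hD 2))).add
          ((hB 3).mul (hD 3))
      · refine (continuousAt_const (y := (0 : ℝ))).congr ?_
        filter_upwards [hout x hx] with y hy
        simp [pair3, hy]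
    exact hcont.integrable_of_hasCompactSupport (hc.mono' fun x hx => subset_tsupport _ fun h0 =>
      hx (by simp [pair3, h0]))
  have hS : ∀ i k l i' k' l', Integrable (fun x => P i k l x - P i' k' l' x) ∧
      ∫ x, (P i k l x - P i' k' l' x) = 0 := fun i k l i' k' l' => ⟨(hint i k l).1.sub (hint i' k' l').1,
    by rw [integral_sub (hint i k l).1 (hint i' k' l').1, (hint i k l).2, (hint i' k' l').2,
      sub_zero]⟩
  rw [show (fun x => q (a x) (d1 b x)) = fun x =>
    ((P 2 0 3 x - P 3 0 2 x) + (P 3 1 1 x - P 1 1 3 x) + (P 1 2 2 x - P 2 2 1 x)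
        + (P 0 3 1 x - P 1 3 0 x) + (P 0 4 2 x - P 2 4 0 x) + (P 0 5 3 x - P 3 5 0 x))
      - pair3 (b x) (dvec a x) from funext fun x => by rw [← hpt]; ring]
  have i12 : Integrable fun x => (P 2 0 3 x - P 3 0 2 x) + (P 3 1 1 x - P 1 1 3 x) :=
    (hS 2 0 3 3 0 2).1.add (hS 3 1 1 1 1 3).1
  have i123 : Integrable fun x => (P 2 0 3 x - P 3 0 2 x) + (P 3 1 1 x - P 1 1 3 x) + (P 1 2 2 x - P 2 2 1 x) := i12.add (hS 1 2 2 2 2 1).1
  have i1234 : Integrable fun x => (P 2 0 3 x - P 3 0 2 x) + (P 3 1 1 x - P 1 1 3 x) + (P 1 2 2 x - P 2 2 1 x) + (P 0 3 1 x - P 1 3 0 x) :=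
    i123.add (hS 0 3 1 1 3 0).1
  have i12345 : Integrable fun x => (P 2 0 3 x - P 3 0 2 x) + (P 3 1 1 x - P 1 1 3 x) + (P 1 2 2 x - P 2 2 1 x) + (P 0 3 1 x - P 1 3 0 x)
      + (P 0 4 2 x - P 2 4 0 x) := i1234.add (hS 0 4 2 2 4 0).1
  have i6 : Integrable fun x => (P 2 0 3 x - P 3 0 2 x) + (P 3 1 1 x - P 1 1 3 x) + (P 1 2 2 x - P 2 2 1 x) + (P 0 3 1 x - P 1 3 0 x)
      + (P 0 4 2 x - P 2 4 0 x) + (P 0 5 3 x - P 3 5 0 x) := i12345.add (hS 0 5 3 3 5 0).1
  rw [integral_sub i6 hb1]
  rw [integral_add i12345 (hS 0 5 3 3 5 0).1, integral_add i1234 (hS 0 4 2 2 4 0).1,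
    integral_add i123 (hS 0 3 1 1 3 0).1, integral_add i12 (hS 1 2 2 2 2 1).1,
    integral_add (hS 2 0 3 3 0 2).1 (hS 3 1 1 1 1 3).1,
    (hS 2 0 3 3 0 2).2, (hS 3 1 1 1 1 3).2, (hS 1 2 2 2 2 1).2, (hS 0 3 1 1 3 0).2,
    (hS 0 4 2 2 4 0).2, (hS 0 5 3 3 5 0).2]
  ring

/-- A closed form is orthogonal to exact forms with compact support. -/
theorem integral_q_d1_eq_zero {U : Set V} (hU : IsOpen U) {a : V → Form}
    (ha : ContDiffOn ℝ 1 a U) (hd : ∀ x ∈ U, ∀ u v w, cyc a x u v w = 0) {b : V → V}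
    (hb : ContDiff ℝ 1 b) (hc : HasCompactSupport b) (hs : tsupport b ⊆ U) :
    ∫ x, q (a x) (d1 b x) = 0 := by
  rw [integral_q_d1_eq hU ha hb hc hs]
  have h : ∀ x, pair3 (b x) (dvec a x) = 0 := fun x => by
    by_cases hx : x ∈ tsupport b
    · simp [pair3, dvec, hd x (hs hx)]
    · simp [pair3, image_eq_zero_of_notMem_tsupport hx]
  simp [h]

/-- A form orthogonal to exact forms with compact support is closed. -/
theorem cyc_eq_zero_of_weak {U : Set V} (hU : IsOpen U) {a : V → Form} (ha : ContDiffOn ℝ 1 a U)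
    (hw : ∀ b : V → V, ContDiff ℝ ∞ b → HasCompactSupport b → tsupport b ⊆ U →
      ∫ x, q (a x) (d1 b x) = 0) {x : V} (hx : x ∈ U) (u v w : V) : cyc a x u v w = 0 := by
  refine cyc_eq_zero_of_dvec (funext fun k => ?_) u v w
  have hco : ContinuousOn (fun x => dvec a x k) U :=
    (continuous_apply k).comp_continuousOn (continuousOn_dvec hU ha)
  have h := hU.ae_eq_zero_of_integral_contDiff_smul_eq_zero (μ := volume)
    (hco.locallyIntegrableOn hU.measurableSet) fun g hg hgc hgs => by
      have hb : ContDiff ℝ ∞ fun x => g x • e k := hg.smul contDiff_const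
      have hsupp : tsupport (fun x => g x • e k) ⊆ tsupport g :=
        tsupport_smul_subset_left g fun _ => e k
      have hbc : HasCompactSupport fun x => g x • e k :=
        hgc.of_isClosed_subset (isClosed_tsupport _) hsupp
      have h := hw _ hb hbc (hsupp.trans hgs)
      rw [integral_q_d1_eq hU ha (hb.of_le (WithTop.coe_le_coe.2 le_top)) hbc (hsupp.trans hgs),
        neg_eq_zero] at h
      fin_cases k <;>
        simpa [pair3, e, integral_neg] using h
  exact Measure.eqOn_open_of_ae_eq ((ae_restrict_iff' hU.measurableSet).2 h) hU hco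
    continuousOn_const hx

end Vale.Agent.P204.Gen
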