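import Vale.Agent.P204.Gen.GeoSmooth
import Vale.Agent.P204.Gen.GeoClosedV

/-!
P204 on a closed four-manifold, module GeoBasic: a smooth two-form is weakly closed iff it is
closed in every chart.
-/

open Set Filter Topology MeasureTheory
open scoped ContDiff BigOperators

namespace Vale.Agent.P204.Gen

open Vale.Agent.P204.Torus

namespace Geo

variable {X : Type*} [TopologicalSpace X] [MeasurableSpace X] (G : Geo X)

open Classical in
/-- A one-form of the chart `i`, read on `X` without cut-off. -/
noncomputable def chart1 (i : Fin G.n) (b : V → V) (x : X) : V :=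
  if x ∈ (G.φ i).source then pullV (G.dT i x).inverse (b (G.φ i x)) else 0

lemma rep1_chart1 {i : Fin G.n} (b : V → V) {u : V} (hu : u ∈ (G.φ i).target) :
    G.rep1 i (G.chart1 i b) u = b u := by
  have hi := (G.φ i).map_target hu
  simp only [rep1, hu, if_true, chart1, hi, (G.φ i).right_inv hu,
    pullV_inverse_pullV (G.dT_det_ne hi)]

lemma tsupport_chart1_subset [T2Space X] {i : Fin G.n} {b : V → V} (hc : HasCompactSupport b)
    (hs : tsupport b ⊆ (G.φ i).target) : tsupport (G.chart1 i b) ⊆ (G.φ i).source := by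
  have hK : IsCompact ((G.φ i).symm '' tsupport b) :=
    hc.isCompact.image_of_continuousOn ((G.φ i).continuousOn_symm.mono hs)
  refine (closure_minimal (fun x hx => ?_) hK.isClosed).trans
    (image_subset_iff.2 fun u hu => (G.φ i).map_target (hs hu))
  by_cases hxs : x ∈ (G.φ i).source
  · exact ⟨G.φ i x, subset_tsupport _ fun h => hx (by simp [chart1, hxs, h, pullV_zero]),
      (G.φ i).left_inv hxs⟩
  · exact absurd (by simp [chart1, hxs]) hx

lemma smooth1_chart1 [T2Space X] {i : Fin G.n} {b : V → V} (hb : ContDiff ℝ ∞ b)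
    (hc : HasCompactSupport b) (hs : tsupport b ⊆ (G.φ i).target) :
    G.Smooth1 (G.chart1 i b) := by
  intro j u hu
  refine ContDiffAt.contDiffWithinAt ?_
  have hcont : ContinuousAt (G.φ j).symm u := (G.φ j).continuousAt_symm hu
  by_cases hx : (G.φ j).symm u ∈ (G.φ i).source
  · have hd := G.mem_tdom.2 ⟨hu, hx⟩
    have hT := G.contDiffAt_tc hd
    have hs : ContDiffAt ℝ ∞
        (fun v => pullV (fderiv ℝ (G.tc j i) v) (b (G.tc j i v))) u := by
      refine contDiffAt_pi.2 fun k => ?_
      refine ContDiffAt.sum (s := Finset.univ)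
        (f := fun (l : Fin 4) (v : V) => b (G.tc j i v) l * fderiv ℝ (G.tc j i) v (e k) l)
        fun l _ => ?_
      exact (contDiffAt_pi.1 (hb.contDiffAt.comp u hT) l).mul (contDiffAt_pi.1
        ((hT.fderiv_right (m := ∞) le_rfl).clm_apply contDiffAt_const) l)
    refine hs.congr_of_eventuallyEq ?_
    filter_upwards [(G.isOpen_tdom j i).mem_nhds hd] with v hv
    rw [G.rep1_change _ hv]
    exact congrArg _ (G.rep1_chart1 b ((G.φ i).map_source (G.mem_tdom.1 hv).2))
  · refine (contDiffAt_const (c := (0 : V))).congr_of_eventuallyEq ?_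
    filter_upwards [hcont.eventually_mem ((isClosed_tsupport _).isOpen_compl.mem_nhds
      fun h => hx (G.tsupport_chart1_subset hc hs h))] with v hv
    by_cases hvt : v ∈ (G.φ j).target
    · simp [rep1, hvt, image_eq_zero_of_notMem_tsupport hv, pullV_zero]
    · exact G.rep1_of_notMem _ hvt

lemma d_zero_of_eventually {a : X → V} {x : X} (h : a =ᶠ[𝓝 x] 0) : G.d a x = 0 := by
  have hk := G.mem_ch x
  have hs := (G.φ (G.tr x)).continuousAt_symm ((G.φ (G.tr x)).map_source hk)
  rw [ContinuousAt, (G.φ (G.tr x)).left_inv hk] at hs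
  have he : G.rep1 (G.tr x) a =ᶠ[𝓝 (G.ch x x)] fun _ => 0 := by
    filter_upwards [hs.eventually h] with u hu
    by_cases hut : u ∈ (G.φ (G.tr x)).target
    · simp [rep1, hut, hu, pullV_zero]
    · exact G.rep1_of_notMem _ hut
  ext k
  simp [d, d1_apply, he.fderiv_eq]

lemma tsupport_d_subset (a : X → V) : tsupport (G.d a) ⊆ tsupport a := by
  refine closure_minimal (fun x hx => ?_) (isClosed_tsupport a)
  by_contra h
  exact hx (G.d_zero_of_eventually (notMem_tsupport_iff_eventuallyEq.1 h))

/-- The wedge pairing with a field supported in a chart is an integral in the chart. -/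
def PairingChart : Prop := ∀ i α β, G.Smooth2 α → G.Smooth2 β → tsupport β ⊆ (G.φ i).source →
  G.pairing α β = ∫ u, q (G.rep2 i α u) (G.rep2 i β u)

variable {G}

lemma integrable_q_smooth (hB : Basic G) {α β : X → Form} (ha : G.Smooth2 α) (hb : G.Smooth2 β) :
    Integrable (fun x => q (α x) (β x)) G.μ := by
  have := hB.finite_μ
  obtain ⟨A, hA⟩ := hB.smooth_bound α ha
  obtain ⟨B, hB'⟩ := hB.smooth_bound β hb
  refine Integrable.of_bound ?_ (6 * (|A| * |B|)) (Eventually.of_forall fun x => ?_)
  · have h1 := hB.smooth_meas α ha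
    have h2 := hB.smooth_meas β hb
    have hc : ∀ (f : X → Form), Measurable f → ∀ k, Measurable fun x => f x k := fun f hf k =>
      (EuclideanSpace.proj (𝕜 := ℝ) k).continuous.measurable.comp hf
    simp only [q]
    exact (((((((hc α h1 0).mul (hc β h2 3)).add ((hc α h1 1).mul (hc β h2 4))).add
      ((hc α h1 2).mul (hc β h2 5))).add ((hc α h1 3).mul (hc β h2 0))).add
      ((hc α h1 4).mul (hc β h2 1))).add ((hc α h1 5).mul (hc β h2 2))).aestronglyMeasurable
  · rw [Real.norm_eq_abs]
    exact (abs_q_le _ _).trans (mul_le_mul_of_nonneg_left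
      (mul_le_mul ((hA x).trans (le_abs_self A)) ((hB' x).trans (le_abs_self B)) (norm_nonneg _)
        (abs_nonneg _)) (by norm_num))

/-- A form which is closed in every chart is weakly closed. -/
theorem weakClosed_of_closed [CompactSpace X] (hB : Basic G) (hP : G.PairingChart)
    {α : X → Form} (ha : G.Smooth2 α)
    (hc : ∀ i, ∀ u ∈ (G.φ i).target, ∀ a b c, cyc (G.rep2 i α) u a b c = 0) :
    G.WeakClosed α := by
  intro η hη
  have hsm : ∀ i, G.Smooth1 fun x => G.ψ i x • η x := fun i => (smooth0_psi i).smul1 hη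
  have hsum : G.d η = ∑ i, G.d fun x => G.ψ i x • η x := by
    have hη' : η = ∑ i, fun x => G.ψ i x • η x := funext fun x => by
      simp [Finset.sum_apply, ← Finset.sum_smul, G.ψ_sum x]
    suffices h : ∀ s : Finset (Fin G.n),
        G.d (∑ i ∈ s, fun x => G.ψ i x • η x) = ∑ i ∈ s, G.d fun x => G.ψ i x • η x by
      conv_lhs => rw [hη']
      exact h _
    intro s
    induction s using Finset.induction_on with
    | empty => funext x; simp [G.d_zero_of_eventually (a := (0 : X → V)) Filter.EventuallyEq.rfl]
    | @insert k s hk ih =>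
      rw [Finset.sum_insert hk, Finset.sum_insert hk,
        G.d_add (hsm k) (Smooth1.sum s fun i _ => hsm i), ih]
  have hzero : ∀ i, G.pairing α (G.d fun x => G.ψ i x • η x) = 0 := by
    intro i
    have hsupp := G.tsupport_psi_smul i η
    rw [hP i α _ ha (G.smooth2_d (hsm i)) ((G.tsupport_d_subset _).trans hsupp)]
    set b := G.rep1 i fun x => G.ψ i x • η x with hbdef
    have hKc : IsCompact (G.φ i '' tsupport fun x => G.ψ i x • η x) :=
      (isClosed_tsupport _).isCompact.image_of_continuousOn ((G.φ i).continuousOn.mono hsupp)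
    have hbK : tsupport b ⊆ G.φ i '' tsupport fun x => G.ψ i x • η x := by
      refine closure_minimal (fun u hu => ?_) hKc.isClosed
      by_cases ht : u ∈ (G.φ i).target
      · exact ⟨(G.φ i).symm u, subset_tsupport _ fun h0 => hu (by
          simp only [hbdef, rep1, ht, if_true]; rw [h0, pullV_zero]),
          (G.φ i).right_inv ht⟩
      · exact absurd (G.rep1_of_notMem _ ht) hu
    have hbt : tsupport b ⊆ (G.φ i).target :=
      hbK.trans (image_subset_iff.2 fun x hx => (G.φ i).map_source (hsupp hx))
    have hbc : HasCompactSupport b := hKc.of_isClosed_subset (isClosed_tsupport _) hbK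
    have hbs : ContDiff ℝ 1 b := by
      refine contDiff_iff_contDiffAt.2 fun u => ?_
      by_cases hu : u ∈ tsupport b
      · exact (G.contDiffAt_rep1 (hsm i) (hbt hu)).of_le (WithTop.coe_le_coe.2 le_top)
      · exact contDiffAt_const.congr_of_eventuallyEq (notMem_tsupport_iff_eventuallyEq.1 hu)
    rw [← integral_q_d1_eq_zero (G.φ i).open_target
      ((ha i).of_le (WithTop.coe_le_coe.2 le_top)) (hc i) hbs hbc hbt]
    refine integral_congr_ae (Eventually.of_forall fun u => ?_)
    by_cases hu : u ∈ (G.φ i).target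
    · simp only [G.rep2_d (hsm i) hu, hbdef]
    · simp [G.rep2_of_notMem α hu, q_zero_left]
  rw [pairing, hsum]
  have hq : ∀ x, q (α x) ((∑ i, G.d fun x => G.ψ i x • η x) x) =
      ∑ i, q (α x) ((G.d fun x => G.ψ i x • η x) x) := fun x => by
    rw [Finset.sum_apply]
    exact map_sum ({ toFun := fun β => q (α x) β, map_add' := q_add_right _,
                     map_smul' := fun t β => q_smul_right t _ β } : Form →ₗ[ℝ] ℝ) _ _
  simp only [hq]
  rw [integral_finsetSum _ fun i _ => integrable_q_smooth hB ha (G.smooth2_d (hsm i))]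
  exact Finset.sum_eq_zero fun i _ => hzero i

/-- A weakly closed form is closed in every chart. -/
theorem closed_of_weakClosed [T2Space X] (hP : G.PairingChart)
    {α : X → Form} (ha : G.Smooth2 α) (hw : G.WeakClosed α) {i : Fin G.n} {u : V}
    (hu : u ∈ (G.φ i).target) (a b c : V) : cyc (G.rep2 i α) u a b c = 0 := by
  refine cyc_eq_zero_of_weak (G.φ i).open_target ((ha i).of_le (WithTop.coe_le_coe.2 le_top))
    (fun f hf hfc hfs => ?_) hu a b c
  have hη := G.smooth1_chart1 hf hfc hfs
  have h := hw _ hη
  rw [hP i α _ ha (G.smooth2_d hη)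
    ((G.tsupport_d_subset _).trans (G.tsupport_chart1_subset hfc hfs))] at h
  rw [← h]
  refine integral_congr_ae (Eventually.of_forall fun v => ?_)
  by_cases hv : v ∈ (G.φ i).target
  · have he : G.rep1 i (G.chart1 i f) =ᶠ[𝓝 v] f := by
      filter_upwards [(G.φ i).open_target.mem_nhds hv] with w hw
      exact G.rep1_chart1 f hw
    simp only [G.rep2_d hη hv, d1, he.fderiv_eq]
  · simp [G.rep2_of_notMem α hv, q_zero_left]

end Geo

end Vale.Agent.P204.Gen
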