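import Vale.Agent.P204.Gen.GSepBase
import Vale.Agent.P204.Gen.GeoClosed

/-!
P204 on a closed four-manifold, module GSeparation: if there is no compatible form, a positive
current annihilates all closed invariant forms.
-/

open MeasureTheory ProbabilityTheory Set Filter Topology
open scoped BigOperators ContDiff

namespace Vale.Agent.P204.Gen

open Vale.Agent.P204.Torus

namespace GSetup

variable {X : Type*} [TopologicalSpace X] [MeasurableSpace X] [BorelSpace X] [T2Space X]
  [CompactSpace X] (S : GSetup X)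

omit [BorelSpace X] [T2Space X] [CompactSpace X] in
lemma closedInv_zero : S.ClosedInv 0 := by
  refine ⟨Geo.smooth2_zero, fun η _ => ?_, fun x => ?_⟩
  · simp [Geo.pairing, q_zero_left]
  · simp [piM, pull_zero]

lemma closedInv_add {α β : X → Form} (hα : S.ClosedInv α) (hβ : S.ClosedInv β) :
    S.ClosedInv (α + β) := by
  refine ⟨hα.1.add hβ.1, fun η hη => ?_, fun x => ?_⟩
  · have hd := S.smooth2_d hη
    simp only [Geo.pairing, Pi.add_apply, q_add_left]
    rw [integral_add (Geo.integrable_q_smooth (basic S.toGeo) hα.1 hd)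
      (Geo.integrable_q_smooth (basic S.toGeo) hβ.1 hd)]
    linarith [show S.pairing α (S.d η) = 0 from hα.2.1 η hη,
      show S.pairing β (S.d η) = 0 from hβ.2.1 η hη,
      show S.pairing α (S.d η) = ∫ x, q (α x) (S.d η x) ∂S.μ from rfl,
      show S.pairing β (S.d η) = ∫ x, q (β x) (S.d η x) ∂S.μ from rfl]
  · rw [Pi.add_apply, piM_add, hα.2.2 x, hβ.2.2 x, add_zero]

omit [BorelSpace X] [T2Space X] [CompactSpace X] in
lemma closedInv_smul {α : X → Form} (hα : S.ClosedInv α) (c : ℝ) : S.ClosedInv (c • α) := by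
  refine ⟨hα.1.smul c, fun η hη => ?_, fun x => ?_⟩
  · simp only [Geo.pairing, Pi.smul_apply, q_smul_left]
    rw [integral_const_mul, show ∫ x, q (α x) (S.d η x) ∂S.μ = 0 from hα.2.1 η hη, mul_zero]
  · rw [Pi.smul_apply, piM_smul, hα.2.2 x, smul_zero]

/-- The pairings with closed invariant forms, on the base. -/
noncomputable def pairings : Submodule ℝ C(S.Base, ℝ) where
  carrier := {f | ∃ α, S.ClosedInv α ∧ ∀ z : S.Base, f z = q z.1.2.2 (S.rep2 z.1.1 α z.1.2.1)}
  add_mem' := by
    rintro f g ⟨α, hα, hf⟩ ⟨β, hβ, hg⟩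
    exact ⟨_, S.closedInv_add hα hβ, fun z => by
      rw [ContinuousMap.add_apply, hf z, hg z, Geo.rep2_add, Pi.add_apply, q_add_right]⟩
  zero_mem' := ⟨_, S.closedInv_zero, fun z => by simp [Geo.rep2_zero, q_zero_right]⟩
  smul_mem' := by
    rintro c f ⟨α, hα, hf⟩
    exact ⟨_, S.closedInv_smul hα c, fun z => by
      rw [ContinuousMap.smul_apply, hf z, Geo.rep2_smul, Pi.smul_apply, q_smul_right, smul_eq_mul]⟩

omit [BorelSpace X] [T2Space X] [CompactSpace X] in
lemma continuousOn_pairing {α : X → Form} (hα : S.Smooth2 α) :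
    ContinuousOn (fun z : Fin S.n × V × Form => q z.2.2 (S.rep2 z.1 α z.2.1)) S.Base :=
  S.continuousOn_base (g := fun i u h => q h (S.rep2 i α u)) fun i =>
    Geo.continuous_q₂.comp_continuousOn (continuousOn_snd.prodMk
      ((hα i).continuousOn.comp continuousOn_fst fun _ hp => hp.1))

omit [BorelSpace X] [T2Space X] [CompactSpace X] in
lemma compatible_of_pos {α : X → Form} (hα : S.ClosedInv α)
    (h : ∀ z ∈ S.Base, 0 < q z.2.2 (S.rep2 z.1 α z.2.1)) : S.Compatible α := by
  refine ⟨hα, fun x u hu => ?_⟩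
  have hOm : piM ((S.pt x).J 0) ((S.pt x).Om 0) = 0 := (S.pt x).piM_Om 0
  have hc : 0 < q ((S.pt x).line 0 u) (S.Om x) := by
    rw [q_comm]
    show 0 < q ((S.pt x).Om 0) ((S.pt x).line 0 u)
    rw [(S.pt x).q_line hOm]
    exact mul_pos ((S.pt x).kap_pos 0) ((S.pt x).g_pos 0 hu)
  set h0 := (q ((S.pt x).line 0 u) (S.Om x))⁻¹ • (S.pt x).line 0 u with hh0
  have hmem : S.Unit1 x h0 := by
    refine ⟨(S.pt x).psd_smul (x := 0) (inv_nonneg.2 hc.le) ((S.pt x).line_psd 0 u), ?_⟩
    rw [hh0, q_smul_left, inv_mul_cancel₀ hc.ne']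
  have h1 := h _ (S.mem_base_of_unit1 hmem)
  have hrep : S.rep2 (S.tr x) α (S.φ (S.tr x) x) = α x := S.rep2_tr α x
  simp only [hrep, hh0, q_smul_left] at h1
  have hαinv : piM ((S.pt x).J 0) (α x) = 0 := hα.2.2 x
  rw [q_comm ((S.pt x).line 0 u) (α x), (S.pt x).q_line hαinv] at h1
  have h2 := pos_of_mul_pos_right (pos_of_mul_pos_right h1 (inv_nonneg.2 hc.le))
    ((S.pt x).kap_pos 0).le
  exact h2

/-- A finite measure on pairs of a point and a normalised positive form. -/
lemma exists_pair_measure (hno : ¬ ∃ α, S.Compatible α) :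
    ∃ ρ : Measure (X × Form), IsFiniteMeasure ρ ∧ ρ ≠ 0 ∧ (∀ᵐ p ∂ρ, S.Unit1 p.1 p.2) ∧
      ∀ α, S.ClosedInv α → ∫ p, q p.2 (α p.1) ∂ρ = 0 := by
  have : CompactSpace S.Base := isCompact_iff_compactSpace.1 S.isCompact_base
  obtain ⟨μ, hμ, hμ0, hμW⟩ := exists_annihilating_measure S.pairings fun f hf hpos => by
    obtain ⟨α, hα, hfα⟩ := hf
    exact hno ⟨α, S.compatible_of_pos hα fun z hz => by
      simpa only [hfα ⟨z, hz⟩] using hpos ⟨z, hz⟩⟩
  set T : S.Base → X × Form := fun z => (S.basePt z.1, S.baseForm z.1)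
  have hT : Measurable T := S.measurable_base_map
  refine ⟨μ.map T, Measure.isFiniteMeasure_map _ _, ?_, ?_, fun α hα => ?_⟩
  · exact fun h => hμ0 ((Measure.map_eq_zero_iff hT.aemeasurable).1 h)
  · exact (ae_map_iff hT.aemeasurable S.measurableSet_unit1).2
      (.of_forall fun z => S.unit1_base z.2)
  · have hm : Measurable fun p : X × Form => q p.2 (α p.1) :=
      Geo.continuous_q₂.measurable.comp
        (measurable_snd.prodMk ((Geo.measurable_smooth2 hα.1).comp measurable_fst))
    rw [integral_map hT.aemeasurable hm.aestronglyMeasurable]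
    have hc := continuousOn_iff_continuous_domRestrict.1 (S.continuousOn_pairing hα.1)
    have h := hμW ⟨fun z => q z.1.2.2 (S.rep2 z.1.1 α z.1.2.1), hc⟩ ⟨α, hα, fun z => rfl⟩
    refine Eq.trans (integral_congr_ae (.of_forall fun z => ?_)) h
    exact S.q_baseForm z.1 α z.2

end GSetup

variable {X : Type*} [TopologicalSpace X] [MeasurableSpace X] [BorelSpace X] [T2Space X]
  [CompactSpace X]

/-- If no compatible form exists, a positive current annihilates the closed invariant forms. -/
theorem exists_gcurrent (S : GSetup X) (hno : ¬ ∃ α, S.Compatible α) : Nonempty (GCurrent S) := by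
  obtain ⟨ρ, hρ, hρ0, hρm, hρa⟩ := S.exists_pair_measure hno
  obtain ⟨R, hR⟩ := S.exists_unit1_bound
  classical
  set κ := ρ.condKernel
  set m : X → Form := fun y => ∫ w, w ∂κ y
  have hm : Measurable m :=
    (StronglyMeasurable.integral_kernel_prod_right' (κ := κ) (f := fun p : X × Form => p.2)
      measurable_snd.stronglyMeasurable).measurable
  have hOm : Measurable S.Om := Geo.measurable_smooth2 S.smooth_Om
  set G : Set X := {y | S.Unit1 y (m y)}
  have hG : MeasurableSet G := (measurable_id.prodMk hm) S.measurableSet_unit1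
  set h : X → Form := fun y => if y ∈ G then m y else (q (S.Om y) (S.Om y))⁻¹ • S.Om y
  have hpos : ∀ y, 0 < q (S.Om y) (S.Om y) := fun y => by
    have h := (S.pt y).kap_pos 0
    have he : (S.pt y).kap 0 = q (S.Om y) (S.Om y) / 2 := rfl
    linarith
  have hh : ∀ y, S.Unit1 y (h y) := fun y => by
    by_cases hy : y ∈ G
    · simp only [h, if_pos hy]; exact hy
    · simp only [h, if_neg hy]
      refine ⟨(S.pt y).psd_smul (x := 0) (inv_nonneg.2 (hpos y).le) ((S.pt y).psd_Om 0), ?_⟩
      rw [q_smul_left, inv_mul_cancel₀ (hpos y).ne']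
  have hmh : Measurable h := Measurable.ite hG hm
    ((Geo.continuous_q₂.measurable.comp (hOm.prodMk hOm)).inv.smul hOm)
  have hκ : ∀ᵐ y ∂ρ.fst, ∀ᵐ w ∂κ y, S.Unit1 y w := by
    refine Measure.ae_ae_of_ae_compProd (μ := ρ.fst) (κ := κ)
      (p := fun p : X × Form => S.Unit1 p.1 p.2) ?_
    rw [ρ.disintegrate ρ.condKernel]
    exact hρm
  have hint : ∀ᵐ y ∂ρ.fst, Integrable (fun w : Form => w) (κ y) := by
    filter_upwards [hκ] with y hy
    exact Integrable.of_bound aestronglyMeasurable_id R (hy.mono fun w hw => hR y w hw)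
  have hmG : ∀ᵐ y ∂ρ.fst, y ∈ G := by
    filter_upwards [hκ, hint] with y hy hi
    refine ⟨⟨?_, fun u => ?_⟩, ?_⟩
    · have e1 := (piML (S.J y)).integral_comp_comm hi
      simp only [piML_apply] at e1
      rw [← e1]
      exact integral_eq_zero_of_ae (hy.mono fun w hw => hw.1.1)
    · refine le_trans ?_ ((evLeft u (S.J y u)).integral_comp_comm hi).le
      exact integral_nonneg_of_ae (hy.mono fun w hw => hw.1.2 u)
    · refine ((qLeft (S.Om y)).integral_comp_comm hi).symm.trans ?_
      refine (integral_congr_ae (g := fun _ => (1 : ℝ)) (hy.mono fun w hw => hw.2)).trans ?_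
      simp
  refine ⟨⟨⟨ρ.fst, h, inferInstance, hmh, fun y => (hh y).1, fun y => (hh y).2⟩, ?_, fun α hα => ?_⟩⟩
  · intro h0
    have := congrArg (fun μ => μ univ) h0
    simp only [Measure.fst_univ, Measure.coe_zero, Pi.zero_apply] at this
    exact hρ0 (Measure.measure_univ_eq_zero.1 this)
  · obtain ⟨C, hC⟩ := Geo.exists_bound_smooth2 hα.1
    have hmeas : Measurable fun p : X × Form => q p.2 (α p.1) :=
      Geo.continuous_q₂.measurable.comp
        (measurable_snd.prodMk ((Geo.measurable_smooth2 hα.1).comp measurable_fst))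
    have hi : Integrable (fun p : X × Form => q p.2 (α p.1)) ρ :=
      Integrable.of_bound hmeas.aestronglyMeasurable (6 * (|R| * |C|)) (hρm.mono fun p hp => by
        rw [Real.norm_eq_abs]
        exact (abs_q_le _ _).trans (mul_le_mul_of_nonneg_left
          (mul_le_mul ((hR _ _ hp).trans (le_abs_self R)) ((hC _).trans (le_abs_self C))
            (norm_nonneg _) (abs_nonneg _)) (by norm_num)))
    show ∫ y, q (h y) (α y) ∂ρ.fst = 0
    rw [← hρa α hα, ← Measure.integral_condKernel hi]
    refine integral_congr_ae ?_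
    filter_upwards [hmG, hint] with y hy hyi
    simp only [h, if_pos hy]
    exact ((qLeft (α y)).integral_comp_comm hyi).symm

end Vale.Agent.P204.Gen
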