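import Vale.Agent.P204.Gen.ParamCalc

/-!
P204, general four-manifold: the hypotheses of `Gen/ParamCalc.lean` for a family `Φ (a, x)` that is the
identity at `a = 0` and whose derivative in `a` is onto there.

Near `a = 0` the derivative in `a` has a smooth right inverse, `x ↦ Φ (a, x)` does not concentrate
mass, and `a ↦ Φ (a, x)` pushes a ball of radius `e` to a measure with density `O (e ^ (N - d))`.
-/

open MeasureTheory Set Filter Topology
open scoped ContDiff

namespace Vale.Agent.P204.Gen.Param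

variable {N d : ℕ}

/-- A smooth cut-off equal to one near a compact set, supported in a given open set. -/
lemma exists_cut {E : Type*} [NormedAddCommGroup E] [NormedSpace ℝ E] [FiniteDimensional ℝ E]
    {K U : Set E} (hK : IsCompact K) (hU : IsOpen U) (hKU : K ⊆ U) :
    ∃ θ : E → ℝ, ContDiff ℝ ∞ θ ∧ HasCompactSupport θ ∧ tsupport θ ⊆ U ∧
      (∀ x, θ x ∈ Icc (0 : ℝ) 1) ∧ ∀ᶠ x in 𝓝ˢ K, θ x = 1 := by
  rcases K.eq_empty_or_nonempty with rfl | hne
  · exact ⟨fun _ => 0, contDiff_const, HasCompactSupport.zero, by simp, fun _ => by simp, by simp⟩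
  obtain ⟨δ, hδ, hδU⟩ := hK.exists_cthickening_subset_open hU hKU
  have : ProperSpace E := FiniteDimensional.proper ℝ E
  set W := Metric.thickening δ K
  set K1 := Metric.cthickening (δ / 2) K
  have hK1 : IsCompact K1 := hK.cthickening
  have hK1W : K1 ⊆ W := Metric.cthickening_subset_thickening' hδ (by linarith) _
  obtain ⟨g, hg, hgd, hg01⟩ :=
    (Metric.isOpen_thickening (δ := δ) (E := K)).exists_contDiff_support_eq (n := (⊤ : ℕ∞))
  have hsK : K ⊆ K1 := Metric.self_subset_cthickening K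
  obtain ⟨x₀, hx₀, hmin⟩ := hK1.exists_isMinOn (hne.mono hsK) hgd.continuous.continuousOn
  have hpos : 0 < g x₀ := by
    refine lt_of_le_of_ne (hg01 (mem_range_self x₀)).1 fun h => ?_
    have : x₀ ∈ Function.support g := hg.symm ▸ hK1W hx₀
    exact this h.symm
  refine ⟨fun x => Real.smoothTransition (g x / g x₀),
    Real.smoothTransition.contDiff.comp (hgd.div_const _), ?_, ?_,
    fun x => ⟨Real.smoothTransition.nonneg _, Real.smoothTransition.le_one _⟩, ?_⟩
  · refine HasCompactSupport.intro (hK.cthickening (r := δ)) fun x hx => ?_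
    have : g x = 0 := by
      by_contra h
      exact hx (Metric.thickening_subset_cthickening δ K (hg ▸ (show x ∈ Function.support g from h)))
    simp [this]
  · refine (closure_minimal (fun x hx => ?_) Metric.isClosed_cthickening).trans hδU
    refine Metric.thickening_subset_cthickening δ K (hg ▸ ?_)
    intro h
    exact hx (by simp [h])
  · refine Filter.mem_of_superset (Metric.cthickening_mem_nhdsSet K (half_pos hδ)) fun x hx => ?_
    exact Real.smoothTransition.one_of_one_le ((one_le_div hpos).2 (hmin hx))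

/-- A map of a convex set that is close to the identity to first order concentrates mass at most
twice. -/
theorem exists_near_id (d : ℕ) : ∃ ε > 0, ∀ (g : (Fin d → ℝ) → Fin d → ℝ) (B S : Set (Fin d → ℝ)),
    Convex ℝ B → S ⊆ B → MeasurableSet S → ContDiff ℝ 1 g →
    (∀ x ∈ B, ‖fderiv ℝ g x - ContinuousLinearMap.id ℝ (Fin d → ℝ)‖ ≤ ε) →
    ∀ u : (Fin d → ℝ) → ℝ, (∀ z, 0 ≤ u z) → Integrable u →
      IntegrableOn (fun x => u (g x)) S ∧ ∫ x in S, u (g x) ≤ 2 * ∫ z, u z := by
  have hev : ∀ᶠ A in 𝓝 (ContinuousLinearMap.id ℝ (Fin d → ℝ)),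
      (1 / 2 : ℝ) < (A : (Fin d → ℝ) →L[ℝ] (Fin d → ℝ)).det :=
    (ContinuousLinearMap.continuous_det.tendsto _).eventually_const_lt (by
      simp [ContinuousLinearMap.det]; norm_num)
  obtain ⟨ε, hε, hball⟩ := Metric.eventually_nhds_iff.1 hev
  refine ⟨min (ε / 2) (1 / 2), lt_min (by linarith) (by norm_num),
    fun g B S hB hSB hS hg hgB u hu hui => ?_⟩
  have hdet : ∀ x ∈ B, (1 / 2 : ℝ) ≤ |(fderiv ℝ g x).det| := fun x hx => by
    refine ((hball ?_).trans_le (le_abs_self _)).le
    rw [dist_eq_norm]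
    exact lt_of_le_of_lt ((hgB x hx).trans (min_le_left _ _)) (by linarith)
  have hinj : InjOn g S := fun x hx y hy hxy => by
    have h := hB.norm_image_sub_le_of_norm_fderiv_le'
      (fun z _ => hg.differentiable one_ne_zero z)
      (fun z hz => (hgB z hz).trans (min_le_right _ _)) (hSB hy) (hSB hx)
    rw [hxy, sub_self, zero_sub, norm_neg, ContinuousLinearMap.id_apply] at h
    have : ‖x - y‖ = 0 := le_antisymm (by linarith) (norm_nonneg _)
    exact sub_eq_zero.1 (norm_eq_zero.1 this)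
  have hd : ∀ x ∈ S, HasFDerivWithinAt g (fderiv ℝ g x) S x := fun x _ =>
    (hg.differentiable one_ne_zero x).hasFDerivAt.hasFDerivWithinAt
  have heq := integral_image_eq_integral_abs_det_fderiv_smul volume hS hd hinj u
  have hint : IntegrableOn (fun x => |(fderiv ℝ g x).det| • u (g x)) S :=
    (integrableOn_image_iff_integrableOn_abs_det_fderiv_smul volume hS hd hinj u).1
      hui.integrableOn
  have hle : ∀ x ∈ S, u (g x) ≤ 2 * (|(fderiv ℝ g x).det| • u (g x)) := fun x hx => by
    rw [smul_eq_mul]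
    nlinarith [mul_le_mul_of_nonneg_right (hdet x (hSB hx)) (hu (g x))]
  have hdc : Continuous fun x => |(fderiv ℝ g x).det| :=
    (ContinuousLinearMap.continuous_det.comp (hg.continuous_fderiv one_ne_zero)).abs
  have hmeas : AEStronglyMeasurable (fun x => u (g x)) (volume.restrict S) := by
    have hc : ContinuousOn (fun x => |(fderiv ℝ g x).det|⁻¹) S :=
      hdc.continuousOn.inv₀ fun x hx => ne_of_gt (lt_of_lt_of_le (by norm_num) (hdet x (hSB hx)))
    refine (hint.aestronglyMeasurable.mul (hc.aestronglyMeasurable hS)).congr ?_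
    filter_upwards [ae_restrict_mem hS] with x hx
    have := lt_of_lt_of_le (by norm_num : (0 : ℝ) < 1 / 2) (hdet x (hSB hx))
    simp only [Pi.mul_apply, smul_eq_mul]
    field_simp
  have hi : IntegrableOn (fun x => u (g x)) S := by
    refine (hint.const_mul 2).mono' hmeas ?_
    filter_upwards [ae_restrict_mem hS] with x hx
    rw [Real.norm_of_nonneg (hu _)]
    exact hle x hx
  refine ⟨hi, (setIntegral_mono_on hi (hint.const_mul 2) hS hle).trans ?_⟩
  rw [integral_const_mul, ← heq]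
  exact mul_le_mul_of_nonneg_left (setIntegral_le_integral hui (Eventually.of_forall hu)) two_pos.le

/-- A smooth right inverse of `A p` composed with `B p`, where `A p₀` is onto. -/
lemma contDiffAt_rightInv {X : Type*} [NormedAddCommGroup X] [NormedSpace ℝ X]
    {A : X → (Fin N → ℝ) →L[ℝ] (Fin d → ℝ)} (hA : ContDiff ℝ ∞ A) {p₀ : X}
    (h : Function.Surjective (A p₀)) :
    ∃ R : X → (Fin d → ℝ) →L[ℝ] (Fin N → ℝ), ContDiffAt ℝ ∞ R p₀ ∧
      ∀ᶠ p in 𝓝 p₀, (A p).comp (R p) = ContinuousLinearMap.id ℝ (Fin d → ℝ) := by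
  obtain ⟨s, hs⟩ := (A p₀ : (Fin N → ℝ) →ₗ[ℝ] (Fin d → ℝ)).exists_rightInverse_of_surjective
    (LinearMap.range_eq_top.2 h)
  set s' : (Fin d → ℝ) →L[ℝ] (Fin N → ℝ) := LinearMap.toContinuousLinearMap s
  have hid : (A p₀).comp s' = ContinuousLinearMap.id ℝ (Fin d → ℝ) :=
    ContinuousLinearMap.ext fun v => LinearMap.congr_fun hs v
  set M : X → (Fin d → ℝ) →L[ℝ] (Fin d → ℝ) := fun p => (A p).comp s'
  have hM : ContDiff ℝ ∞ M := hA.clm_comp contDiff_const
  have hu : IsUnit (M p₀) := by rw [show M p₀ = _ from hid]; exact isUnit_one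
  refine ⟨fun p => s'.comp (Ring.inverse (M p)), contDiffAt_const.clm_comp ?_, ?_⟩
  · have h1 := contDiffAt_ringInverse ℝ hu.unit (n := ∞)
    rw [hu.unit_spec] at h1
    exact h1.comp p₀ hM.contDiffAt
  · have hev : ∀ᶠ p in 𝓝 p₀, IsUnit (M p) :=
      hM.continuous.continuousAt.eventually (Units.isOpen.eventually_mem hu)
    filter_upwards [hev] with p hp
    rw [← ContinuousLinearMap.comp_assoc]
    exact Ring.mul_inverse_cancel _ hp

variable {Φ : Joint N d → (Fin d → ℝ)}

/-- The derivative in the parameter. -/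
noncomputable def dPar (Φ : Joint N d → (Fin d → ℝ)) (p : Joint N d) :
    (Fin N → ℝ) →L[ℝ] (Fin d → ℝ) :=
  (fderiv ℝ Φ p).comp (ContinuousLinearMap.inl ℝ (Fin N → ℝ) (Fin d → ℝ))

/-- The derivative in the base point. -/
noncomputable def dBase (Φ : Joint N d → (Fin d → ℝ)) (p : Joint N d) :
    (Fin d → ℝ) →L[ℝ] (Fin d → ℝ) :=
  (fderiv ℝ Φ p).comp (ContinuousLinearMap.inr ℝ (Fin N → ℝ) (Fin d → ℝ))

lemma contDiff_dPar (hΦ : ContDiff ℝ ∞ Φ) : ContDiff ℝ ∞ (dPar Φ) :=
  (hΦ.fderiv_right (m := ∞) (by simp)).clm_comp contDiff_const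

lemma contDiff_dBase (hΦ : ContDiff ℝ ∞ Φ) : ContDiff ℝ ∞ (dBase Φ) :=
  (hΦ.fderiv_right (m := ∞) (by simp)).clm_comp contDiff_const

lemma dBase_zero (hΦ : ContDiff ℝ ∞ Φ) {U : Set (Fin d → ℝ)} (hU : IsOpen U)
    (h0 : ∀ x ∈ U, Φ (0, x) = x) {x : Fin d → ℝ} (hx : x ∈ U) :
    dBase Φ (0, x) = ContinuousLinearMap.id ℝ (Fin d → ℝ) := by
  have h1 : HasFDerivAt (fun y => Φ ((0 : Fin N → ℝ), y)) (dBase Φ (0, x)) x :=
    ((hΦ.differentiable (by simp)) (0, x)).hasFDerivAt.comp x (hasFDerivAt_prodMk_right 0 x)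
  exact h1.unique ((hasFDerivAt_id x).congr_of_eventuallyEq (by
    filter_upwards [hU.mem_nhds hx] with y hy using h0 y hy))

/-- Smooth right inverses near a compact piece of the zero section. -/
lemma exists_xi (hΦ : ContDiff ℝ ∞ Φ) {K : Set (Fin d → ℝ)} (hK : IsCompact K)
    (honto : ∀ x ∈ K, Function.Surjective (dPar Φ (0, x))) :
    ∃ Ξ : Fin d → Fin N → Joint N d → ℝ, (∀ i k, ContDiff ℝ ∞ (Ξ i k)) ∧
      (∀ i k, HasCompactSupport (Ξ i k)) ∧ ∀ᶠ p in 𝓝ˢ (({0} : Set (Fin N → ℝ)) ×ˢ K),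
        ∀ i, fderiv ℝ Φ p (xdir N i) = ∑ k, Ξ i k p • fderiv ℝ Φ p (pdir d k) := by
  -- the right inverse `Aᵀ (A Aᵀ)⁻¹` on the open set where `A Aᵀ` is invertible
  set T : ((Fin N → ℝ) →L[ℝ] (Fin d → ℝ)) →L[ℝ] ((Fin d → ℝ) →L[ℝ] (Fin N → ℝ)) :=
    ∑ j : Fin d, ∑ k : Fin N,
      (((ContinuousLinearMap.proj j).comp (ContinuousLinearMap.apply ℝ (Fin d → ℝ)
        (Pi.single k (1 : ℝ)))).smulRight
        ((ContinuousLinearMap.proj (R := ℝ) (φ := fun _ : Fin d => ℝ) j).smulRight
          (Pi.single k (1 : ℝ) : Fin N → ℝ))) with hT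
  have hTa : ∀ A v k, T A v k = ∑ j, A (Pi.single k 1) j * v j := fun A v k => by
    simp [hT, Finset.sum_apply, Pi.single_apply]
  set At := fun p => T (dPar Φ p)
  set M := fun p => (dPar Φ p).comp (At p)
  have hA := contDiff_dPar hΦ
  have hM : ContDiff ℝ ∞ M := hA.clm_comp (T.contDiff.comp hA)
  set O : Set (Joint N d) := {p | IsUnit (M p)}
  have hO : IsOpen O := Units.isOpen.preimage hM.continuous
  have hKO : ({0} : Set (Fin N → ℝ)) ×ˢ K ⊆ O := by
    rintro ⟨a, x⟩ ⟨rfl, hx⟩
    refine ContinuousLinearMap.isUnit_iff_bijective.2 ?_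
    have hinj : Function.Injective (M (0, x)) := by
      rw [injective_iff_map_eq_zero]
      intro v hv
      have h1 : ∑ k, (At (0, x) v k) ^ 2 = ∑ j, v j * M (0, x) v j := by
        have hrep : ∀ j, M (0, x) v j =
            ∑ k, At (0, x) v k * dPar Φ (0, x) (Pi.single k 1) j := fun j => by
          show dPar Φ (0, x) (At (0, x) v) j = _
          conv_lhs => rw [pi_eq_sum_univ' (At (0, x) v), map_sum, Finset.sum_apply]
          simp
        simp only [hrep, Finset.mul_sum]
        rw [Finset.sum_comm]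
        refine Finset.sum_congr rfl fun k _ => ?_
        conv_lhs => rw [sq, show At (0, x) v k = T (dPar Φ (0, x)) v k from rfl]
        conv_lhs => arg 2; rw [hTa]
        rw [Finset.mul_sum]
        exact Finset.sum_congr rfl fun j _ => by ring
      rw [hv] at h1
      simp only [Pi.zero_apply, mul_zero, Finset.sum_const_zero] at h1
      have h2 : ∀ k, At (0, x) v k = 0 := fun k =>
        pow_eq_zero_iff two_ne_zero |>.1
          ((Finset.sum_eq_zero_iff_of_nonneg fun k _ => sq_nonneg _).1 h1 k (Finset.mem_univ k))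
      obtain ⟨w, hw⟩ := honto x hx v
      have h3 : ∑ j, v j * v j = 0 := by
        conv_lhs => arg 2; ext j; arg 1; rw [← hw, pi_eq_sum_univ' w, map_sum, Finset.sum_apply]
        simp only [map_smul, Pi.smul_apply, smul_eq_mul, Finset.sum_mul]
        rw [Finset.sum_comm]
        refine Finset.sum_eq_zero fun k _ => ?_
        have := h2 k
        rw [show At (0, x) v k = T (dPar Φ (0, x)) v k from rfl, hTa] at this
        simp only [mul_assoc]
        rw [← Finset.mul_sum, this, mul_zero]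
      exact funext fun j => mul_self_eq_zero.1
        ((Finset.sum_eq_zero_iff_of_nonneg fun j _ => mul_self_nonneg _).1 h3 j (Finset.mem_univ j))
    exact ⟨hinj, (LinearMap.injective_iff_surjective
      (f := (M (0, x) : (Fin d → ℝ) →ₗ[ℝ] (Fin d → ℝ)))).1 hinj⟩
  obtain ⟨θ, hθ, hθc, hθO, -, hθ1⟩ := exists_cut (isCompact_singleton.prod hK) hO hKO
  set R : Joint N d → (Fin d → ℝ) →L[ℝ] (Fin N → ℝ) :=
    fun p => ((At p).comp (Ring.inverse (M p))).comp (dBase Φ p)
  refine ⟨fun i k p => θ p * R p (Pi.single i 1) k, fun i k => ?_,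
    fun i k => hθc.mul_right, ?_⟩
  · refine contDiff_iff_contDiffAt.2 fun p => ?_
    by_cases hp : p ∈ tsupport θ
    · have hu : IsUnit (M p) := hθO hp
      have h1 := contDiffAt_ringInverse ℝ hu.unit (n := ∞)
      rw [hu.unit_spec] at h1
      have hR : ContDiffAt ℝ ∞ R p :=
        (((T.contDiff.comp hA).contDiffAt).clm_comp (h1.comp p hM.contDiffAt)).clm_comp
          (contDiff_dBase hΦ).contDiffAt
      exact hθ.contDiffAt.mul ((contDiff_apply ℝ ℝ k).contDiffAt.comp p
        (hR.clm_apply contDiffAt_const))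
    · refine (contDiffAt_const (c := (0 : ℝ))).congr_of_eventuallyEq ?_
      filter_upwards [notMem_tsupport_iff_eventuallyEq.1 hp] with q hq
      simp [hq]
  · filter_upwards [hθ1, hO.mem_nhdsSet.2 hKO] with p hp hpO i
    simp only [hp, one_mul]
    have hk : ∀ k, fderiv ℝ Φ p (pdir d k) = dPar Φ p (Pi.single k 1) := fun k => rfl
    have hRi : dPar Φ p (R p (Pi.single i 1)) = fderiv ℝ Φ p (xdir N i) := by
      have e := congrArg (fun L : (Fin d → ℝ) →L[ℝ] (Fin d → ℝ) => L (dBase Φ p (Pi.single i 1)))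
        (Ring.mul_inverse_cancel (M p) hpO)
      exact e
    rw [← hRi]
    conv_lhs => rw [pi_eq_sum_univ' (R p (Pi.single i 1)), map_sum]
    simp [hk]

variable (F : Fam N d) in
/-- The parameter ball of radius `r e` is pushed forward with density `O (e ^ (N - d))`. -/
def Fam.Dense (r Cd : ℝ) : Prop :=
  ∀ e, 0 < e → e ≤ 1 → ∀ x : Fin d → ℝ, ∀ u : (Fin d → ℝ) → ℝ, Continuous u → (∀ z, 0 ≤ u z) →
    Integrable u → ∫ a in {a : Fin N → ℝ | (a, x) ∈ F.K ∧ ‖a‖ ≤ r * e}, u (F.Φ (a, x)) ≤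
      Cd * e ^ ((N : ℤ) - d) * ∫ z, u z

/-- The family of a map that is the identity at `a = 0`, with onto derivative in `a`. -/
theorem exists_fam (hΦ : ContDiff ℝ ∞ Φ) {K U : Set (Fin d → ℝ)} (hK : IsCompact K) (hU : IsOpen U)
    (hKU : K ⊆ U) (h0 : ∀ x ∈ U, Φ (0, x) = x)
    (honto : ∀ x ∈ K, Function.Surjective (dPar Φ (0, x))) :
    ∃ r C, 0 < r ∧ 0 ≤ C ∧ ∃ F : Fam N d, F.Φ = Φ ∧ F.K = Metric.closedBall 0 r ×ˢ K ∧
      F.Cover r C ∧ F.Dense r C := by
  obtain ⟨Ξ, hΞs, hΞc, hΞ⟩ := exists_xi hΦ hK honto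
  obtain ⟨ε, hε, hnear⟩ := exists_near_id d
  -- the first-order data in one continuous function
  set W : (Fin d → ℝ) → (Fin d → ℝ) →L[ℝ] (Fin N → ℝ) := fun x =>
    ∑ i, ∑ k, Ξ i k (0, x) •
      ((ContinuousLinearMap.proj (R := ℝ) (φ := fun _ : Fin d => ℝ) i).smulRight
        (Pi.single k (1 : ℝ) : Fin N → ℝ)) with hW
  have hWc : Continuous W := continuous_finsetSum _ fun i _ => continuous_finsetSum _ fun k _ =>
    ((hΞs i k).continuous.comp (by fun_prop)).smul continuous_const
  have hWcomp : ∀ x ∈ K, (dPar Φ (0, x)).comp (W x) = ContinuousLinearMap.id ℝ (Fin d → ℝ) := by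
    intro x hx
    refine ContinuousLinearMap.ext fun v => ?_
    have hr := hΞ.self_of_nhdsSet (0, x) ⟨rfl, hx⟩
    have hxd : ∀ i, fderiv ℝ Φ (0, x) (xdir N i) = Pi.single i 1 := fun i =>
      congrArg (fun L : (Fin d → ℝ) →L[ℝ] (Fin d → ℝ) => L (Pi.single i 1))
        (dBase_zero hΦ hU h0 (hKU hx))
    have hk : ∀ k, fderiv ℝ Φ (0, x) (pdir d k) = dPar Φ (0, x) (Pi.single k 1) := fun k => rfl
    simp only [hk, hxd] at hr
    conv_rhs => rw [ContinuousLinearMap.id_apply, pi_eq_sum_univ' v]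
    rw [Finset.sum_congr rfl fun i _ => congrArg (v i • ·) (hr i)]
    simp [hW, Finset.smul_sum, smul_smul, mul_comm]
  -- a base ball containing `K`
  obtain ⟨R₀, hR₀⟩ := hK.isBounded.subset_closedBall 0
  set B := Metric.closedBall (0 : Fin d → ℝ) R₀
  obtain ⟨θ, hθ, hθc, hθU, hθ01, hθ1⟩ := exists_cut hK hU hKU
  -- `Φ'` agrees with `Φ` near `K` and is the identity at `a = 0` everywhere
  set Φ' : Joint N d → (Fin d → ℝ) := fun p => p.2 + θ p.2 • (Φ p - p.2) with hΦ'
  have hΦ's : ContDiff ℝ ∞ Φ' :=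
    contDiff_snd.add ((hθ.comp contDiff_snd).smul (hΦ.sub contDiff_snd))
  have hΦ'0 : ∀ x, Φ' (0, x) = x := fun x => by
    by_cases hx : x ∈ tsupport θ
    · simp [hΦ', h0 x (hθU hx)]
    · simp [hΦ', image_eq_zero_of_notMem_tsupport hx]
  have hΦ'K : ∀ a, ∀ x ∈ K, Φ' (a, x) = Φ (a, x) := fun a x hx => by
    simp [hΦ', hθ1.self_of_nhdsSet x hx]
  have hc1 : Continuous fun q : (Fin N → ℝ) × (Fin d → ℝ) × (Fin d → ℝ) =>
      ‖(dPar Φ (q.1 + W q.2.2 q.2.1, q.2.2)).comp (W q.2.2) -
        ContinuousLinearMap.id ℝ (Fin d → ℝ)‖ := by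
    have h1 : Continuous fun q : (Fin N → ℝ) × (Fin d → ℝ) × (Fin d → ℝ) => W q.2.2 :=
      hWc.comp (by fun_prop)
    have h2 : Continuous fun q : (Fin N → ℝ) × (Fin d → ℝ) × (Fin d → ℝ) => W q.2.2 q.2.1 :=
      h1.clm_apply (by fun_prop)
    exact ((((contDiff_dPar hΦ).continuous.comp
      ((continuous_fst.add h2).prodMk (by fun_prop))).clm_comp h1).sub continuous_const).norm
  have hev1 : ∀ᶠ ac : (Fin N → ℝ) × (Fin d → ℝ) in 𝓝 0, ∀ x ∈ K,
      ‖(dPar Φ (ac.1 + W x ac.2, x)).comp (W x) - ContinuousLinearMap.id ℝ (Fin d → ℝ)‖ < ε := by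
    refine hK.eventually_forall_of_forall_eventually fun x hx => ?_
    have hcont : ContinuousAt (fun z : ((Fin N → ℝ) × (Fin d → ℝ)) × (Fin d → ℝ) =>
        ‖(dPar Φ (z.1.1 + W z.2 z.1.2, z.2)).comp (W z.2) -
          ContinuousLinearMap.id ℝ (Fin d → ℝ)‖) (0, x) :=
      (hc1.comp (f := fun z : ((Fin N → ℝ) × (Fin d → ℝ)) × (Fin d → ℝ) => (z.1.1, z.1.2, z.2))
        (by fun_prop)).continuousAt
    refine hcont.eventually (gt_mem_nhds ?_)
    simp [hWcomp x hx, hε]
  have hev2 : ∀ᶠ a in 𝓝 (0 : Fin N → ℝ), ∀ x ∈ B,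
      ‖dBase Φ' (a, x) - ContinuousLinearMap.id ℝ (Fin d → ℝ)‖ < ε := by
    refine (isCompact_closedBall 0 R₀).eventually_forall_of_forall_eventually fun x _ => ?_
    have hcont : ContinuousAt (fun z : (Fin N → ℝ) × (Fin d → ℝ) =>
        ‖dBase Φ' z - ContinuousLinearMap.id ℝ (Fin d → ℝ)‖) (0, x) :=
      ((contDiff_dBase hΦ's).continuous.sub continuous_const).norm.continuousAt
    refine hcont.eventually (gt_mem_nhds ?_)
    simp [dBase_zero hΦ's isOpen_univ (fun y _ => hΦ'0 y) (mem_univ x), hε]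
  have hev3 : ∀ᶠ a in 𝓝 (0 : Fin N → ℝ), ∀ x ∈ K,
      ∀ i, fderiv ℝ Φ (a, x) (xdir N i) = ∑ k, Ξ i k (a, x) • fderiv ℝ Φ (a, x) (pdir d k) := by
    refine hK.eventually_forall_of_forall_eventually fun x hx => ?_
    exact eventually_nhdsSet_iff_forall.1 hΞ (0, x) ⟨rfl, hx⟩
  obtain ⟨δ₁, hδ₁, hb1⟩ := Metric.eventually_nhds_iff.1 hev1
  obtain ⟨δ₂, hδ₂, hb2⟩ := Metric.eventually_nhds_iff.1 (hev2.and hev3)
  obtain ⟨MW, hMW⟩ := hK.exists_bound_of_continuousOn hWc.continuousOn
  set M := max MW 0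
  set δ := min δ₁ δ₂ / 2
  have hδ : 0 < δ := by positivity
  have hδlt1 : δ < δ₁ := (half_lt_self (lt_min hδ₁ hδ₂)).trans_le (min_le_left _ _)
  have hδlt2 : δ < δ₂ := (half_lt_self (lt_min hδ₁ hδ₂)).trans_le (min_le_right _ _)
  set r := δ / 2
  set t := δ / (2 * (M + 1)) with ht
  have hM0 : 0 ≤ M := le_max_right _ _
  have hr : 0 < r := by positivity
  have hr2 : r = δ / 2 := rfl
  have ht0 : 0 < t := by positivity
  have htδ : t ≤ δ := by rw [ht, div_le_iff₀ (by positivity)]; nlinarith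
  have hrMt : r + M * t ≤ δ := by
    have : M * t ≤ δ / 2 := by rw [ht, ← mul_div_assoc, div_le_iff₀ (by positivity)]; nlinarith
    linarith
  set Cd := (2 * (r + M * t)) ^ N * 2 / (2 * t) ^ d
  let F : Fam N d :=
    ⟨Φ, Metric.closedBall 0 r ×ˢ K, Ξ, hΦ, (isCompact_closedBall 0 r).prod hK, hΞs, hΞc,
      fun i p hp => (hb2 (y := p.1) (by
        rw [dist_zero_right]
        have := mem_closedBall_zero_iff.1 hp.1
        linarith)).2 p.2 hp.2 i⟩
  refine ⟨r, max 2 Cd, hr, le_max_of_le_left two_pos.le, F, rfl, rfl, ?_, ?_⟩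
  · intro a ha u huc hu hui
    set g := fun x : Fin d → ℝ => Φ' (a, x)
    have hg : ContDiff ℝ 1 g := (hΦ's.of_le (by simp)).comp (contDiff_const.prodMk contDiff_id)
    have hgB : ∀ x ∈ B, ‖fderiv ℝ g x - ContinuousLinearMap.id ℝ (Fin d → ℝ)‖ ≤ ε := by
      intro x hx
      have h1 : HasFDerivAt g (dBase Φ' (a, x)) x :=
        ((hΦ's.differentiable (by simp)) (a, x)).hasFDerivAt.comp x (hasFDerivAt_prodMk_right a x)
      rw [h1.fderiv]
      exact ((hb2 (y := a) (by rw [dist_zero_right]; linarith)).1 x hx).le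
    have hS : {x : Fin d → ℝ | (a, x) ∈ F.K} = K := by
      ext x
      exact ⟨fun h => h.2, fun h => ⟨mem_closedBall_zero_iff.2 ha, h⟩⟩
    obtain ⟨-, h2⟩ := hnear g B K (convex_closedBall _ _) hR₀ hK.measurableSet hg hgB u hu hui
    have h3 : ∫ x in {x | (a, x) ∈ F.K}, u (F.Φ (a, x)) ≤ 2 * ∫ z, u z := by
      rw [hS]
      refine le_of_eq_of_le (setIntegral_congr_fun hK.measurableSet fun x hx => ?_) h2
      simp [g, F, hΦ'K a x hx]
    exact h3.trans (mul_le_mul_of_nonneg_right (le_max_left _ _) (integral_nonneg hu))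
  · intro e he he1 x u huc hu hui
    by_cases hx : x ∈ K
    swap
    · have : {a : Fin N → ℝ | (a, x) ∈ F.K ∧ ‖a‖ ≤ r * e} = ∅ :=
        eq_empty_iff_forall_notMem.2 fun a ha => hx ha.1.2
      rw [this, setIntegral_empty]
      exact mul_nonneg (mul_nonneg (le_max_of_le_left two_pos.le) (zpow_nonneg he.le _))
        (integral_nonneg hu)
    set A := Metric.closedBall (0 : Fin N → ℝ) (r * e)
    set A' := Metric.closedBall (0 : Fin N → ℝ) ((r + M * t) * e)
    set D := Metric.closedBall (0 : Fin d → ℝ) (t * e)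
    have hf : Continuous fun a : Fin N → ℝ => u (Φ (a, x)) :=
      huc.comp (hΦ.continuous.comp (by fun_prop))
    have hSA : {a : Fin N → ℝ | (a, x) ∈ F.K ∧ ‖a‖ ≤ r * e} = A := by
      ext a
      refine ⟨fun h => mem_closedBall_zero_iff.2 h.2, fun h => ?_⟩
      have h' := mem_closedBall_zero_iff.1 h
      exact ⟨⟨mem_closedBall_zero_iff.2 (h'.trans (mul_le_of_le_one_right hr.le he1)), hx⟩, h'⟩
    rw [hSA]
    set H : (Fin d → ℝ) → (Fin N → ℝ) → ℝ := fun c a => u (Φ (a + W x c, x))
    have hH : Continuous (Function.uncurry H) :=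
      huc.comp (hΦ.continuous.comp ((continuous_snd.add ((W x).continuous.comp continuous_fst)).prodMk
        continuous_const))
    have hshift : ∀ c ∈ D, ∫ a in A, u (Φ (a, x)) ≤ ∫ a in A', H c a := by
      intro c hc
      have hWc' : ‖W x c‖ ≤ M * (t * e) :=
        ((W x).le_opNorm c).trans (mul_le_mul ((hMW x hx).trans (le_max_left _ _))
          (mem_closedBall_zero_iff.1 hc) (norm_nonneg _) hM0)
      rw [← integral_indicator measurableSet_closedBall,
        ← integral_add_right_eq_self (fun a => A.indicator (fun a => u (Φ (a, x))) a) (W x c),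
        ← integral_indicator (s := A') measurableSet_closedBall]
      refine integral_mono_of_nonneg (Eventually.of_forall fun a => indicator_nonneg (fun a _ => hu _) _)
        (((hH.comp (by fun_prop : Continuous fun a : Fin N → ℝ => (c, a))).continuousOn.integrableOn_compact
          (isCompact_closedBall _ _)).integrable_indicator measurableSet_closedBall)
        (Eventually.of_forall fun a => ?_)
      by_cases ha : a + W x c ∈ A
      · have ha' : a ∈ A' := by
          rw [mem_closedBall_zero_iff] at ha ⊢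
          have := norm_sub_le (a + W x c) (W x c)
          rw [add_sub_cancel_right] at this
          nlinarith
        simp only [indicator_of_mem ha, indicator_of_mem ha']
        exact le_rfl
      · simp only [indicator_of_notMem ha]
        exact indicator_nonneg (fun b _ => hu _) _
    have hinner : ∀ a ∈ A', ∫ c in D, H c a ≤ 2 * ∫ z, u z := by
      intro a ha
      set g := fun c : Fin d → ℝ => Φ (a + W x c, x)
      have hg : ContDiff ℝ 1 g := (hΦ.of_le (by simp)).comp
        ((contDiff_const.add (W x).contDiff).prodMk contDiff_const)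
      refine (hnear g D D (convex_closedBall _ _) subset_rfl measurableSet_closedBall hg
        (fun c hc => ?_) u hu hui).2
      have h1 : HasFDerivAt g ((dPar Φ (a + W x c, x)).comp (W x)) c := by
        have hin : HasFDerivAt (fun c => (a + W x c, x))
            ((ContinuousLinearMap.inl ℝ (Fin N → ℝ) (Fin d → ℝ)).comp (W x)) c :=
          (hasFDerivAt_prodMk_left (a + W x c) x).comp c ((W x).hasFDerivAt.const_add a)
        have := ((hΦ.differentiable (by simp)) (a + W x c, x)).hasFDerivAt.comp c hin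
        rwa [← ContinuousLinearMap.comp_assoc] at this
      rw [h1.fderiv]
      refine (hb1 (y := (a, c)) ?_ x hx).le
      rw [dist_zero_right, Prod.norm_def]
      refine lt_of_le_of_lt ?_ hδlt1
      exact max_le
        ((mem_closedBall_zero_iff.1 ha).trans
          ((mul_le_of_le_one_right (by positivity) he1).trans hrMt))
        ((mem_closedBall_zero_iff.1 hc).trans ((mul_le_of_le_one_right ht0.le he1).trans htδ))
    have hint : IntegrableOn (Function.uncurry H) (D ×ˢ A') :=
      hH.continuousOn.integrableOn_compact ((isCompact_closedBall _ _).prod (isCompact_closedBall _ _))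
    rw [IntegrableOn, Measure.volume_eq_prod, ← Measure.prod_restrict] at hint
    have key : volume.real D * ∫ a in A, u (Φ (a, x)) ≤ volume.real A' * (2 * ∫ z, u z) := by
      rw [← smul_eq_mul, ← smul_eq_mul, ← setIntegral_const (s := D), ← setIntegral_const (s := A')]
      refine (setIntegral_mono_on (integrableOn_const measure_closedBall_lt_top.ne)
        hint.integral_prod_left measurableSet_closedBall hshift).trans ?_
      show ∫ c in D, ∫ a in A', H c a ≤ _
      rw [integral_integral_swap hint]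
      exact setIntegral_mono_on hint.integral_prod_right
        (integrableOn_const measure_closedBall_lt_top.ne) measurableSet_closedBall hinner
    have hvD : volume.real D = (2 * (t * e)) ^ d := by
      simp [D, measureReal_def, Real.volume_pi_closedBall _ (mul_nonneg ht0.le he.le)]
      positivity
    have hvA : volume.real A' = (2 * ((r + M * t) * e)) ^ N := by
      simp [A', measureReal_def,
        Real.volume_pi_closedBall _ (mul_nonneg (by positivity : (0 : ℝ) ≤ r + M * t) he.le)]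
      positivity
    rw [hvD, hvA] at key
    have hu0 : 0 ≤ ∫ z, u z := integral_nonneg hu
    refine le_trans ?_ (mul_le_mul_of_nonneg_right
      (mul_le_mul_of_nonneg_right (le_max_right 2 Cd) (zpow_nonneg he.le _)) hu0)
    rw [← mul_le_mul_iff_of_pos_left (show 0 < (2 * (t * e)) ^ d by positivity)]
    refine key.trans (le_of_eq ?_)
    simp only [Cd, zpow_sub₀ he.ne', zpow_natCast, mul_pow]
    field_simp

end Vale.Agent.P204.Gen.Param
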