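import Vale.Agent.P204.Gen.GeoBasic
import Vale.Agent.P204.Gen.Interface

/-!
P204 on a closed four-manifold, module GeoBasic: periodic extensions, smooth fields, cut-offs and
the product rule.
-/

open Set Filter Topology
open scoped ContDiff BigOperators

namespace Vale.Agent.P204.Gen

open Vale.Agent.P204.Torus

/-! ## Periodic extensions -/

lemma periodic_pext {F : Type*} (f : V → F) : Periodic (pext f) := fun u n => by
  simp only [pext]
  congr 1
  funext i
  simp [fred, intVec, Int.fract_add_intCast]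

lemma fred_eq_self {u : V} (hu : u ∈ cube) : fred u = u :=
  funext fun i => Int.fract_eq_self.2 (hu i (mem_univ i))

lemma pext_eq_self {F : Type*} (f : V → F) {u : V} (hu : u ∈ cube) : pext f u = f u := by
  rw [pext, fred_eq_self hu]

lemma Q0_subset_cube : Q0 ⊆ cube := Set.pi_mono fun _ _ => Ioo_subset_Ico_self

lemma isOpen_Q0 : IsOpen Q0 := isOpen_set_pi finite_univ fun _ _ => isOpen_Ioo

/-- Inside the cube the periodic extension is the function itself. -/
lemma pext_eventuallyEq {F : Type*} (f : V → F) {u : V} (hu : u ∈ Q0) :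
    pext f =ᶠ[𝓝 u] f := by
  filter_upwards [isOpen_Q0.mem_nhds hu] with v hv
  exact pext_eq_self f (Q0_subset_cube hv)

/-- The periodic extension of a field with compact support in the open cube is smooth. -/
lemma smooth_pext {F : Type*} [NormedAddCommGroup F] [NormedSpace ℝ F] {f : V → F}
    (hf : ContDiff ℝ ∞ f) (hc : HasCompactSupport f) (hs : tsupport f ⊆ Q0) :
    Smooth (pext f) := by
  refine ⟨contDiff_iff_contDiffAt.2 fun u => ?_, periodic_pext f⟩
  by_cases h : fred u ∈ Q0
  · have hfl : ∀ᶠ v in 𝓝 u, fred v = v - intVec fun i => ⌊u i⌋ := by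
      have ho : IsOpen {v : V | v - intVec (fun i => ⌊u i⌋) ∈ Q0} :=
        isOpen_Q0.preimage (by fun_prop)
      have hu : u - intVec (fun i => ⌊u i⌋) = fred u := funext fun i => rfl
      filter_upwards [ho.mem_nhds (show u - intVec (fun i => ⌊u i⌋) ∈ Q0 by rw [hu]; exact h)]
        with v hv
      funext i
      have hi := hv i (mem_univ i)
      simp only [intVec, Pi.sub_apply, mem_Ioo] at hi ⊢
      rw [fred, Int.fract_eq_iff]
      exact ⟨hi.1.le, hi.2, ⌊u i⌋, by ring⟩
    exact (hf.comp (contDiff_id.sub (contDiff_const (c := intVec fun i => ⌊u i⌋)))).contDiffAt.congr_of_eventuallyEq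
      (hfl.mono fun v hv => by simp [pext, hv])
  · obtain ⟨δ, hδ, hK⟩ : ∃ δ > 0, ∀ v ∈ tsupport f, ∀ i, v i ∈ Icc δ (1 - δ) := by
      rcases (tsupport f).eq_empty_or_nonempty with he | hne
      · exact ⟨1, one_pos, by simp [he]⟩
      choose a ha hmin using fun i : Fin 4 => hc.isCompact.exists_isMinOn hne
        (continuous_apply i).continuousOn
      choose b hb hmax using fun i : Fin 4 => hc.isCompact.exists_isMaxOn hne
        (continuous_apply i).continuousOn
      refine ⟨Finset.univ.inf' Finset.univ_nonempty fun i => min (a i i) (1 - b i i), ?_,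
        fun v hv i => ?_⟩
      · refine (Finset.lt_inf'_iff _).2 fun i _ => lt_min ((hs (ha i)) i (mem_univ i)).1 ?_
        linarith [((hs (hb i)) i (mem_univ i)).2]
      · have hle := Finset.inf'_le (fun i => min (a i i) (1 - b i i)) (Finset.mem_univ i)
        have h1 : a i i ≤ v i := hmin i hv
        have h2 : v i ≤ b i i := hmax i hv
        constructor
        · exact (hle.trans (min_le_left _ _)).trans h1
        · linarith [hle.trans (min_le_right _ _)]
    obtain ⟨i, hi⟩ : ∃ i, Int.fract (u i) = 0 := by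
      by_contra hne
      push Not at hne
      exact h fun i _ => ⟨(Int.fract_nonneg _).lt_of_ne (Ne.symm (hne i)), Int.fract_lt_one _⟩
    have hz : pext f =ᶠ[𝓝 u] fun _ => 0 := by
      filter_upwards [(Metric.isOpen_ball (x := u) (ε := δ)).mem_nhds (Metric.mem_ball_self hδ)]
        with v hv
      show f (fred v) = 0
      refine image_eq_zero_of_notMem_tsupport fun hmem => ?_
      obtain ⟨h1, h2⟩ := hK _ hmem i
      have hd : |v i - u i| < δ := (Real.norm_eq_abs _).symm.trans_lt
        ((norm_le_pi_norm (v - u) i).trans_lt (mem_ball_iff_norm.1 hv))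
      have hu : u i = ⌊u i⌋ := by linarith [Int.fract_add_floor (u i), hi]
      simp only [fred] at h1 h2
      rw [abs_lt] at hd
      rcases lt_or_ge (v i) (u i) with hlt | hge
      · have : Int.fract (v i) = v i - u i + 1 :=
          Int.fract_eq_iff.2 ⟨by linarith, by linarith, ⌊u i⌋ - 1, by push_cast; linarith⟩
        linarith
      · have : Int.fract (v i) = v i - u i :=
          Int.fract_eq_iff.2 ⟨by linarith, by linarith, ⌊u i⌋, by linarith⟩
        linarith
    exact contDiffAt_const.congr_of_eventuallyEq hz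

namespace Geo

variable {X : Type*} [TopologicalSpace X] [MeasurableSpace X] (G : Geo X)

/-! ## Representatives of sums and products -/

lemma rep2_add (i : Fin G.n) (α β : X → Form) :
    G.rep2 i (α + β) = G.rep2 i α + G.rep2 i β := by
  funext u; by_cases hu : u ∈ (G.φ i).target <;> simp [rep2, hu, pull_add]

lemma rep1_add (i : Fin G.n) (a b : X → V) : G.rep1 i (a + b) = G.rep1 i a + G.rep1 i b := by
  funext u; by_cases hu : u ∈ (G.φ i).target <;> simp [rep1, hu, pullV_add]

lemma rep2_smul (i : Fin G.n) (t : ℝ) (α : X → Form) : G.rep2 i (t • α) = t • G.rep2 i α := by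
  funext u; by_cases hu : u ∈ (G.φ i).target <;> simp [rep2, hu, pull_smul]

lemma rep1_smul (i : Fin G.n) (t : ℝ) (a : X → V) : G.rep1 i (t • a) = t • G.rep1 i a := by
  funext u; by_cases hu : u ∈ (G.φ i).target <;> simp [rep1, hu, pullV_smul]

lemma rep2_zero (i : Fin G.n) : G.rep2 i (0 : X → Form) = 0 := by
  funext u; by_cases hu : u ∈ (G.φ i).target <;> simp [rep2, hu, pull_zero]

lemma rep1_zero (i : Fin G.n) : G.rep1 i (0 : X → V) = 0 := by
  funext u; by_cases hu : u ∈ (G.φ i).target <;> simp [rep1, hu, pullV_zero]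

lemma rep2_fsmul (i : Fin G.n) (f : X → ℝ) (α : X → Form) (u : V) :
    G.rep2 i (fun x => f x • α x) u = G.rep0 i f u • G.rep2 i α u := by
  by_cases hu : u ∈ (G.φ i).target <;> simp [rep2, rep0, hu, pull_smul]

lemma rep1_fsmul (i : Fin G.n) (f : X → ℝ) (a : X → V) (u : V) :
    G.rep1 i (fun x => f x • a x) u = G.rep0 i f u • G.rep1 i a u := by
  by_cases hu : u ∈ (G.φ i).target <;> simp [rep1, rep0, hu, pullV_smul]

/-! ## Smooth fields -/

variable {G}

lemma Smooth2.add {α β : X → Form} (ha : G.Smooth2 α) (hb : G.Smooth2 β) : G.Smooth2 (α + β) :=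
  fun i => G.rep2_add i α β ▸ (ha i).add (hb i)

lemma Smooth2.smul {α : X → Form} (ha : G.Smooth2 α) (t : ℝ) : G.Smooth2 (t • α) :=
  fun i => G.rep2_smul i t α ▸ (ha i).const_smul t

lemma Smooth2.neg {α : X → Form} (ha : G.Smooth2 α) : G.Smooth2 (-α) := by
  simpa using ha.smul (-1)

lemma Smooth2.sub {α β : X → Form} (ha : G.Smooth2 α) (hb : G.Smooth2 β) : G.Smooth2 (α - β) := by
  simpa [sub_eq_add_neg] using ha.add hb.neg

lemma smooth2_zero : G.Smooth2 (0 : X → Form) := fun i => by
  rw [G.rep2_zero]; exact contDiffOn_const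

lemma Smooth2.sum {ι : Type*} (s : Finset ι) {α : ι → X → Form}
    (h : ∀ k ∈ s, G.Smooth2 (α k)) : G.Smooth2 (∑ k ∈ s, α k) := by
  classical
  induction s using Finset.induction_on with
  | empty => simpa using smooth2_zero
  | @insert k s hk ih =>
    rw [Finset.sum_insert hk]
    exact (h k (Finset.mem_insert_self k s)).add (ih fun l hl => h l (Finset.mem_insert_of_mem hl))

lemma Smooth1.add {a b : X → V} (ha : G.Smooth1 a) (hb : G.Smooth1 b) : G.Smooth1 (a + b) :=
  fun i => G.rep1_add i a b ▸ (ha i).add (hb i)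

lemma Smooth1.smul {a : X → V} (ha : G.Smooth1 a) (t : ℝ) : G.Smooth1 (t • a) :=
  fun i => G.rep1_smul i t a ▸ (ha i).const_smul t

lemma Smooth1.neg {a : X → V} (ha : G.Smooth1 a) : G.Smooth1 (-a) := by
  simpa using ha.smul (-1)

lemma Smooth1.sub {a b : X → V} (ha : G.Smooth1 a) (hb : G.Smooth1 b) : G.Smooth1 (a - b) := by
  simpa [sub_eq_add_neg] using ha.add hb.neg

lemma smooth1_zero : G.Smooth1 (0 : X → V) := fun i => by
  rw [G.rep1_zero]; exact contDiffOn_const

lemma Smooth1.sum {ι : Type*} (s : Finset ι) {a : ι → X → V}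
    (h : ∀ k ∈ s, G.Smooth1 (a k)) : G.Smooth1 (∑ k ∈ s, a k) := by
  classical
  induction s using Finset.induction_on with
  | empty => simpa using smooth1_zero
  | @insert k s hk ih =>
    rw [Finset.sum_insert hk]
    exact (h k (Finset.mem_insert_self k s)).add (ih fun l hl => h l (Finset.mem_insert_of_mem hl))

lemma Smooth0.smul2 {f : X → ℝ} {α : X → Form} (hf : G.Smooth0 f) (ha : G.Smooth2 α) :
    G.Smooth2 fun x => f x • α x :=
  fun i => ((hf i).smul (ha i)).congr fun u _ => G.rep2_fsmul i f α u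

lemma Smooth0.smul1 {f : X → ℝ} {a : X → V} (hf : G.Smooth0 f) (ha : G.Smooth1 a) :
    G.Smooth1 fun x => f x • a x :=
  fun i => ((hf i).smul (ha i)).congr fun u _ => G.rep1_fsmul i f a u

lemma smooth0_const {F : Type*} [NormedAddCommGroup F] [NormedSpace ℝ F] (c : F) :
    G.Smooth0 fun _ : X => c :=
  fun i => (contDiffOn_const (c := c)).congr fun u hu => by simp [rep0, hu]

lemma smooth0_psi (i : Fin G.n) : G.Smooth0 (G.ψ i) :=
  fun j => (G.ψ_smooth i j).congr fun u hu => by simp [rep0, hu]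

lemma Smooth0.comp {F H : Type*} [NormedAddCommGroup F] [NormedSpace ℝ F] [NormedAddCommGroup H]
    [NormedSpace ℝ H] {f : X → F} (hf : G.Smooth0 f) {g : F → H} (hg : ContDiff ℝ ∞ g) :
    G.Smooth0 fun x => g (f x) :=
  fun i => (hg.comp_contDiffOn (hf i)).congr fun u hu => by simp [rep0, hu]

lemma Smooth0.mul {f g : X → ℝ} (hf : G.Smooth0 f) (hg : G.Smooth0 g) :
    G.Smooth0 fun x => f x * g x :=
  fun i => ((hf i).mul (hg i)).congr fun u hu => by simp [rep0, hu]

lemma Smooth0.add {F : Type*} [NormedAddCommGroup F] [NormedSpace ℝ F] {f g : X → F}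
    (hf : G.Smooth0 f) (hg : G.Smooth0 g) : G.Smooth0 fun x => f x + g x :=
  fun i => ((hf i).add (hg i)).congr fun u hu => by simp [rep0, hu]

lemma Smooth0.sum {F : Type*} [NormedAddCommGroup F] [NormedSpace ℝ F] {ι : Type*} (s : Finset ι)
    {f : ι → X → F} (h : ∀ k ∈ s, G.Smooth0 (f k)) : G.Smooth0 fun x => ∑ k ∈ s, f k x :=
  fun i => (ContDiffOn.sum fun k hk => h k hk i).congr fun u hu => by simp [rep0, hu]

/-! ## Fields of endomorphisms -/

lemma rep2_op (F : X → Form →L[ℝ] Form) (α : X → Form) {i : Fin G.n} {u : V}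
    (hu : u ∈ (G.φ i).target) :
    G.rep2 i (fun x => F x (α x)) u = G.repOp i F u (G.rep2 i α u) := by
  have hi : (G.φ i).symm u ∈ (G.φ i).source := (G.φ i).map_target hu
  simp only [rep2, repOp, hu, if_true, pull_pull_inverse (G.dT_det_ne hi)]

lemma repOp_sum (F : X → Form →L[ℝ] Form) (i : Fin G.n) (u : V) (β : Form) :
    G.repOp i F u β = ∑ k, β k • G.repOp i F u (EuclideanSpace.single k 1) := by
  set x := (G.φ i).symm u
  let L : Form →L[ℝ] Form := (pullL (G.dT i x)).comp ((F x).comp (pullL (G.dT i x).inverse))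
  have hL : ∀ γ, G.repOp i F u γ = L γ := fun γ => rfl
  simp only [hL]
  conv_lhs => rw [← (EuclideanSpace.basisFun (Fin 6) ℝ).sum_repr β]
  simp [map_sum]

/-- A smooth field of endomorphisms acts on smooth fields. -/
lemma SmoothOp.apply {F : X → Form →L[ℝ] Form} (hF : G.SmoothOp F) {α : X → Form}
    (ha : G.Smooth2 α) : G.Smooth2 fun x => F x (α x) := by
  intro i
  have h : ContDiffOn ℝ ∞
      (fun u => ∑ k, G.rep2 i α u k • G.repOp i F u (EuclideanSpace.single k 1))
      (G.φ i).target :=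
    ContDiffOn.sum fun k _ =>
      ((contDiffOn_piLp (p := 2)).1 (ha i) k).smul (hF i (EuclideanSpace.single k 1))
  exact h.congr fun u hu => by rw [G.rep2_op F α hu, repOp_sum]

lemma repE_apply {i : Fin G.n} (J : X → V →L[ℝ] V) {u : V} (hu : u ∈ (G.φ i).target) :
    G.repE i J u = (G.dT i ((G.φ i).symm u)).inverse.comp
      ((J ((G.φ i).symm u)).comp (G.dT i ((G.φ i).symm u))) := if_pos hu

lemma repOp_pullL {i : Fin G.n} (J : X → V →L[ℝ] V) {u : V} (hu : u ∈ (G.φ i).target)
    (β : Form) : G.repOp i (fun x => pullL (J x)) u β = pull (G.repE i J u) β := by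
  simp only [repOp, pullL_apply, repE_apply J hu, pull_comp]

lemma repOp_piPL {i : Fin G.n} (J : X → V →L[ℝ] V) {u : V} (hu : u ∈ (G.φ i).target)
    (β : Form) : G.repOp i (fun x => piPL (J x)) u β = piP (G.repE i J u) β := by
  have hd := G.dT_det_ne ((G.φ i).map_target hu)
  simp only [repOp, piPL_apply, repE_apply J hu]
  rw [← piP_conj hd, pull_inverse_pull hd]

lemma repOp_piML {i : Fin G.n} (J : X → V →L[ℝ] V) {u : V} (hu : u ∈ (G.φ i).target)
    (β : Form) : G.repOp i (fun x => piML (J x)) u β = piM (G.repE i J u) β := by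
  have hd := G.dT_det_ne ((G.φ i).map_target hu)
  simp only [repOp, piML_apply, repE_apply J hu]
  rw [← piM_conj hd, pull_inverse_pull hd]

lemma rep2_piP {i : Fin G.n} (J : X → V →L[ℝ] V) (α : X → Form) {u : V}
    (hu : u ∈ (G.φ i).target) :
    G.rep2 i (fun x => piP (J x) (α x)) u = piP (G.repE i J u) (G.rep2 i α u) := by
  rw [← repOp_piPL J hu, ← G.rep2_op (fun x => piPL (J x)) α hu]
  simp

lemma rep2_piM {i : Fin G.n} (J : X → V →L[ℝ] V) (α : X → Form) {u : V}
    (hu : u ∈ (G.φ i).target) :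
    G.rep2 i (fun x => piM (J x) (α x)) u = piM (G.repE i J u) (G.rep2 i α u) := by
  rw [← repOp_piML J hu, ← G.rep2_op (fun x => piML (J x)) α hu]
  simp

lemma contDiffOn_pull {s : Set V} {A : V → V →L[ℝ] V} (hA : ContDiffOn ℝ ∞ A s) {f : V → Form}
    (hf : ContDiffOn ℝ ∞ f s) : ContDiffOn ℝ ∞ (fun u => pull (A u) (f u)) s := by
  refine contDiffOn_piLp' 2 fun k => ?_
  simp only [pull, ofSkew_apply, ev]
  exact ContDiffOn.sum fun l _ => ((contDiffOn_piLp (p := 2)).1 hf l).mul
    (((contDiffOn_pi.1 (hA.clm_apply contDiffOn_const) _).mul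
      (contDiffOn_pi.1 (hA.clm_apply contDiffOn_const) _)).sub
      ((contDiffOn_pi.1 (hA.clm_apply contDiffOn_const) _).mul
      (contDiffOn_pi.1 (hA.clm_apply contDiffOn_const) _)))

lemma SmoothE.piPL {J : X → V →L[ℝ] V} (hJ : G.SmoothE J) : G.SmoothOp fun x => piPL (J x) :=
  fun i β => (((contDiffOn_const (c := β)).add (contDiffOn_pull (hJ i) contDiffOn_const)).const_smul
    (1 / 2 : ℝ)).congr fun u hu => by rw [repOp_piPL J hu]; rfl

lemma SmoothE.piML {J : X → V →L[ℝ] V} (hJ : G.SmoothE J) : G.SmoothOp fun x => piML (J x) :=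
  fun i β => (((contDiffOn_const (c := β)).sub (contDiffOn_pull (hJ i) contDiffOn_const)).const_smul
    (1 / 2 : ℝ)).congr fun u hu => by rw [repOp_piML J hu]; rfl

lemma Smooth2.piP {J : X → V →L[ℝ] V} (hJ : G.SmoothE J) {α : X → Form} (ha : G.Smooth2 α) :
    G.Smooth2 fun x => Torus.piP (J x) (α x) := by
  simpa using hJ.piPL.apply ha

lemma Smooth2.piM {J : X → V →L[ℝ] V} (hJ : G.SmoothE J) {α : X → Form} (ha : G.Smooth2 α) :
    G.Smooth2 fun x => Torus.piM (J x) (α x) := by
  simpa using hJ.piML.apply ha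

/-! ## Fields supported in one chart -/

variable (G)

lemma tsupport_rep2_subset [CompactSpace X] {i : Fin G.n} {α : X → Form}
    (hs : tsupport α ⊆ (G.φ i).source) :
    tsupport (G.rep2 i α) ⊆ G.φ i '' tsupport α ∧ IsCompact (G.φ i '' tsupport α) := by
  have hK : IsCompact (G.φ i '' tsupport α) :=
    (isClosed_tsupport α).isCompact.image_of_continuousOn ((G.φ i).continuousOn.mono hs)
  refine ⟨closure_minimal (fun u hu => ?_) hK.isClosed, hK⟩
  by_cases ht : u ∈ (G.φ i).target
  · refine ⟨(G.φ i).symm u, subset_tsupport _ fun h0 => hu ?_, (G.φ i).right_inv ht⟩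
    simp [rep2, ht, h0, pull_zero]
  · exact absurd (G.rep2_of_notMem α ht) hu

/-- A smooth field supported in a chart gives a smooth periodic field. -/
lemma smooth_pext_rep2 [CompactSpace X] {i : Fin G.n} {α : X → Form} (ha : G.Smooth2 α)
    (hs : tsupport α ⊆ (G.φ i).source) :
    ContDiff ℝ ∞ (G.rep2 i α) ∧ HasCompactSupport (G.rep2 i α) ∧
      Smooth (pext (G.rep2 i α)) := by
  obtain ⟨h1, hK⟩ := G.tsupport_rep2_subset hs
  have hc : HasCompactSupport (G.rep2 i α) := hK.of_isClosed_subset (isClosed_tsupport _) h1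
  have hsub : tsupport (G.rep2 i α) ⊆ (G.φ i).target :=
    h1.trans (image_subset_iff.2 fun x hx => (G.φ i).map_source (hs hx))
  have hd : ContDiff ℝ ∞ (G.rep2 i α) := by
    refine contDiff_iff_contDiffAt.2 fun u => ?_
    by_cases hu : u ∈ tsupport (G.rep2 i α)
    · exact G.contDiffAt_rep2 ha (hsub hu)
    · exact contDiffAt_const.congr_of_eventuallyEq
        (notMem_tsupport_iff_eventuallyEq.1 hu)
  exact ⟨hd, hc, smooth_pext hd hc (hsub.trans (G.target_sub i))⟩

lemma tsupport_psi_smul {F : Type*} [TopologicalSpace F] [AddZeroClass F] [SMulWithZero ℝ F]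
    (i : Fin G.n) (α : X → F) : tsupport (fun x => G.ψ i x • α x) ⊆ (G.φ i).source :=
  (tsupport_smul_subset_left (G.ψ i) α).trans (G.ψ_supp i)

/-- The cut-off field on the torus is smooth. -/
lemma smooth_locF [CompactSpace X] (i : Fin G.n) {α : X → Form} (ha : G.Smooth2 α) :
    Smooth (G.locF i α) :=
  (G.smooth_pext_rep2 ((smooth0_psi i).smul2 ha) (G.tsupport_psi_smul i α)).2.2

lemma locF_eq (i : Fin G.n) (α : X → Form) {u : V} (hu : u ∈ Q0) :
    G.locF i α u = G.rep0 i (G.ψ i) u • G.rep2 i α u := by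
  rw [locF, pext_eq_self _ (Q0_subset_cube hu), G.rep2_fsmul]

open Classical in
/-- A function of the chart `i`, read on `X`. -/
noncomputable def fromChart0 {F : Type*} [Zero F] (i : Fin G.n) (g : V → F) (x : X) : F :=
  if x ∈ (G.φ i).source then g (G.φ i x) else 0

lemma fromChart0_apply {F : Type*} [Zero F] {i : Fin G.n} (g : V → F) {x : X}
    (hx : x ∈ (G.φ i).source) : G.fromChart0 i g x = g (G.φ i x) := if_pos hx

lemma continuous_fromChart0 [T2Space X] {F : Type*} [TopologicalSpace F] [Zero F]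
    {i : Fin G.n} {g : V → F} (hg : Continuous g) (hc : HasCompactSupport g)
    (hs : tsupport g ⊆ (G.φ i).target) : Continuous (G.fromChart0 i g) := by
  set K := (G.φ i).symm '' tsupport g
  have hK : IsCompact K := hc.isCompact.image_of_continuousOn ((G.φ i).continuousOn_symm.mono hs)
  refine continuous_iff_continuousAt.2 fun x => ?_
  by_cases hx : x ∈ (G.φ i).source
  · refine (hg.continuousAt.comp ((G.φ i).continuousAt hx)).congr ?_
    filter_upwards [(G.φ i).open_source.mem_nhds hx] with y hy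
    exact (G.fromChart0_apply g hy).symm
  · refine (continuousAt_const (y := (0 : F))).congr ?_
    have hxK : x ∉ K := fun ⟨u, hu, h⟩ => hx (h ▸ (G.φ i).map_target (hs hu))
    filter_upwards [hK.isClosed.isOpen_compl.mem_nhds hxK] with y hy
    by_cases hys : y ∈ (G.φ i).source
    · rw [G.fromChart0_apply g hys]
      refine (image_eq_zero_of_notMem_tsupport fun h => hy ⟨_, h, (G.φ i).left_inv hys⟩).symm
    · simp [fromChart0, hys]

/-- A smooth function with compact support in a chart is smooth on `X`. -/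
lemma smooth0_fromChart0 [T2Space X] {F : Type*} [NormedAddCommGroup F] [NormedSpace ℝ F]
    {i : Fin G.n} {g : V → F} (hg : ContDiff ℝ ∞ g) (hc : HasCompactSupport g)
    (hs : tsupport g ⊆ (G.φ i).target) : G.Smooth0 (G.fromChart0 i g) := by
  intro j u hu
  set K := (G.φ i).symm '' tsupport g
  have hK : IsCompact K := hc.isCompact.image_of_continuousOn ((G.φ i).continuousOn_symm.mono hs)
  refine ContDiffAt.contDiffWithinAt ?_
  have hcont : ContinuousAt (G.φ j).symm u := (G.φ j).continuousAt_symm hu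
  by_cases hx : (G.φ j).symm u ∈ (G.φ i).source
  · refine (hg.contDiffAt.comp u (G.contDiffAt_tc (G.mem_tdom.2 ⟨hu, hx⟩))).congr_of_eventuallyEq ?_
    filter_upwards [(G.φ j).open_target.mem_nhds hu,
      hcont.eventually_mem ((G.φ i).open_source.mem_nhds hx)] with v hv hvi
    simp [rep0, hv, fromChart0, hvi, tc]
  · have hxK : (G.φ j).symm u ∉ K := fun ⟨w, hw, h⟩ => hx (h ▸ (G.φ i).map_target (hs hw))
    refine (contDiffAt_const (c := (0 : F))).congr_of_eventuallyEq ?_
    filter_upwards [hcont.eventually_mem (hK.isClosed.isOpen_compl.mem_nhds hxK)] with v hv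
    by_cases hvt : v ∈ (G.φ j).target
    · simp only [rep0, hvt, if_true, fromChart0]
      split_ifs with hys
      · exact image_eq_zero_of_notMem_tsupport fun h => hv ⟨_, h, (G.φ i).left_inv hys⟩
      · rfl
    · exact G.rep0_of_notMem _ hvt

/-- A cut-off one-form of a chart is smooth on `X`. -/
lemma smooth1_fromChart1 [T2Space X] {i : Fin G.n} {b : V → V}
    (hb : ContDiffOn ℝ ∞ b (G.φ i).target) : G.Smooth1 (G.fromChart1 i b) := by
  intro j u hu
  set K := (G.φ i).symm '' tsupport (G.χ i)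
  have hK : IsCompact K :=
    (G.χ_cpt i).isCompact.image_of_continuousOn ((G.φ i).continuousOn_symm.mono (G.χ_supp i))
  refine ContDiffAt.contDiffWithinAt ?_
  have hcont : ContinuousAt (G.φ j).symm u := (G.φ j).continuousAt_symm hu
  by_cases hx : (G.φ j).symm u ∈ (G.φ i).source
  · have hd := G.mem_tdom.2 ⟨hu, hx⟩
    have hT := G.contDiffAt_tc hd
    have hw : ContDiffAt ℝ ∞ (fun v => G.χ i (G.tc j i v) • b (G.tc j i v)) u :=
      ContDiffAt.smul ((G.χ_smooth i).contDiffAt.comp u hT) ((hb.contDiffAt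
        ((G.φ i).open_target.mem_nhds ((G.φ i).map_source hx))).comp u hT)
    have hs : ContDiffAt ℝ ∞
        (fun v => pullV (fderiv ℝ (G.tc j i) v) (G.χ i (G.tc j i v) • b (G.tc j i v))) u := by
      refine contDiffAt_pi.2 fun k => ?_
      refine ContDiffAt.sum (s := Finset.univ)
        (f := fun (l : Fin 4) (v : V) => (G.χ i (G.tc j i v) • b (G.tc j i v)) l *
          fderiv ℝ (G.tc j i) v (e k) l) fun l _ => ?_
      exact (contDiffAt_pi.1 hw l).mul (contDiffAt_pi.1
        ((hT.fderiv_right (m := ∞) le_rfl).clm_apply contDiffAt_const) l)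
    refine hs.congr_of_eventuallyEq ?_
    filter_upwards [(G.isOpen_tdom j i).mem_nhds hd] with v hv
    obtain ⟨hv1, hv2⟩ := G.mem_tdom.1 hv
    rw [G.rep1_change _ hv]
    simp only [rep1, tc, (G.φ i).map_source hv2, if_true, fromChart1, (G.φ i).left_inv hv2, hv2]
    rw [pullV_inverse_pullV (G.dT_det_ne hv2)]
  · have hxK : (G.φ j).symm u ∉ K :=
      fun ⟨w, hw, h⟩ => hx (h ▸ (G.φ i).map_target (G.χ_supp i hw))
    refine (contDiffAt_const (c := (0 : V))).congr_of_eventuallyEq ?_
    filter_upwards [hcont.eventually_mem (hK.isClosed.isOpen_compl.mem_nhds hxK)] with v hv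
    by_cases hvt : v ∈ (G.φ j).target
    · simp only [rep1, hvt, if_true, fromChart1]
      split_ifs with hys
      · rw [image_eq_zero_of_notMem_tsupport fun h => hv ⟨_, h, (G.φ i).left_inv hys⟩,
          zero_smul, pullV_zero, pullV_zero]
      · exact pullV_zero _
    · exact G.rep1_of_notMem _ hvt

lemma rep1_fromChart1 {i : Fin G.n} (b : V → V) {u : V} (hu : u ∈ (G.φ i).target) :
    G.rep1 i (G.fromChart1 i b) u = G.χ i u • b u := by
  have hi := (G.φ i).map_target hu
  simp only [rep1, hu, if_true, fromChart1, hi, (G.φ i).right_inv hu,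
    pullV_inverse_pullV (G.dT_det_ne hi)]

/-! ## The product rule -/

/-- The differential of a function. -/
noncomputable def d0 (f : X → ℝ) (x : X) : V := grad (G.rep0 (G.tr x) f) (G.ch x x)

lemma grad_pullV {f : V → ℝ} {T : V → V} {u : V} (hf : DifferentiableAt ℝ f (T u))
    (hT : DifferentiableAt ℝ T u) :
    grad (fun v => f (T v)) u = pullV (fderiv ℝ T u) (grad f (T u)) :=
  covec_ext fun w => by
    rw [pair_grad, pair_pullV, pair_grad,
      show (fun v => f (T v)) = f ∘ T from rfl, fderiv_comp u hf hT]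
    rfl

lemma rep1_d0 {f : X → ℝ} (hf : G.Smooth0 f) {i : Fin G.n} {u : V} (hu : u ∈ (G.φ i).target) :
    G.rep1 i (G.d0 f) u = grad (G.rep0 i f) u := by
  set x := (G.φ i).symm u
  have hi : x ∈ (G.φ i).source := (G.φ i).map_target hu
  have hk := G.mem_ch x
  have hd : u ∈ G.tdom i (G.tr x) := G.mem_tdom.2 ⟨hu, hk⟩
  have he : G.rep0 i f =ᶠ[𝓝 u] fun v => G.rep0 (G.tr x) f (G.tc i (G.tr x) v) := by
    filter_upwards [(G.isOpen_tdom i (G.tr x)).mem_nhds hd] with v hv
    obtain ⟨h1, h2⟩ := G.mem_tdom.1 hv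
    simp [rep0, tc, h1, (G.φ (G.tr x)).map_source h2, (G.φ (G.tr x)).left_inv h2]
  have hg : grad (G.rep0 i f) u = grad (fun v => G.rep0 (G.tr x) f (G.tc i (G.tr x) v)) u := by
    funext k
    exact congrArg (fun L : V →L[ℝ] ℝ => L (e k)) he.fderiv_eq
  rw [hg, grad_pullV
    (((hf _).contDiffAt ((G.φ _).open_target.mem_nhds ((G.φ _).map_source hk))).differentiableAt
      (by simp)) ((G.contDiffAt_tc hd).differentiableAt (by simp))]
  conv_lhs => rw [show u = G.φ i x from ((G.φ i).right_inv hu).symm, G.rep1_apply _ hi]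
  rw [dT_eq, trD, (G.φ i).right_inv hu]
  rfl

lemma smooth1_d0 {f : X → ℝ} (hf : G.Smooth0 f) : G.Smooth1 (G.d0 f) := by
  intro i
  refine ContDiffOn.congr (contDiffOn_pi.2 fun k => ?_) fun u hu => G.rep1_d0 hf hu
  exact ((hf i).fderiv_of_isOpen (G.φ i).open_target (m := ∞) le_rfl).clm_apply contDiffOn_const

lemma d_add {a b : X → V} (ha : G.Smooth1 a) (hb : G.Smooth1 b) :
    G.d (a + b) = G.d a + G.d b := by
  funext x
  have hx := (G.φ (G.tr x)).map_source (G.mem_ch x)
  ext k
  simp only [d, Pi.add_apply, PiLp.add_apply, d1_apply, rep1_add, ch]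
  rw [fderiv_add ((G.contDiffAt_rep1 ha hx).differentiableAt (by simp))
    ((G.contDiffAt_rep1 hb hx).differentiableAt (by simp))]
  simp
  ring

lemma d_smul {a : X → V} (ha : G.Smooth1 a) (t : ℝ) : G.d (t • a) = t • G.d a := by
  funext x
  have hx := (G.φ (G.tr x)).map_source (G.mem_ch x)
  ext k
  simp only [d, Pi.smul_apply, PiLp.smul_apply, d1_apply, rep1_smul, ch]
  rw [fderiv_const_smul ((G.contDiffAt_rep1 ha hx).differentiableAt (by simp))]
  simp
  ring

/-- The product rule. -/
lemma d_fsmul {f : X → ℝ} {a : X → V} (hf : G.Smooth0 f) (ha : G.Smooth1 a) (x : X) :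
    G.d (fun y => f y • a y) x = f x • G.d a x + wedge (G.d0 f x) (a x) := by
  have hk := G.mem_ch x
  have hx := (G.φ (G.tr x)).map_source hk
  have he : G.rep1 (G.tr x) (fun y => f y • a y) =
      fun u => G.rep0 (G.tr x) f u • G.rep1 (G.tr x) a u := funext (G.rep1_fsmul _ f a)
  rw [d, he, ch, d1_smul (((hf _).contDiffAt ((G.φ _).open_target.mem_nhds hx)).differentiableAt
    (by simp)) ((G.contDiffAt_rep1 ha hx).differentiableAt (by simp))]
  rw [show G.rep1 (G.tr x) a (G.φ (G.tr x) x) = a x from G.rep1_tr a x, G.rep0_apply f hk]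
  rfl

end Geo

namespace GSetup

variable {X : Type*} [TopologicalSpace X] [MeasurableSpace X] (S : GSetup X)

lemma smooth_Om : S.Smooth2 S.Om := Geo.Smooth2.piP S.J_smooth S.om_smooth

end GSetup

end Vale.Agent.P204.Gen
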