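import Vale.Agent.P204.Gen.EllWeights
import Vale.Agent.P204.Gen.GeoSmooth
import Vale.Agent.P204.Torus.Calculus
import Vale.Agent.P204.Torus.PiMul

/-!
P204, general four-manifold: the symbol of `d` controls the wedge square of a two-form; derivatives
on the Fourier side.
-/

open MeasureTheory
open scoped BigOperators ContDiff

namespace Vale.Agent.P204.Gen.Ell

open Vale.Agent.P204.Torus

/-- The coordinates of `t ∧ a`. -/
noncomputable def wv (t : V) (a : CForm) (j : Fin 4) : ℂ := qC a (cplx (wedge t (e j)))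

/-- The coordinates of the interior product of `a` with `t`. -/
def iotaV (t : V) (a : Form) (j : Fin 4) : ℝ :=
  ![-(t 1 * a 0 + t 2 * a 1 + t 3 * a 2), t 0 * a 0 - t 2 * a 5 + t 3 * a 4,
    t 0 * a 1 + t 1 * a 5 - t 3 * a 3, t 0 * a 2 - t 1 * a 4 + t 2 * a 3] j

lemma q_self_mul (t : V) (a : Form) :
    (∑ i, t i ^ 2) * q a a = 2 * ∑ j, iotaV t a j * q a (wedge t (e j)) := by
  simp [q, wedge_apply, e, fi, se, iotaV, Fin.sum_univ_four]
  ring

/-- Where `t ∧ a` is small, so is `q(a, a)`. -/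
lemma q_le_wedge (t : V) (a : Form) {g : ℝ} (hg : ∀ j, |q a (wedge t (e j))| ≤ g) :
    (∑ i, |t i|) * |q a a| ≤ 32 * (‖a‖ * g) := by
  set L := ∑ i, |t i|
  have hL : 0 ≤ L := Finset.sum_nonneg fun _ _ => abs_nonneg _
  have hg0 : 0 ≤ g := (abs_nonneg _).trans (hg 0)
  rcases hL.eq_or_lt with h | h
  · rw [← h, zero_mul]; positivity
  have ha : ∀ k, |a k| ≤ ‖a‖ := fun k => by
    simpa [Real.norm_eq_abs] using PiLp.norm_apply_le a k
  have hi : ∀ j, |iotaV t a j| ≤ L * ‖a‖ := fun j => by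
    have hm : ∀ i k, |t i * a k| ≤ |t i| * ‖a‖ := fun i k => by
      rw [abs_mul]; exact mul_le_mul_of_nonneg_left (ha k) (abs_nonneg _)
    have e' : L * ‖a‖ = |t 0| * ‖a‖ + |t 1| * ‖a‖ + |t 2| * ‖a‖ + |t 3| * ‖a‖ := by
      simp only [L, Fin.sum_univ_four]; ring
    have h0 : ∀ i, 0 ≤ |t i| * ‖a‖ := fun i => by positivity
    rw [e', abs_le]
    constructor <;> fin_cases j <;>
      simp [iotaV] <;>
      linarith [abs_le.1 (hm 0 0), abs_le.1 (hm 0 1), abs_le.1 (hm 0 2), abs_le.1 (hm 1 0),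
        abs_le.1 (hm 1 4), abs_le.1 (hm 1 5), abs_le.1 (hm 2 1), abs_le.1 (hm 2 3),
        abs_le.1 (hm 2 5), abs_le.1 (hm 3 2), abs_le.1 (hm 3 3), abs_le.1 (hm 3 4),
        h0 0, h0 1, h0 2, h0 3]
  have hT : L ^ 2 ≤ 4 * ∑ i, t i ^ 2 := by
    refine (sq_sum_le_card_mul_sum_sq).trans_eq ?_
    simp
  have h8 : (∑ i, t i ^ 2) * |q a a| ≤ 8 * (L * ‖a‖ * g) := by
    rw [← abs_of_nonneg (Finset.sum_nonneg fun i _ => sq_nonneg (t i)), ← abs_mul, q_self_mul,
      abs_mul, abs_two]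
    refine (mul_le_mul_of_nonneg_left ((Finset.abs_sum_le_sum_abs _ _).trans
      (Finset.sum_le_card_nsmul _ _ (L * ‖a‖ * g) fun j _ => ?_)) zero_le_two).trans_eq (by simp; ring)
    rw [abs_mul]
    exact mul_le_mul (hi j) (hg j) (abs_nonneg _) (by positivity)
  refine le_of_mul_le_mul_left ?_ h
  nlinarith [mul_le_mul_of_nonneg_right hT (abs_nonneg (q a a))]

/-- The symbol of `d` controls `q(a, a)` at every frequency. -/
theorem symbol_bound (ξ : Freq) (a : CForm) {g : ℝ} (hW : ∀ j, ‖wv (intVec ξ) a j‖ ≤ g) :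
    lam ξ * |(qC a (cconj a)).re| ≤ 128 * (‖a‖ * (g + ‖a‖)) := by
  have hg : 0 ≤ g := (norm_nonneg _).trans (hW 0)
  have hq6 := abs_qC_le a a
  have hre : ∀ j, (wv (intVec ξ) a j).re = q (reF a) (wedge (intVec ξ) (e j)) := fun j => by
    simp [wv, qC, q, cplx_apply, reF_apply]
  have him : ∀ j, (wv (intVec ξ) a j).im = q (imF a) (wedge (intVec ξ) (e j)) := fun j => by
    simp [wv, qC, q, cplx_apply, imF]
  by_cases h0 : ξ = 0
  · subst h0
    have : lam 0 = 1 := by simp [lam]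
    rw [this, one_mul]
    nlinarith [norm_nonneg a]
  set L := ∑ i, |(intVec ξ) i|
  have hL1 : 1 ≤ L := by
    obtain ⟨i, hi⟩ := Function.ne_iff.1 h0
    refine le_trans ?_ (Finset.single_le_sum (f := fun i => |(intVec ξ) i|)
      (fun i _ => abs_nonneg _) (Finset.mem_univ i))
    simp only [intVec, ← Int.cast_abs]
    exact_mod_cast Int.one_le_abs (by simpa using hi)
  have hlam : lam ξ ≤ 2 * L := by
    simp only [lam, L, intVec] at hL1 ⊢; linarith
  have ha : ‖reF a‖ ≤ ‖a‖ := norm_reF_le a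
  have hb : ‖imF a‖ ≤ ‖a‖ := by
    refine le_of_pow_le_pow_left₀ two_ne_zero (norm_nonneg a) ?_
    rw [norm_sq_reim a]; nlinarith [sq_nonneg ‖reF a‖]
  have h1 := q_le_wedge (intVec ξ) (reF a) (g := g) fun j => by
    rw [← hre]; exact (Complex.abs_re_le_norm _).trans (hW j)
  have h2 := q_le_wedge (intVec ξ) (imF a) (g := g) fun j => by
    rw [← him]; exact (Complex.abs_im_le_norm _).trans (hW j)
  rw [re_qC_cconj]
  calc lam ξ * |q (reF a) (reF a) + q (imF a) (imF a)|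
      ≤ 2 * L * (|q (reF a) (reF a)| + |q (imF a) (imF a)|) :=
        mul_le_mul hlam (abs_add_le _ _) (abs_nonneg _) (by linarith)
    _ ≤ 2 * (32 * (‖a‖ * g) + 32 * (‖a‖ * g)) := by
        have := mul_le_mul_of_nonneg_right ha hg
        have := mul_le_mul_of_nonneg_right hb hg
        simp only [L] at *
        linarith
    _ ≤ 128 * (‖a‖ * (g + ‖a‖)) := by nlinarith [mul_nonneg (norm_nonneg a) (norm_nonneg a)]

/-! ### Periodic extensions -/

lemma pext_ae {F : Type*} (f : V → F) : pext f =ᵐ[volume.restrict cube] f := by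
  filter_upwards [ae_restrict_mem measurableSet_cube] with x hx using pext_eq_self f hx

lemma ae_Q0 : ∀ᵐ x ∂(volume.restrict cube), x ∈ Q0 := by
  rw [ae_restrict_iff' measurableSet_cube]
  have h : ∀ i : Fin 4, ∀ᵐ x : V, x i ≠ 0 := fun i =>
    Measure.ae_eval_ne (μ := fun _ : Fin 4 => (volume : Measure ℝ)) i 0
  filter_upwards [ae_all_iff.2 h] with x hx hmem i _
  exact ⟨lt_of_le_of_ne (hmem i (Set.mem_univ i)).1 (hx i).symm, (hmem i (Set.mem_univ i)).2⟩

lemma fderiv_pext_ae {F : Type*} [NormedAddCommGroup F] [NormedSpace ℝ F] (f : V → F) (v : V) :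
    (fun x => fderiv ℝ (pext f) x v) =ᵐ[volume.restrict cube] fun x => fderiv ℝ f x v := by
  filter_upwards [ae_Q0] with x hx
  rw [(pext_eventuallyEq f hx).fderiv_eq]

/-! ### Derivatives -/

lemma hk_of_smooth {h : V → Form} (hh : Smooth h) (k : ℕ) : Hk k (coef h) :=
  (((coef_rapid hh).summable_sq k).mul_left ((5 ^ k : ℝ) ^ 2)).of_nonneg_of_le
    (fun ξ => sq_nonneg _) fun ξ => by
      rw [← mul_pow]
      refine pow_le_pow_left₀ (by have := lam_pos ξ; positivity) ?_ 2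
      rw [← mul_assoc, ← mul_pow]
      exact mul_le_mul_of_nonneg_right
        (pow_le_pow_left₀ (lam_pos ξ).le (lam_le_five_wt ξ) k) (norm_nonneg _)

end Vale.Agent.P204.Gen.Ell
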