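import Vale.Agent.P204.Gen.Core
import Vale.Agent.P204.Gen.GeoSmooth
import Vale.Agent.P204.Torus.PiMul
import Vale.Agent.P204.Torus.Calculus

/-!
P204, general four-manifold, module 5: the Sobolev square norms `hsq` of periodic fields.

`hsq k ε f` is the sum of `(1 + 4 π² ε² |ξ|²) ^ k ‖coef f ξ‖²`. This gives monotonicity, Minkowski,
the sup bound and completeness; multipliers and changes of variables are handled by induction.
-/

open MeasureTheory Set Filter Topology Metric
open scoped BigOperators ContDiff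

namespace Vale.Agent.P204.Gen

open Vale.Agent.P204.Torus

/-- The weight of one derivative. -/
noncomputable def sobWt (ε : ℝ) (ξ : Freq) : ℝ :=
  1 + ε ^ 2 * ∑ i, (2 * Real.pi * (ξ i : ℝ)) ^ 2

lemma one_le_sobWt (ε : ℝ) (ξ : Freq) : 1 ≤ sobWt ε ξ :=
  le_add_of_nonneg_right (mul_nonneg (sq_nonneg _) (Finset.sum_nonneg fun _ _ => sq_nonneg _))

lemma sobWt_pos (ε : ℝ) (ξ : Freq) : 0 < sobWt ε ξ := zero_lt_one.trans_le (one_le_sobWt ε ξ)

lemma hsq_nonneg (k : ℕ) (ε : ℝ) (f : V → Form) : 0 ≤ hsq k ε f := by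
  induction k generalizing f with
  | zero => exact integral_nonneg fun u => sq_nonneg _
  | succ k ih => exact add_nonneg (ih f) (mul_nonneg (sq_nonneg _) (Finset.sum_nonneg fun l _ => ih _))

lemma hsq_le_succ (k : ℕ) (ε : ℝ) (f : V → Form) : hsq k ε f ≤ hsq (k + 1) ε f :=
  le_add_of_nonneg_right (mul_nonneg (sq_nonneg _) (Finset.sum_nonneg fun _ _ => hsq_nonneg _ _ _))

lemma hsq_mono_k {k m : ℕ} (h : k ≤ m) (ε : ℝ) (f : V → Form) : hsq k ε f ≤ hsq m ε f := by
  induction h with
  | refl => rfl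
  | step _ ih => exact ih.trans (hsq_le_succ _ _ _)

lemma hsq_fderiv_le (k : ℕ) (ε : ℝ) (f : V → Form) (l : Fin 4) :
    ε ^ 2 * hsq k ε (fun u => fderiv ℝ f u (e l)) ≤ hsq (k + 1) ε f :=
  (mul_le_mul_of_nonneg_left (Finset.single_le_sum
    (f := fun m => hsq k ε fun u => fderiv ℝ f u (e m)) (fun _ _ => hsq_nonneg _ _ _)
    (Finset.mem_univ l)) (sq_nonneg _)).trans (le_add_of_nonneg_left (hsq_nonneg _ _ _))

/-- `hsq` in Fourier coefficients. -/
theorem hasSum_hsq (k : ℕ) (ε : ℝ) {f : V → Form} (hf : Smooth f) :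
    HasSum (fun ξ => sobWt ε ξ ^ k * ‖coef f ξ‖ ^ 2) (hsq k ε f) := by
  induction k generalizing f with
  | zero => simpa [hsq] using parseval_norm (hf.memLp 2)
  | succ k ih =>
    have h1 := (ih hf).add
      ((hasSum_sum fun l (_ : l ∈ Finset.univ) => ih (hf.fderiv_apply (e l))).mul_left (ε ^ 2))
    refine h1.congr_fun fun ξ => ?_
    simp only [coef_fderiv hf, norm_smul, norm_mul, Complex.norm_I, one_mul, Complex.norm_real,
      Real.norm_eq_abs, phase_e, mul_pow, sq_abs, sobWt, Finset.mul_sum, pow_succ (n := k), mul_add,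
      mul_one, add_mul, Finset.sum_mul]
    refine congrArg₂ (· + ·) rfl (Finset.sum_congr rfl fun i _ => ?_)
    ring

theorem hsq_eq (k : ℕ) (ε : ℝ) {f : V → Form} (hf : Smooth f) :
    hsq k ε f = ∑' ξ, sobWt ε ξ ^ k * ‖coef f ξ‖ ^ 2 := (hasSum_hsq k ε hf).tsum_eq.symm

/-- A larger scale gives a larger norm. -/
lemma hsq_mono_eps (k : ℕ) {ε ε' : ℝ} (h : |ε| ≤ |ε'|) {f : V → Form} (hf : Smooth f) :
    hsq k ε f ≤ hsq k ε' f := by
  refine hasSum_le (fun ξ => ?_) (hasSum_hsq k ε hf) (hasSum_hsq k ε' hf)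
  refine mul_le_mul_of_nonneg_right (pow_le_pow_left₀ (sobWt_pos _ _).le ?_ _) (sq_nonneg _)
  exact (add_le_add_iff_left 1).2 (mul_le_mul_of_nonneg_right (sq_le_sq.2 h)
    (Finset.sum_nonneg fun _ _ => sq_nonneg _))

lemma smooth_add' {f g : V → Form} (hf : Smooth f) (hg : Smooth g) :
    Smooth fun u => f u + g u :=
  ⟨hf.smooth.add hg.smooth, fun x n => by simp [hf.periodic x n, hg.periodic x n]⟩

lemma smooth_const_smul' (r : ℝ) {f : V → Form} (hf : Smooth f) : Smooth fun u => r • f u :=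
  ⟨hf.smooth.const_smul r, fun x n => by simp [hf.periodic x n]⟩

lemma smooth_sub' {f g : V → Form} (hf : Smooth f) (hg : Smooth g) :
    Smooth fun u => f u - g u :=
  ⟨hf.smooth.sub hg.smooth, fun x n => by simp [hf.periodic x n, hg.periodic x n]⟩

lemma smooth_finsum {ι : Type*} (s : Finset ι) {f : ι → V → Form} (hf : ∀ i ∈ s, Smooth (f i)) :
    Smooth fun u => ∑ i ∈ s, f i u :=
  ⟨ContDiff.sum fun i hi => (hf i hi).smooth,
    fun x n => Finset.sum_congr rfl fun i hi => (hf i hi).periodic x n⟩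

lemma hsq_smul (k : ℕ) (ε r : ℝ) {f : V → Form} (hf : Smooth f) :
    hsq k ε (fun u => r • f u) = r ^ 2 * hsq k ε f := by
  refine (hasSum_hsq k ε (smooth_const_smul' r hf)).unique ?_
  refine ((hasSum_hsq k ε hf).mul_left (r ^ 2)).congr_fun fun ξ => ?_
  simp [coef_smul, norm_smul, mul_pow, mul_left_comm]

/-- Minkowski's inequality. -/
theorem sqrt_hsq_add_le (k : ℕ) (ε : ℝ) {f g : V → Form} (hf : Smooth f) (hg : Smooth g) :
    Real.sqrt (hsq k ε fun u => f u + g u) ≤ Real.sqrt (hsq k ε f) + Real.sqrt (hsq k ε g) := by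
  have hA := hasSum_hsq k ε hf
  have hB := hasSum_hsq k ε hg
  have hC := hasSum_hsq k ε (smooth_add' hf hg)
  set a := fun ξ => Real.sqrt (sobWt ε ξ ^ k) * ‖coef f ξ‖ with ha
  set b := fun ξ => Real.sqrt (sobWt ε ξ ^ k) * ‖coef g ξ‖ with hb
  have hw : ∀ ξ, 0 ≤ sobWt ε ξ ^ k := fun ξ => pow_nonneg (sobWt_pos ε ξ).le k
  have ha2 : ∀ ξ, a ξ ^ 2 = sobWt ε ξ ^ k * ‖coef f ξ‖ ^ 2 := fun ξ => by
    rw [ha]; simp only [mul_pow, Real.sq_sqrt (hw ξ)]
  have hb2 : ∀ ξ, b ξ ^ 2 = sobWt ε ξ ^ k * ‖coef g ξ‖ ^ 2 := fun ξ => by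
    rw [hb]; simp only [mul_pow, Real.sq_sqrt (hw ξ)]
  obtain ⟨hs, hle⟩ := cs_tsum (a := a) (b := b) (fun ξ => by positivity) (fun ξ => by positivity)
    (hA.summable.congr fun ξ => (ha2 ξ).symm) (hB.summable.congr fun ξ => (hb2 ξ).symm)
  simp only [ha2, hb2, hA.tsum_eq, hB.tsum_eq] at hle
  refine (Real.sqrt_le_left (add_nonneg (Real.sqrt_nonneg _) (Real.sqrt_nonneg _))).2 ?_
  have h1 : hsq k ε (fun u => f u + g u) ≤ hsq k ε f + 2 * ∑' ξ, a ξ * b ξ + hsq k ε g := by
    refine hasSum_le (fun ξ => ?_) hC ((hA.add (hs.hasSum.mul_left 2)).add hB)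
    simp only [coef_add (hf.memLp 2) (hg.memLp 2), Pi.add_apply, ← ha2, ← hb2]
    have h2 : Real.sqrt (sobWt ε ξ ^ k) * ‖coef f ξ + coef g ξ‖ ≤ a ξ + b ξ :=
      (mul_le_mul_of_nonneg_left (norm_add_le _ _) (Real.sqrt_nonneg _)).trans_eq (by ring)
    have h3 := pow_le_pow_left₀ (by positivity) h2 2
    rw [mul_pow, Real.sq_sqrt (hw ξ)] at h3
    linarith [h3]
  have e1 : (Real.sqrt (hsq k ε f) + Real.sqrt (hsq k ε g)) ^ 2 = hsq k ε f +
      2 * (Real.sqrt (hsq k ε f) * Real.sqrt (hsq k ε g)) + hsq k ε g := by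
    rw [add_sq, Real.sq_sqrt (hsq_nonneg _ _ _), Real.sq_sqrt (hsq_nonneg _ _ _)]; ring
  linarith

lemma hsq_add_le (k : ℕ) (ε : ℝ) {f g : V → Form} (hf : Smooth f) (hg : Smooth g) :
    hsq k ε (fun u => f u + g u) ≤ 2 * hsq k ε f + 2 * hsq k ε g := by
  have h := sqrt_hsq_add_le k ε hf hg
  have h1 := pow_le_pow_left₀ (Real.sqrt_nonneg _) h 2
  rw [Real.sq_sqrt (hsq_nonneg _ _ _)] at h1
  nlinarith [Real.sq_sqrt (hsq_nonneg k ε f), Real.sq_sqrt (hsq_nonneg k ε g),
    sq_nonneg (Real.sqrt (hsq k ε f) - Real.sqrt (hsq k ε g))]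

lemma hsq_sub_le (k : ℕ) (ε : ℝ) {f g : V → Form} (hf : Smooth f) (hg : Smooth g) :
    hsq k ε (fun u => f u - g u) ≤ 2 * hsq k ε f + 2 * hsq k ε g := by
  have h := hsq_add_le k ε hf (smooth_const_smul' (-1) hg)
  rw [hsq_smul k ε (-1) hg] at h
  simpa [← sub_eq_add_neg] using h

lemma sqrt_hsq_sum_le {ι : Type*} (k : ℕ) (ε : ℝ) (s : Finset ι) {f : ι → V → Form}
    (hf : ∀ i ∈ s, Smooth (f i)) :
    Real.sqrt (hsq k ε fun u => ∑ i ∈ s, f i u) ≤ ∑ i ∈ s, Real.sqrt (hsq k ε (f i)) := by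
  classical
  induction s using Finset.induction_on with
  | empty =>
    have h0 : hsq k ε (fun _ => (0 : Form)) = 0 := by
      simpa using hsq_smul k ε 0 (f := fun _ => (0 : Form)) ⟨contDiff_const, fun _ _ => rfl⟩
    simp [h0]
  | insert a s has ih =>
    have hs : ∀ i ∈ s, Smooth (f i) := fun i hi => hf i (Finset.mem_insert_of_mem hi)
    simp only [Finset.sum_insert has]
    exact (sqrt_hsq_add_le k ε (hf a (Finset.mem_insert_self a s)) (smooth_finsum s hs)).trans
      ((add_le_add_iff_left _).2 (ih hs))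

lemma hsq_sum_le {ι : Type*} [Fintype ι] (k : ℕ) (ε : ℝ) {f : ι → V → Form}
    (hf : ∀ i, Smooth (f i)) :
    hsq k ε (fun u => ∑ i, f i u) ≤ Fintype.card ι * ∑ i, hsq k ε (f i) := by
  have h := pow_le_pow_left₀ (Real.sqrt_nonneg _)
    (sqrt_hsq_sum_le k ε Finset.univ fun i _ => hf i) 2
  rw [Real.sq_sqrt (hsq_nonneg _ _ _)] at h
  refine h.trans (sq_sum_le_card_mul_sum_sq.trans_eq ?_)
  simp [Real.sq_sqrt (hsq_nonneg _ _ _)]

/-- The Sobolev inequality. -/
theorem norm_le_hsq : ∃ C, 0 ≤ C ∧ ∀ f : V → Form, Smooth f → ∀ x,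
    ‖f x‖ ≤ C * Real.sqrt (hsq 8 1 f) := by
  obtain ⟨C, hC, h⟩ := norm_le_N
  refine ⟨C, hC, fun f hf x => (h f hf x).trans (mul_le_mul_of_nonneg_left ?_ hC)⟩
  refine Real.sqrt_le_sqrt (hasSum_le (fun ξ => ?_) (summable_N hf).hasSum (hasSum_hsq 8 1 hf))
  rw [mul_pow]
  refine mul_le_mul_of_nonneg_right ?_ (sq_nonneg _)
  calc wt ξ ^ 2 ≤ (sobWt 1 ξ ^ 4) ^ 2 := pow_le_pow_left₀ (wt_pos ξ).le (wt_le_sobWt ξ) 2
    _ = sobWt 1 ξ ^ 8 := by ring
where
  wt_le_sobWt (ξ : Freq) : wt ξ ≤ sobWt 1 ξ ^ 4 := by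
    have h : ∀ i, 1 + (ξ i : ℝ) ^ 2 ≤ sobWt 1 ξ := fun i => by
      have h1 := Finset.single_le_sum (f := fun j => (2 * Real.pi * (ξ j : ℝ)) ^ 2)
        (fun j _ => sq_nonneg _) (Finset.mem_univ i)
      have h2 : (ξ i : ℝ) ^ 2 ≤ (2 * Real.pi * (ξ i : ℝ)) ^ 2 := by
        rw [mul_pow]
        exact le_mul_of_one_le_left (sq_nonneg _) (by nlinarith [Real.pi_gt_three])
      simp only [sobWt, one_pow, one_mul]
      linarith
    calc wt ξ ≤ ∏ _i : Fin 4, sobWt 1 ξ := Finset.prod_le_prod (fun i _ => by positivity) fun i _ => h i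
      _ = sobWt 1 ξ ^ 4 := by simp

/-- Multiplication by a smooth periodic field is bounded, uniformly in the scale. -/
theorem hsq_mul_le (k : ℕ) {A : V → Form →L[ℝ] Form} (hA : Smooth A) :
    ∃ C, 0 ≤ C ∧ ∀ ε, |ε| ≤ 1 → ∀ f, Smooth f →
      hsq k ε (fun u => A u (f u)) ≤ C * hsq k ε f := by
  induction k generalizing A with
  | zero =>
    obtain ⟨M, hM, hb⟩ := bdd_periodic hA.smooth.continuous hA.periodic
    refine ⟨M ^ 2, sq_nonneg _, fun ε _ f hf => ?_⟩
    simp only [hsq, ← integral_const_mul]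
    refine integral_mono (integrableOn_cube ((hA.apply hf).smooth.continuous.norm.pow 2))
      (integrableOn_cube (continuous_const.mul (hf.smooth.continuous.norm.pow 2))) fun u => ?_
    rw [← mul_pow]
    exact pow_le_pow_left₀ (norm_nonneg _) ((A u).le_of_opNorm_le (hb u) _) 2
  | succ k ih =>
    obtain ⟨C, hC, hc⟩ := ih hA
    choose D hD hd using fun l => ih (hA.fderiv_apply (e l))
    refine ⟨C + 2 * ∑ l, D l + 2 * C,
      by linarith [Finset.sum_nonneg fun l (_ : l ∈ Finset.univ) => hD l], fun ε hε f hf => ?_⟩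
    have hε2 : ε ^ 2 ≤ 1 := by simpa using pow_le_pow_left₀ (abs_nonneg ε) hε 2
    have hstep : ∀ l, hsq k ε (fun u => fderiv ℝ (fun u => A u (f u)) u (e l)) ≤
        2 * (D l * hsq k ε f) + 2 * (C * hsq k ε fun u => fderiv ℝ f u (e l)) := fun l => by
      have he : (fun u => fderiv ℝ (fun u => A u (f u)) u (e l)) =
          fun u => A u (fderiv ℝ f u (e l)) + fderiv ℝ A u (e l) (f u) := funext fun u => by
        rw [fderiv_clm_apply (hA.differentiableAt u) (hf.differentiableAt u)]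
        simp
      rw [he]
      refine (hsq_add_le k ε (hA.apply (hf.fderiv_apply _))
        ((hA.fderiv_apply _).apply hf)).trans ?_
      linarith [hc ε hε _ (hf.fderiv_apply (e l)), hd l ε hε f hf]
    have hsum : ε ^ 2 * ∑ l, hsq k ε (fun u => fderiv ℝ (fun u => A u (f u)) u (e l)) ≤
        2 * (∑ l, D l) * hsq k ε f +
          2 * C * (ε ^ 2 * ∑ l, hsq k ε fun u => fderiv ℝ f u (e l)) := by
      refine (mul_le_mul_of_nonneg_left (Finset.sum_le_sum fun l _ => hstep l) (sq_nonneg ε)).trans ?_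
      rw [Finset.sum_add_distrib, ← Finset.mul_sum, ← Finset.mul_sum, ← Finset.sum_mul,
        ← Finset.mul_sum, mul_add]
      have h0 : 0 ≤ (∑ l, D l) * hsq k ε f :=
        mul_nonneg (Finset.sum_nonneg fun l _ => hD l) (hsq_nonneg _ _ _)
      nlinarith
    have h1 := hc ε hε f hf
    have hf0 := hsq_nonneg k ε f
    have hd0 : 0 ≤ ε ^ 2 * ∑ l, hsq k ε fun u => fderiv ℝ f u (e l) :=
      mul_nonneg (sq_nonneg _) (Finset.sum_nonneg fun _ _ => hsq_nonneg _ _ _)
    have hD0 : 0 ≤ ∑ l, D l := Finset.sum_nonneg fun l _ => hD l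
    simp only [hsq]
    nlinarith

/-- Multiplication by a smooth periodic function. -/
theorem hsq_smulFun_le (k : ℕ) {c : V → ℝ} (hc : Smooth c) :
    ∃ C, 0 ≤ C ∧ ∀ ε, |ε| ≤ 1 → ∀ f, Smooth f →
      hsq k ε (fun u => c u • f u) ≤ C * hsq k ε f := by
  have hA : Smooth fun u => c u • ContinuousLinearMap.id ℝ Form :=
    ⟨hc.smooth.smul contDiff_const, fun x n => by simp [hc.periodic x n]⟩
  simpa using hsq_mul_le k hA

/-! ### Periodic extensions -/

/-- A field supported inside the cube agrees locally with a translate of itself. -/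
lemma pext_eventuallyEq_shift {F : Type*} [Zero F] [TopologicalSpace F] {f : V → F}
    (hs : HasCompactSupport f) (hQ : tsupport f ⊆ Q0) (x : V) :
    pext f =ᶠ[𝓝 x] fun u => f (u - fun i => (⌊x i⌋ : ℝ)) := by
  obtain ⟨δ, hδ, hδQ⟩ := hs.exists_thickening_subset_open
    (isOpen_set_pi finite_univ fun _ _ => isOpen_Ioo) hQ
  filter_upwards [ball_mem_nhds x hδ] with u hu
  by_cases h : ∀ i, ⌊u i⌋ = ⌊x i⌋
  · simp only [pext]
    congr 1
    funext i
    simp only [fred, Pi.sub_apply, ← h i]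
    rfl
  · push Not at h
    obtain ⟨i, hi⟩ := h
    have hlt : |u i - x i| < δ := by
      have := (norm_le_pi_norm (u - x) i).trans_lt (mem_ball_iff_norm.1 hu)
      simpa using this
    have hu2 : (u - fun i => (⌊x i⌋ : ℝ)) i ∉ Ioo (0 : ℝ) 1 := by
      intro hm
      simp only [Pi.sub_apply, mem_Ioo] at hm
      exact hi (Int.floor_eq_iff.2 ⟨by linarith [hm.1], by linarith [hm.2]⟩)
    have hz : f (u - fun i => (⌊x i⌋ : ℝ)) = 0 :=
      image_eq_zero_of_notMem_tsupport fun hm => hu2 (hQ hm i (mem_univ i))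
    rw [hz]
    show f (fred u) = 0
    refine image_eq_zero_of_notMem_tsupport fun hm => ?_
    -- the fractional part is closer than `δ` to the boundary
    obtain ⟨w, hw, hwd⟩ : ∃ w : V, w i ∉ Ioo (0 : ℝ) 1 ∧ dist w (fred u) < δ := by
      rcases lt_or_gt_of_ne hi with h1 | h1
      · refine ⟨Function.update (fred u) i 1, by simp, (dist_pi_lt_iff hδ).2 fun j => ?_⟩
        by_cases hj : j = i
        · subst hj
          have h2 : (⌊u j⌋ : ℝ) + 1 ≤ ⌊x j⌋ := by exact_mod_cast h1
          rw [Function.update_self, Real.dist_eq, abs_lt]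
          have := Int.floor_le (x j); have := Int.lt_floor_add_one (u j)
          have := Int.floor_le (u j); have := abs_lt.1 hlt
          simp only [fred, Int.fract]
          constructor <;> linarith
        · simp [Function.update_of_ne hj, hδ]
      · refine ⟨Function.update (fred u) i 0, by simp, (dist_pi_lt_iff hδ).2 fun j => ?_⟩
        by_cases hj : j = i
        · subst hj
          have h2 : (⌊x j⌋ : ℝ) + 1 ≤ ⌊u j⌋ := by exact_mod_cast h1
          rw [Function.update_self, Real.dist_eq, abs_lt]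
          have := Int.floor_le (u j); have := Int.lt_floor_add_one (x j)
          have := abs_lt.1 hlt
          simp only [fred, Int.fract]
          constructor <;> linarith
        · simp [Function.update_of_ne hj, hδ]
    exact hw (hδQ (mem_thickening_iff.2 ⟨fred u, hm, hwd⟩) i (mem_univ i))

lemma fderiv_pext {F : Type*} [NormedAddCommGroup F] [NormedSpace ℝ F] {f : V → F}
    (hs : HasCompactSupport f) (hQ : tsupport f ⊆ Q0) (x v : V) :
    fderiv ℝ (pext f) x v = pext (fun u => fderiv ℝ f u v) x := by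
  rw [(pext_eventuallyEq_shift hs hQ x).fderiv_eq, fderiv_comp_sub]
  rfl

/-! ### Changes of variables -/

/-- The integral of a periodic function over a bounded set is bounded by that over the cube. -/
lemma exists_setIntegral_le_cube {S : Set V} (hS : IsCompact S) :
    ∃ C : ℝ, 0 ≤ C ∧ ∀ g : V → ℝ, Continuous g → Periodic g → (∀ u, 0 ≤ g u) →
      ∫ u in S, g u ≤ C * ∫ u in cube, g u := by
  obtain ⟨R, hR⟩ := hS.isBounded.subset_closedBall 0
  obtain ⟨m, hm⟩ := exists_nat_ge R
  set box : Finset Freq := Fintype.piFinset fun _ => Finset.Icc (-(m : ℤ) - 1) (m + 1)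
  refine ⟨(box.card : ℝ), Nat.cast_nonneg _, fun g hg hp h0 => ?_⟩
  have hI : ∀ n : Freq, Integrable (fun u => cube.indicator g (u - intVec n)) := fun n =>
    ((integrableOn_cube hg).integrable_indicator measurableSet_cube).comp_sub_right _
  calc ∫ u in S, g u = ∫ u, S.indicator g u := (integral_indicator hS.measurableSet).symm
    _ ≤ ∫ u, ∑ n ∈ box, cube.indicator g (u - intVec n) := by
        refine integral_mono ((hg.continuousOn.integrableOn_compact hS).integrable_indicator
          hS.measurableSet) (integrable_finsetSum _ fun n _ => hI n) fun u => ?_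
        have hsum : ∀ n ∈ box, 0 ≤ cube.indicator g (u - intVec n) := fun n _ =>
          indicator_nonneg (fun v _ => h0 v) _
        by_cases hu : u ∈ S
        · rw [indicator_of_mem hu]
          set n : Freq := fun i => ⌊u i⌋ with hn
          have hb : n ∈ box := by
            refine Fintype.mem_piFinset.2 fun i => Finset.mem_Icc.2 ?_
            have h := (norm_le_pi_norm u i).trans (mem_closedBall_zero_iff.1 (hR hu))
            rw [Real.norm_eq_abs, abs_le] at h
            constructor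
            · exact Int.le_floor.2 (by push_cast; linarith)
            · refine Int.le_of_lt_add_one (Int.floor_lt.2 ?_); push_cast; linarith
          have hc : u - intVec n ∈ cube := fun i _ =>
            ⟨by simp [intVec, hn],
              by
                have := Int.lt_floor_add_one (u i)
                simp only [intVec, hn, Pi.sub_apply]
                linarith⟩
          refine le_trans (le_of_eq ?_) (Finset.single_le_sum hsum hb)
          rw [indicator_of_mem hc]
          conv_lhs => rw [show u = u - intVec n + intVec n by abel, hp]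
        · rw [indicator_of_notMem hu]
          exact Finset.sum_nonneg hsum
    _ = (box.card : ℝ) * ∫ u in cube, g u := by
        rw [integral_finsetSum _ fun n _ => hI n]
        simp [integral_sub_right_eq_self fun u => cube.indicator g u,
          integral_indicator measurableSet_cube]

variable {U L : Set V} {T : V → V}

/-- A field cut off inside `U` and carried over by `T` is smooth. -/
lemma contDiff_transfer (hU : IsOpen U) (hT : ContDiffOn ℝ ∞ T U) {F : Type*}
    [NormedAddCommGroup F] [NormedSpace ℝ F] {M : V → Form →L[ℝ] F} (hM : ContDiff ℝ ∞ M)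
    (hMU : tsupport M ⊆ U) {g : V → Form} (hg : Smooth g) :
    ContDiff ℝ ∞ fun u => M u (g (T u)) := by
  refine contDiff_iff_contDiffAt.2 fun u => ?_
  by_cases hu : u ∈ U
  · exact hM.contDiffAt.clm_apply
      (hg.smooth.contDiffAt.comp u (hT.contDiffAt (hU.mem_nhds hu)))
  · refine contDiffAt_const (c := (0 : F)) |>.congr_of_eventuallyEq ?_
    filter_upwards [notMem_tsupport_iff_eventuallyEq.1 fun h => hu (hMU h)] with v hv
    simp [hv]

/-- A derivative of the multiplier. -/
lemma transfer_coeff {M : V → Form →L[ℝ] Form} (hM : ContDiff ℝ ∞ M) (hMs : tsupport M ⊆ L)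
    (l : Fin 4) : ContDiff ℝ ∞ (fun u => fderiv ℝ M u (e l)) ∧
      tsupport (fun u => fderiv ℝ M u (e l)) ⊆ L := by
  refine ⟨(hM.fderiv_right (m := ∞) (by simp)).clm_apply contDiff_const,
    (closure_minimal ?_ (isClosed_tsupport M)).trans hMs⟩
  intro u hu
  by_contra h
  exact hu (by simp [fderiv_of_notMem_tsupport ℝ h])

/-- A derivative of the change of variables against the multiplier. -/
lemma transfer_coeff' (hU : IsOpen U) (hLU : L ⊆ U) (hT : ContDiffOn ℝ ∞ T U)
    {M : V → Form →L[ℝ] Form} (hM : ContDiff ℝ ∞ M) (hMs : tsupport M ⊆ L) (l m : Fin 4) :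
    ContDiff ℝ ∞ (fun u => fderiv ℝ T u (e l) m • M u) ∧
      tsupport (fun u => fderiv ℝ T u (e l) m • M u) ⊆ L := by
  refine ⟨contDiff_iff_contDiffAt.2 fun u => ?_,
    (closure_minimal ?_ (isClosed_tsupport M)).trans hMs⟩
  swap
  · intro u hu
    by_contra h
    exact hu (ContinuousLinearMap.ext fun a => by simp [image_eq_zero_of_notMem_tsupport h])
  by_cases hu : u ∈ U
  · have h1 : ContDiffAt ℝ ∞ (fderiv ℝ T) u :=
      (hT.fderiv_of_isOpen hU (m := ∞) (by simp)).contDiffAt (hU.mem_nhds hu)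
    have h2 : ContDiffAt ℝ ∞ (fun v => fderiv ℝ T v (e l)) u := h1.clm_apply contDiffAt_const
    exact (contDiffAt_pi.1 h2 m).smul hM.contDiffAt
  · refine contDiffAt_const (c := (0 : Form →L[ℝ] Form)) |>.congr_of_eventuallyEq ?_
    filter_upwards [notMem_tsupport_iff_eventuallyEq.1 fun h => hu (hLU (hMs h))] with v hv
    exact ContinuousLinearMap.ext fun a => by simp [hv]

/-- The derivative of a transferred field. -/
lemma fderiv_transfer (hU : IsOpen U) (hLU : L ⊆ U) (hT : ContDiffOn ℝ ∞ T U)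
    {M : V → Form →L[ℝ] Form} (hM : ContDiff ℝ ∞ M) (hMs : tsupport M ⊆ L) {g : V → Form}
    (hg : Smooth g) (l : Fin 4) (u : V) :
    fderiv ℝ (fun u => M u (g (T u))) u (e l) =
      fderiv ℝ M u (e l) (g (T u)) +
        ∑ m, (fderiv ℝ T u (e l) m • M u) (fderiv ℝ g (T u) (e m)) := by
  by_cases hu : u ∈ U
  · have hTd : DifferentiableAt ℝ T u :=
      (hT.contDiffAt (hU.mem_nhds hu)).differentiableAt (by simp)
    have h1 : HasFDerivAt (fun v => g (T v)) ((fderiv ℝ g (T u)).comp (fderiv ℝ T u)) u :=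
      (hg.differentiableAt (T u)).hasFDerivAt.comp u hTd.hasFDerivAt
    have h2 : HasFDerivAt M (fderiv ℝ M u) u := (hM.differentiable (by simp) u).hasFDerivAt
    rw [(h2.clm_apply h1).fderiv]
    simp only [add_apply, ContinuousLinearMap.comp_apply, ContinuousLinearMap.flip_apply,
      smul_apply]
    rw [add_comm]
    refine congrArg₂ (· + ·) rfl ?_
    conv_lhs => rw [pi_eq_sum_univ' (fderiv ℝ T u (e l))]
    simp only [map_sum, map_smul, e]
  · have hz : M =ᶠ[𝓝 u] 0 :=
      notMem_tsupport_iff_eventuallyEq.1 fun h => hu (hLU (hMs h))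
    have hz2 : (fun u => M u (g (T u))) =ᶠ[𝓝 u] fun _ => (0 : Form) :=
      hz.mono fun v hv => by simp [hv]
    have h0 : M u = 0 := hz.self_of_nhds
    simp [hz2.fderiv_eq, hz.fderiv_eq, h0]

/-- A change of variables is bounded, uniformly in the scale. -/
theorem hsq_comp_le (hU : IsOpen U) (hL : IsCompact L) (hLU : L ⊆ U) (hLQ : L ⊆ Q0)
    (hT : ContDiffOn ℝ ∞ T U) (hinj : InjOn T U) (hdet : ∀ u ∈ U, (fderiv ℝ T u).det ≠ 0)
    (k : ℕ) {M : V → Form →L[ℝ] Form} (hM : ContDiff ℝ ∞ M) (hMs : tsupport M ⊆ L) :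
    ∃ C, 0 ≤ C ∧ ∀ ε, |ε| ≤ 1 → ∀ g, Smooth g →
      Smooth (pext fun u => M u (g (T u))) ∧
        hsq k ε (pext fun u => M u (g (T u))) ≤ C * hsq k ε g := by
  have hsupp : ∀ {M : V → Form →L[ℝ] Form}, tsupport M ⊆ L → ∀ g : V → Form,
      HasCompactSupport (fun u => M u (g (T u))) ∧ tsupport (fun u => M u (g (T u))) ⊆ Q0 := by
    intro M hMs g
    have h : tsupport (fun u => M u (g (T u))) ⊆ L :=
      closure_minimal (fun u hu => hMs (subset_tsupport _ fun h0 => hu (by simp [h0]))) hL.isClosed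
    exact ⟨hL.of_isClosed_subset (isClosed_tsupport _) h, h.trans hLQ⟩
  have hsm : ∀ {M : V → Form →L[ℝ] Form}, ContDiff ℝ ∞ M → tsupport M ⊆ L → ∀ g, Smooth g →
      Smooth (pext fun u => M u (g (T u))) := fun hM hMs g hg =>
    smooth_pext (contDiff_transfer hU hT hM (hMs.trans hLU) hg) (hsupp hMs g).1 (hsupp hMs g).2
  induction k generalizing M with
  | zero =>
    have hTd : ∀ u ∈ L, HasFDerivWithinAt T (fderiv ℝ T u) L u := fun u hu =>
      ((hT.contDiffAt (hU.mem_nhds (hLU hu))).differentiableAt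
        (by simp)).hasFDerivAt.hasFDerivWithinAt
    have hdc : ContinuousOn (fun u => (fderiv ℝ T u).det) L :=
      ContinuousLinearMap.continuous_det.comp_continuousOn
        ((hT.continuousOn_fderiv_of_isOpen hU (by simp)).mono hLU)
    obtain ⟨B, hB⟩ := hL.exists_bound_of_continuousOn (f := fun u => ((fderiv ℝ T u).det)⁻¹)
      (hdc.inv₀ fun u hu => hdet u (hLU hu))
    obtain ⟨Mb, hMb⟩ := hL.exists_bound_of_continuousOn hM.continuous.continuousOn
    obtain ⟨Cs, hCs, hcs⟩ := exists_setIntegral_le_cube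
      (hL.image_of_continuousOn (hT.continuousOn.mono hLU))
    refine ⟨(max Mb 0) ^ 2 * max B 0 * Cs, by positivity,
      fun ε _ g hg => ⟨hsm hM hMs g hg, ?_⟩⟩
    have hgc : ContinuousOn (fun u => ‖g (T u)‖ ^ 2) L :=
      ((hg.smooth.continuous.comp_continuousOn (hT.continuousOn.mono hLU)).norm.pow 2)
    calc hsq 0 ε (pext fun u => M u (g (T u))) = ∫ u in cube, ‖M u (g (T u))‖ ^ 2 :=
          setIntegral_congr_fun measurableSet_cube fun u hu => by rw [pext_eq_self _ hu]
      _ = ∫ u in L, ‖M u (g (T u))‖ ^ 2 := by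
          refine setIntegral_eq_of_subset_of_forall_sdiff_eq_zero measurableSet_cube
            (hLQ.trans (Set.pi_mono fun _ _ => Ioo_subset_Ico_self)) fun u hu => ?_
          have h0 : M u = 0 := image_eq_zero_of_notMem_tsupport fun h => hu.2 (hMs h)
          simp [h0]
      _ ≤ ∫ u in L, (max Mb 0) ^ 2 * (max B 0 * (|(fderiv ℝ T u).det| * ‖g (T u)‖ ^ 2)) := by
          refine setIntegral_mono_on
            (((contDiff_transfer hU hT hM (hMs.trans hLU) hg).continuous.norm.pow 2).continuousOn.integrableOn_compact hL)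
              ?_ hL.measurableSet fun u hu => ?_
          · exact (continuousOn_const.mul (continuousOn_const.mul
              (hdc.abs.mul hgc))).integrableOn_compact hL
          have h1 : ‖M u (g (T u))‖ ^ 2 ≤ (max Mb 0) ^ 2 * ‖g (T u)‖ ^ 2 := by
            rw [← mul_pow]
            exact pow_le_pow_left₀ (norm_nonneg _)
              ((M u).le_of_opNorm_le ((hMb u hu).trans (le_max_left _ _)) _) 2
          have hd := abs_pos.2 (hdet u (hLU hu))
          have h2 : 1 ≤ max B 0 * |(fderiv ℝ T u).det| := by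
            have := (hB u hu).trans (le_max_left B 0)
            rwa [Real.norm_eq_abs, abs_inv, inv_le_iff_one_le_mul₀ hd] at this
          refine h1.trans (mul_le_mul_of_nonneg_left ?_ (sq_nonneg _))
          rw [← mul_assoc]
          exact le_mul_of_one_le_left (sq_nonneg _) h2
      _ = (max Mb 0) ^ 2 * max B 0 * ∫ x in T '' L, ‖g x‖ ^ 2 := by
          rw [integral_image_eq_integral_abs_det_fderiv_smul volume hL.measurableSet hTd
            (hinj.mono hLU), ← integral_const_mul]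
          simp only [smul_eq_mul, mul_assoc]
      _ ≤ (max Mb 0) ^ 2 * max B 0 * (Cs * hsq 0 ε g) :=
          mul_le_mul_of_nonneg_left (hcs _ (hg.smooth.continuous.norm.pow 2)
            (fun x n => by simp [hg.periodic x n]) fun u => sq_nonneg _) (by positivity)
      _ = _ := by ring
  | succ k ih =>
    obtain ⟨C, hC, hc⟩ := ih hM hMs
    -- the fields which multiply the derivatives
    have hA := fun l => transfer_coeff hM hMs l
    have hB := fun l m => transfer_coeff' hU hLU hT hM hMs l m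
    choose Ca hCa hca using fun l => ih (hA l).1 (hA l).2
    choose Cb hCb hcb using fun l m => ih (hB l m).1 (hB l m).2
    refine ⟨C + 2 * ∑ l, Ca l + 8 * ∑ l, ∑ m, Cb l m, by
      linarith [Finset.sum_nonneg fun l (_ : l ∈ Finset.univ) => hCa l,
        Finset.sum_nonneg fun l (_ : l ∈ Finset.univ) =>
          Finset.sum_nonneg fun m (_ : m ∈ Finset.univ) => hCb l m],
      fun ε hε g hg => ⟨hsm hM hMs g hg, ?_⟩⟩
    have hε2 : ε ^ 2 ≤ 1 := by simpa using pow_le_pow_left₀ (abs_nonneg ε) hε 2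
    set D := fun m u => fderiv ℝ g u (e m) with hD
    have hDs : ∀ m, Smooth (D m) := fun m => hg.fderiv_apply (e m)
    set P := fun l m => pext fun u => (fderiv ℝ T u (e l) m • M u) (D m (T u)) with hP
    have hPs : ∀ l m, Smooth (P l m) := fun l m => hsm (hB l m).1 (hB l m).2 _ (hDs m)
    have hder := fun l u => fderiv_transfer hU hLU hT hM hMs hg l u
    have hstep : ∀ l, hsq k ε (fun u => fderiv ℝ (pext fun u => M u (g (T u))) u (e l)) ≤
        2 * (Ca l * hsq k ε g) + 2 * (4 * ∑ m, Cb l m * hsq k ε (D m)) := by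
      intro l
      have he : (fun u => fderiv ℝ (pext fun u => M u (g (T u))) u (e l)) =
          fun u => pext (fun u => fderiv ℝ M u (e l) (g (T u))) u + ∑ m, P l m u := funext fun u => by
        rw [fderiv_pext (hsupp hMs g).1 (hsupp hMs g).2]
        exact hder l (fred u)
      rw [he]
      refine (hsq_add_le k ε (hsm (hA l).1 (hA l).2 g hg)
        (smooth_finsum _ fun m _ => hPs l m)).trans ?_
      refine add_le_add (mul_le_mul_of_nonneg_left (hca l ε hε g hg).2 zero_le_two)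
        (mul_le_mul_of_nonneg_left ((hsq_sum_le k ε (hPs l)).trans ?_) zero_le_two)
      simp only [Fintype.card_fin, Nat.cast_ofNat]
      exact mul_le_mul_of_nonneg_left
        (Finset.sum_le_sum fun m _ => (hcb l m ε hε _ (hDs m)).2) (by norm_num)
    set G := ∑ m, hsq k ε (D m) with hG
    have hG0 : 0 ≤ G := Finset.sum_nonneg fun _ _ => hsq_nonneg _ _ _
    have hstep' : ∀ l, hsq k ε (fun u => fderiv ℝ (pext fun u => M u (g (T u))) u (e l)) ≤
        2 * Ca l * hsq k ε g + 8 * (∑ m, Cb l m) * G := fun l => by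
      refine (hstep l).trans ?_
      have : ∑ m, Cb l m * hsq k ε (D m) ≤ (∑ m, Cb l m) * G := by
        rw [Finset.sum_mul]
        exact Finset.sum_le_sum fun m _ => mul_le_mul_of_nonneg_left
          (Finset.single_le_sum (f := fun m => hsq k ε (D m)) (fun _ _ => hsq_nonneg _ _ _)
            (Finset.mem_univ m)) (hCb l m)
      linarith
    have hsum := mul_le_mul_of_nonneg_left
      (Finset.sum_le_sum fun l (_ : l ∈ Finset.univ) => hstep' l) (sq_nonneg ε)
    rw [Finset.sum_add_distrib, ← Finset.sum_mul, ← Finset.mul_sum, ← Finset.sum_mul,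
      ← Finset.mul_sum] at hsum
    have hf0 := hsq_nonneg k ε g
    have hd0 : 0 ≤ ε ^ 2 * G := mul_nonneg (sq_nonneg _) hG0
    have hA0 : 0 ≤ ∑ l, Ca l := Finset.sum_nonneg fun l _ => hCa l
    have hB0 : 0 ≤ ∑ l, ∑ m, Cb l m :=
      Finset.sum_nonneg fun l _ => Finset.sum_nonneg fun m _ => hCb l m
    have h1 := (hc ε hε g hg).2
    show hsq k ε _ + ε ^ 2 * _ ≤ _ * (hsq k ε g + ε ^ 2 * G)
    nlinarith [mul_nonneg (mul_nonneg hA0 hf0) (sub_nonneg.2 hε2)]

/-! ### Completeness -/

lemma coef_sub {f g : V → Form} (hf : MemLp f 2 (volume.restrict cube))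
    (hg : MemLp g 2 (volume.restrict cube)) : coef (f - g) = coef f - coef g := by
  have hn : MemLp (fun x => (-1 : ℝ) • g x) 2 (volume.restrict cube) := hg.const_smul (-1 : ℝ)
  have h1 : (f - g) = fun x => f x + (-1 : ℝ) • g x := by funext x; simp [sub_eq_add_neg]
  rw [h1, coef_add hf hn, coef_smul]
  ext ξ k
  simp [sub_eq_add_neg]

/-- Fields with the same coefficients agree almost everywhere. -/
lemma ae_eq_of_coef_eq {f g : V → Form} (hf : MemLp f 2 (volume.restrict cube))
    (hg : MemLp g 2 (volume.restrict cube)) (h : coef f = coef g) :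
    f =ᵐ[volume.restrict cube] g := by
  have hs := parseval_norm (hf.sub hg)
  have h0 : coef (f - g) = 0 := by rw [coef_sub hf hg, h, sub_self]
  rw [h0] at hs
  have h2 : ∫ x in cube, ‖(f - g) x‖ ^ 2 = 0 := hs.unique (by simp [hasSum_zero])
  refine ((integral_eq_zero_iff_of_nonneg (fun x => sq_nonneg _) (hf.sub hg).norm.integrable_sq).1
    h2).mono fun x hx => ?_
  simpa [sub_eq_zero] using hx

/-- A limit in square mean of smooth fields which are bounded in every order is smooth. -/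
theorem exists_smooth_of_bound {f : V → Form} (hf : MemLp f 2 (volume.restrict cube))
    {F : ℕ → V → Form} (hF : ∀ n, Smooth (F n))
    (hlim : Tendsto (fun n => ∫ x in cube, ‖F n x - f x‖ ^ 2) atTop (𝓝 0)) {B : ℕ → ℝ}
    (hB : ∀ k n, hsq k 1 (F n) ≤ B k) :
    ∃ w, Smooth w ∧ f =ᵐ[volume.restrict cube] w ∧ ∀ k, hsq k 1 w ≤ B k := by
  have hc : ∀ ξ, Tendsto (fun n => coef (F n) ξ) atTop (𝓝 (coef f ξ)) := fun ξ => by
    refine tendsto_iff_norm_sub_tendsto_zero.2 (squeeze_zero (fun n => norm_nonneg _) (fun n => ?_)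
      (by simpa using hlim.sqrt))
    have hm := ((hF n).memLp 2).sub hf
    have hd : coef (F n - f) = coef (F n) - coef f := coef_sub ((hF n).memLp 2) hf
    refine Real.le_sqrt_of_sq_le ?_
    rw [← Pi.sub_apply (coef (F n)), ← hd]
    exact le_hasSum (parseval_norm hm) ξ fun _ _ => sq_nonneg _
  have hfin : ∀ k (s : Finset Freq), ∑ ξ ∈ s, sobWt 1 ξ ^ k * ‖coef f ξ‖ ^ 2 ≤ B k := fun k s =>
    le_of_tendsto (tendsto_finsetSum _ fun ξ _ => (((hc ξ).norm.pow 2).const_mul _))
      (Eventually.of_forall fun n => (sum_le_hasSum s (fun ξ _ =>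
        mul_nonneg (pow_nonneg (sobWt_pos 1 ξ).le k) (sq_nonneg _))
        (hasSum_hsq k 1 (hF n))).trans (hB k n))
  have hrapid : Rapid (coef f) := fun j => by
    have h2 : Summable fun ξ => (wt ξ ^ (j + 1) * ‖coef f ξ‖) ^ 2 := by
      refine summable_of_sum_le (c := B (8 * (j + 1))) (fun ξ => sq_nonneg _) fun s =>
        (Finset.sum_le_sum fun ξ _ => ?_).trans (hfin _ s)
      rw [mul_pow]
      refine mul_le_mul_of_nonneg_right ?_ (sq_nonneg _)
      calc (wt ξ ^ (j + 1)) ^ 2 ≤ ((sobWt 1 ξ ^ 4) ^ (j + 1)) ^ 2 := by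
            have := wt_pos ξ
            gcongr
            exact norm_le_hsq.wt_le_sobWt ξ
        _ = _ := by rw [← pow_mul, ← pow_mul]; ring_nf
    have h := (cs_tsum (fun ξ => inv_nonneg.2 (wt_pos ξ).le)
      (fun ξ => mul_nonneg (pow_nonneg (wt_pos ξ).le _) (norm_nonneg _))
      (by simpa [inv_pow] using summable_wt_pow_inv one_le_two) h2).1
    refine h.congr fun ξ => ?_
    rw [pow_succ]
    field_simp [(wt_pos ξ).ne']
  have hw := smooth_synth hrapid
  have hcw : coef (synth (coef f)) = coef f := coef_synth hrapid.summable (coef_herm f)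
  refine ⟨synth (coef f), hw, ae_eq_of_coef_eq hf (hw.memLp 2) hcw.symm, fun k => ?_⟩
  rw [hsq_eq k 1 hw, hcw]
  exact Real.tsum_le_of_sum_le
    (fun ξ => mul_nonneg (pow_nonneg (sobWt_pos 1 ξ).le k) (sq_nonneg _)) (hfin k)

end Vale.Agent.P204.Gen
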