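import Vale.Agent.P204.Gen.EllWeights
import Vale.Agent.P204.Gen.EllSymbol
import Vale.Agent.P204.Gen.SobTorus
import Vale.Agent.P204.Gen.AvgBase

/-!
P204, general four-manifold: the weighted norms against the Sobolev norms, and the Sobolev norm of a
smooth form in one chart against its norm on the manifold.
-/

open MeasureTheory Set Filter Topology
open scoped BigOperators ContDiff

namespace Vale.Agent.P204.Gen

open Vale.Agent.P204.Torus Ell

lemma lam_sq_le (ξ : Freq) : lam ξ ^ 2 ≤ 8 * sobWt 1 ξ := by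
  have h1 : (∑ i, |(ξ i : ℝ)|) ^ 2 ≤ 4 * ∑ i, (ξ i : ℝ) ^ 2 := by
    refine sq_sum_le_card_mul_sum_sq.trans_eq ?_
    simp [sq_abs]
  have h2 : ∑ i, (ξ i : ℝ) ^ 2 ≤ ∑ i, (2 * Real.pi * (ξ i : ℝ)) ^ 2 :=
    Finset.sum_le_sum fun i _ => by
      rw [mul_pow]
      exact le_mul_of_one_le_left (sq_nonneg _) (by nlinarith [Real.pi_gt_three])
  simp only [lam, sobWt, one_pow, one_mul]
  nlinarith [sq_nonneg ((∑ i, |(ξ i : ℝ)|) - 1)]

lemma sobWt_le_lam (ξ : Freq) : sobWt 1 ξ ≤ 200 * lam ξ ^ 2 := by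
  have h : ∀ i, |(ξ i : ℝ)| ≤ ∑ j, |(ξ j : ℝ)| := fun i =>
    Finset.single_le_sum (f := fun j => |(ξ j : ℝ)|) (fun j _ => abs_nonneg _) (Finset.mem_univ i)
  set L := ∑ j, |(ξ j : ℝ)|
  have hL : 0 ≤ L := Finset.sum_nonneg fun _ _ => abs_nonneg _
  have h1 : ∑ i, (2 * Real.pi * (ξ i : ℝ)) ^ 2 ≤ ∑ _i : Fin 4, (7 * L) ^ 2 :=
    Finset.sum_le_sum fun i _ => by
      rw [← sq_abs]
      refine pow_le_pow_left₀ (abs_nonneg _) ?_ 2
      rw [abs_mul, abs_of_pos (by positivity : (0 : ℝ) < 2 * Real.pi)]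
      exact mul_le_mul (by linarith [Real.pi_lt_d2]) (h i) (abs_nonneg _) (by norm_num)
  simp only [lam, sobWt, one_pow, one_mul]
  simp only [Finset.sum_const, Finset.card_univ, Fintype.card_fin, nsmul_eq_mul] at h1
  push_cast at h1
  rw [show ∑ i, |(ξ i : ℝ)| = L from rfl]
  nlinarith

/-- The weighted norm is bounded by the Sobolev norm. -/
lemma nk_le_hsq (k : ℕ) : ∃ C, 0 ≤ C ∧ ∀ h, Smooth h →
    nk k (coef h) ≤ C * Real.sqrt (hsq k 1 h) := by
  refine ⟨Real.sqrt (8 ^ k), Real.sqrt_nonneg _, fun h hh => ?_⟩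
  rw [← Real.sqrt_mul (by positivity)]
  refine Real.sqrt_le_sqrt (hasSum_le (fun ξ => ?_) (hk_of_smooth hh k).hasSum
    ((hasSum_hsq k 1 hh).mul_left (8 ^ k)))
  rw [mul_pow, ← pow_mul, mul_comm k 2, pow_mul, ← mul_assoc, ← mul_pow]
  exact mul_le_mul_of_nonneg_right (pow_le_pow_left₀ (sq_nonneg _) (lam_sq_le ξ) k) (sq_nonneg _)

/-- The Sobolev norm is bounded by the weighted norm. -/
lemma hsq_le_nk (k : ℕ) : ∃ C, 0 ≤ C ∧ ∀ h, Smooth h →
    Real.sqrt (hsq k 1 h) ≤ C * nk k (coef h) := by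
  refine ⟨Real.sqrt (200 ^ k), Real.sqrt_nonneg _, fun h hh => ?_⟩
  rw [nk, nrm2, ← Real.sqrt_mul (by positivity)]
  refine Real.sqrt_le_sqrt (hasSum_le (fun ξ => ?_) (hasSum_hsq k 1 hh)
    ((hk_of_smooth hh k).hasSum.mul_left (200 ^ k)))
  rw [mul_pow (lam ξ ^ k), ← pow_mul, mul_comm k 2, pow_mul, ← mul_assoc, ← mul_pow]
  exact mul_le_mul_of_nonneg_right (pow_le_pow_left₀ (sobWt_pos 1 ξ).le (sobWt_le_lam ξ) k)
    (sq_nonneg _)

namespace Geo

variable {X : Type*} [TopologicalSpace X] [MeasurableSpace X] (G : Geo X)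

lemma rep2_sum {ι : Type*} (s : Finset ι) (i : Fin G.n) (α : ι → X → Form) :
    G.rep2 i (∑ j ∈ s, α j) = ∑ j ∈ s, G.rep2 i (α j) :=
  map_sum (AddMonoidHom.mk' (G.rep2 i) fun a b => G.rep2_add i a b) α s

lemma rep2_eq_sum_psi (i : Fin G.n) (α : X → Form) (u : V) :
    G.rep2 i α u = ∑ j, G.rep2 i (fun x => G.ψ j x • α x) u := by
  have : (∑ j, fun x => G.ψ j x • α x) = α := by
    funext x
    rw [Finset.sum_apply, ← Finset.sum_smul, G.ψ_sum x, one_smul]
  conv_lhs => rw [← this, G.rep2_sum]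
  rw [Finset.sum_apply]

/-- The multiplier carrying the piece of the chart `j` into the chart `i`. -/
noncomputable def cmap (i j : Fin G.n) (η ρ : V → ℝ) (u : V) : Form →L[ℝ] Form :=
  (η u * ρ u) • pullL (fderiv ℝ (G.tc i j) u)

lemma cmap_smooth (i j : Fin G.n) {η ρ : V → ℝ} (hη : ContDiff ℝ ∞ η) (hρ : ContDiff ℝ ∞ ρ)
    (hηs : tsupport η ⊆ G.tdom i j) :
    ContDiff ℝ ∞ (G.cmap i j η ρ) ∧ tsupport (G.cmap i j η ρ) ⊆ tsupport η := by
  have hs : tsupport (G.cmap i j η ρ) ⊆ tsupport η :=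
    closure_minimal (fun u hu => by_contra fun h => hu (by
      simp only [cmap, image_eq_zero_of_notMem_tsupport h, zero_mul]
      exact zero_smul ℝ (pullL (fderiv ℝ (G.tc i j) u)))) (isClosed_tsupport η)
  refine ⟨contDiff_clm_apply_iff.2 fun β => contDiff_iff_contDiffAt.2 fun u => ?_, hs⟩
  simp only [cmap, smul_apply, pullL_apply]
  by_cases hu : u ∈ G.tdom i j
  · have hp := (contDiffOn_pull ((G.trans_smooth i j).fderiv_of_isOpen (G.isOpen_tdom i j)
      (m := ∞) (by simp)) (contDiffOn_const (c := β))).contDiffAt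
      ((G.isOpen_tdom i j).mem_nhds hu)
    exact ((hη.mul hρ).contDiffAt (x := u)).smul hp
  · refine (contDiffAt_const (c := (0 : Form))).congr_of_eventuallyEq ?_
    filter_upwards [notMem_tsupport_iff_eventuallyEq.1 fun h => hu (hηs h)] with v hv
    simp [hv]

lemma tc_injOn (i j : Fin G.n) : InjOn (G.tc i j) (G.tdom i j) := fun u hu v hv huv => by
  obtain ⟨hu1, hu2⟩ := G.mem_tdom.1 hu
  obtain ⟨hv1, hv2⟩ := G.mem_tdom.1 hv
  have := (G.φ j).injOn hu2 hv2 huv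
  rw [← (G.φ i).right_inv hu1, ← (G.φ i).right_inv hv1, this]

/-- One piece of a form, read in another chart. -/
lemma cmap_eq (i j : Fin G.n) {η ρ : V → ℝ} (hηs : tsupport η ⊆ G.tdom i j) (g : X → Form) {u : V}
    (hu : u ∈ (G.φ i).target)
    (h1 : (G.φ i).symm u ∈ tsupport (G.ψ j) → η u = 1) :
    ρ u • G.rep2 i (fun x => G.ψ j x • g x) u =
      G.cmap i j η ρ u (G.locF j g (G.tc i j u)) := by
  simp only [cmap, smul_apply, pullL_apply]
  by_cases hd : u ∈ G.tdom i j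
  · have hT : G.tc i j u ∈ (G.φ j).target := (G.φ j).map_source (G.mem_tdom.1 hd).2
    rw [G.locF_eq j g (G.target_sub j hT), ← G.rep2_fsmul, ← G.rep2_change _ hd]
    by_cases hψ : (G.φ i).symm u ∈ tsupport (G.ψ j)
    · rw [h1 hψ, one_mul]
    · simp [rep2, hu, image_eq_zero_of_notMem_tsupport hψ, pull_zero]
  · have e1 : η u = 0 := image_eq_zero_of_notMem_tsupport fun h => hd (hηs h)
    have e2 : G.ψ j ((G.φ i).symm u) = 0 := image_eq_zero_of_notMem_tsupport fun h =>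
      hd (G.mem_tdom.2 ⟨hu, G.ψ_supp j h⟩)
    simp [e1, rep2, hu, e2, pull_zero]

/-- The norm of a smooth form in one chart is bounded by its norm on the manifold. -/
theorem exists_rep2_le [T2Space X] [CompactSpace X] (i : Fin G.n) {ρ : V → ℝ}
    (hρ : ContDiff ℝ ∞ ρ) (hρc : HasCompactSupport ρ) (hρs : tsupport ρ ⊆ (G.φ i).target)
    (k : ℕ) : ∃ C, 0 ≤ C ∧ ∀ g, G.Smooth2 g →
      Smooth (pext fun u => ρ u • G.rep2 i g u) ∧
        Real.sqrt (hsq k 1 (pext fun u => ρ u • G.rep2 i g u)) ≤ C * G.sob k 1 g := by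
  set S := (G.φ i).symm '' tsupport ρ
  have hS : IsCompact S := hρc.isCompact.image_of_continuousOn ((G.φ i).continuousOn_symm.mono hρs)
  have hSi : S ⊆ (G.φ i).source := fun x ⟨u, hu, h⟩ => h ▸ (G.φ i).map_target (hρs hu)
  -- the compact set of the pairs of charts
  set L := fun j => G.φ i '' (S ∩ tsupport (G.ψ j))
  have hLc : ∀ j, IsCompact (L j) := fun j =>
    (hS.inter_right (isClosed_tsupport _)).image_of_continuousOn
      ((G.φ i).continuousOn.mono fun x hx => hSi hx.1)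
  have hLd : ∀ j, L j ⊆ G.tdom i j := fun j u ⟨x, hx, h⟩ => h ▸
    G.chart_mem_tdom (hSi hx.1) (G.ψ_supp j hx.2)
  choose η hη hηc hηs _hη01 hη1 using fun j =>
    Param.exists_cut (hLc j) (G.isOpen_tdom i j) (hLd j)
  have hdom : ∀ j, G.tdom i j ⊆ (G.φ i).target := fun j u hu => (G.mem_tdom.1 hu).1
  set M := fun j => G.cmap i j (η j) ρ
  have hM := fun j => G.cmap_smooth i j (hη j) hρ (hηs j)
  choose C hC hc using fun j => hsq_comp_le (U := G.tdom i j) (L := tsupport (η j))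
    (G.isOpen_tdom i j) (hηc j).isCompact (hηs j)
    ((hηs j).trans ((hdom j).trans (G.target_sub i))) (G.trans_smooth i j) (G.tc_injOn i j)
    (fun u hu => (G.trans_pos i j u hu).ne') k (hM j).1 (hM j).2
  refine ⟨∑ j, Real.sqrt (C j), Finset.sum_nonneg fun j _ => Real.sqrt_nonneg _, fun g hg => ?_⟩
  have key : (fun u => ρ u • G.rep2 i g u) =
      fun u => ∑ j, M j u (G.locF j g (G.tc i j u)) := by
    funext u
    by_cases hρu : u ∈ tsupport ρ
    swap
    · simp [M, cmap, image_eq_zero_of_notMem_tsupport hρu]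
    have hu := hρs hρu
    have hS' : (G.φ i).symm u ∈ S := ⟨u, hρu, rfl⟩
    rw [G.rep2_eq_sum_psi, Finset.smul_sum]
    refine Finset.sum_congr rfl fun j _ => ?_
    exact G.cmap_eq i j (hηs j) g hu fun hψ =>
      (hη1 j).self_of_nhdsSet u ⟨_, ⟨hS', hψ⟩, (G.φ i).right_inv hu⟩
  have hpext : (pext fun u => ρ u • G.rep2 i g u) =
      fun u => ∑ j, pext (fun u => M j u (G.locF j g (G.tc i j u))) u := by
    rw [key]; rfl
  rw [hpext]
  have hs := fun j => hc j 1 (by simp) (G.locF j g) (G.smooth_locF j hg)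
  refine ⟨smooth_finsum _ fun j _ => (hs j).1,
    (sqrt_hsq_sum_le k 1 _ fun j _ => (hs j).1).trans ?_⟩
  rw [Finset.sum_mul]
  refine Finset.sum_le_sum fun j _ => ?_
  rw [sob, ← Real.sqrt_mul (hC j)]
  exact Real.sqrt_le_sqrt ((hs j).2.trans (mul_le_mul_of_nonneg_left
    (Finset.single_le_sum (f := fun l => hsq k 1 (G.locF l g)) (fun l _ => hsq_nonneg _ _ _)
      (Finset.mem_univ j)) (hC j)))

end Geo

end Vale.Agent.P204.Gen
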