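import Vale.Agent.P204.Gen.Integral
import Vale.Agent.P204.Gen.GeoSmooth

/-!
P204, general four-manifold: the equations of a weakly closed form with `P f` prescribed, read in a
chart, and the positivity of the quadratic form of the system there.
-/

open MeasureTheory Set Filter Topology
open scoped BigOperators ContDiff

namespace Vale.Agent.P204.Gen

open Vale.Agent.P204.Torus

variable {X : Type*} [TopologicalSpace X] [MeasurableSpace X]

namespace Geo

variable (G : Geo X)

/-- A field of endomorphisms in the chart `i`, as an operator. -/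
noncomputable def repCL (i : Fin G.n) (P : X → Form →L[ℝ] Form) (u : V) : Form →L[ℝ] Form :=
  (pullL (G.dT i ((G.φ i).symm u))).comp
    ((P ((G.φ i).symm u)).comp (pullL (G.dT i ((G.φ i).symm u)).inverse))

lemma repCL_apply (i : Fin G.n) (P : X → Form →L[ℝ] Form) (u : V) (β : Form) :
    G.repCL i P u β = G.repOp i P u β := rfl

lemma continuousOn_repCL {P : X → Form →L[ℝ] Form} (hP : G.SmoothOp P) (i : Fin G.n) :
    ContinuousOn (fun p : V × Form => G.repCL i P p.1 p.2) ((G.φ i).target ×ˢ univ) := by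
  refine ContinuousOn.congr (f := fun p : V × Form =>
    ∑ k, p.2 k • G.repOp i P p.1 (EuclideanSpace.single k 1)) ?_ fun p _ => ?_
  · refine continuousOn_finsetSum _ fun k _ => ?_
    exact ((EuclideanSpace.proj (𝕜 := ℝ) k).continuous.comp continuous_snd).continuousOn.smul
      ((hP i _).continuousOn.comp continuous_fst.continuousOn fun p hp => hp.1)
  · rw [repCL_apply, G.repOp_sum]

/-- Where `P` vanishes the quadratic form is positive, in every chart. -/
lemma q_pos_of_repCL_eq_zero {P : X → Form →L[ℝ] Form} {s c : ℝ} (hc : 0 < c)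
    (hco : ∀ x a, c * ‖a‖ ^ 2 ≤ ‖P x a‖ ^ 2 + s * q a a) (i : Fin G.n) {u : V}
    (hu : u ∈ (G.φ i).target) {a : Form} (ha : a ≠ 0) (h0 : G.repCL i P u a = 0) :
    0 < s * q a a := by
  set x := (G.φ i).symm u
  have hx : x ∈ (G.φ i).source := (G.φ i).map_target hu
  have hdet := G.dT_det_pos hx
  set β := pull (G.dT i x).inverse a with hβ
  have hPβ : P x β = 0 := by
    have h1 : pull (G.dT i x) (P x β) = 0 := h0
    rw [← pull_pull_inverse (G.dT_det_ne hx) (P x β), h1, pull_zero]
  have ha' : a = pull (G.dT i x) β := by rw [hβ, pull_inverse_pull (G.dT_det_ne hx)]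
  have hβ0 : 0 < ‖β‖ := norm_pos_iff.2 fun h => ha (by rw [ha', h, pull_zero])
  have h2 := hco x β
  rw [hPβ, norm_zero] at h2
  rw [ha', q_pull, ← mul_assoc, mul_comm s, mul_assoc]
  refine mul_pos hdet ?_
  nlinarith [mul_pos hc (pow_pos hβ0 2)]

/-- The quadratic form of the system is positive on a compact part of a chart. -/
theorem exists_coer {P : X → Form →L[ℝ] Form} (hP : G.SmoothOp P) {s c : ℝ} (hc : 0 < c)
    (hco : ∀ x a, c * ‖a‖ ^ 2 ≤ ‖P x a‖ ^ 2 + s * q a a) (i : Fin G.n) {K : Set V}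
    (hK : IsCompact K) (hKt : K ⊆ (G.φ i).target) :
    ∃ (n : ℕ) (c' : ℝ), 0 < c' ∧ ∀ u ∈ K, ∀ a,
      c' * ‖a‖ ^ 2 ≤ n * ‖G.repCL i P u a‖ ^ 2 + s * q a a := by
  set S := K ×ˢ Metric.sphere (0 : Form) 1
  have hS : IsCompact S := hK.prod (isCompact_sphere _ _)
  have hST : S ⊆ (G.φ i).target ×ˢ univ := fun p hp => ⟨hKt hp.1, mem_univ _⟩
  set F : ℕ → V × Form → ℝ := fun n p => n * ‖G.repCL i P p.1 p.2‖ ^ 2 + s * q p.2 p.2
  have hF : ∀ n, ContinuousOn (F n) ((G.φ i).target ×ˢ univ) := fun n =>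
    (continuousOn_const.mul ((G.continuousOn_repCL hP i).norm.pow 2)).add
      (continuousOn_const.mul (Setup.continuous_q continuous_snd continuous_snd).continuousOn)
  obtain ⟨n, hn⟩ := hS.elim_directed_cover (fun n => (G.φ i).target ×ˢ univ ∩ F n ⁻¹' Ioi 0)
    (fun n => (hF n).isOpen_inter_preimage ((G.φ i).open_target.prod isOpen_univ) isOpen_Ioi)
    (fun p hp => by
      refine mem_iUnion.2 ?_
      by_cases h0 : G.repCL i P p.1 p.2 = 0
      · refine ⟨0, hST hp, ?_⟩
        have hne : p.2 ≠ 0 := fun h => by simp [S, h] at hp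
        simpa [F] using G.q_pos_of_repCL_eq_zero hc hco i (hKt hp.1) hne h0
      · have hb : 0 < ‖G.repCL i P p.1 p.2‖ ^ 2 := pow_pos (norm_pos_iff.2 h0) 2
        obtain ⟨m, hm⟩ := exists_nat_gt (-(s * q p.2 p.2) / ‖G.repCL i P p.1 p.2‖ ^ 2)
        rw [div_lt_iff₀ hb] at hm
        refine ⟨m, hST hp, ?_⟩
        simp only [F, mem_preimage, mem_Ioi]
        linarith)
    (Monotone.directed_le fun m m' hmm p hp => ⟨hp.1, lt_of_lt_of_le (show 0 < F m p from hp.2)
      (add_le_add (mul_le_mul_of_nonneg_right (Nat.cast_le.2 hmm) (sq_nonneg _)) le_rfl)⟩)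
  rcases S.eq_empty_or_nonempty with hSe | hne
  · refine ⟨n, 1, one_pos, fun u hu a => ?_⟩
    by_cases ha : a = 0
    · simp [ha, q_zero_left]
    · exfalso
      have : (u, ‖a‖⁻¹ • a) ∈ S := ⟨hu, by simp [norm_smul, ha]⟩
      simp [hSe] at this
  obtain ⟨p, hp, hmin⟩ := hS.exists_isMinOn hne ((hF n).mono hST)
  refine ⟨n, F n p, (hn hp).2, fun u hu a => ?_⟩
  by_cases ha : a = 0
  · simp [ha, q_zero_left]
  have hna : 0 < ‖a‖ := norm_pos_iff.2 ha
  have h1 : F n p ≤ F n (u, ‖a‖⁻¹ • a) := hmin ⟨hu, by simp [norm_smul, ha]⟩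
  have e : F n (u, ‖a‖⁻¹ • a) = (‖a‖⁻¹) ^ 2 *
      (n * ‖G.repCL i P u a‖ ^ 2 + s * q a a) := by
    simp only [F, map_smul, norm_smul, q_smul_left, q_smul_right, norm_inv, norm_norm]
    ring
  rw [e] at h1
  have h2 := mul_le_mul_of_nonneg_right h1 (sq_nonneg ‖a‖)
  rw [mul_comm ((‖a‖⁻¹) ^ 2), mul_assoc (_ + _), ← mul_pow, inv_mul_cancel₀ hna.ne', one_pow,
    mul_one] at h2
  exact h2

variable {G} [BorelSpace X]

lemma map_chart (i : Fin G.n) :
    (G.μ.restrict (G.φ i).source).map (G.φ i) = G.chartVol i := by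
  have hφ : AEMeasurable (G.φ i) ((G.chartVol i).map (G.φ i).symm) := by
    rw [← G.restrict_μ i]
    exact (G.φ i).continuousOn.aemeasurable (G.φ i).open_source.measurableSet
  have hid : G.φ i ∘ (G.φ i).symm =ᵐ[G.chartVol i] id :=
    (withDensity_absolutelyContinuous _ _).ae_le
      ((ae_restrict_mem (G.φ i).open_target.measurableSet).mono fun v hv => (G.φ i).right_inv hv)
  rw [G.restrict_μ i, AEMeasurable.map_map_of_aemeasurable hφ (G.aemeasurable_symm_chartVol i),
    Measure.map_congr hid, Measure.map_id]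

/-- From almost every point of a chart to almost every point of `X`. -/
lemma ae_source (i : Fin G.n) {p : V → Prop}
    (h : ∀ᵐ v ∂(volume.restrict (G.φ i).target), p v) :
    ∀ᵐ x ∂(G.μ.restrict (G.φ i).source), p (G.φ i x) :=
  ae_of_ae_map ((G.φ i).continuousOn.aemeasurable (G.φ i).open_source.measurableSet)
    (by rw [map_chart i]; exact (withDensity_absolutelyContinuous _ _).ae_le h)

/-- From almost every point of `X` to almost every point of a chart. -/
lemma ae_target (i : Fin G.n) {p : X → Prop} (h : ∀ᵐ x ∂G.μ, p x) :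
    ∀ᵐ v ∂(volume.restrict (G.φ i).target), p ((G.φ i).symm v) := by
  have h1 : ∀ᵐ x ∂((G.chartVol i).map (G.φ i).symm), p x := G.restrict_μ i ▸ ae_restrict_of_ae h
  exact (G.ac_chartVol i).ae_le (ae_of_ae_map (G.aemeasurable_symm_chartVol i) h1)

/-- Forms which agree almost everywhere agree almost everywhere in every chart. -/
lemma rep2_ae (i : Fin G.n) {f g : X → Form} (h : f =ᵐ[G.μ] g) :
    ∀ᵐ v, G.rep2 i f v = G.rep2 i g v := by
  have h1 := (ae_restrict_iff' (G.φ i).open_target.measurableSet).1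
    (ae_target i (p := fun x => f x = g x) h)
  filter_upwards [h1] with v hv
  by_cases ht : v ∈ (G.φ i).target
  · simp [rep2, ht, hv ht]
  · simp [G.rep2_of_notMem, ht]

variable [T2Space X] [CompactSpace X]

/-- A square integrable form is square integrable on a compact part of a chart. -/
theorem exists_indicator_le (i : Fin G.n) {K : Set V} (hK : IsCompact K)
    (hKt : K ⊆ (G.φ i).target) : ∃ C, 0 ≤ C ∧ ∀ f, MemLp f 2 G.μ →
      MemLp (K.indicator (G.rep2 i f)) 2 volume ∧
      Real.sqrt (∫ v, ‖K.indicator (G.rep2 i f) v‖ ^ 2) ≤ C * G.n2 f := by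
  have hS : IsCompact ((G.φ i).symm '' K) :=
    hK.image_of_continuousOn ((G.φ i).continuousOn_symm.mono hKt)
  have hSs : (G.φ i).symm '' K ⊆ (G.φ i).source := by
    rintro x ⟨v, hv, rfl⟩; exact (G.φ i).map_target (hKt hv)
  obtain ⟨B, hB, hb⟩ := G.exists_dT_bound i hS hSs
  refine ⟨Real.sqrt (B ^ 3), Real.sqrt_nonneg _, fun f hf => ?_⟩
  have hf2 : Integrable (fun x => ‖f x‖ ^ 2) G.μ := hf.integrable_norm_pow two_ne_zero
  have hI := integrable_chart (j := i) hf2
  have hm : AEStronglyMeasurable (G.rep2 i f) (volume.restrict K) :=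
    (aestronglyMeasurable_rep2 hf.1).mono_set hKt
  have hle : ∀ v ∈ K, ‖G.rep2 i f v‖ ^ 2 ≤
      B ^ 3 * (G.jac i v • ‖f ((G.φ i).symm v)‖ ^ 2) := fun v hv => by
    obtain ⟨-, h2, h3⟩ := hb _ (mem_image_of_mem _ hv)
    simp only [rep2, if_pos (hKt hv), smul_eq_mul, jac]
    refine (pow_le_pow_left₀ (norm_nonneg _) (h3 _).1 2).trans ?_
    calc (B * ‖f ((G.φ i).symm v)‖) ^ 2
        ≤ (B * ‖f ((G.φ i).symm v)‖) ^ 2 * (B * (G.dT i ((G.φ i).symm v)).det) :=
          le_mul_of_one_le_right (sq_nonneg _) h2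
      _ = _ := by ring
  have hsq : IntegrableOn (fun v => ‖G.rep2 i f v‖ ^ 2) K := by
    refine Integrable.mono' ((hI.mono_set hKt).const_mul (B ^ 3))
      ((continuous_norm.pow 2).comp_aestronglyMeasurable hm) ?_
    filter_upwards [ae_restrict_mem hK.measurableSet] with v hv
    rw [Real.norm_of_nonneg (sq_nonneg _)]
    exact hle v hv
  refine ⟨(memLp_indicator_iff_restrict hK.measurableSet).2
    ((memLp_two_iff_integrable_sq_norm hm).2 hsq), ?_⟩
  rw [n2, ← Real.sqrt_mul (by positivity)]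
  refine Real.sqrt_le_sqrt ?_
  have e : (fun v => ‖K.indicator (G.rep2 i f) v‖ ^ 2) =
      K.indicator fun v => ‖G.rep2 i f v‖ ^ 2 := funext fun v => by
    by_cases hv : v ∈ K <;> simp [hv]
  rw [e, integral_indicator hK.measurableSet]
  calc ∫ v in K, ‖G.rep2 i f v‖ ^ 2
      ≤ ∫ v in K, B ^ 3 * (G.jac i v • ‖f ((G.φ i).symm v)‖ ^ 2) :=
        setIntegral_mono_on hsq ((hI.mono_set hKt).const_mul _) hK.measurableSet hle
    _ ≤ ∫ v in (G.φ i).target, B ^ 3 * (G.jac i v • ‖f ((G.φ i).symm v)‖ ^ 2) := by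
        refine setIntegral_mono_set (hI.const_mul _) ?_ (Eventually.of_forall hKt)
        filter_upwards [ae_restrict_mem (G.φ i).open_target.measurableSet] with v hv
        have := (jac_pos hv).le
        simp only [smul_eq_mul, Pi.zero_apply]
        positivity
    _ = B ^ 3 * ∫ x in (G.φ i).source, ‖f x‖ ^ 2 ∂G.μ := by
        rw [integral_const_mul, G.integral_chart i hf2.1]
    _ ≤ B ^ 3 * ∫ x, ‖f x‖ ^ 2 ∂G.μ := mul_le_mul_of_nonneg_left
        (setIntegral_le_integral hf2 (Eventually.of_forall fun x => sq_nonneg _)) (by positivity)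

/-- A weakly closed form is weakly closed in a chart, where the cut-off of the chart is one. -/
theorem integral_q_d1_chart (i : Fin G.n) {O : Set V}
    (hOt : O ⊆ (G.φ i).target) (hO1 : ∀ v ∈ O, G.χ i v = 1) {f : X → Form}
    (hf : MemLp f 2 G.μ) (hw : G.WeakClosed f) {η : V → V} (hη : ContDiff ℝ ∞ η)
    (hc : HasCompactSupport η) (hs : tsupport η ⊆ O) :
    ∫ v, q (G.rep2 i f v) (d1 η v) = 0 := by
  have ha : G.Smooth1 (G.fromChart1 i η) := G.smooth1_fromChart1 hη.contDiffOn
  have hK : IsClosed ((G.φ i).symm '' tsupport η) :=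
    (hc.isCompact.image_of_continuousOn
      ((G.φ i).continuousOn_symm.mono (hs.trans hOt))).isClosed
  have hKs : (G.φ i).symm '' tsupport η ⊆ (G.φ i).source := by
    rintro x ⟨v, hv, rfl⟩; exact (G.φ i).map_target (hOt (hs hv))
  have hzero : ∀ x ∉ (G.φ i).source, G.d (G.fromChart1 i η) x = 0 := fun x hx =>
    G.d_eq_zero (by
      filter_upwards [hK.isOpen_compl.mem_nhds fun h => hx (hKs h)] with y hy
      simp only [fromChart1, Pi.zero_apply]
      split
      · rename_i hys
        rw [image_eq_zero_of_notMem_tsupport fun h => hy ⟨_, h, (G.φ i).left_inv hys⟩, smul_zero,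
          pullV_zero]
      · rfl)
  have hp : G.pairing f (G.d (G.fromChart1 i η)) = 0 := hw _ ha
  rw [pairing_chart (j := i) hf.1 (measurable_smooth2 (G.smooth2_d ha)).aestronglyMeasurable
    fun x hx => by rw [hzero x hx, q_zero_right]] at hp
  rw [← hp, ← setIntegral_eq_integral_of_forall_compl_eq_zero (s := (G.φ i).target) fun v hv => by
    rw [G.rep2_of_notMem f hv, q_zero_left]]
  refine setIntegral_congr_fun (G.φ i).open_target.measurableSet fun v hv => ?_
  show q (G.rep2 i f v) (d1 η v) = q (G.rep2 i f v) (G.rep2 i (G.d (G.fromChart1 i η)) v)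
  rw [G.rep2_d ha hv]
  refine congrArg _ (d1_congr ?_).symm
  filter_upwards [(G.φ i).open_target.mem_nhds hv] with w hw'
  rw [G.rep1_fromChart1 η hw']
  by_cases hwO : w ∈ O
  · rw [hO1 w hwO, one_smul]
  · rw [image_eq_zero_of_notMem_tsupport fun h => hwO (hs h), smul_zero]

end Geo

end Vale.Agent.P204.Gen
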