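import Vale.Agent.P204.Gen.EllCut
import Vale.Agent.P204.Gen.EllChart
import Vale.Agent.P204.Gen.EllTransfer

/-!
P204, general four-manifold, module 9: elliptic regularity with estimates for weakly closed forms `f`
with `P f` prescribed, when `‖P a‖² + s q(a, a)` is positive definite.
-/

open MeasureTheory Set Filter Topology
open scoped BigOperators ContDiff

namespace Vale.Agent.P204.Gen.Ell

open Vale.Agent.P204.Torus

variable {X : Type*} [TopologicalSpace X] [MeasurableSpace X] [T2Space X] [CompactSpace X]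
  [BorelSpace X] {G : Geo X}

omit [T2Space X] [CompactSpace X] [BorelSpace X] in
lemma exists_open_one (i : Fin G.n) : ∃ O : Set V, IsOpen O ∧ G.φ i '' tsupport (G.ψ i) ⊆ O ∧
    O ⊆ (G.φ i).target ∧ ∀ v ∈ O, G.χ i v = 1 := by
  refine ⟨interior {v | G.χ i v = 1} ∩ (G.φ i).target,
    isOpen_interior.inter (G.φ i).open_target, ?_, inter_subset_right,
    fun v hv => interior_subset (s := {v | G.χ i v = 1}) hv.1⟩
  rintro _ ⟨x, hx, rfl⟩
  exact ⟨mem_interior_iff_mem_nhds.2 (G.χ_one i x hx), (G.φ i).map_source (G.ψ_supp i hx)⟩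

lemma psi_rep (i : Fin G.n) :
    ContDiff ℝ ∞ (G.rep0 i (G.ψ i)) ∧ HasCompactSupport (G.rep0 i (G.ψ i)) ∧
      tsupport (G.rep0 i (G.ψ i)) ⊆ G.φ i '' tsupport (G.ψ i) := by
  have hL : IsCompact (G.φ i '' tsupport (G.ψ i)) :=
    (isClosed_tsupport _).isCompact.image_of_continuousOn
      ((G.φ i).continuousOn.mono (G.ψ_supp i))
  have h0 : ∀ v ∉ G.φ i '' tsupport (G.ψ i), G.rep0 i (G.ψ i) v = 0 := fun v hv => by
    simp only [Geo.rep0]
    split
    · rename_i hvt
      exact image_eq_zero_of_notMem_tsupport fun h => hv ⟨_, h, (G.φ i).right_inv hvt⟩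
    · rfl
  obtain ⟨h1, h2⟩ := Geo.contDiff_of_chart (G.φ i).open_target (Geo.smooth0_psi i i) hL
    (image_subset_iff.2 fun x hx => (G.φ i).map_source (G.ψ_supp i hx)) h0
  exact ⟨h1, h2, closure_minimal (fun v hv => by_contra fun h => hv (h0 v h)) hL.isClosed⟩

/-- The regularity in one chart. -/
theorem chart_reg {P : X → Form →L[ℝ] Form} {s c : ℝ} (hP : G.SmoothOp P) (hs : |s| ≤ 1)
    (hc : 0 < c) (hco : ∀ x a, c * ‖a‖ ^ 2 ≤ ‖P x a‖ ^ 2 + s * q a a) (i : Fin G.n) (k : ℕ) :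
    ∃ C, 0 ≤ C ∧ ∀ f g : X → Form, MemLp f 2 G.μ → G.WeakClosed f → G.Smooth2 g →
      (fun x => P x (f x)) =ᵐ[G.μ] g →
      (∃ w, Smooth w ∧ (fun v => G.rep2 i (fun x => G.ψ i x • f x) v)
        =ᵐ[volume.restrict cube] w) ∧
      nk k (coef (G.rep2 i fun x => G.ψ i x • f x)) ≤ C * (G.n2 f + G.sob k 1 g) := by
  obtain ⟨O₁, hO₁, hψO₁, hO₁t, hO₁χ⟩ := exists_open_one (G := G) i
  obtain ⟨hρ, hρc, hρs⟩ := psi_rep (G := G) i
  -- a neighbourhood with compact closure
  obtain ⟨K₀, hK₀, hψK₀, hK₀O⟩ := exists_compact_between hρc.isCompact hO₁ (hρs.trans hψO₁)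
  have hK₀t : K₀ ⊆ (G.φ i).target := hK₀O.trans hO₁t
  obtain ⟨θ, hθ, hθc, hθt, hθ01, hθ1⟩ := Param.exists_cut hK₀ (G.φ i).open_target hK₀t
  have hθQ : tsupport θ ⊆ Q0 := hθt.trans (G.target_sub i)
  obtain ⟨n, c', hc', hcK⟩ := G.exists_coer hP hc hco i hθc.isCompact hθt
  set M : ℝ := 2 * Real.sqrt n
  set P' : V → Form →L[ℝ] Form := pext fun v => (M * θ v) • G.repCL i P v
  set Q' : V → Form →L[ℝ] Form := fun v => (8 * (1 - pext θ v)) • ContinuousLinearMap.id ℝ Form
  have hP' : Smooth P' := by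
    have h0 : ∀ v ∉ tsupport θ, (M * θ v) • G.repCL i P v = 0 := fun v hv => by
      rw [image_eq_zero_of_notMem_tsupport hv, mul_zero]; exact zero_smul ℝ (G.repCL i P v)
    refine smooth_pext_of hθQ hθc subset_rfl ?_ h0
    refine contDiff_clm_apply_iff.2 fun β => ?_
    refine (Geo.contDiff_of_chart (G.φ i).open_target ?_ hθc.isCompact hθt fun v hv => by
      rw [h0 v hv]; rfl).1
    exact (contDiff_const.mul hθ).contDiffOn.smul (hP i β)
  have hθper : Smooth (pext θ) := smooth_pext hθ hθc hθQ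
  have hQ' : Smooth Q' :=
    ⟨(contDiff_const.mul (contDiff_const.sub hθper.smooth)).smul contDiff_const,
      fun x m => by simp only [Q', hθper.periodic x m]⟩
  set c'' := min c' 1
  have hcoer : ∀ x a, c'' * ‖a‖ ^ 2 ≤ ‖P' x a‖ ^ 2 + ‖Q' x a‖ ^ 2 + s * q a a := fun x a => by
    simp only [P', Q', pext, smul_apply, ContinuousLinearMap.id_apply, norm_smul, mul_pow,
      Real.norm_eq_abs, sq_abs]
    set t := θ (fred x)
    have ht := hθ01 (fred x)
    have hM : (M * t) ^ 2 = 4 * n * t ^ 2 := by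
      simp only [M, mul_pow, Real.sq_sqrt (Nat.cast_nonneg n)]; ring
    rw [← mul_pow M t, hM, ← mul_pow 8 (1 - t)]
    have ha2 := sq_nonneg ‖a‖
    have hR := sq_nonneg ‖G.repCL i P (fred x) a‖
    have hq : |s * q a a| ≤ 6 * ‖a‖ ^ 2 := by
      rw [abs_mul]
      refine (mul_le_of_le_one_left (abs_nonneg _) hs).trans ((abs_q_le a a).trans_eq (by ring))
    have h1 := min_le_left c' 1
    have h2 := min_le_right c' 1
    have hnn : (0 : ℝ) ≤ n * ‖G.repCL i P (fred x) a‖ ^ 2 := by positivity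
    by_cases hh : 1 / 2 ≤ t
    · have hmem : fred x ∈ tsupport θ :=
        subset_tsupport θ (ne_of_gt (show (0 : ℝ) < t by linarith))
      have h3 := hcK (fred x) hmem a
      have h4 : (1 : ℝ) / 4 ≤ t ^ 2 := by nlinarith
      have h5 : 0 ≤ (8 * (1 - t)) ^ 2 * ‖a‖ ^ 2 := by positivity
      have h6 := mul_le_mul_of_nonneg_right h4 hnn
      have h7 := mul_le_mul_of_nonneg_right h1 ha2
      nlinarith
    · have h4 : (16 : ℝ) ≤ (8 * (1 - t)) ^ 2 := by nlinarith
      have h5 : 0 ≤ 4 * n * t ^ 2 * ‖G.repCL i P (fred x) a‖ ^ 2 := by positivity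
      have h6 := mul_le_mul_of_nonneg_right h4 ha2
      have h7 := mul_le_mul_of_nonneg_right h2 ha2
      nlinarith [neg_abs_le (s * q a a)]
  set O := interior K₀
  have hOK : O ⊆ K₀ := interior_subset
  have hOQ : O ⊆ Q0 := hOK.trans (hK₀t.trans (G.target_sub i))
  have hQ0 : ∀ v ∈ O, Q' v = 0 := fun v hv => by
    simp only [Q', pext_eq_self θ (Q0_subset_cube (hOQ hv)),
      hθ1.self_of_nhdsSet v (hOK hv), sub_self, mul_zero]
    exact zero_smul ℝ (ContinuousLinearMap.id ℝ Form)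
  obtain ⟨CU, hCU, hU⟩ := Geo.exists_indicator_le (G := G) i hK₀ hK₀t
  obtain ⟨Ch, hCh, hh⟩ := G.exists_rep2_le i (ρ := fun v => M * θ v) (contDiff_const.mul hθ)
    hθc.mul_left (tsupport_mul_subset_right.trans hθt) k
  obtain ⟨Cn, hCn, hn⟩ := nk_le_hsq k
  obtain ⟨C, hC, hcut⟩ := cut_Hk isOpen_interior hOQ hP' hQ' hs (lt_min hc' one_pos) hcoer hQ0 k _
    hρ hρc hψK₀
  refine ⟨C * (CU + Cn * Ch), by positivity, fun f g hf hw hg hPf => ?_⟩
  obtain ⟨hu, hun⟩ := hU f hf
  obtain ⟨hhs, hhn⟩ := hh g hg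
  set u := K₀.indicator (G.rep2 i f)
  set h := pext fun v => (M * θ v) • G.rep2 i g v
  have hd : Sys O P' u h := by
    refine ⟨hu, hhs, ?_, fun η hη hηc hηs => ?_⟩
    · filter_upwards [Geo.rep2_ae i hPf] with v hv hvO
      have hvt := hK₀t (hOK hvO)
      rw [G.rep2_op P f hvt] at hv
      simp only [P', h, u, pext_eq_self _ (Q0_subset_cube (hOQ hvO)), smul_apply,
        indicator_of_mem (hOK hvO), G.repCL_apply, hv]
    · rw [← Geo.integral_q_d1_chart i (hOK.trans hK₀t)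
        (fun v hv => hO₁χ v (hK₀O (hOK hv))) hf hw hη hηc hηs]
      refine integral_congr_ae (Eventually.of_forall fun v => ?_)
      by_cases hv : v ∈ K₀
      · simp [u, hv]
      · have hvs : v ∉ tsupport η := fun h => hv (hOK (hηs h))
        have : d1 η v = 0 := by
          rw [d1_congr (notMem_tsupport_iff_eventuallyEq.1 hvs)]; exact d1_zero v
        simp [this, q_zero_right]
  have heq : (fun v => G.rep0 i (G.ψ i) v • u v) = G.rep2 i fun x => G.ψ i x • f x := by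
    funext v
    rw [G.rep2_fsmul]
    by_cases hv : v ∈ K₀
    · simp [u, hv]
    · simp [image_eq_zero_of_notMem_tsupport fun h => hv (hOK (hψK₀ h))]
  obtain ⟨-, hck⟩ := hcut u h hd
  rw [heq] at hck
  obtain ⟨w, hw1, hw2⟩ :=
    cut_smooth isOpen_interior hOQ hP' hQ' hs (lt_min hc' one_pos) hcoer hQ0 hρ hρc hψK₀ hd
  rw [heq] at hw2
  refine ⟨⟨w, hw1, hw2⟩, hck.trans ?_⟩
  have h1 : nk k (coef h) ≤ Cn * (Ch * G.sob k 1 g) :=
    (hn h hhs).trans (mul_le_mul_of_nonneg_left hhn hCn)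
  have h2 : 0 ≤ G.n2 f := Real.sqrt_nonneg _
  have h3 : 0 ≤ G.sob k 1 g := Real.sqrt_nonneg _
  have h4 : 0 ≤ Cn * Ch * G.n2 f := by positivity
  have h5 : 0 ≤ CU * G.sob k 1 g := by positivity
  rw [mul_assoc]
  refine mul_le_mul_of_nonneg_left ?_ hC
  nlinarith

/-- **Elliptic regularity**: a weakly closed square integrable `f` with smooth `P f` is smooth, with
the Sobolev bounds. -/
theorem ellipticX (G : Geo X) :
    ∀ (P : X → Form →L[ℝ] Form) (s c : ℝ), G.SmoothOp P → (s = 1 ∨ s = -1) → 0 < c →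
      (∀ x a, c * ‖a‖ ^ 2 ≤ ‖P x a‖ ^ 2 + s * q a a) →
      ∀ k, ∃ C, ∀ f g : X → Form, MemLp f 2 G.μ → G.WeakClosed f → G.Smooth2 g →
        (fun x => P x (f x)) =ᵐ[G.μ] g →
        ∃ al, G.Smooth2 al ∧ f =ᵐ[G.μ] al ∧ G.sob k 1 al ≤ C * (G.n2 f + G.sob k 1 g) := by
  intro P s c hP hs hc hco k
  have hs' : |s| ≤ 1 := by rcases hs with rfl | rfl <;> norm_num
  choose C hC hreg using fun i => chart_reg (G := G) hP hs' hc hco i k
  obtain ⟨D, hD, hhsq⟩ := hsq_le_nk k
  choose O hO hψO hOt _hOχ using fun i => exists_open_one (G := G) i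
  choose ν hν hνc hνs _hν01 hν1 using fun i => Param.exists_cut
    ((isClosed_tsupport (G.ψ i)).isCompact.image_of_continuousOn
      ((G.φ i).continuousOn.mono (G.ψ_supp i))) (hO i) (hψO i)
  refine ⟨∑ i, D * C i, fun f g hf hw hg hPf => ?_⟩
  choose w hw1 hw2 using fun i => (hreg i f g hf hw hg hPf).1
  have hbound := fun i => (hreg i f g hf hw hg hPf).2
  set al : X → Form := ∑ i, G.fromChart2 i fun v => ν i v • w i v
  have hal : G.Smooth2 al := Geo.Smooth2.sum _ fun i _ =>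
    Geo.smooth2_fromChart2 ((hν i).smul (hw1 i).smooth) (hνc i).smul_right
      ((tsupport_smul_subset_left _ _).trans ((hνs i).trans (hOt i)))
  have hpiece : ∀ i, (fun x => G.ψ i x • f x) =ᵐ[G.μ]
      G.fromChart2 i fun v => ν i v • w i v := by
    intro i
    refine ae_of_ae_restrict_of_ae_restrict_compl (G.φ i).source ?_ ?_
    · have hsub : (G.φ i).target ⊆ cube := (G.target_sub i).trans Q0_subset_cube
      have h1 := Geo.ae_source i (ae_restrict_of_ae_restrict_of_subset hsub (hw2 i))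
      filter_upwards [h1, ae_restrict_mem (G.φ i).open_source.measurableSet] with x hx hxs
      rw [Geo.fromChart2, if_pos hxs, ← hx, G.rep2_fsmul, G.rep0_apply (G.ψ i) hxs, smul_smul]
      have hν' : ν i (G.φ i x) * G.ψ i x = G.ψ i x := by
        by_cases hψ : x ∈ tsupport (G.ψ i)
        · rw [(hν1 i).self_of_nhdsSet _ (mem_image_of_mem _ hψ), one_mul]
        · rw [image_eq_zero_of_notMem_tsupport hψ, mul_zero]
      rw [hν', pull_smul, ← G.eq_pull_rep2 f hxs]
    · filter_upwards [ae_restrict_mem (G.φ i).open_source.measurableSet.compl] with x hxs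
      rw [Geo.fromChart2, if_neg hxs,
        image_eq_zero_of_notMem_tsupport fun h => hxs (G.ψ_supp i h), zero_smul]
  have hfal : f =ᵐ[G.μ] al := by
    filter_upwards [ae_all_iff.2 hpiece] with x hx
    simp only [al, Finset.sum_apply]
    rw [← Finset.sum_congr rfl fun i _ => hx i, ← Finset.sum_smul, G.ψ_sum, one_smul]
  refine ⟨al, hal, hfal, ?_⟩
  have hcoef : ∀ i, coef (G.locF i al) = coef (G.rep2 i fun x => G.ψ i x • f x) := fun i => by
    refine coef_congr ((pext_ae _).trans (ae_restrict_of_ae (Geo.rep2_ae i ?_)))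
    filter_upwards [hfal] with x hx
    rw [hx]
  rw [Geo.sob, Finset.sum_mul]
  refine le_trans ?_ (Finset.sum_le_sum fun i _ => (?_ : Real.sqrt (hsq k 1 (G.locF i al)) ≤ _))
  · refine (Real.sqrt_le_left (Finset.sum_nonneg fun i _ => Real.sqrt_nonneg _)).2 ?_
    refine le_trans (le_of_eq (Finset.sum_congr rfl fun i _ =>
      (Real.sq_sqrt (hsq_nonneg k 1 (G.locF i al))).symm)) ?_
    exact Finset.sum_sq_le_sq_sum_of_nonneg fun i _ => Real.sqrt_nonneg _
  · refine (hhsq _ (G.smooth_locF i hal)).trans ?_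
    rw [hcoef i, mul_assoc]
    exact mul_le_mul_of_nonneg_left (hbound i) hD

end Vale.Agent.P204.Gen.Ell
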