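import Vale.Agent.P204.Gen.Interface
import Vale.Agent.P204.Gen.Congr
import Vale.Agent.P204.Gen.SobTorus

/-!
P204 on a closed four-manifold: the Sobolev inequalities on `X`, lifted from the torus chart by
chart.
-/

open MeasureTheory Set Filter Topology
open scoped BigOperators ContDiff

namespace Vale.Agent.P204.Gen

open Vale.Agent.P204.Torus

namespace SobX

variable {X : Type*} [TopologicalSpace X] [MeasurableSpace X] (G : Geo X)

lemma norm_pull_le_sq {A : V →L[ℝ] V} {M : ℝ} (hM : ‖A‖ ≤ M) (α : Form) :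
    ‖pull A α‖ ≤ 72 * M ^ 2 * ‖α‖ := by
  have hM0 : 0 ≤ M := (norm_nonneg _).trans hM
  have hb : ∀ j, ‖A (e j)‖ ≤ M := fun j =>
    (A.le_opNorm _).trans (by rw [norm_e, mul_one]; exact hM)
  refine (norm_le_of_ev (K := 12 * (‖α‖ * (M * M))) fun i j => ?_).trans_eq (by ring)
  rw [ev_pull]
  exact (abs_ev_le _ _ _).trans (mul_le_mul_of_nonneg_left (mul_le_mul_of_nonneg_left
    (mul_le_mul (hb i) (hb j) (norm_nonneg _) hM0) (norm_nonneg _)) (by norm_num))

/-- The changes to the coordinates in use are uniformly bounded on the supports. -/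
lemma exists_change_bound [T2Space X] [CompactSpace X] :
    ∃ M : ℝ, 0 ≤ M ∧ ∀ i, ∀ x ∈ tsupport (G.ψ i), ‖(G.dT i x).inverse‖ ≤ M := by
  have h : ∀ p : Fin G.n × Fin G.n, ∃ M : ℝ, ∀ x ∈ tsupport (G.ψ p.1) ∩ tsupport (G.ψ p.2),
      ‖G.trD p.2 p.1 x‖ ≤ M := by
    rintro ⟨i, j⟩
    refine ((isClosed_tsupport (G.ψ i)).inter
      (isClosed_tsupport (G.ψ j))).isCompact.exists_bound_of_continuousOn ?_
    intro x hx
    have hi := G.ψ_supp i hx.1
    have hj := G.ψ_supp j hx.2
    have hd : ContinuousAt (fderiv ℝ (G.tc j i)) (G.φ j x) := by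
      have h1 : ContDiffOn ℝ ∞ (G.tc j i) (G.tdom j i) := G.trans_smooth j i
      exact (h1.continuousOn_fderiv_of_isOpen (G.isOpen_tdom j i) (by simp)).continuousAt
        ((G.isOpen_tdom j i).mem_nhds (G.chart_mem_tdom hj hi))
    exact ((hd.comp ((G.φ j).continuousAt hj)).continuousWithinAt : _)
  choose M hM using h
  refine ⟨∑ p, |M p|, Finset.sum_nonneg fun _ _ => abs_nonneg _, fun i x hx => ?_⟩
  have hi := G.ψ_supp i hx
  have hj : x ∈ tsupport (G.ψ (G.tr x)) := subset_tsupport _ (G.tr_pos x).ne'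
  have he : (G.dT i x).inverse = G.trD (G.tr x) i x := by
    have h1 := G.trD_symm hi (G.mem_ch x)
    rw [← G.dT_eq] at h1
    calc (G.dT i x).inverse = (G.dT i x).inverse.comp ((G.dT i x).comp (G.trD (G.tr x) i x)) := by
          rw [h1, ContinuousLinearMap.comp_id]
      _ = G.trD (G.tr x) i x := by
          rw [← ContinuousLinearMap.comp_assoc, inverse_comp_self (G.dT_det_ne hi),
            ContinuousLinearMap.id_comp]
  rw [he]
  exact ((hM (i, G.tr x) x ⟨hx, hj⟩).trans (le_abs_self _)).trans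
    (Finset.single_le_sum (f := fun p => |M p|) (fun _ _ => abs_nonneg _) (Finset.mem_univ _))

lemma sqrt_hsq_le_sob (i : Fin G.n) (k : ℕ) (ε : ℝ) (α : X → Form) :
    Real.sqrt (hsq k ε (G.locF i α)) ≤ G.sob k ε α :=
  Real.sqrt_le_sqrt (Finset.single_le_sum (f := fun j => hsq k ε (G.locF j α))
    (fun _ _ => hsq_nonneg k ε _) (Finset.mem_univ i))

/-- The sup bound on `X`. -/
theorem exists_sup [T2Space X] [CompactSpace X] :
    ∃ C, ∀ α, G.Smooth2 α → ∀ x, ‖α x‖ ≤ C * G.sob pU 1 α := by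
  obtain ⟨C, hC, hsup⟩ := norm_le_hsq
  obtain ⟨M, hM0, hM⟩ := exists_change_bound G
  refine ⟨G.n * (72 * M ^ 2 * C), fun α hα x => ?_⟩
  have hone : ∀ i, G.ψ i x * ‖α x‖ ≤ 72 * M ^ 2 * C * G.sob pU 1 α := fun i => by
    by_cases hx : x ∈ tsupport (G.ψ i)
    · have hi := G.ψ_supp i hx
      have hu := (G.φ i).map_source hi
      have e : G.ψ i x • α x = pull (G.dT i x).inverse (G.locF i α (G.φ i x)) := by
        rw [Geo.locF, pext_eq_self _ (Q0_subset_cube (G.target_sub i hu))]
        exact G.eq_pull_rep2 (fun y => G.ψ i y • α y) hi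
      rw [← abs_of_nonneg (G.ψ_nonneg i x), ← Real.norm_eq_abs, ← norm_smul, e]
      refine (norm_pull_le_sq (hM i x hx) _).trans ?_
      rw [mul_assoc (72 * M ^ 2)]
      exact mul_le_mul_of_nonneg_left ((hsup _ (G.smooth_locF i hα) _).trans
        (mul_le_mul_of_nonneg_left (sqrt_hsq_le_sob G i 8 1 α) hC)) (by positivity)
    · rw [image_eq_zero_of_notMem_tsupport hx, zero_mul]
      exact mul_nonneg (by positivity) (Real.sqrt_nonneg _)
  calc ‖α x‖ = ∑ i, G.ψ i x * ‖α x‖ := by rw [← Finset.sum_mul, G.ψ_sum, one_mul]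
    _ ≤ ∑ _i : Fin G.n, 72 * M ^ 2 * C * G.sob pU 1 α := Finset.sum_le_sum fun i _ => hone i
    _ = _ := by simp; ring

open Classical in
/-- An operator field in the chart `i`, cut off, as a field of continuous linear maps. -/
noncomputable def cutOp (i : Fin G.n) (F : X → Form →L[ℝ] Form) (u : V) : Form →L[ℝ] Form :=
  if u ∈ (G.φ i).target then
    G.χ i u • (pullL (G.dT i ((G.φ i).symm u))).comp
      ((F ((G.φ i).symm u)).comp (pullL (G.dT i ((G.φ i).symm u)).inverse))
  else 0

lemma cutOp_apply {i : Fin G.n} {F : X → Form →L[ℝ] Form} {u : V} (hu : u ∈ (G.φ i).target)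
    (β : Form) : cutOp G i F u β = G.χ i u • G.repOp i F u β := by
  simp [cutOp, hu, Geo.repOp]

lemma smooth_cutOp {i : Fin G.n} {F : X → Form →L[ℝ] Form} (hF : G.SmoothOp F) :
    Smooth (pext (cutOp G i F)) := by
  have hsub : tsupport (cutOp G i F) ⊆ tsupport (G.χ i) := by
    refine closure_mono fun u hu h0 => hu ?_
    ext β : 1
    by_cases ht : u ∈ (G.φ i).target
    · simp [cutOp_apply G ht, h0]
    · simp [cutOp, ht]
  have hc : HasCompactSupport (cutOp G i F) :=
    (G.χ_cpt i).isCompact.of_isClosed_subset (isClosed_tsupport _) hsub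
  refine smooth_pext (contDiff_iff_contDiffAt.2 fun u => ?_) hc
    (hsub.trans ((G.χ_supp i).trans (G.target_sub i)))
  by_cases hu : u ∈ (G.φ i).target
  · have h : ContDiffOn ℝ ∞ (cutOp G i F) (G.φ i).target :=
      contDiffOn_clm_apply.2 fun β => (((G.χ_smooth i).contDiffOn).smul (hF i β)).congr
        fun v hv => cutOp_apply G hv β
    exact h.contDiffAt ((G.φ i).open_target.mem_nhds hu)
  · exact contDiffAt_const.congr_of_eventuallyEq
      (notMem_tsupport_iff_eventuallyEq.1 fun h => hu (G.χ_supp i (hsub h)))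

lemma locF_op (i : Fin G.n) (F : X → Form →L[ℝ] Form) (α : X → Form) :
    G.locF i (fun x => F x (α x)) = fun u => pext (cutOp G i F) u (G.locF i α u) := by
  funext u
  simp only [Geo.locF, pext]
  set v := fred u
  by_cases hv : v ∈ (G.φ i).target
  · have e : (fun x => G.ψ i x • F x (α x)) = fun x => F x (G.ψ i x • α x) := by
      funext x; rw [map_smul]
    rw [e, G.rep2_op F (fun x => G.ψ i x • α x) hv, cutOp_apply G hv]
    set x := (G.φ i).symm v
    by_cases hx : x ∈ tsupport (G.ψ i)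
    · have h1 : G.χ i v = 1 := by
        have := (G.χ_one i x hx).self_of_nhds
        rwa [(G.φ i).right_inv hv] at this
      rw [h1, one_smul]
    · have h0 : G.rep2 i (fun y => G.ψ i y • α y) v = 0 := by
        simp only [Geo.rep2, if_pos hv]
        rw [image_eq_zero_of_notMem_tsupport hx, zero_smul, pull_zero]
      have hL : G.repOp i F v 0 = 0 := by
        rw [G.repOp_sum]; simp
      rw [h0, hL, smul_zero]
  · rw [G.rep2_of_notMem _ hv, G.rep2_of_notMem _ hv, map_zero]

/-- Multiplication by a smooth operator field on `X`. -/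
theorem exists_mult [CompactSpace X] {F : X → Form →L[ℝ] Form} (hF : G.SmoothOp F) (k : ℕ) :
    ∃ C, ∀ α, G.Smooth2 α → G.sob k 1 (fun x => F x (α x)) ≤ C * G.sob k 1 α := by
  choose C hC hb using fun i => hsq_mul_le k (smooth_cutOp G (i := i) hF)
  refine ⟨Real.sqrt (∑ i, C i), fun α hα => ?_⟩
  rw [Geo.sob, Geo.sob, ← Real.sqrt_mul (Finset.sum_nonneg fun i _ => hC i)]
  refine Real.sqrt_le_sqrt ?_
  rw [Finset.mul_sum]
  refine Finset.sum_le_sum fun i _ => ?_
  rw [locF_op]
  refine (hb i 1 (by simp) _ (G.smooth_locF i hα)).trans ?_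
  exact mul_le_mul_of_nonneg_right
    (Finset.single_le_sum (f := C) (fun j _ => hC j) (Finset.mem_univ i)) (hsq_nonneg _ _ _)

end SobX

/-- The Sobolev inequalities on `X`. -/
theorem sobFacts {X : Type*} [TopologicalSpace X] [T2Space X] [CompactSpace X] [MeasurableSpace X]
    (G : Geo X) : SobFacts G :=
  ⟨SobX.exists_sup G, fun _ hF k => SobX.exists_mult G hF k⟩

end Vale.Agent.P204.Gen
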