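import Vale.Agent.P204.Gen.GSolveMain
import Vale.Agent.P204.Gen.Elliptic
import Vale.Agent.P204.Gen.SobX

/-!
P204, general four-manifold, module GSolveX: `GSolve S`, with elliptic regularity and the Sobolev
facts put in.
-/

namespace Vale.Agent.P204.Gen

variable {X : Type*} [TopologicalSpace X] [MeasurableSpace X] [BorelSpace X] [T2Space X]
  [CompactSpace X]

/-- Every smooth anti-invariant form is the anti-invariant part of a smooth closed form, linearly
and with a bound. -/
theorem gSolveX (S : GSetup X) : GSolve S :=
  gSolve S (Ell.ellipticX S.toGeo) (sobFacts S.toGeo)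

end Vale.Agent.P204.Gen
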