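import Vale.Agent.P204.Gen.GUL2

/-!
P204 on a closed four-manifold, module GU: the current which kills closed forms and extends a
separating current, with its square integrable regularisations, the commutator of its
anti-invariant part and the inequality between its dual norm and its first norm.

`U α = T (α - G (π⁻ α))`. The regularisations `Ue`, `Te` come from Riesz; `Ue` is orthogonal to all
weakly closed fields, hence isotropic and a limit of exact fields.
-/

open MeasureTheory Set Filter Topology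
open scoped BigOperators ContDiff

namespace Vale.Agent.P204.Gen

open Vale.Agent.P204.Torus

variable {X : Type*} [TopologicalSpace X] [MeasurableSpace X] [T2Space X] [CompactSpace X]

namespace GU

variable {S : GSetup X} (T : Positive S)

lemma app_add_smooth (hB : Basic S.toGeo) {α β : X → Form} (hα : S.Smooth2 α)
    (hβ : S.Smooth2 β) : T.app (α + β) = T.app α + T.app β := by
  obtain ⟨A, hA⟩ := hB.smooth_bound α hα
  obtain ⟨B, hB'⟩ := hB.smooth_bound β hβ
  exact app_add T (hB.smooth_meas α hα) hA (hB.smooth_meas β hβ) hB'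

lemma exists_app_sob (hS : SobFacts S.toGeo) :
    ∃ K, 0 ≤ K ∧ ∀ α, S.Smooth2 α → ∀ w : X → ℝ, (∀ y, |w y| ≤ 1) →
      |T.app fun z => w z • α z| ≤ K * S.sob pU 1 α := by
  obtain ⟨K, hK, hb⟩ := exists_app_bound T
  obtain ⟨C, hC⟩ := hS.sup
  refine ⟨K * max C 0, by positivity, fun α hα w hw => ?_⟩
  refine (hb _ (max C 0 * S.sob pU 1 α) fun x => ?_).trans_eq (mul_assoc _ _ _).symm
  rw [norm_smul, Real.norm_eq_abs]
  calc |w x| * ‖α x‖ ≤ 1 * (C * S.sob pU 1 α) :=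
        mul_le_mul (hw x) (hC α hα x) (norm_nonneg _) zero_le_one
    _ ≤ max C 0 * S.sob pU 1 α := by
        rw [one_mul]
        exact mul_le_mul_of_nonneg_right (le_max_left _ _) (sob_nonneg' _ _ _ _)

omit [T2Space X] [CompactSpace X] in
lemma pairing_sub_smooth (hB : Basic S.toGeo) {α β : X → Form} (hα : S.Smooth2 α)
    (hβ : S.Smooth2 β) (hαc : S.WeakClosed α) (hβc : S.WeakClosed β) :
    S.WeakClosed (α - β) := fun η hη => by
  have h := pairing_sub_left S.toGeo (hB.smooth_mem α hα) (hB.smooth_mem β hβ)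
    (hB.smooth_mem _ (hB.smooth_d η hη))
  rw [hαc η hη, hβc η hη, sub_zero] at h
  exact h

end GU

open GU

/-- Weighted regularised currents exist. -/
theorem regRepExists {S : GSetup X} (hB : Basic S.toGeo) (hR : RegFacts S.toGeo)
    (hS : SobFacts S.toGeo) (T : Positive S) : RegRepExists T := by
  obtain ⟨e₀, he₀, he₀1, hsc⟩ := hR.exists_scale
  obtain ⟨C, e₁, he₁, hgain⟩ := hR.gain pU
  obtain ⟨K, hK, happ⟩ := exists_app_sob T hS
  refine ⟨min e₀ e₁, lt_min he₀ he₁, fun ε h0 h1 w hw hwb => ?_⟩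
  obtain ⟨hsm, -, -, -, hadd, hsmul, -⟩ := hsc ε h0 (h1.trans (min_le_left _ _))
  have hm : ∀ α, S.Smooth2 α → Measurable (fun z => w z • S.reg ε α z) ∧
      ∃ A, ∀ z, ‖w z • S.reg ε α z‖ ≤ A := fun α hα => by
    obtain ⟨A, hA⟩ := hB.smooth_bound _ (hsm α hα).1
    refine ⟨hw.smul (hB.smooth_meas _ (hsm α hα).1), A, fun z => ?_⟩
    rw [norm_smul, Real.norm_eq_abs]
    exact (mul_le_of_le_one_left (norm_nonneg _) (hwb z)).trans (hA z)
  obtain ⟨f, hf, hrep⟩ := hB.riesz (fun α => T.app fun z => w z • S.reg ε α z)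
    (fun α β hα hβ => by
      obtain ⟨h1, A, hA⟩ := hm α hα
      obtain ⟨h2, B, hB'⟩ := hm β hβ
      rw [← app_add T h1 hA h2 hB']
      congr 1
      funext z
      rw [hadd α β hα hβ]
      simp only [Pi.add_apply, smul_add])
    (fun a α hα => by
      rw [← app_smul T]
      congr 1
      funext z
      rw [hsmul a α hα]
      simp only [Pi.smul_apply, smul_comm (w z) a])
    ⟨K * (C / ε ^ pU), fun α hα => by
      refine (happ _ (hsm α hα).1 w hwb).trans ?_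
      rw [mul_assoc]
      refine mul_le_mul_of_nonneg_left ?_ hK
      refine (sob_one_le' S.toGeo pU h0 ((h1.trans (min_le_left _ _)).trans he₀1) _).trans ?_
      rw [div_mul_eq_mul_div]
      exact div_le_div_of_nonneg_right (hgain ε h0 (h1.trans (min_le_right _ _)) α hα)
        (by positivity)⟩
  exact ⟨f, hf, hrep⟩

/-- The current killing closed forms which extends a separating current exists. -/
theorem nonempty_guData {S : GSetup X} (hB : Basic S.toGeo) (hR : RegFacts S.toGeo)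
    (hS : SobFacts S.toGeo) (hG : GSolve S) (T : GCurrent S) : Nonempty (GUData T) := by
  obtain ⟨G, CG, hGp⟩ := hG.exists_G
  let η : (X → Form) → X → Form := fun α x => piM (S.J x) (α x)
  have hη : ∀ α, S.Smooth2 α → S.Smooth2 (η α) ∧ ∀ x, piP (S.J x) (η α x) = 0 := fun α hα =>
    ⟨Geo.Smooth2.piM S.J_smooth hα, fun x => (S.pt x).piP_piM (0 : V) (α x)⟩
  have hηadd : ∀ α β, η (α + β) = η α + η β := fun α β => funext fun x => piM_add _ _ _
  have hηsmul : ∀ (a : ℝ) α, η (a • α) = a • η α := fun a α => funext fun x => piM_smul _ _ _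
  let U : (X → Form) → ℝ := fun α => T.app (α - G (η α))
  have hsub : ∀ α, S.Smooth2 α → S.Smooth2 (α - G (η α)) := fun α hα =>
    Geo.Smooth2.sub hα (hGp _ (hη α hα).1 (hη α hα).2).1
  have hadd : ∀ α β, S.Smooth2 α → S.Smooth2 β → U (α + β) = U α + U β := fun α β hα hβ => by
    simp only [U]
    rw [← app_add_smooth T.toPositive hB (hsub α hα) (hsub β hβ), hηadd,
      (hGp _ (hη α hα).1 (hη α hα).2).2.2.2.2.1 _ (hη β hβ).1 (hη β hβ).2]
    congr 1
    abel
  have hsmul : ∀ (a : ℝ) α, S.Smooth2 α → U (a • α) = a * U α := fun a α hα => by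
    simp only [U]
    rw [← app_smul T.toPositive, hηsmul, (hGp _ (hη α hα).1 (hη α hα).2).2.2.2.2.2 a, smul_sub]
  have hinv : ∀ α, S.Smooth2 α → (∀ x, piM (S.J x) (α x) = 0) → U α = T.app α := fun α hα h => by
    have h0 : η α = 0 := funext h
    have hG0 : G 0 = 0 := by
      have hz := hη α hα
      rw [h0] at hz
      simpa using (hGp 0 hz.1 hz.2).2.2.2.2.2 0
    simp only [U, h0, hG0, sub_zero]
  have hclosed : ∀ α, S.Smooth2 α → S.WeakClosed α → U α = 0 := fun α hα hc => by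
    obtain ⟨h1, h2, h3, -⟩ := hGp _ (hη α hα).1 (hη α hα).2
    refine T.annihilates _ ⟨hsub α hα, pairing_sub_smooth hB hα h1 hc h2, fun x => ?_⟩
    rw [Pi.sub_apply, piM_sub, h3 x, sub_self]
  obtain ⟨Cs, hCs⟩ := hS.sup
  obtain ⟨Cm, hCm⟩ := hS.mult (fun x => piML (S.J x)) (Geo.SmoothE.piML S.J_smooth) pU
  obtain ⟨K, hK, happ⟩ := exists_app_bound T.toPositive
  have hbound : ∀ α, S.Smooth2 α →
      |U α| ≤ K * (max Cs 0 + max CG 0 * max Cm 0) * S.sob pU 1 α := fun α hα => by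
    have hp := sob_nonneg' S.toGeo pU 1 α
    have hm : S.sob pU 1 (η α) ≤ max Cm 0 * S.sob pU 1 α :=
      (hCm α hα).trans (mul_le_mul_of_nonneg_right (le_max_left _ _) hp)
    refine (happ _ ((max Cs 0 + max CG 0 * max Cm 0) * S.sob pU 1 α) fun x => ?_).trans_eq
      (mul_assoc _ _ _).symm
    refine (norm_sub_le _ _).trans ?_
    rw [add_mul, mul_assoc]
    refine add_le_add ((hCs α hα x).trans (mul_le_mul_of_nonneg_right (le_max_left _ _) hp)) ?_
    exact ((hGp _ (hη α hα).1 (hη α hα).2).2.2.2.1 x).trans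
      (mul_le_mul (le_max_left _ _) hm (sob_nonneg' _ _ _ _) (le_max_right _ _))
  set CU := K * (max Cs 0 + max CG 0 * max Cm 0)
  have hCU : 0 ≤ CU := by positivity
  obtain ⟨e₀, he₀, he₀1, hsc⟩ := hR.exists_scale
  obtain ⟨C, e₁, he₁, hgain⟩ := hR.gain pU
  obtain ⟨e₂, he₂, hTe⟩ := regRepExists hB hR hS T.toPositive
  set ε₀ := min e₀ (min e₁ e₂)
  have h0' : ∀ {ε}, ε ≤ ε₀ → ε ≤ e₀ := fun h => h.trans (min_le_left _ _)
  have h1' : ∀ {ε}, ε ≤ ε₀ → ε ≤ e₁ := fun h =>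
    h.trans ((min_le_right _ _).trans (min_le_left _ _))
  have h2' : ∀ {ε}, ε ≤ ε₀ → ε ≤ e₂ := fun h =>
    h.trans ((min_le_right _ _).trans (min_le_right _ _))
  have hUe : ∀ ε, ∃ f : X → Form, 0 < ε → ε ≤ ε₀ →
      MemLp f 2 S.μ ∧ ∀ α, S.Smooth2 α → S.pairing f α = U (S.reg ε α) := fun ε => by
    by_cases h : 0 < ε ∧ ε ≤ ε₀
    · obtain ⟨hsm, -, -, -, ha, hs, -⟩ := hsc ε h.1 (h0' h.2)
      obtain ⟨f, hf⟩ := hB.riesz (fun α => U (S.reg ε α))
        (fun α β hα hβ => by rw [ha α β hα hβ, hadd _ _ (hsm α hα).1 (hsm β hβ).1])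
        (fun a α hα => by rw [hs a α hα, hsmul a _ (hsm α hα).1])
        ⟨CU * (C / ε ^ pU), fun α hα => by
          refine (hbound _ (hsm α hα).1).trans ?_
          rw [mul_assoc CU (C / ε ^ pU)]
          refine mul_le_mul_of_nonneg_left ?_ hCU
          refine (sob_one_le' S.toGeo pU h.1 ((h0' h.2).trans he₀1) _).trans ?_
          rw [div_mul_eq_mul_div]
          exact div_le_div_of_nonneg_right (hgain ε h.1 (h1' h.2) α hα)
            (pow_nonneg h.1.le _)⟩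
      exact ⟨f, fun _ _ => hf⟩
    · exact ⟨0, fun a b => absurd ⟨a, b⟩ h⟩
  have hTe' : ∀ ε, ∃ f : X → Form, 0 < ε → ε ≤ ε₀ → T.RegRep (fun _ => 1) ε f := fun ε => by
    by_cases h : 0 < ε ∧ ε ≤ ε₀
    · obtain ⟨f, hf⟩ := hTe ε h.1 (h2' h.2) (fun _ => 1) measurable_const (fun _ => by simp)
      exact ⟨f, fun _ _ => hf⟩
    · exact ⟨0, fun a b => absurd ⟨a, b⟩ h⟩
  choose Ue hUe using hUe
  choose Te hTe' using hTe'
  have hkill : ∀ ε, 0 < ε → ε ≤ ε₀ → ∀ α, S.Smooth2 α → S.WeakClosed α →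
      S.pairing (Ue ε) α = 0 := fun ε h0 h1 α hα hc => by
    obtain ⟨hsm, -, -, hwc, -⟩ := hsc ε h0 (h0' h1)
    rw [(hUe ε h0 h1).2 α hα, hclosed _ (hsm α hα).1 (hwc α hα hc)]
  have horth : ∀ ε, 0 < ε → ε ≤ ε₀ → ∀ w, MemLp w 2 S.μ → S.WeakClosed w →
      S.pairing (Ue ε) w = 0 := fun ε h0 h1 w hw hwc =>
    pairing_eq_zero_of_closed S.toGeo hB hR (hUe ε h0 h1).1 (hkill ε h0 h1) hw hwc
  exact ⟨{
    U := U
    Ue := Ue
    Te := Te
    ε₀ := ε₀
    ε₀_pos := lt_min he₀ (lt_min he₁ he₂)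
    ε₀_le := (min_le_left _ _).trans he₀1
    add := hadd
    smul := hsmul
    inv := hinv
    closed := hclosed
    bound := ⟨CU, hbound⟩
    Ue_mem := fun ε h0 h1 => (hUe ε h0 h1).1
    Ue_rep := fun ε h0 h1 => (hUe ε h0 h1).2
    Ue_q := fun ε h0 h1 => horth ε h0 h1 _ (hUe ε h0 h1).1 fun θ hθ =>
      hkill ε h0 h1 _ (hB.smooth_d θ hθ) fun ξ hξ => hB.stokes θ ξ hθ hξ
    Ue_exact := fun ε h0 h1 δ hδ =>
      exists_exact_approx S.toGeo hB (hUe ε h0 h1).1 (horth ε h0 h1) hδ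
    Te_rep := fun ε h0 h1 => hTe' ε h0 h1 }⟩

namespace GUData

variable {S : GSetup X} {T : GCurrent S} (D : GUData T)

omit [T2Space X] [CompactSpace X] in
lemma smul_Sf (a : ℝ) {α : X → Form} (hα : S.Smooth2 α) : D.Sf (a • α) = a * D.Sf α := by
  rw [Sf, Sf, D.smul a α hα, app_smul T.toPositive]
  ring

lemma add_Sf (hB : Basic S.toGeo) {α β : X → Form} (hα : S.Smooth2 α) (hβ : S.Smooth2 β) :
    D.Sf (α + β) = D.Sf α + D.Sf β := by
  rw [Sf, Sf, Sf, D.add α β hα hβ, app_add_smooth T.toPositive hB hα hβ]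
  ring

lemma sub_Sf (hB : Basic S.toGeo) {α β : X → Form} (hα : S.Smooth2 α) (hβ : S.Smooth2 β) :
    D.Sf (α - β) = D.Sf α - D.Sf β := by
  rw [sub_eq_add_neg, ← neg_one_smul ℝ β, D.add_Sf hB hα (Geo.Smooth2.smul hβ (-1)),
    D.smul_Sf (-1) hβ]
  ring

lemma exists_Sf_sob_bound (hS : SobFacts S.toGeo) :
    ∃ C, 0 ≤ C ∧ ∀ α, S.Smooth2 α → |D.Sf α| ≤ C * S.sob pU 1 α := by
  obtain ⟨C, hC⟩ := D.bound
  obtain ⟨K, hK, hT⟩ := exists_app_sob T.toPositive hS
  refine ⟨max C 0 + K, by positivity, fun α hα => ?_⟩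
  have h := hT α hα (fun _ => 1) (fun _ => by simp)
  simp only [one_smul] at h
  rw [add_mul]
  exact (abs_sub _ _).trans (add_le_add ((hC α hα).trans
    (mul_le_mul_of_nonneg_right (le_max_left _ _) (sob_nonneg' _ _ _ _))) h)

omit [T2Space X] [CompactSpace X] in
lemma Yn_nonneg' (ε : ℝ) : 0 ≤ D.Yn ε :=
  Real.sSup_nonneg fun _ ⟨_, _, _, hr⟩ => hr ▸ abs_nonneg _

lemma exists_Yn_bound (hS : SobFacts S.toGeo) :
    ∃ C, 0 ≤ C ∧ ∀ ε, 0 < ε → ε ≤ 1 → D.Yn ε ≤ C / ε ^ pU ∧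
      ∀ α, S.Smooth2 α → |D.Sf α| ≤ D.Yn ε * S.sob kS ε α := by
  obtain ⟨C, hC, hb⟩ := D.exists_Sf_sob_bound hS
  refine ⟨C, hC, fun ε h0 h1 => ?_⟩
  have hle : ∀ α, S.Smooth2 α → |D.Sf α| ≤ C / ε ^ pU * S.sob kS ε α := fun α hα => by
    refine (hb α hα).trans ?_
    calc C * S.sob pU 1 α ≤ C * (S.sob pU ε α / ε ^ pU) :=
          mul_le_mul_of_nonneg_left (sob_one_le' S.toGeo pU h0 h1 α) hC
      _ ≤ C * (S.sob kS ε α / ε ^ pU) := by
          gcongr
          exact sob_mono' S.toGeo (by decide) ε α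
      _ = _ := by ring
  have hset : ∀ r ∈ {r | ∃ α, S.Smooth2 α ∧ S.sob kS ε α ≤ 1 ∧ r = |D.Sf α|},
      r ≤ C / ε ^ pU := by
    rintro r ⟨α, hα, h, rfl⟩
    exact (hle α hα).trans (mul_le_of_le_one_right (by positivity) h)
  refine ⟨Real.sSup_le hset (by positivity), fun α hα => ?_⟩
  rcases (sob_nonneg' S.toGeo kS ε α).eq_or_lt with h | h
  · have := hle α hα
    rw [← h] at this ⊢
    simpa using this
  · have hs : S.sob kS ε ((S.sob kS ε α)⁻¹ • α) ≤ 1 := by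
      rw [sob_smul' S.toGeo, abs_inv, abs_of_pos h, inv_mul_cancel₀ h.ne']
    have hm : |D.Sf ((S.sob kS ε α)⁻¹ • α)| ≤ D.Yn ε :=
      le_csSup ⟨_, hset⟩ ⟨_, Geo.Smooth2.smul hα _, hs, rfl⟩
    rwa [D.smul_Sf _ hα, abs_mul, abs_inv, abs_of_pos h, inv_mul_le_iff₀ h, mul_comm] at hm

omit [T2Space X] [CompactSpace X] in
lemma Se_memLp' {ε : ℝ} (h0 : 0 < ε) (h1 : ε ≤ D.ε₀) : MemLp (D.Se ε) 2 S.μ :=
  (D.Ue_mem ε h0 h1).sub (D.Te_rep ε h0 h1).1

omit [T2Space X] [CompactSpace X] in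
lemma pairing_Se' (hB : Basic S.toGeo) {ε : ℝ} (h0 : 0 < ε) (h1 : ε ≤ D.ε₀) {α : X → Form}
    (hα : S.Smooth2 α) : S.pairing (D.Se ε) α = D.Sf (S.reg ε α) := by
  have h := pairing_sub_left S.toGeo (D.Ue_mem ε h0 h1) (D.Te_rep ε h0 h1).1
    (hB.smooth_mem α hα)
  rw [D.Ue_rep ε h0 h1 α hα, (D.Te_rep ε h0 h1).2 α hα] at h
  simp only [one_smul] at h
  exact h

end GUData

/-- The commutator of the regularised anti-invariant part. -/
theorem seComm [BorelSpace X] {S : GSetup X} {T : GCurrent S} (hB : Basic S.toGeo)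
    (hR : RegFacts S.toGeo) (hS : SobFacts S.toGeo) (D : GUData T) : SeComm D := by
  obtain ⟨C, e₁, he₁, hcomm⟩ :=
    hR.comm (fun x => piPL (S.J x)) (Geo.SmoothE.piPL S.J_smooth) kS
  obtain ⟨e₀, he₀, he₀1, hsc⟩ := hR.exists_scale
  obtain ⟨CY, _, hY⟩ := D.exists_Yn_bound hS
  obtain ⟨CP, hCP, hP⟩ := S.exists_bound_proj
  refine ⟨max C 0, min D.ε₀ (min e₀ e₁), lt_min D.ε₀_pos (lt_min he₀ he₁), fun ε h0 h1 => ?_⟩
  have h1D : ε ≤ D.ε₀ := h1.trans (min_le_left _ _)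
  have h10 : ε ≤ e₀ := h1.trans ((min_le_right _ _).trans (min_le_left _ _))
  have h11 : ε ≤ e₁ := h1.trans ((min_le_right _ _).trans (min_le_right _ _))
  obtain ⟨hsm, -, -, -, -, -, -⟩ := hsc ε h0 h10
  set s := D.Se ε
  set w := fun x => piP (S.J x) (s x)
  have hs : MemLp s 2 S.μ := D.Se_memLp' h0 h1D
  obtain ⟨hwm, -, hwle⟩ := hP s hs.1
  have hw : MemLp w 2 S.μ := MemLp.of_le_mul hs hwm (Eventually.of_forall hwle)
  set b := max C 0 * ε * D.Yn ε
  have hb : 0 ≤ b := mul_nonneg (mul_nonneg (le_max_right _ _) h0.le) (D.Yn_nonneg' ε)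
  have htest : ∀ β, S.Smooth2 β → |S.pairing w β| ≤ b * S.n2 β := fun β hβ => by
    have hPβ : S.Smooth2 fun x => piP (S.J x) (β x) := Geo.Smooth2.piP S.J_smooth hβ
    have hPr : S.Smooth2 fun x => piP (S.J x) (S.reg ε β x) :=
      Geo.Smooth2.piP S.J_smooth (hsm β hβ).1
    have e1 : S.pairing w β = D.Sf (S.reg ε fun x => piP (S.J x) (β x)) := by
      rw [← D.pairing_Se' hB h0 h1D hPβ]
      exact integral_congr_ae (Eventually.of_forall fun x =>
        (S.pt x).q_piP_left (0 : V) (s x) (β x))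
    have e2 : D.Sf (fun x => piP (S.J x) (S.reg ε β x)) = 0 :=
      sub_eq_zero.2 (D.inv _ hPr fun x => (S.pt x).piM_piP (0 : V) _)
    set d : X → Form := fun x => piP (S.J x) (S.reg ε β x) -
      S.reg ε (fun y => piP (S.J y) (β y)) x
    have hd : S.Smooth2 d := Geo.Smooth2.sub hPr (hsm _ hPβ).1
    have e3 : D.Sf d = -S.pairing w β := by
      rw [show d = (fun x => piP (S.J x) (S.reg ε β x)) -
        S.reg ε (fun y => piP (S.J y) (β y)) from rfl, D.sub_Sf hB hPr (hsm _ hPβ).1, e2, e1,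
        zero_sub]
    have h := (hY ε h0 (h10.trans he₀1)).2 d hd
    rw [e3, abs_neg] at h
    refine h.trans ?_
    have hc : S.sob kS ε d ≤ max C 0 * ε * S.n2 β :=
      (hcomm ε h0 h11 β hβ).trans (mul_le_mul_of_nonneg_right
        (mul_le_mul_of_nonneg_right (le_max_left _ _) h0.le) (S.n2_nonneg _))
    exact (mul_le_mul_of_nonneg_left hc (D.Yn_nonneg' ε)).trans_eq (by ring)
  set g := fun x => swF (w x)
  have hg : MemLp g 2 S.μ := memLp_swF S.toGeo hw
  have hgn : S.n2 g = S.n2 w := n2_swF S.toGeo w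
  have hsq : S.n2 w ^ 2 = S.pairing w g := by
    rw [Geo.n2, Real.sq_sqrt (integral_nonneg fun _ => sq_nonneg _), Geo.pairing]
    refine integral_congr_ae (Eventually.of_forall fun x => ?_)
    simp only [g]
    rw [q_comm, q_eq_inner, swF_swF, real_inner_self_eq_norm_sq]
  change S.n2 w ≤ b
  by_contra hlt
  push Not at hlt
  have hpos : 0 < S.n2 w + b + 1 := by linarith [S.n2_nonneg w]
  set δ := (S.n2 w ^ 2 - b * S.n2 w) / (2 * (S.n2 w + b + 1)) with hδdef
  have hnum : 0 < S.n2 w ^ 2 - b * S.n2 w := by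
    have : 0 < (S.n2 w - b) * S.n2 w := mul_pos (by linarith) (hb.trans_lt hlt)
    linarith
  have hδ : 0 < δ := by positivity
  obtain ⟨β, hβ, hβd⟩ := hB.dense g hg δ hδ
  have hβm := hB.smooth_mem β hβ
  have hβn : S.n2 β ≤ S.n2 w + δ :=
    (n2_le_add_sub S.toGeo hg hβm).trans (by linarith)
  have hdiff : S.pairing w g - S.pairing w β ≤ S.n2 w * δ := by
    rw [← S.pairing_sub_right hw hg hβm]
    exact ((le_abs_self _).trans (pairing_le S.toGeo hw (hg.sub hβm))).trans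
      (mul_le_mul_of_nonneg_left hβd (S.n2_nonneg _))
  have h2 : S.pairing w β ≤ b * (S.n2 w + δ) :=
    ((le_abs_self _).trans (htest β hβ)).trans (mul_le_mul_of_nonneg_left hβn hb)
  have hδ2 : δ * (2 * (S.n2 w + b + 1)) = S.n2 w ^ 2 - b * S.n2 w := by
    rw [hδdef, div_mul_cancel₀]; positivity
  nlinarith [mul_pos hδ hpos]

/-- The inequality between the dual norm and the first norm. -/
theorem yKey {S : GSetup X} {T : GCurrent S} (hB : Basic S.toGeo)
    (hR : RegFacts S.toGeo) (hS : SobFacts S.toGeo) (D : GUData T) : YKey D := by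
  obtain ⟨C, hC, hY⟩ := D.exists_Yn_bound hS
  obtain ⟨e₀, he₀, he₀1, hsc⟩ := hR.exists_scale
  obtain ⟨K, e₁, he₁, hkey⟩ := hR.key kS
  refine ⟨max C (max K 0), min D.ε₀ (min e₀ e₁), lt_min D.ε₀_pos (lt_min he₀ he₁),
    hC.trans (le_max_left _ _), fun ε h0 h1 => ?_, fun l ε hl hl1 h0 h1 => ?_⟩
  · refine ((hY ε h0 ((h1.trans ((min_le_right _ _).trans (min_le_left _ _))).trans he₀1)).1).trans
      ?_
    exact div_le_div_of_nonneg_right (le_max_left _ _) (by positivity)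
  · set M := max C (max K 0)
    have hM : 0 ≤ M := hC.trans (le_max_left _ _)
    have hKM : K ≤ M := (le_max_left _ _).trans (le_max_right _ _)
    have hle : l * ε ≤ ε := mul_le_of_le_one_left h0.le hl1
    have hle0 : 0 < l * ε := mul_pos hl h0
    have h1D : l * ε ≤ D.ε₀ := hle.trans (h1.trans (min_le_left _ _))
    have h10 : l * ε ≤ e₀ := hle.trans (h1.trans ((min_le_right _ _).trans (min_le_left _ _)))
    obtain ⟨hsm, -, -, -, -, -, -⟩ := hsc (l * ε) hle0 h10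
    have hX : 0 ≤ D.Xn (l * ε) := S.n2_nonneg _
    have hY0 : 0 ≤ D.Yn (l * ε) := D.Yn_nonneg' _
    refine Real.sSup_le ?_ (by positivity)
    rintro r ⟨α, hα, hs, rfl⟩
    obtain ⟨γ, β, hγ, hβ, he, hnγ, hnβ⟩ :=
      hkey l ε hl hl1 h0 (h1.trans ((min_le_right _ _).trans (min_le_right _ _))) α hα
    rw [he, D.add_Sf hB (hsm γ hγ).1 hβ]
    refine (abs_add_le _ _).trans (add_le_add ?_ ?_)
    · rw [← D.pairing_Se' hB hle0 h1D hγ]
      refine (pairing_le S.toGeo (D.Se_memLp' hle0 h1D) (hB.smooth_mem γ hγ)).trans ?_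
      rw [mul_comm M]
      refine mul_le_mul_of_nonneg_left (hnγ.trans ?_) (S.n2_nonneg _)
      exact (mul_le_mul_of_nonneg_right hKM (sob_nonneg' _ _ _ _)).trans
        (mul_le_of_le_one_right hM hs)
    · refine ((hY (l * ε) hle0 (h10.trans he₀1)).2 β hβ).trans ?_
      rw [mul_comm (M * l ^ kS)]
      refine mul_le_mul_of_nonneg_left (hnβ.trans ?_) hY0
      exact (mul_le_mul_of_nonneg_right (mul_le_mul_of_nonneg_right hKM (pow_nonneg hl.le _))
        (sob_nonneg' _ _ _ _)).trans (mul_le_of_le_one_right (by positivity) hs)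

end Vale.Agent.P204.Gen
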