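import Vale.Agent.P204.Gen.GeoSmooth

/-!
P204 on a closed four-manifold, module GeoBasic: the distance `dX` against the chart distances.
-/

open Set Filter Topology
open scoped ContDiff BigOperators

namespace Vale.Agent.P204.Gen

open Vale.Agent.P204.Torus

namespace Geo

variable {X : Type*} [TopologicalSpace X] [MeasurableSpace X] (G : Geo X)

lemma psi_eq_zero_of_notMem {i : Fin G.n} {x : X} (hx : x ∉ (G.φ i).source) : G.ψ i x = 0 :=
  image_eq_zero_of_notMem_tsupport fun h => hx (G.ψ_supp i h)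

lemma psi_le_one (i : Fin G.n) (x : X) : G.ψ i x ≤ 1 :=
  G.ψ_sum x ▸ Finset.single_le_sum (fun j _ => G.ψ_nonneg j x) (Finset.mem_univ i)

lemma norm_chart_le_one {i : Fin G.n} {x : X} (hx : x ∈ (G.φ i).source) : ‖G.φ i x‖ ≤ 1 := by
  refine (pi_norm_le_iff_of_nonneg zero_le_one).2 fun k => ?_
  have h := G.target_sub i ((G.φ i).map_source hx) k (mem_univ k)
  rw [Real.norm_eq_abs, abs_of_pos h.1]
  exact h.2.le

/-- The coordinates cut off by the partition of unity. -/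
lemma continuous_psi_smul (i : Fin G.n) : Continuous fun x => G.ψ i x • G.φ i x := by
  refine continuous_iff_continuousAt.2 fun x => ?_
  by_cases hx : x ∈ tsupport (G.ψ i)
  · exact (G.ψ_cont i).continuousAt.smul ((G.φ i).continuousAt (G.ψ_supp i hx))
  · refine (continuousAt_const (y := (0 : V))).congr ?_
    filter_upwards [(isClosed_tsupport _).isOpen_compl.mem_nhds hx] with y hy
    simp [image_eq_zero_of_notMem_tsupport hy]

lemma norm_psi_smul_le (i : Fin G.n) (x : X) : ‖G.ψ i x • G.φ i x‖ ≤ 1 := by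
  by_cases hx : x ∈ (G.φ i).source
  · rw [norm_smul, Real.norm_eq_abs, abs_of_nonneg (G.ψ_nonneg i x)]
    exact mul_le_one₀ (G.psi_le_one i x) (norm_nonneg _) (G.norm_chart_le_one hx)
  · simp [G.psi_eq_zero_of_notMem hx]

lemma continuous_dX : Continuous fun p : X × X => G.dX p.1 p.2 := by
  refine continuous_finsetSum _ fun i _ => ?_
  exact ((((G.ψ_cont i).comp continuous_fst).sub ((G.ψ_cont i).comp continuous_snd)).abs).add
    (((G.continuous_psi_smul i).comp continuous_fst).sub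
      ((G.continuous_psi_smul i).comp continuous_snd)).norm

lemma continuous_dX_left (y : X) : Continuous fun x => G.dX x y :=
  G.continuous_dX.comp (continuous_id.prodMk continuous_const)

lemma continuous_dX_right (x : X) : Continuous fun y => G.dX x y :=
  G.continuous_dX.comp (continuous_const.prodMk continuous_id)

lemma dX_nonneg (x y : X) : 0 ≤ G.dX x y :=
  Finset.sum_nonneg fun _ _ => add_nonneg (abs_nonneg _) (norm_nonneg _)

lemma dX_self (x : X) : G.dX x x = 0 := by simp [dX]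

lemma dX_comm (x y : X) : G.dX x y = G.dX y x :=
  Finset.sum_congr rfl fun i _ => by rw [abs_sub_comm, norm_sub_rev]

lemma dX_triangle (x y z : X) : G.dX x z ≤ G.dX x y + G.dX y z := by
  rw [dX, dX, dX, ← Finset.sum_add_distrib]
  refine Finset.sum_le_sum fun i _ => ?_
  calc _ ≤ (|G.ψ i x - G.ψ i y| + |G.ψ i y - G.ψ i z|) +
        (‖G.ψ i x • G.φ i x - G.ψ i y • G.φ i y‖ + ‖G.ψ i y • G.φ i y - G.ψ i z • G.φ i z‖) :=
        add_le_add (abs_sub_le _ _ _) (norm_sub_le_norm_sub_add_norm_sub _ _ _)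
    _ = _ := by ring

lemma dX_le_bound (x y : X) : G.dX x y ≤ 3 * G.n := by
  calc G.dX x y ≤ ∑ _i : Fin G.n, (3 : ℝ) := Finset.sum_le_sum fun i _ => by
        have h1 := norm_sub_le (G.ψ i x • G.φ i x) (G.ψ i y • G.φ i y)
        have := G.norm_psi_smul_le i x
        have := G.norm_psi_smul_le i y
        have h2 : |G.ψ i x - G.ψ i y| ≤ 1 := abs_sub_le_iff.2
          ⟨by linarith [G.psi_le_one i x, G.ψ_nonneg i y],
            by linarith [G.psi_le_one i y, G.ψ_nonneg i x]⟩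
        linarith
    _ = 3 * G.n := by simp [mul_comm]

lemma eq_of_dX_eq_zero {x y : X} (h : G.dX x y = 0) : x = y := by
  have h' := (Finset.sum_eq_zero_iff_of_nonneg
    (fun _ _ => add_nonneg (abs_nonneg _) (norm_nonneg _))).1 h (G.tr x) (Finset.mem_univ _)
  obtain ⟨h1, h2⟩ := (add_eq_zero_iff_of_nonneg (abs_nonneg _) (norm_nonneg _)).1 h'
  rw [abs_eq_zero, sub_eq_zero] at h1
  rw [norm_eq_zero, sub_eq_zero, ← h1, smul_right_inj (G.tr_pos x).ne'] at h2
  have hy : y ∈ (G.φ (G.tr x)).source := by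
    by_contra hy
    exact (G.tr_pos x).ne' (h1.trans (G.psi_eq_zero_of_notMem hy))
  exact (G.φ (G.tr x)).injOn (G.mem_ch x) hy h2

lemma dX_pos {x y : X} (h : x ≠ y) : 0 < G.dX x y :=
  (G.dX_nonneg x y).lt_of_ne fun h' => h (G.eq_of_dX_eq_zero h'.symm)

/-- Near points lie in a common neighbourhood. -/
lemma exists_dX_lt_mem [CompactSpace X] {K U : Set X} (hK : IsCompact K) (hU : IsOpen U)
    (hKU : K ⊆ U) : ∃ δ > 0, ∀ x ∈ K, ∀ y, G.dX x y < δ → y ∈ U := by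
  rcases (K ×ˢ Uᶜ).eq_empty_or_nonempty with he | hne
  · refine ⟨1, one_pos, fun x hx y _ => ?_⟩
    by_contra hy
    exact (Set.eq_empty_iff_forall_notMem.1 he) (x, y) ⟨hx, hy⟩
  obtain ⟨p, hp, hmin⟩ := (hK.prod hU.isClosed_compl.isCompact).exists_isMinOn hne
    G.continuous_dX.continuousOn
  refine ⟨G.dX p.1 p.2, G.dX_pos fun h => hp.2 (h ▸ hKU hp.1), fun x hx y hy => ?_⟩
  by_contra hyU
  exact absurd (hmin (show (x, y) ∈ K ×ˢ Uᶜ from ⟨hx, hyU⟩)) (not_le.2 hy)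

/-- The distance is bounded by the chart distance on compact subsets of a chart. -/
lemma exists_dX_le {i : Fin G.n} {K : Set X} (hK : IsCompact K) (hs : K ⊆ (G.φ i).source) :
    ∃ C, 0 < C ∧ ∀ x ∈ K, ∀ y ∈ K, G.dX x y ≤ C * ‖G.φ i x - G.φ i y‖ := by
  have hKc : IsCompact (G.φ i '' K) :=
    hK.image_of_continuousOn ((G.φ i).continuousOn.mono hs)
  have hKt : G.φ i '' K ⊆ (G.φ i).target :=
    image_subset_iff.2 fun x hx => (G.φ i).map_source (hs hx)
  have hj : ∀ j, ∃ C, ∀ x ∈ K, ∀ y ∈ K,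
      |G.ψ j x - G.ψ j y| + ‖G.ψ j x • G.φ j x - G.ψ j y • G.φ j y‖ ≤
        C * ‖G.φ i x - G.φ i y‖ := by
    intro j
    set f : V → ℝ × V := fun u =>
      (G.ψ j ((G.φ i).symm u), G.ψ j ((G.φ i).symm u) • G.tc i j u) with hfdef
    have hf : ContDiffOn ℝ 1 f (G.φ i).target := by
      intro u hu
      refine ContDiffAt.contDiffWithinAt ?_
      have hψ : ContDiffAt ℝ 1 (fun v => G.ψ j ((G.φ i).symm v)) u :=
        ((G.ψ_smooth j i).contDiffAt ((G.φ i).open_target.mem_nhds hu)).of_le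
          (WithTop.coe_le_coe.2 le_top)
      refine hψ.prodMk ?_
      by_cases hj : (G.φ i).symm u ∈ (G.φ j).source
      · exact hψ.smul ((G.contDiffAt_tc (G.mem_tdom.2 ⟨hu, hj⟩)).of_le
          (WithTop.coe_le_coe.2 le_top))
      · refine (contDiffAt_const (c := (0 : V))).congr_of_eventuallyEq ?_
        filter_upwards [((G.φ i).continuousAt_symm hu).eventually_mem
          ((isClosed_tsupport _).isOpen_compl.mem_nhds fun h => hj (G.ψ_supp j h))] with v hv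
        simp [image_eq_zero_of_notMem_tsupport hv]
    have hloc : LocallyLipschitzOn (G.φ i '' K) f := fun u hu => by
      obtain ⟨L, t, ht, hL⟩ :=
        (hf.contDiffAt ((G.φ i).open_target.mem_nhds (hKt hu))).exists_lipschitzOnWith
      exact ⟨L, t, mem_nhdsWithin_of_mem_nhds ht, hL⟩
    obtain ⟨L, hL⟩ := hloc.exists_lipschitzOnWith_of_compact hKc
    refine ⟨2 * L, fun x hx y hy => ?_⟩
    have h := hL.dist_le_mul _ (mem_image_of_mem _ hx) _
      (mem_image_of_mem _ hy)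
    simp only [hfdef, G.tc_chart _ (hs hx), G.tc_chart _ (hs hy), (G.φ i).left_inv (hs hx),
      (G.φ i).left_inv (hs hy), dist_eq_norm, Prod.norm_def, Prod.fst_sub, Prod.snd_sub,
      Real.norm_eq_abs] at h
    linarith [le_max_left |G.ψ j x - G.ψ j y| ‖G.ψ j x • G.φ j x - G.ψ j y • G.φ j y‖,
      le_max_right |G.ψ j x - G.ψ j y| ‖G.ψ j x • G.φ j x - G.ψ j y • G.φ j y‖]
  choose C hC using hj
  refine ⟨(∑ j, |C j|) + 1, by positivity, fun x hx y hy => ?_⟩
  calc G.dX x y ≤ ∑ j, C j * ‖G.φ i x - G.φ i y‖ :=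
        Finset.sum_le_sum fun j _ => hC j x hx y hy
    _ ≤ ((∑ j, |C j|) + 1) * ‖G.φ i x - G.φ i y‖ := by
        rw [← Finset.sum_mul]
        refine mul_le_mul_of_nonneg_right ?_ (norm_nonneg _)
        linarith [Finset.sum_le_sum fun j (_ : j ∈ Finset.univ) => le_abs_self (C j)]

/-- The chart distance is bounded by the distance on compact subsets of a chart. -/
lemma exists_le_dX {i : Fin G.n} {K : Set X} (hK : IsCompact K) (hs : K ⊆ (G.φ i).source) :
    ∃ C, 0 < C ∧ ∀ x ∈ K, ∀ y ∈ K, ‖G.φ i x - G.φ i y‖ ≤ C * G.dX x y := by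
  suffices h : ∃ C, ∀ p ∈ K ×ˢ K, ‖G.φ i p.1 - G.φ i p.2‖ ≤ C * G.dX p.1 p.2 by
    obtain ⟨C, hC⟩ := h
    exact ⟨|C| + 1, by positivity, fun x hx y hy => (hC (x, y) ⟨hx, hy⟩).trans
      (mul_le_mul_of_nonneg_right (by linarith [le_abs_self C]) (G.dX_nonneg x y))⟩
  suffices h : ∃ C, ∀ p ∈ K ×ˢ K, p ∈ K ×ˢ K → ‖G.φ i p.1 - G.φ i p.2‖ ≤ C * G.dX p.1 p.2 by
    obtain ⟨C, hC⟩ := h
    exact ⟨C, fun p hp => hC p hp hp⟩
  refine (hK.prod hK).induction_on (p := fun s : Set (X × X) => ∃ C, ∀ p ∈ s, p ∈ K ×ˢ K →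
    ‖G.φ i p.1 - G.φ i p.2‖ ≤ C * G.dX p.1 p.2) ⟨0, by simp⟩
    (fun s t hst ⟨C, hC⟩ => ⟨C, fun p hp => hC p (hst hp)⟩) ?_ ?_
  · rintro s t ⟨C, hC⟩ ⟨D, hD⟩
    refine ⟨max C D, fun p hp hpK => ?_⟩
    rcases hp with hp | hp
    · exact (hC p hp hpK).trans
        (mul_le_mul_of_nonneg_right (le_max_left _ _) (G.dX_nonneg _ _))
    · exact (hD p hp hpK).trans
        (mul_le_mul_of_nonneg_right (le_max_right _ _) (G.dX_nonneg _ _))
  rintro ⟨a, b⟩ ⟨ha, hb⟩
  by_cases hab : a = b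
  · subst hab
    set j := G.tr a
    have haj := G.mem_ch a
    obtain ⟨L, t, ht, hL⟩ : ∃ L, ∃ t ∈ 𝓝 (G.φ j a), LipschitzOnWith L (G.tc j i) t :=
      ((G.contDiffAt_tc (G.chart_mem_tdom haj (hs ha))).of_le
        (WithTop.coe_le_coe.2 le_top : (1 : WithTop ℕ∞) ≤ ∞)).exists_lipschitzOnWith
    have hw : ∀ᶠ y in 𝓝 a, y ∈ (G.φ j).source ∧ G.φ j y ∈ t ∧ G.ψ j a / 2 < G.ψ j y :=
      ((G.φ j).open_source.eventually_mem haj).and
        (((G.φ j).continuousAt haj).eventually_mem ht |>.and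
          ((G.ψ_cont j).continuousAt.eventually_const_lt (half_lt_self (G.tr_pos a))))
    refine ⟨{p | (p.1 ∈ (G.φ j).source ∧ G.φ j p.1 ∈ t ∧ G.ψ j a / 2 < G.ψ j p.1) ∧
        (p.2 ∈ (G.φ j).source ∧ G.φ j p.2 ∈ t ∧ G.ψ j a / 2 < G.ψ j p.2)},
      mem_nhdsWithin_of_mem_nhds (prod_mem_nhds hw hw), (L : ℝ) * (2 / G.ψ j a), ?_⟩
    rintro ⟨x, y⟩ ⟨⟨hx1, hx2, hx3⟩, hy1, hy2, -⟩ ⟨hx, hy⟩
    have h1 := hL.dist_le_mul _ hx2 _ hy2
    rw [dist_eq_norm, dist_eq_norm, G.tc_chart i hx1, G.tc_chart i hy1] at h1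
    have h2 : G.ψ j x • (G.φ j x - G.φ j y) =
        (G.ψ j x • G.φ j x - G.ψ j y • G.φ j y) - (G.ψ j x - G.ψ j y) • G.φ j y := by
      simp only [smul_sub, sub_smul]; abel
    have h3 : G.ψ j x * ‖G.φ j x - G.φ j y‖ ≤ G.dX x y := by
      calc G.ψ j x * ‖G.φ j x - G.φ j y‖ = ‖G.ψ j x • (G.φ j x - G.φ j y)‖ := by
            rw [norm_smul, Real.norm_eq_abs, abs_of_nonneg (G.ψ_nonneg j x)]
        _ ≤ ‖G.ψ j x • G.φ j x - G.ψ j y • G.φ j y‖ + |G.ψ j x - G.ψ j y| * 1 := by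
            rw [h2]
            refine (norm_sub_le _ _).trans (add_le_add le_rfl ?_)
            rw [norm_smul, Real.norm_eq_abs]
            exact mul_le_mul_of_nonneg_left (G.norm_chart_le_one hy1) (abs_nonneg _)
        _ ≤ G.dX x y := by
            rw [mul_one, add_comm]
            exact Finset.single_le_sum
              (f := fun i => |G.ψ i x - G.ψ i y| + ‖G.ψ i x • G.φ i x - G.ψ i y • G.φ i y‖)
              (fun _ _ => add_nonneg (abs_nonneg _) (norm_nonneg _)) (Finset.mem_univ j)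
    calc ‖G.φ i x - G.φ i y‖ ≤ L * ‖G.φ j x - G.φ j y‖ := h1
      _ ≤ L * (2 / G.ψ j a * G.dX x y) := by
          refine mul_le_mul_of_nonneg_left ?_ L.coe_nonneg
          rw [div_mul_eq_mul_div, le_div_iff₀ (G.tr_pos a)]
          nlinarith [mul_le_mul_of_nonneg_right hx3.le (norm_nonneg (G.φ j x - G.φ j y))]
      _ = _ := by ring
  · have hpos := G.dX_pos hab
    refine ⟨{p | G.dX a b / 2 < G.dX p.1 p.2}, mem_nhdsWithin_of_mem_nhds
      ((isOpen_lt continuous_const G.continuous_dX).mem_nhds (half_lt_self hpos)),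
      2 / (G.dX a b / 2), ?_⟩
    rintro ⟨x, y⟩ hp ⟨hx, hy⟩
    rw [div_mul_eq_mul_div, le_div_iff₀ (half_pos hpos)]
    have h := (norm_sub_le (G.φ i x) (G.φ i y)).trans
      (add_le_add (G.norm_chart_le_one (hs hx)) (G.norm_chart_le_one (hs hy)))
    have hp' : G.dX a b / 2 < G.dX x y := hp
    nlinarith [norm_nonneg (G.φ i x - G.φ i y)]

/-- The periodic distance against the norm, on compact subsets of the cube. -/
lemma exists_norm_le_dist0 {K : Set V} (hK : IsCompact K) (hs : K ⊆ Q0) :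
    ∃ C, 0 < C ∧ ∀ u ∈ K, ∀ v ∈ K, ‖u - v‖ ≤ C * dist0 (u - v) := by
  rcases K.eq_empty_or_nonempty with he | hne
  · exact ⟨1, one_pos, by simp [he]⟩
  obtain ⟨p, hp, hmax⟩ := (hK.prod hK).exists_isMaxOn (hne.prod hne)
    (f := fun p : V × V => ‖p.1 - p.2‖) (by fun_prop)
  set m := ‖p.1 - p.2‖ with hmdef
  have hm : m < 1 := by
    refine (pi_norm_lt_iff one_pos).2 fun k => ?_
    have h1 := hs hp.1 k (mem_univ k)
    have h2 := hs hp.2 k (mem_univ k)
    rw [Pi.sub_apply, Real.norm_eq_abs, abs_lt]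
    constructor <;> linarith [h1.1, h1.2, h2.1, h2.2]
  refine ⟨2 / (1 - m), div_pos two_pos (sub_pos.2 hm), fun u hu v hv => ?_⟩
  have huv : ‖u - v‖ ≤ m := hmax (show (u, v) ∈ K ×ˢ K from ⟨hu, hv⟩)
  have hd0 : 0 ≤ dist0 (u - v) := div_nonneg (Real.sqrt_nonneg _) Real.pi_pos.le
  obtain ⟨n, hn⟩ := exists_near (u - v)
  rw [div_mul_eq_mul_div, le_div_iff₀ (sub_pos.2 hm)]
  by_cases h0 : n = 0
  · subst h0
    have : (intVec 0 : V) = 0 := funext fun k => by simp [intVec]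
    rw [this, sub_zero] at hn
    nlinarith [norm_nonneg (u - v), norm_nonneg (p.1 - p.2)]
  · obtain ⟨k, hk⟩ : ∃ k, n k ≠ 0 := by
      by_contra h; push Not at h; exact h0 (funext h)
    have h1 : (1 : ℝ) ≤ |(n k : ℝ)| := by exact_mod_cast Int.one_le_abs hk
    have h2 : |(u - v) k - (n k : ℝ)| ≤ 2 * dist0 (u - v) :=
      ((Real.norm_eq_abs _).symm.trans_le (norm_le_pi_norm (u - v - intVec n) k)).trans hn
    have h3 : |(u - v) k| ≤ m :=
      ((Real.norm_eq_abs _).symm.trans_le (norm_le_pi_norm (u - v) k)).trans huv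
    have h4 := abs_sub_abs_le_abs_sub (n k : ℝ) ((u - v) k)
    rw [abs_sub_comm] at h4
    nlinarith [norm_nonneg (u - v)]

lemma exists_dist0_le_norm : ∃ C, 0 < C ∧ ∀ u : V, dist0 u ≤ C * ‖u‖ := by
  refine ⟨4, by norm_num, fun u => (dist0_le_sum u).trans ?_⟩
  calc ∑ k, |Real.sin (Real.pi * u k)| / Real.pi ≤ ∑ _k : Fin 4, ‖u‖ := by
        refine Finset.sum_le_sum fun k _ => (div_le_iff₀ Real.pi_pos).2 ?_
        refine Real.abs_sin_le_abs.trans ?_
        rw [abs_mul, abs_of_pos Real.pi_pos, mul_comm Real.pi]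
        exact mul_le_mul_of_nonneg_right (abs_coord_le' u k) Real.pi_pos.le
    _ = 4 * ‖u‖ := by simp

/-- Both comparisons in the coordinates of a chart, with the periodic distance. -/
lemma exists_dX_dist0 [T2Space X] {i : Fin G.n} {K : Set V} (hK : IsCompact K)
    (hs : K ⊆ (G.φ i).target) :
    ∃ C, 0 < C ∧ ∀ u ∈ K, ∀ v ∈ K,
      G.dX ((G.φ i).symm u) ((G.φ i).symm v) ≤ C * dist0 (u - v) ∧
      dist0 (u - v) ≤ C * G.dX ((G.φ i).symm u) ((G.φ i).symm v) := by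
  have hKX : IsCompact ((G.φ i).symm '' K) :=
    hK.image_of_continuousOn ((G.φ i).continuousOn_symm.mono hs)
  have hsub : (G.φ i).symm '' K ⊆ (G.φ i).source :=
    image_subset_iff.2 fun u hu => (G.φ i).map_target (hs hu)
  obtain ⟨C₁, hC₁, h₁⟩ := G.exists_dX_le hKX hsub
  obtain ⟨C₂, hC₂, h₂⟩ := G.exists_le_dX hKX hsub
  obtain ⟨C₃, hC₃, h₃⟩ := exists_norm_le_dist0 hK (hs.trans (G.target_sub i))
  obtain ⟨C₄, hC₄, h₄⟩ := exists_dist0_le_norm
  refine ⟨C₁ * C₃ + C₄ * C₂, by positivity, fun u hu v hv => ?_⟩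
  have h5 := h₁ _ (mem_image_of_mem _ hu) _ (mem_image_of_mem _ hv)
  have h6 := h₂ _ (mem_image_of_mem _ hu) _ (mem_image_of_mem _ hv)
  rw [(G.φ i).right_inv (hs hu), (G.φ i).right_inv (hs hv)] at h5 h6
  have hd0 : 0 ≤ dist0 (u - v) := div_nonneg (Real.sqrt_nonneg _) Real.pi_pos.le
  have hdx := G.dX_nonneg ((G.φ i).symm u) ((G.φ i).symm v)
  constructor
  · calc _ ≤ C₁ * ‖u - v‖ := h5
      _ ≤ C₁ * (C₃ * dist0 (u - v)) := mul_le_mul_of_nonneg_left (h₃ u hu v hv) hC₁.le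
      _ ≤ _ := by nlinarith [mul_nonneg (mul_nonneg hC₄.le hC₂.le) hd0]
  · calc _ ≤ C₄ * ‖u - v‖ := h₄ _
      _ ≤ C₄ * (C₂ * G.dX ((G.φ i).symm u) ((G.φ i).symm v)) :=
          mul_le_mul_of_nonneg_left h6 hC₄.le
      _ ≤ _ := by nlinarith [mul_nonneg (mul_nonneg hC₁.le hC₃.le) hdx]

end Geo

end Vale.Agent.P204.Gen
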