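import Vale.Agent.P204.Gen.Interface
import Vale.Agent.P204.Gen.GeoDist
import Vale.Agent.P204.Torus.Phase1Aux

/-!
P204 on a closed four-manifold: pairings of square integrable fields, projections, and balls of
the distance (module 16, helper61).
-/

open MeasureTheory Filter Topology
open scoped BigOperators ContDiff

namespace Vale.Agent.P204.Gen

open Vale.Agent.P204.Torus

variable {X : Type*} [TopologicalSpace X] [MeasurableSpace X]

namespace Geo

variable (G : Geo X)

lemma measurable_dX [BorelSpace X] : Measurable fun p : X × X => G.dX p.1 p.2 := by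
  refine Finset.measurable_sum _ fun i _ => Measurable.add ?_ ?_
  · exact (((G.ψ_cont i).measurable.comp measurable_fst).sub
      ((G.ψ_cont i).measurable.comp measurable_snd)).norm
  · exact (((G.continuous_psi_smul i).measurable.comp measurable_fst).sub
      ((G.continuous_psi_smul i).measurable.comp measurable_snd)).norm

/-- The pairing of square integrable fields is integrable. -/
lemma integrable_q {f g : X → Form} (hf : MemLp f 2 G.μ) (hg : MemLp g 2 G.μ) :
    Integrable (fun x => q (f x) (g x)) G.μ := by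
  have hq : Continuous fun p : Form × Form => q p.1 p.2 :=
    Setup.continuous_q continuous_fst continuous_snd
  refine Integrable.mono' ((hf.norm.integrable_sq.add hg.norm.integrable_sq).const_mul 3)
    (hq.comp_aestronglyMeasurable (hf.1.prodMk hg.1)) (Eventually.of_forall fun x => ?_)
  rw [Real.norm_eq_abs, Pi.add_apply]
  refine (abs_q_le _ _).trans ?_
  nlinarith [sq_nonneg (‖f x‖ - ‖g x‖)]

lemma integrable_norm_mul {f g : X → Form} (hf : MemLp f 2 G.μ) (hg : MemLp g 2 G.μ) :
    Integrable (fun x => ‖f x‖ * ‖g x‖) G.μ := by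
  refine Integrable.mono' ((hf.norm.integrable_sq.add hg.norm.integrable_sq).const_mul (1 / 2))
    (hf.1.norm.mul hg.1.norm) (Eventually.of_forall fun x => ?_)
  rw [Real.norm_eq_abs, Pi.add_apply, abs_of_nonneg (by positivity)]
  nlinarith [sq_nonneg (‖f x‖ - ‖g x‖)]

lemma pairing_comm (f g : X → Form) : G.pairing f g = G.pairing g f :=
  integral_congr_ae (Eventually.of_forall fun _ => q_comm _ _)

lemma pairing_sub_right {f g h : X → Form} (hf : MemLp f 2 G.μ) (hg : MemLp g 2 G.μ)
    (hh : MemLp h 2 G.μ) :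
    G.pairing f (fun x => g x - h x) = G.pairing f g - G.pairing f h := by
  simp only [pairing, q_sub_right]
  exact integral_sub (G.integrable_q hf hg) (G.integrable_q hf hh)

/-- Cauchy–Schwarz for the pairing. -/
lemma abs_pairing_le {f g : X → Form} (hf : MemLp f 2 G.μ) (hg : MemLp g 2 G.μ) :
    |G.pairing f g| ≤ 6 * (G.n2 f * G.n2 g) := by
  refine abs_integral_le_integral_abs.trans ((integral_mono (G.integrable_q hf hg).abs
    ((G.integrable_norm_mul hf hg).const_mul 6) fun x => abs_q_le _ _).trans ?_)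
  rw [integral_const_mul]
  refine mul_le_mul_of_nonneg_left ?_ (by norm_num)
  rw [n2, n2, ← Real.sqrt_mul (integral_nonneg fun _ => sq_nonneg _)]
  exact Real.le_sqrt_of_sq_le (integral_mul_sq_le hf.norm.integrable_sq hg.norm.integrable_sq
    (G.integrable_norm_mul hf hg))

lemma n2_nonneg (f : X → Form) : 0 ≤ G.n2 f := Real.sqrt_nonneg _

end Geo

namespace GSetup

variable (S : GSetup X)

lemma dT_tr (x : X) : S.dT (S.tr x) x = ContinuousLinearMap.id ℝ V := by
  have hx : x ∈ (S.φ (S.tr x)).source := S.ψ_supp _ (subset_tsupport _ (S.tr_pos x).ne')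
  have h : (fun u => S.φ (S.tr x) ((S.φ (S.tr x)).symm u)) =ᶠ[nhds (S.φ (S.tr x) x)] id :=
    ((S.φ (S.tr x)).eventually_right_inverse ((S.φ (S.tr x)).map_source hx))
  rw [Geo.dT, Geo.ch, h.fderiv_eq, fderiv_id]

/-- The structure is measurable and bounded in the coordinates in use. -/
lemma exists_bound_J [T2Space X] [CompactSpace X] [BorelSpace X] :
    Measurable S.J ∧ ∃ M, 0 ≤ M ∧ ∀ x, ‖S.J x‖ ≤ M := by
  classical
  have hJ : ∀ x, S.repE (S.tr x) S.J (S.φ (S.tr x) x) = S.J x := fun x => by
    have hx : x ∈ (S.φ (S.tr x)).source := S.ψ_supp _ (subset_tsupport _ (S.tr_pos x).ne')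
    simp only [Geo.repE, if_pos ((S.φ (S.tr x)).map_source hx),
      (S.φ (S.tr x)).left_inv hx, dT_tr]
    ext u : 1
    simp
  have hcont : ∀ i, ContinuousOn (fun x => S.repE i S.J (S.φ i x)) (tsupport (S.ψ i)) := fun i =>
    (S.J_smooth i).continuousOn.comp ((S.φ i).continuousOn.mono (S.ψ_supp i))
      fun x hx => (S.φ i).map_source (S.ψ_supp i hx)
  refine ⟨?_, ?_⟩
  · have hm : ∀ i, Measurable ((S.tr ⁻¹' {i}).domRestrict S.J) := fun i => by
      have hsub : S.tr ⁻¹' {i} ⊆ tsupport (S.ψ i) := fun x hx => by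
        obtain rfl : S.tr x = i := hx
        exact subset_tsupport _ (S.tr_pos x).ne'
      have h := ((hcont i).mono hsub).domRestrict.measurable
      convert h using 1
      funext x
      obtain ⟨x, rfl⟩ := x
      exact (hJ x).symm
    intro B hB
    have e : S.J ⁻¹' B = ⋃ i, Subtype.val '' ((S.tr ⁻¹' {i}).domRestrict S.J ⁻¹' B) := by
      ext x
      simp [Set.domRestrict]
    rw [e]
    exact MeasurableSet.iUnion fun i => (MeasurableEmbedding.subtype_coe
      (S.tr_meas (measurableSet_singleton i))).measurableSet_image.2 (hm i hB)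
  · choose M hM using fun i => (isClosed_tsupport (S.ψ i)).isCompact.exists_bound_of_continuousOn
      (hcont i)
    refine ⟨∑ i, max (M i) 0, Finset.sum_nonneg fun i _ => le_max_right _ _, fun x => ?_⟩
    rw [← hJ x]
    exact ((hM _ x (subset_tsupport _ (S.tr_pos x).ne')).trans (le_max_left _ 0)).trans
      (Finset.single_le_sum (f := fun i => max (M i) 0) (fun i _ => le_max_right _ _)
        (Finset.mem_univ _))

/-- The projections of a field are measurable and uniformly bounded. -/
lemma exists_bound_proj [T2Space X] [CompactSpace X] [BorelSpace X] :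
    ∃ C, 0 ≤ C ∧ ∀ (f : X → Form), AEStronglyMeasurable f S.μ →
      AEStronglyMeasurable (fun x => piP (S.J x) (f x)) S.μ ∧
      AEStronglyMeasurable (fun x => piM (S.J x) (f x)) S.μ ∧
      ∀ x, ‖piP (S.J x) (f x)‖ ≤ C * ‖f x‖ := by
  obtain ⟨hJm, M, hM0, hM⟩ := S.exists_bound_J
  have hc : Continuous fun p : (V →L[ℝ] V) × Form => pull p.1 p.2 := by
    refine (PiLp.continuous_toLp 2 _).comp (continuous_pi fun k => ?_)
    have h1 : ∀ i, Continuous fun p : (V →L[ℝ] V) × Form => p.1 (e i) := fun i =>
      (ContinuousLinearMap.apply ℝ V (e i)).continuous.comp continuous_fst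
    have h2 : ∀ i j, Continuous fun p : (V →L[ℝ] V) × Form => p.1 (e i) j := fun i j =>
      (continuous_apply j).comp (h1 i)
    have h3 : ∀ j, Continuous fun p : (V →L[ℝ] V) × Form => p.2 j := fun j =>
      (PiLp.continuous_apply 2 _ j).comp continuous_snd
    exact continuous_finsetSum _ fun j _ =>
      (h3 j).mul (((h2 _ _).mul (h2 _ _)).sub ((h2 _ _).mul (h2 _ _)))
  refine ⟨(1 + 72 * M ^ 2) / 2, by positivity, fun f hf => ?_⟩
  have hm := hc.comp_aestronglyMeasurable (hJm.aestronglyMeasurable.prodMk hf)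
  refine ⟨(hf.add hm).const_smul (1 / 2 : ℝ), (hf.sub hm).const_smul (1 / 2 : ℝ), fun x => ?_⟩
  have he : ∀ i, ‖S.J x (e i)‖ ≤ M := fun i =>
    ((S.J x).le_opNorm _).trans (by simpa [e, Pi.norm_single] using hM x)
  have hp : ‖pull (S.J x) (f x)‖ ≤ 6 * (12 * M ^ 2) * ‖f x‖ := by
    refine (norm_le_sum _).trans ((Finset.sum_le_sum fun k _ =>
      show |pull (S.J x) (f x) k| ≤ 12 * M ^ 2 * ‖f x‖ from ?_).trans ?_)
    · rw [pull, ofSkew_apply]
      refine (abs_ev_le _ _ _).trans ?_
      calc 12 * (‖f x‖ * (‖S.J x (e (fi k))‖ * ‖S.J x (e (se k))‖))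
          ≤ 12 * (‖f x‖ * (M * M)) := by gcongr <;> apply he
        _ = _ := by ring
    · simp only [Finset.sum_const, Finset.card_univ, Fintype.card_fin, nsmul_eq_mul]
      exact le_of_eq (by ring)
  rw [piP, norm_smul, Real.norm_of_nonneg (by norm_num : (0 : ℝ) ≤ 1 / 2)]
  refine (mul_le_mul_of_nonneg_left ((norm_add_le _ _).trans (add_le_add le_rfl hp))
    (by norm_num)).trans (le_of_eq ?_)
  ring

end GSetup

/-! ## Balls -/

/-- The balls have volume at most `r⁴`. -/
def BallVolume (G : Geo X) : Prop :=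
  ∃ C, 0 ≤ C ∧ ∀ y r, 0 < r → G.μ.real {x | G.dX y x ≤ r} ≤ C * r ^ 4

namespace Positive

variable {S : GSetup X} (T : Positive S) [BorelSpace X] {w : X → ℝ} {r : ℝ}

lemma measurableSet_ball (r : ℝ) (x : X) : MeasurableSet {z | S.dX z x ≤ r} :=
  measurableSet_le (S.measurable_dX.comp (measurable_id.prodMk measurable_const)) measurable_const

omit [BorelSpace X] in
lemma ball4W_nonneg (r : ℝ) (x : X) : 0 ≤ T.ball4W w r x :=
  div_nonneg (integral_nonneg fun _ => abs_nonneg _) (by positivity)

omit [BorelSpace X] in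
lemma ball4W_le (hw : Measurable w) (hb : ∀ y, |w y| ≤ 1) (x : X) :
    T.ball4W w r x ≤ T.ball4 r x := by
  have := T.finite
  refine div_le_div_of_nonneg_right ?_ (by positivity)
  refine (setIntegral_mono (Integrable.of_bound hw.norm.aestronglyMeasurable 1
    (Eventually.of_forall fun y => by simpa using hb y)).integrableOn
    (integrableOn_const (measure_ne_top _ _)) fun y => hb y).trans ?_
  simp [mul_one]

omit [BorelSpace X] in
lemma ball4_le (hr : 0 < r) (x : X) : T.ball4 r x ≤ T.ν.real Set.univ / r ^ 4 := by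
  have := T.finite
  exact div_le_div_of_nonneg_right (measureReal_mono (Set.subset_univ _)) (by positivity)

omit [BorelSpace X] in
lemma ball4_eq (r : ℝ) (x : X) : T.ball4 r x = T.ball4W (fun _ => 1) r x := by
  simp [ball4, ball4W]

lemma measurable_ball4W (hw : Measurable w) (r : ℝ) : Measurable (T.ball4W w r) := by
  have := T.finite
  classical
  have e : ∀ x, ∫ z in {z | S.dX z x ≤ r}, |w z| ∂T.ν =
      ∫ z, (if S.dX z x ≤ r then |w z| else 0) ∂T.ν := fun x => by
    rw [← integral_indicator (measurableSet_ball r x)]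
    exact integral_congr_ae (Eventually.of_forall fun z => by simp [Set.indicator_apply])
  have hm : StronglyMeasurable (Function.uncurry fun x z => if S.dX z x ≤ r then |w z| else 0) :=
    (Measurable.ite (measurableSet_le (S.measurable_dX.comp measurable_swap) measurable_const)
      (hw.norm.comp measurable_snd) measurable_const).stronglyMeasurable
  have h2 : T.ball4W w r = fun x =>
      (∫ z, (if S.dX z x ≤ r then |w z| else 0) ∂T.ν) / r ^ 4 := funext fun x => by
    rw [ball4W, e]
  rw [h2]
  exact (hm.integral_prod_right (ν := T.ν)).measurable.div_const _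

lemma measurable_ball4 (r : ℝ) : Measurable (T.ball4 r) := by
  rw [funext (T.ball4_eq r)]
  exact T.measurable_ball4W measurable_const r

omit [BorelSpace X] in
lemma dens_nonneg (ε : ℝ) (y : X) : 0 ≤ T.dens ε y := integral_nonneg fun _ => by positivity

omit [BorelSpace X] in
lemma dens_le_mass {ε : ℝ} (hε : 0 < ε) (y : X) : T.dens ε y ≤ T.ν.real Set.univ / ε ^ 2 := by
  have := T.finite
  refine (integral_mono_of_nonneg (Eventually.of_forall fun _ => by positivity)
    (integrable_const ((ε ^ 2)⁻¹)) (Eventually.of_forall fun z => ?_)).trans_eq ?_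
  · simp only
    rw [div_le_iff₀ (by positivity), ← div_le_iff₀' (by positivity), div_inv_eq_mul]
    nlinarith [sq_nonneg (S.dX z y), mul_nonneg (sq_nonneg ε) (sq_nonneg (S.dX z y))]
  · rw [integral_const, smul_eq_mul, div_eq_mul_inv]

lemma measurable_dens (ε : ℝ) : Measurable (T.dens ε) := by
  have := T.finite
  have hm : Measurable (Function.uncurry fun y z => ε ^ 2 / (ε ^ 2 + S.dX z y ^ 2) ^ 2) :=
    (measurable_const (a := ε ^ 2)).div (((measurable_const (a := ε ^ 2)).add
      ((S.measurable_dX.comp measurable_swap).pow_const 2)).pow_const 2)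
  exact (hm.stronglyMeasurable.integral_prod_right (ν := T.ν)).measurable

/-- A ball against the density. -/
lemma ball_le_dens {ε R : ℝ} (hε : 0 < ε) (y : X) :
    T.ν.real {z | S.dX z y ≤ R * ε} ≤ (1 + R ^ 2) ^ 2 * ε ^ 2 * T.dens ε y := by
  have := T.finite
  rw [dens, ← integral_const_mul, ← integral_indicator_one (measurableSet_ball _ _)]
  refine integral_mono_of_nonneg
    (Eventually.of_forall fun z => Set.indicator_nonneg (fun _ _ => zero_le_one) z) ?_
    (Eventually.of_forall fun z => ?_)
  · have hm : Measurable fun z => ε ^ 2 / (ε ^ 2 + S.dX z y ^ 2) ^ 2 :=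
      (measurable_const (a := ε ^ 2)).div (((measurable_const (a := ε ^ 2)).add
        ((S.measurable_dX.comp (measurable_id.prodMk measurable_const)).pow_const 2)).pow_const 2)
    refine (Integrable.of_bound hm.aestronglyMeasurable
      ((ε ^ 2)⁻¹) (Eventually.of_forall fun z => ?_)).const_mul _
    rw [Real.norm_eq_abs, abs_of_nonneg (by positivity), div_le_iff₀ (by positivity),
      ← div_le_iff₀' (by positivity), div_inv_eq_mul]
    nlinarith [sq_nonneg (S.dX z y), mul_nonneg (sq_nonneg ε) (sq_nonneg (S.dX z y))]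
  · simp only [Set.indicator_apply, Set.mem_ofPred_eq, Pi.one_apply]
    split_ifs with h
    · have h2 : S.dX z y ^ 2 ≤ R ^ 2 * ε ^ 2 := by
        rw [← mul_pow]; exact pow_le_pow_left₀ (S.dX_nonneg z y) h 2
      rw [mul_div_assoc', le_div_iff₀ (by positivity), one_mul]
      calc (ε ^ 2 + S.dX z y ^ 2) ^ 2 ≤ (ε ^ 2 * (1 + R ^ 2)) ^ 2 :=
            pow_le_pow_left₀ (by positivity) (by linarith) 2
        _ = _ := by ring
    · positivity

omit [BorelSpace X] in
lemma ball4_nonneg (r : ℝ) (x : X) : 0 ≤ T.ball4 r x :=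
  div_nonneg measureReal_nonneg (by positivity)

/-- Two balls against the density. -/
lemma exists_ball_product [CompactSpace X] (hV : BallVolume S.toGeo) {C : ℝ} (hC : 0 < C)
    [IsFiniteMeasure S.μ] :
    ∃ K, 0 ≤ K ∧ ∀ ε, 0 < ε → ∀ w : X → ℝ, Measurable w → (∀ y, |w y| ≤ 1) →
      ∫ x, ε ^ 2 * (T.ball4W w (C * ε) x * T.ball4 (C * ε) x) ∂S.μ ≤
        K * ∫ y, |w y| * T.dens ε y ∂T.ν := by
  classical
  have := T.finite
  obtain ⟨Cv, hCv, hvol⟩ := hV
  refine ⟨Cv * (1 + (2 * C) ^ 2) ^ 2 / C ^ 4, by positivity, fun ε hε w hw hb => ?_⟩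
  set r := C * ε with hr
  have hr0 : 0 < r := mul_pos hC hε
  set F := fun z => |w z| * T.ν.real {z' | S.dX z' z ≤ 2 * r} with hF
  have hb2 : Measurable fun z => T.ν.real {z' | S.dX z' z ≤ 2 * r} := by
    have e : (fun z => T.ν.real {z' | S.dX z' z ≤ 2 * r}) =
        fun z => T.ball4 (2 * r) z * (2 * r) ^ 4 := funext fun z => by
      rw [ball4, div_mul_cancel₀]
      positivity
    rw [e]
    exact (T.measurable_ball4 _).mul_const _
  have hFm : Measurable F := hw.norm.mul hb2
  have hF0 : ∀ z, 0 ≤ F z := fun z => mul_nonneg (abs_nonneg _) measureReal_nonneg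
  have hFb : ∀ z, F z ≤ T.ν.real Set.univ := fun z =>
    (mul_le_mul (hb z) (measureReal_mono (Set.subset_univ _)) measureReal_nonneg
      zero_le_one).trans_eq (one_mul _)
  set P := fun x z => if S.dX z x ≤ r then F z else 0 with hP
  have hPm : Measurable (Function.uncurry P) :=
    Measurable.ite (measurableSet_le (S.measurable_dX.comp measurable_swap) measurable_const)
      (hFm.comp measurable_snd) measurable_const
  have hP0 : ∀ x z, 0 ≤ P x z := fun x z => by simp only [hP]; split_ifs <;> simp [hF0]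
  have hPb : ∀ x z, P x z ≤ T.ν.real Set.univ := fun x z => by
    simp only [hP]; split_ifs <;> simp [hFb, measureReal_nonneg]
  have hPi : Integrable (Function.uncurry P) (S.μ.prod T.ν) :=
    Integrable.of_bound hPm.aestronglyMeasurable (T.ν.real Set.univ)
      (Eventually.of_forall fun p => by
        rw [Real.norm_eq_abs]; exact (abs_of_nonneg (hP0 p.1 p.2)).le.trans (hPb _ _))
  -- pointwise
  have h1 : ∀ x, ε ^ 2 * (T.ball4W w r x * T.ball4 r x) ≤
      ε ^ 2 / r ^ 8 * ∫ z, P x z ∂T.ν := fun x => by
    rw [ball4W, ball4, div_mul_div_comm, ← pow_add, ← mul_div_assoc, div_mul_eq_mul_div]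
    refine div_le_div_of_nonneg_right (mul_le_mul_of_nonneg_left ?_ (sq_nonneg _)) (by positivity)
    rw [mul_comm, ← integral_const_mul, ← integral_indicator (measurableSet_ball r x)]
    refine integral_mono_of_nonneg (Eventually.of_forall fun z => Set.indicator_nonneg
      (fun z _ => mul_nonneg measureReal_nonneg (abs_nonneg _)) z) ?_
      (Eventually.of_forall fun z => ?_)
    · exact Integrable.of_bound (hPm.comp measurable_prodMk_left).aestronglyMeasurable
        (T.ν.real Set.univ) (Eventually.of_forall fun z => by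
          rw [Real.norm_eq_abs]; exact (abs_of_nonneg (hP0 x z)).le.trans (hPb x z))
    · simp only [Set.indicator_apply, Set.mem_ofPred_eq, hP]
      split_ifs with h
      · simp only [hF]
        rw [mul_comm]
        refine mul_le_mul_of_nonneg_left (measureReal_mono fun z' hz' => ?_) (abs_nonneg _)
        have := S.dX_triangle z' x z
        rw [S.dX_comm x z] at this
        simp only [Set.mem_ofPred_eq] at hz' ⊢
        linarith
      · exact le_rfl
  have hi : Integrable (fun x => ε ^ 2 / r ^ 8 * ∫ z, P x z ∂T.ν) S.μ :=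
    hPi.integral_prod_left.const_mul _
  refine (integral_mono_of_nonneg (Eventually.of_forall fun x => mul_nonneg (sq_nonneg _)
    (mul_nonneg (T.ball4W_nonneg r x) (div_nonneg measureReal_nonneg (by positivity)))) hi
    (Eventually.of_forall h1)).trans ?_
  rw [integral_const_mul, integral_integral_swap hPi, ← integral_const_mul, ← integral_const_mul]
  refine integral_mono_of_nonneg (Eventually.of_forall fun z => mul_nonneg (by positivity)
    (integral_nonneg fun x => hP0 x z)) ?_ (Eventually.of_forall fun z => ?_)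
  · refine (Integrable.of_bound (hw.norm.mul (T.measurable_dens ε)).aestronglyMeasurable
      (T.ν.real Set.univ / ε ^ 2) (Eventually.of_forall fun y => ?_)).const_mul _
    simp only [Pi.mul_apply, norm_mul, Real.norm_eq_abs, abs_of_nonneg (T.dens_nonneg ε y)]
    exact (mul_le_mul ((abs_abs _).trans_le (hb y)) (T.dens_le_mass hε y) (T.dens_nonneg ε y)
      zero_le_one).trans_eq (one_mul _)
  have h2 : ∫ x, P x z ∂S.μ = F z * S.μ.real {x | S.dX z x ≤ r} := by
    have hs : MeasurableSet {x | S.dX z x ≤ r} :=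
      measurableSet_le (S.measurable_dX.comp (measurable_const.prodMk measurable_id))
        measurable_const
    rw [show (fun x => P x z) = {x | S.dX z x ≤ r}.indicator fun _ => F z from
      funext fun x => by simp [hP, Set.indicator_apply], integral_indicator_const _ hs, smul_eq_mul,
      mul_comm]
  simp only
  rw [h2]
  have h3 := T.ball_le_dens (R := 2 * C) hε z
  rw [show 2 * C * ε = 2 * r by rw [hr]; ring] at h3
  calc ε ^ 2 / r ^ 8 * (F z * S.μ.real {x | S.dX z x ≤ r})
      ≤ ε ^ 2 / r ^ 8 * (|w z| * ((1 + (2 * C) ^ 2) ^ 2 * ε ^ 2 * T.dens ε z) * (Cv * r ^ 4)) := by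
        refine mul_le_mul_of_nonneg_left (mul_le_mul (mul_le_mul_of_nonneg_left h3 (abs_nonneg _))
          (hvol z r hr0) measureReal_nonneg ?_) (by positivity)
        exact mul_nonneg (abs_nonneg _) (mul_nonneg (by positivity) (T.dens_nonneg _ _))
    _ = _ := by rw [hr]; field_simp

/-- Balls of volume `O(r⁴)` give the weighted pairs of balls. -/
theorem ballPair_of_volume [CompactSpace X] [IsFiniteMeasure S.μ] (hV : BallVolume S.toGeo) :
    BallPair T := fun C hC => by
  obtain ⟨K, -, h⟩ := T.exists_ball_product hV hC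
  exact ⟨K, 1, one_pos, fun ε hε _ => h ε hε⟩

end Positive

end Vale.Agent.P204.Gen
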