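import Vale.Agent.P204.Gen.MonoTest
import Vale.Agent.P204.Gen.Integral
import Vale.Agent.P204.Gen.EnergyBase
import Vale.Agent.P204.Gen.HBound

/-!
P204 on a closed four-manifold, first estimate: the monotonicity inequality (module 13).
-/

open MeasureTheory Filter Topology
open scoped ContDiff BigOperators

namespace Vale.Agent.P204.Gen

open Vale.Agent.P204.Torus

namespace LC

variable {X : Type*} [TopologicalSpace X] [T2Space X] [CompactSpace X] [MeasurableSpace X]
  [BorelSpace X] {S : GSetup X}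

lemma continuous_invSq {r : ℝ} (hr : 0 < r) (y : V) :
    Continuous fun u : V => (1 / (r + dist0 (u - y))) ^ 2 :=
  (Torus.continuous_inv_add hr y).pow 2

lemma integral_invSq_le {r : ℝ} (hr : 0 < r) (y : V) :
    ∫ u, (1 / (r + dist0 (u - y))) ^ 2 ∂cubeVol ≤ sinPowMass ((2 : ℕ) / 4) ^ 4 := by
  refine (integral_mono_ae (integrable_cube_of_continuous (continuous_invSq hr y))
    (integrable_invPow y (by norm_num : 2 < 4)) ?_).trans (integral_invPow_le y (by norm_num))
  refine (ae_sin_ne_zero y).mono fun x hx => ?_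
  have hd : 0 < dist0 (x - y) ^ 2 :=
    lt_of_lt_of_le (by
      have := div_ne_zero (hx 0) Real.pi_pos.ne'
      positivity) (dist0_sq_coord (x - y) 0)
  simp only [one_div, inv_pow]
  refine inv_anti₀ hd (pow_le_pow_left₀ (dist0_nonneg _) ?_ 2)
  linarith

/-- The test form in `L²`, and its anti-invariant part. -/
lemma exists_n2_alX (hB : Basic S.toGeo) {i : Fin S.n} (L : LocalChart S i) :
    ∃ C, 0 < C ∧ ∀ r, 0 < r → r ≤ 1 → ∀ y : V,
      S.n2 (L.alX r y) ≤ C / r ∧ S.n2 (fun x => piM (S.J x) (L.alX r y x)) ≤ C := by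
  have := hB.finite_μ
  obtain ⟨Cb, hCb, hb⟩ := L.exists_alX_bounds
  set K := (S.φ i).symm '' tsupport (S.χ i) with hKdef
  have hK : IsCompact K :=
    (S.χ_cpt i).isCompact.image_of_continuousOn ((S.φ i).continuousOn_symm.mono (S.χ_supp i))
  have hKs : K ⊆ (S.φ i).source :=
    Set.image_subset_iff.2 fun u hu => (S.φ i).map_target (S.χ_supp i hu)
  obtain ⟨Ct, hCt, ht⟩ := exists_dT_bounds S.toGeo hK hKs
  obtain ⟨Cm, hCm, hmap⟩ := S.toGeo.exists_map_le i hK hKs
  set M2 := sinPowMass ((2 : ℕ) / 4) ^ 4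
  refine ⟨2 * (Ct * Cb) * (Real.sqrt (Cm * M2) + 1), by positivity, fun r hr hr1 y => ?_⟩
  set g : V → ℝ := fun u => (1 / (r + dist0 (u - y))) ^ 2 with hg
  have hgc : Continuous g := continuous_invSq hr y
  have hφ : AEMeasurable (S.φ i) (S.μ.restrict K) :=
    ((S.φ i).continuousOn.mono hKs).aemeasurable hK.measurableSet
  have hgb : ∀ u, ‖g u‖ ≤ 1 / r ^ 2 := fun u => by
    have := dist0_nonneg (u - y)
    simp only [hg]
    rw [Real.norm_eq_abs, abs_of_nonneg (sq_nonneg _), one_div_pow]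
    gcongr
    linarith
  have hgi : Integrable (fun x => g (S.φ i x)) (S.μ.restrict K) :=
    Integrable.of_bound (hgc.measurable.comp_aemeasurable hφ).aestronglyMeasurable (1 / r ^ 2)
      (Eventually.of_forall fun x => hgb _)
  have hgI : ∫ x in K, g (S.φ i x) ∂S.μ ≤ Cm * M2 := by
    rw [← integral_map hφ hgc.aestronglyMeasurable]
    have hgci : Integrable g (ENNReal.ofReal Cm • cubeVol) :=
      (integrable_cube_of_continuous hgc).smul_measure ENNReal.ofReal_ne_top
    refine (integral_mono_measure hmap (Eventually.of_forall fun u => sq_nonneg _) hgci).trans ?_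
    show ∫ u, g u ∂(ENNReal.ofReal Cm • cubeVol) ≤ _
    rw [integral_smul_measure, ENNReal.toReal_ofReal hCm.le, smul_eq_mul]
    exact mul_le_mul_of_nonneg_left (integral_invSq_le hr y) hCm.le
  have hkey : ∀ f : X → Form, ∀ A, 0 ≤ A → MemLp f 2 S.μ →
      (∀ x ∈ K, ‖f x‖ ≤ A / (r + dist0 (S.φ i x - y))) → (∀ x ∉ K, f x = 0) →
      S.n2 f ≤ A * Real.sqrt (Cm * M2) := fun f A hA hf h1 h2 => by
    rw [← Real.sqrt_sq hA, ← Real.sqrt_mul (sq_nonneg A)]
    refine Real.sqrt_le_sqrt ?_
    rw [← setIntegral_eq_integral_of_forall_compl_eq_zero (s := K) fun x hx => by simp [h2 x hx]]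
    refine (setIntegral_mono_on hf.norm.integrable_sq.integrableOn (hgi.const_mul (A ^ 2))
      hK.measurableSet fun x hx => ?_).trans ?_
    · calc ‖f x‖ ^ 2 ≤ (A / (r + dist0 (S.φ i x - y))) ^ 2 :=
            pow_le_pow_left₀ (norm_nonneg _) (h1 x hx) 2
        _ = A ^ 2 * g (S.φ i x) := by rw [hg]; ring
    · rw [integral_const_mul]
      exact mul_le_mul_of_nonneg_left hgI (sq_nonneg A)
  have hsm := L.smooth_alX hr y
  have hbd : ∀ x ∈ K, ‖L.alX r y x‖ ≤ 2 * (Ct * Cb) / r / (r + dist0 (S.φ i x - y)) ∧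
      ‖piM (S.J x) (L.alX r y x)‖ ≤ Ct * Cb / (r + dist0 (S.φ i x - y)) := fun x hx => by
    have hxs := hKs hx
    obtain ⟨h1, h2⟩ := hb r hr hr1 y (S.φ i x) ((S.φ i).map_source hxs)
    rw [piM_rep hxs] at h2
    rw [S.toGeo.rep2_apply _ hxs] at h1
    set d := dist0 (S.φ i x - y)
    have hd : 0 ≤ d := dist0_nonneg _
    constructor
    · refine ((ht x hx _).2.trans (mul_le_mul_of_nonneg_left h1 hCt.le)).trans ?_
      rw [mul_div_assoc', div_div, div_le_div_iff₀ (by positivity) (by positivity), mul_comm 2,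
        mul_assoc (Ct * Cb)]
      refine mul_le_mul_of_nonneg_left ?_ (by positivity)
      nlinarith [sq_nonneg (r - d), sq_nonneg r, sq_nonneg d]
    · refine ((ht x hx _).2.trans (mul_le_mul_of_nonneg_left h2 hCt.le)).trans_eq ?_
      ring
  have hz : ∀ x ∉ K, L.alX r y x = 0 := fun x hx => L.alX_eq_zero y hx
  constructor
  · refine (hkey _ (2 * (Ct * Cb) / r) (by positivity) (hB.smooth_mem _ hsm)
      (fun x hx => (hbd x hx).1) hz).trans ?_
    rw [div_mul_eq_mul_div]
    gcongr
    linarith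
  · refine (hkey _ (Ct * Cb) (by positivity)
      (hB.smooth_mem _ (hsm.piM S.J_smooth)) (fun x hx => (hbd x hx).2)
      (fun x hx => by simp [hz x hx, piM, pull, ofSkew_apply, ev_def]; rfl)).trans ?_
    refine mul_le_mul ?_ ?_ (Real.sqrt_nonneg _) (by positivity)
    · linarith [mul_pos hCt hCb]
    · linarith

end LC

open LC in
/-- The monotonicity inequality of the first estimate. -/
theorem monoFirst {X : Type*} [TopologicalSpace X] [T2Space X] [CompactSpace X] [MeasurableSpace X]
    [BorelSpace X] {S : GSetup X} {T : GCurrent S} {D : GUData T} (hB : Basic S.toGeo)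
    (hR : RegFacts S.toGeo) (hA : AvgRep S.toGeo) (hC : SeComm D) : MonoFirst D := by
  have := hB.finite_μ
  have := T.finite
  let L : ∀ i, LocalChart S i := fun i => (exists_localChart i).some
  choose Cl cl el hCl hcl hel hel1 hlow using fun i => exists_reg_lower hA (L i)
  choose Cn hCn hn2 using fun i => exists_n2_alX hB (L i)
  obtain ⟨e2, he2, -, hscale⟩ := hR.exists_scale
  obtain ⟨Cs, e3, he3, hcomm⟩ := hC
  obtain ⟨Cp, hCp0, hproj⟩ := S.exists_bound_proj
  obtain ⟨N, hN⟩ := T.toPositive.exists_h_bound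
  rcases isEmpty_or_nonempty (Fin S.n) with hne | hne
  · exact ⟨1, 1, one_pos, one_pos, fun r _ _ y => (hne.false (S.tr y)).elim⟩
  set Cs' := max Cs 0
  set A := fun i => (Cl i + 6 * (Cs' * Cn i) + 6 * Cn i + 1) / cl i
  have hA0 : ∀ i, 0 < A i := fun i => by
    have := hCl i; have := hCn i; have := hcl i
    simp only [A]
    have : 0 ≤ Cs' := le_max_right _ _
    positivity
  set e1 := min (Finset.univ.inf' Finset.univ_nonempty el) (min e2 (min e3 D.ε₀))
  refine ⟨∑ i, A i, e1, Finset.sum_pos (fun i _ => hA0 i) Finset.univ_nonempty,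
    lt_min ((Finset.lt_inf'_iff _).2 fun i _ => hel i) (lt_min he2 (lt_min he3 D.ε₀_pos)),
    fun r hr hr0 y => ?_⟩
  obtain ⟨i, hi⟩ := exists_big S.toGeo y
  obtain ⟨hr4, hre2, hre3, hrD⟩ : r ≤ Finset.univ.inf' Finset.univ_nonempty el ∧ r ≤ e2 ∧
      r ≤ e3 ∧ r ≤ D.ε₀ := by simpa only [e1, le_min_iff, and_assoc] using hr0
  have hrl : r ≤ el i := hr4.trans (Finset.inf'_le _ (Finset.mem_univ i))
  have hr1 : r ≤ 1 := hrl.trans (hel1 i)
  set α := (L i).alX r (S.φ i y)
  have hα : S.Smooth2 α := (L i).smooth_alX hr _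
  have hαc : S.WeakClosed α := (L i).weakClosed_alX hB hr _
  obtain ⟨hsm, -, -, hcl', -⟩ := hscale r hr hre2
  have hreg := (hsm α hα).1
  have hT := D.Te_rep r hr hrD
  have hU := D.Ue_mem r hr hrD
  have hSe : MemLp (D.Se r) 2 S.μ := hU.sub hT.1
  have hαm := hB.smooth_mem α hα
  have hPαm := hB.smooth_mem _ (hα.piM S.J_smooth)
  -- the regularised current against the test form
  have hzero : S.pairing (D.Te r) α + S.pairing (D.Se r) α = 0 := by
    have h0 : S.pairing (D.Ue r) α = 0 := by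
      rw [D.Ue_rep r hr hrD α hα]
      exact D.closed _ hreg (hcl' α hα hαc)
    rw [← h0]
    simp only [Geo.pairing, GUData.Se, q_sub_left]
    rw [integral_sub (S.toGeo.integrable_q hU hαm) (S.toGeo.integrable_q hT.1 hαm)]
    ring
  have happ : S.pairing (D.Te r) α = T.app (S.reg r α) := by
    rw [hT.2 α hα]
    simp
  -- the anti-invariant part
  set P := fun x => piP (S.J x) (D.Se r x)
  obtain ⟨hPm, -, hPb⟩ := hproj _ hSe.1
  have hP : MemLp P 2 S.μ := hSe.of_le_mul hPm (c := Cp) (Eventually.of_forall hPb)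
  have hsplit : S.pairing (D.Se r) α =
      S.pairing P α + S.pairing (D.Se r) (fun x => piM (S.J x) (α x)) := by
    simp only [Geo.pairing]
    rw [← integral_add (S.toGeo.integrable_q hP hαm) (S.toGeo.integrable_q hSe hPαm)]
    refine integral_congr_ae (Eventually.of_forall fun x => ?_)
    show q _ _ = q (piP ((S.pt x).J 0) (D.Se r x)) (α x) + q (D.Se r x) (piM ((S.pt x).J 0) (α x))
    rw [(S.pt x).q_piP_left 0, ← q_add_right, piP_add_piM]
  obtain ⟨hn1, hn3⟩ := hn2 i r hr hr1 (S.φ i y)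
  have hX0 : 0 ≤ D.Xn r := Real.sqrt_nonneg _
  have hY0 : 0 ≤ D.Yn r :=
    Real.sSup_nonneg (by rintro t ⟨β, -, -, rfl⟩; exact abs_nonneg _)
  have hup : |S.pairing (D.Se r) α| ≤ 6 * (Cs' * Cn i) * D.Yn r + 6 * Cn i * D.Xn r := by
    rw [hsplit]
    refine (abs_add_le _ _).trans (add_le_add ?_ ?_)
    · refine (S.toGeo.abs_pairing_le hP hαm).trans ?_
      have hPn : S.n2 P ≤ Cs' * r * D.Yn r := (hcomm r hr hre3).trans (by
        gcongr
        exact le_max_left _ _)
      calc 6 * (S.n2 P * S.n2 α) ≤ 6 * ((Cs' * r * D.Yn r) * (Cn i / r)) := by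
            gcongr
            · exact Real.sqrt_nonneg _
        _ = _ := by field_simp
    · refine (S.toGeo.abs_pairing_le hSe hPαm).trans ?_
      calc 6 * (S.n2 (D.Se r) * S.n2 fun x => piM (S.J x) (α x)) ≤ 6 * (D.Xn r * Cn i) := by
            gcongr
            exacts [Real.sqrt_nonneg _, le_refl _]
        _ = _ := by ring
  -- the pointwise lower bound
  have hN0 : 0 ≤ N := (norm_nonneg _).trans (hN y)
  obtain ⟨Mr, hMr⟩ := hB.smooth_bound _ hreg
  have hi3 : Integrable (fun z => q (T.h z) (S.reg r α z)) T.ν := by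
    refine Integrable.of_bound ((Setup.continuous_q continuous_fst continuous_snd).measurable.comp
      (T.meas.prodMk (hB.smooth_meas _ hreg))).aestronglyMeasurable (6 * (N * Mr))
      (Eventually.of_forall fun z => ?_)
    rw [Real.norm_eq_abs]
    refine (abs_q_le _ _).trans ?_
    gcongr
    · exact hN z
    · exact hMr z
  have hDc : Measurable fun z => S.dX z y := (S.toGeo.continuous_dX_left y).measurable
  have hi1 : Integrable (fun z => r ^ 2 / (r ^ 2 + S.dX z y ^ 2) ^ 2) T.ν := by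
    refine Integrable.of_bound
      ((measurable_const.div ((measurable_const.add (hDc.pow_const 2)).pow_const 2)).aestronglyMeasurable)
      (r ^ 2 / (r ^ 2) ^ 2) (Eventually.of_forall fun z => ?_)
    rw [Real.norm_eq_abs, abs_of_nonneg (by positivity)]
    gcongr
    exact le_add_of_nonneg_right (sq_nonneg _)
  have hi2 : Integrable (fun z => 1 / (r + S.dX z y)) T.ν := by
    refine Integrable.of_bound (measurable_const.div (measurable_const.add hDc)).aestronglyMeasurable
      (1 / r) (Eventually.of_forall fun z => ?_)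
    have := S.toGeo.dX_nonneg z y
    rw [Real.norm_eq_abs, abs_of_nonneg (by positivity)]
    gcongr
    linarith
  have hlo : cl i * T.dens r y - Cl i * ∫ z, 1 / (r + S.dX z y) ∂T.ν ≤ T.app (S.reg r α) := by
    rw [Positive.dens, Positive.app, ← integral_const_mul, ← integral_const_mul,
      ← integral_sub (hi1.const_mul _) (hi2.const_mul _)]
    refine integral_mono ((hi1.const_mul _).sub (hi2.const_mul _)) hi3 fun z => ?_
    simp only [mul_one_div]
    exact hlow i T.toPositive r hr hrl y hi z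
  set I := ∫ z, 1 / (r + S.dX z y) ∂T.ν
  have hI : 0 ≤ I := integral_nonneg fun z => by
    have := S.toGeo.dX_nonneg z y
    positivity
  obtain ⟨hup1, hup2⟩ := abs_le.1 hup
  set k := Cl i + 6 * (Cs' * Cn i) + 6 * Cn i + 1
  have h1 : cl i * T.dens r y ≤ k * (1 + I + D.Xn r + D.Yn r) := by
    have a1 : 0 ≤ Cs' * Cn i := mul_nonneg (le_max_right _ _) (hCn i).le
    have a2 := (hCl i).le
    have a3 := (hCn i).le
    have b1 : Cl i * I ≤ k * I := mul_le_mul_of_nonneg_right (by simp only [k]; linarith) hI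
    have b2 : 6 * (Cs' * Cn i) * D.Yn r ≤ k * D.Yn r :=
      mul_le_mul_of_nonneg_right (by simp only [k]; linarith) hY0
    have b3 : 6 * Cn i * D.Xn r ≤ k * D.Xn r :=
      mul_le_mul_of_nonneg_right (by simp only [k]; linarith) hX0
    have b4 : 0 ≤ k := by simp only [k]; linarith
    linarith
  have h2 : T.dens r y ≤ A i * (1 + I + D.Xn r + D.Yn r) := by
    simp only [A]
    rw [div_mul_eq_mul_div, le_div_iff₀' (hcl i)]
    exact h1
  refine h2.trans (mul_le_mul_of_nonneg_right ?_ (by positivity))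
  exact Finset.single_le_sum (fun j _ => (hA0 j).le) (Finset.mem_univ i)

end Vale.Agent.P204.Gen
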