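import Vale.Agent.P204.Gen.GeoLin

/-!
P204 on a closed four-manifold, module GeoBasic: changes of chart, representatives, derivatives of
maps, naturality of `d`.
-/

open Set Filter Topology
open scoped ContDiff

namespace Vale.Agent.P204.Gen

open Vale.Agent.P204.Torus

namespace Geo

variable {X : Type*} [TopologicalSpace X] [MeasurableSpace X] (G : Geo X)

lemma mem_ch (x : X) : x ∈ (G.φ (G.tr x)).source :=
  G.ψ_supp _ (subset_tsupport _ (ne_of_gt (G.tr_pos x)))

/-- The change from the chart `i` to the chart `j`. -/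
noncomputable def tc (i j : Fin G.n) (u : V) : V := G.φ j ((G.φ i).symm u)

/-- The domain of the change of charts. -/
def tdom (i j : Fin G.n) : Set V := ((G.φ i).symm.trans (G.φ j)).source

lemma isOpen_tdom (i j : Fin G.n) : IsOpen (G.tdom i j) :=
  OpenPartialHomeomorph.open_source _

lemma mem_tdom {i j : Fin G.n} {u : V} :
    u ∈ G.tdom i j ↔ u ∈ (G.φ i).target ∧ (G.φ i).symm u ∈ (G.φ j).source := by
  simp [tdom]

lemma chart_mem_tdom {i j : Fin G.n} {x : X} (hi : x ∈ (G.φ i).source)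
    (hj : x ∈ (G.φ j).source) : G.φ i x ∈ G.tdom i j :=
  G.mem_tdom.2 ⟨(G.φ i).map_source hi, by rwa [(G.φ i).left_inv hi]⟩

lemma contDiffAt_tc {i j : Fin G.n} {u : V} (hu : u ∈ G.tdom i j) :
    ContDiffAt ℝ ∞ (G.tc i j) u :=
  (G.trans_smooth i j).contDiffAt ((G.isOpen_tdom i j).mem_nhds hu)

lemma tc_chart {i : Fin G.n} (j : Fin G.n) {x : X} (hi : x ∈ (G.φ i).source) :
    G.tc i j (G.φ i x) = G.φ j x := by
  rw [tc, (G.φ i).left_inv hi]

/-- The derivative at `x` of the change from the chart `i` to the chart `j`. -/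
noncomputable def trD (i j : Fin G.n) (x : X) : V →L[ℝ] V := fderiv ℝ (G.tc i j) (G.φ i x)

lemma dT_eq (i : Fin G.n) (x : X) : G.dT i x = G.trD i (G.tr x) x := rfl

lemma hasFDerivAt_tc {i j : Fin G.n} {x : X} (hi : x ∈ (G.φ i).source)
    (hj : x ∈ (G.φ j).source) : HasFDerivAt (G.tc i j) (G.trD i j x) (G.φ i x) :=
  ((G.contDiffAt_tc (G.chart_mem_tdom hi hj)).differentiableAt (by simp)).hasFDerivAt

lemma trD_det_pos {i j : Fin G.n} {x : X} (hi : x ∈ (G.φ i).source)
    (hj : x ∈ (G.φ j).source) : 0 < (G.trD i j x).det :=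
  G.trans_pos i j _ (G.chart_mem_tdom hi hj)

lemma dT_det_pos {i : Fin G.n} {x : X} (hi : x ∈ (G.φ i).source) : 0 < (G.dT i x).det :=
  G.trD_det_pos hi (G.mem_ch x)

lemma dT_det_ne {i : Fin G.n} {x : X} (hi : x ∈ (G.φ i).source) : (G.dT i x).det ≠ 0 :=
  (G.dT_det_pos hi).ne'

/-- The chain rule for the changes of chart. -/
lemma trD_trans {i j k : Fin G.n} {x : X} (hi : x ∈ (G.φ i).source) (hj : x ∈ (G.φ j).source)
    (hk : x ∈ (G.φ k).source) : G.trD i k x = (G.trD j k x).comp (G.trD i j x) := by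
  have h1 := G.hasFDerivAt_tc hi hj
  have h2 : HasFDerivAt (G.tc j k) (G.trD j k x) (G.tc i j (G.φ i x)) := by
    rw [G.tc_chart j hi]
    exact G.hasFDerivAt_tc hj hk
  have h3 : (G.tc j k ∘ G.tc i j) =ᶠ[𝓝 (G.φ i x)] G.tc i k := by
    filter_upwards [(G.isOpen_tdom i j).mem_nhds (G.chart_mem_tdom hi hj)] with u hu
    simp only [Function.comp_apply, tc]
    rw [(G.φ j).left_inv (G.mem_tdom.1 hu).2]
  exact ((h2.comp _ h1).congr_of_eventuallyEq h3.symm).fderiv

lemma trD_self {i : Fin G.n} {x : X} (hi : x ∈ (G.φ i).source) :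
    G.trD i i x = ContinuousLinearMap.id ℝ V := by
  have h : G.tc i i =ᶠ[𝓝 (G.φ i x)] id := by
    filter_upwards [(G.φ i).open_target.mem_nhds ((G.φ i).map_source hi)] with u hu
    simp [tc, (G.φ i).right_inv hu]
  exact ((hasFDerivAt_id _).congr_of_eventuallyEq h).fderiv

lemma trD_symm {i j : Fin G.n} {x : X} (hi : x ∈ (G.φ i).source) (hj : x ∈ (G.φ j).source) :
    (G.trD i j x).comp (G.trD j i x) = ContinuousLinearMap.id ℝ V := by
  rw [← G.trD_trans hj hi hj, G.trD_self hj]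

lemma dT_tr (x : X) : G.dT (G.tr x) x = ContinuousLinearMap.id ℝ V := G.trD_self (G.mem_ch x)

/-- The cocycle of `dT`. -/
lemma dT_cocycle {i j : Fin G.n} {x : X} (hi : x ∈ (G.φ i).source) (hj : x ∈ (G.φ j).source) :
    G.dT i x = (G.dT j x).comp (G.trD i j x) :=
  G.trD_trans hi hj (G.mem_ch x)

/-! ## Representatives -/

lemma rep0_apply {F : Type*} [Zero F] {i : Fin G.n} (f : X → F) {x : X}
    (hi : x ∈ (G.φ i).source) : G.rep0 i f (G.φ i x) = f x := by
  simp [rep0, (G.φ i).map_source hi, (G.φ i).left_inv hi]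

lemma rep2_apply {i : Fin G.n} (α : X → Form) {x : X} (hi : x ∈ (G.φ i).source) :
    G.rep2 i α (G.φ i x) = pull (G.dT i x) (α x) := by
  simp [rep2, (G.φ i).map_source hi, (G.φ i).left_inv hi]

lemma rep1_apply {i : Fin G.n} (a : X → V) {x : X} (hi : x ∈ (G.φ i).source) :
    G.rep1 i a (G.φ i x) = pullV (G.dT i x) (a x) := by
  simp [rep1, (G.φ i).map_source hi, (G.φ i).left_inv hi]

lemma rep2_tr (α : X → Form) (x : X) : G.rep2 (G.tr x) α (G.ch x x) = α x := by
  rw [ch, G.rep2_apply α (G.mem_ch x), G.dT_tr, pull_id]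

lemma rep1_tr (a : X → V) (x : X) : G.rep1 (G.tr x) a (G.ch x x) = a x := by
  rw [ch, G.rep1_apply a (G.mem_ch x), G.dT_tr, pullV_id]

/-- The field is recovered from a representative. -/
lemma eq_pull_rep2 {i : Fin G.n} (α : X → Form) {x : X} (hi : x ∈ (G.φ i).source) :
    α x = pull (G.dT i x).inverse (G.rep2 i α (G.φ i x)) := by
  rw [G.rep2_apply α hi, pull_pull_inverse (G.dT_det_ne hi)]

lemma eq_pullV_rep1 {i : Fin G.n} (a : X → V) {x : X} (hi : x ∈ (G.φ i).source) :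
    a x = pullV (G.dT i x).inverse (G.rep1 i a (G.φ i x)) := by
  rw [G.rep1_apply a hi, pullV_pullV_inverse (G.dT_det_ne hi)]

lemma rep2_change_point {i j : Fin G.n} (α : X → Form) {x : X} (hi : x ∈ (G.φ i).source)
    (hj : x ∈ (G.φ j).source) :
    G.rep2 i α (G.φ i x) = pull (G.trD i j x) (G.rep2 j α (G.φ j x)) := by
  rw [G.rep2_apply α hi, G.rep2_apply α hj, G.dT_cocycle hi hj, pull_comp]

lemma rep1_change_point {i j : Fin G.n} (a : X → V) {x : X} (hi : x ∈ (G.φ i).source)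
    (hj : x ∈ (G.φ j).source) :
    G.rep1 i a (G.φ i x) = pullV (G.trD i j x) (G.rep1 j a (G.φ j x)) := by
  rw [G.rep1_apply a hi, G.rep1_apply a hj, G.dT_cocycle hi hj, pullV_comp]

lemma rep2_change {i j : Fin G.n} (α : X → Form) {u : V} (hu : u ∈ G.tdom i j) :
    G.rep2 i α u = pull (fderiv ℝ (G.tc i j) u) (G.rep2 j α (G.tc i j u)) := by
  obtain ⟨hi, hj⟩ := G.mem_tdom.1 hu
  have h := G.rep2_change_point α ((G.φ i).map_target hi) hj
  rwa [trD, (G.φ i).right_inv hi] at h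

lemma rep1_change {i j : Fin G.n} (a : X → V) {u : V} (hu : u ∈ G.tdom i j) :
    G.rep1 i a u = pullV (fderiv ℝ (G.tc i j) u) (G.rep1 j a (G.tc i j u)) := by
  obtain ⟨hi, hj⟩ := G.mem_tdom.1 hu
  have h := G.rep1_change_point a ((G.φ i).map_target hi) hj
  rwa [trD, (G.φ i).right_inv hi] at h

lemma rep2_of_notMem {i : Fin G.n} (α : X → Form) {u : V} (hu : u ∉ (G.φ i).target) :
    G.rep2 i α u = 0 := by simp [rep2, hu]

lemma rep1_of_notMem {i : Fin G.n} (a : X → V) {u : V} (hu : u ∉ (G.φ i).target) :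
    G.rep1 i a u = 0 := by simp [rep1, hu]

lemma rep0_of_notMem {F : Type*} [Zero F] {i : Fin G.n} (f : X → F) {u : V}
    (hu : u ∉ (G.φ i).target) : G.rep0 i f u = 0 := by simp [rep0, hu]

/-- A positive form read in another chart. -/
lemma q_formIn {i : Fin G.n} {x : X} (hi : x ∈ (G.φ i).source) (h : Form) (α : X → Form) :
    q (G.formIn i x h) (G.rep2 i α (G.φ i x)) = q h (α x) := by
  rw [G.rep2_apply α hi, formIn, q_smul_left, q_pull, inv_mul_cancel_left₀ (G.dT_det_ne hi)]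

/-- The wedge pairing in a chart. -/
lemma q_rep2 {i : Fin G.n} {x : X} (hi : x ∈ (G.φ i).source) (α β : X → Form) :
    q (G.rep2 i α (G.φ i x)) (G.rep2 i β (G.φ i x)) = (G.dT i x).det * q (α x) (β x) := by
  rw [G.rep2_apply α hi, G.rep2_apply β hi, q_pull]

/-! ## Smooth one-forms and the differential -/

lemma contDiffAt_rep1 {a : X → V} (ha : G.Smooth1 a) {i : Fin G.n} {u : V}
    (hu : u ∈ (G.φ i).target) : ContDiffAt ℝ ∞ (G.rep1 i a) u :=
  (ha i).contDiffAt ((G.φ i).open_target.mem_nhds hu)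

lemma contDiffAt_rep2 {α : X → Form} (ha : G.Smooth2 α) {i : Fin G.n} {u : V}
    (hu : u ∈ (G.φ i).target) : ContDiffAt ℝ ∞ (G.rep2 i α) u :=
  (ha i).contDiffAt ((G.φ i).open_target.mem_nhds hu)

/-- `d` commutes with the changes of chart. -/
lemma rep2_d {a : X → V} (ha : G.Smooth1 a) {i : Fin G.n} {u : V} (hu : u ∈ (G.φ i).target) :
    G.rep2 i (G.d a) u = d1 (G.rep1 i a) u := by
  set x := (G.φ i).symm u with hx
  set k := G.tr x with hk
  have hi : x ∈ (G.φ i).source := (G.φ i).map_target hu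
  have hu' : G.φ i x = u := (G.φ i).right_inv hu
  have hk' : x ∈ (G.φ k).source := G.mem_ch x
  have hd : u ∈ G.tdom i k := G.mem_tdom.2 ⟨hu, hk'⟩
  have he : G.rep1 i a =ᶠ[𝓝 u]
      fun v => pullV (fderiv ℝ (G.tc i k) v) (G.rep1 k a (G.tc i k v)) := by
    filter_upwards [(G.isOpen_tdom i k).mem_nhds hd] with v hv
    exact G.rep1_change a hv
  have htc : G.tc i k u = G.φ k x := rfl
  have hn : d1 (G.rep1 i a) u = d1 (fun v => pullV (fderiv ℝ (G.tc i k) v)
      (G.rep1 k a (G.tc i k v))) u := by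
    simp only [d1, he.fderiv_eq]
  rw [hn, d1_pullV ((G.contDiffAt_tc hd).of_le (WithTop.coe_le_coe.2 le_top))
    ((htc ▸ G.contDiffAt_rep1 ha ((G.φ k).map_source hk') :
      ContDiffAt ℝ ∞ (G.rep1 k a) (G.tc i k u)).differentiableAt (by simp)), htc]
  conv_lhs => rw [← hu', G.rep2_apply _ hi]
  rw [G.dT_eq, trD, hu']
  rfl

/-- The differential of a smooth one-form is smooth. -/
lemma smooth2_d {a : X → V} (ha : G.Smooth1 a) : G.Smooth2 (G.d a) := by
  intro i
  refine ContDiffOn.congr ?_ fun u hu => G.rep2_d ha hu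
  have h := (ha i).fderiv_of_isOpen (G.φ i).open_target (m := ∞) le_rfl
  refine contDiffOn_piLp' 2 fun l => ?_
  simp only [d1_apply]
  exact (contDiffOn_pi.1 (h.clm_apply contDiffOn_const) _).sub
    (contDiffOn_pi.1 (h.clm_apply contDiffOn_const) _)

/-! ## Derivatives of maps -/

/-- A map which is differentiable in the charts at `x`. -/
def CDiffAt (F : X → X) (x : X) : Prop :=
  ContinuousAt F x ∧
    DifferentiableAt ℝ (fun u => G.ch (F x) (F ((G.ch x).symm u))) (G.ch x x)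

/-- The derivative of a map in any two charts. -/
lemma hasFDerivAt_map {F : X → X} {x : X} (hF : G.CDiffAt F x) {i j : Fin G.n}
    (hi : x ∈ (G.φ i).source) (hj : F x ∈ (G.φ j).source) :
    HasFDerivAt (fun u => G.φ j (F ((G.φ i).symm u)))
      (((G.trD (G.tr (F x)) j (F x)).comp (G.mder F x)).comp (G.dT i x)) (G.φ i x) := by
  have h1 : HasFDerivAt (G.tc i (G.tr x)) (G.dT i x) (G.φ i x) :=
    G.hasFDerivAt_tc hi (G.mem_ch x)
  have h2 : HasFDerivAt (fun u => G.ch (F x) (F ((G.ch x).symm u))) (G.mder F x)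
      (G.tc i (G.tr x) (G.φ i x)) := by
    rw [G.tc_chart _ hi]
    exact hF.2.hasFDerivAt
  have h3 : HasFDerivAt (G.tc (G.tr (F x)) j) (G.trD (G.tr (F x)) j (F x))
      ((fun u => G.ch (F x) (F ((G.ch x).symm u))) (G.tc i (G.tr x) (G.φ i x))) := by
    rw [G.tc_chart _ hi]
    simp only [ch, (G.φ (G.tr x)).left_inv (G.mem_ch x)]
    exact G.hasFDerivAt_tc (G.mem_ch (F x)) hj
  have h := HasFDerivAt.comp (f := G.tc i (G.tr x)) (G.φ i x) (HasFDerivAt.comp
    (f := fun u => G.ch (F x) (F ((G.ch x).symm u))) (G.tc i (G.tr x) (G.φ i x)) h3 h2) h1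
  refine h.congr_of_eventuallyEq ?_
  have hcont : ContinuousAt (fun u => F ((G.φ i).symm u)) (G.φ i x) :=
    ContinuousAt.comp (by rw [(G.φ i).left_inv hi]; exact hF.1)
      ((G.φ i).continuousAt_symm ((G.φ i).map_source hi))
  have hev : ∀ᶠ u in 𝓝 (G.φ i x), F ((G.φ i).symm u) ∈ (G.φ (G.tr (F x))).source :=
    hcont.eventually_mem ((G.φ (G.tr (F x))).open_source.mem_nhds
      (by rw [(G.φ i).left_inv hi]; exact G.mem_ch (F x)))
  filter_upwards [(G.isOpen_tdom i (G.tr x)).mem_nhds (G.chart_mem_tdom hi (G.mem_ch x)), hev]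
    with u hu hFu
  simp only [Function.comp_apply, ch, tc]
  rw [(G.φ (G.tr x)).left_inv (G.mem_tdom.1 hu).2, (G.φ (G.tr (F x))).left_inv hFu]

/-- Differentiability may be checked in any two charts. -/
lemma cdiffAt_iff {F : X → X} {x : X} {i j : Fin G.n} (hc : ContinuousAt F x)
    (hi : x ∈ (G.φ i).source) (hj : F x ∈ (G.φ j).source) :
    G.CDiffAt F x ↔ DifferentiableAt ℝ (fun u => G.φ j (F ((G.φ i).symm u))) (G.φ i x) := by
  refine ⟨fun h => (G.hasFDerivAt_map h hi hj).differentiableAt, fun h => ⟨hc, ?_⟩⟩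
  have h1 : DifferentiableAt ℝ (G.tc (G.tr x) i) (G.ch x x) :=
    (G.hasFDerivAt_tc (G.mem_ch x) hi).differentiableAt
  have h2 : DifferentiableAt ℝ (fun u => G.φ j (F ((G.φ i).symm u)))
      (G.tc (G.tr x) i (G.ch x x)) := by
    rw [ch, G.tc_chart _ (G.mem_ch x)]; exact h
  have h3 : DifferentiableAt ℝ (G.tc j (G.tr (F x)))
      ((fun u => G.φ j (F ((G.φ i).symm u))) (G.tc (G.tr x) i (G.ch x x))) := by
    simp only [ch, G.tc_chart _ (G.mem_ch x), (G.φ i).left_inv hi]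
    exact (G.hasFDerivAt_tc hj (G.mem_ch (F x))).differentiableAt
  have h := DifferentiableAt.comp (f := G.tc (G.tr x) i) (G.ch x x) (DifferentiableAt.comp
    (f := fun u => G.φ j (F ((G.φ i).symm u))) (G.tc (G.tr x) i (G.ch x x)) h3 h2) h1
  refine h.congr_of_eventuallyEq ?_
  have hcont : ContinuousAt (fun u => F ((G.ch x).symm u)) (G.ch x x) :=
    ContinuousAt.comp (by rw [ch, (G.φ _).left_inv (G.mem_ch x)]; exact hc)
      ((G.ch x).continuousAt_symm ((G.ch x).map_source (G.mem_ch x)))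
  have hev : ∀ᶠ u in 𝓝 (G.ch x x), F ((G.ch x).symm u) ∈ (G.φ j).source :=
    hcont.eventually_mem ((G.φ j).open_source.mem_nhds
      (by rw [ch, (G.φ _).left_inv (G.mem_ch x)]; exact hj))
  filter_upwards [(G.isOpen_tdom (G.tr x) i).mem_nhds (G.chart_mem_tdom (G.mem_ch x) hi), hev]
    with u hu hFu
  simp only [Function.comp_apply, ch, tc] at hFu ⊢
  rw [(G.φ i).left_inv (G.mem_tdom.1 hu).2, (G.φ j).left_inv hFu]

lemma mder_id (x : X) : G.mder id x = ContinuousLinearMap.id ℝ V := G.trD_self (G.mem_ch x)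

/-- The chain rule. -/
lemma mder_comp {F H : X → X} {x : X} (hF : G.CDiffAt F (H x)) (hH : G.CDiffAt H x) :
    G.mder (F ∘ H) x = (G.mder F (H x)).comp (G.mder H x) ∧ G.CDiffAt (F ∘ H) x := by
  have h2 : HasFDerivAt (fun u => G.ch (F (H x)) (F ((G.ch (H x)).symm u))) (G.mder F (H x))
      ((fun u => G.ch (H x) (H ((G.ch x).symm u))) (G.ch x x)) := by
    simp only [ch, (G.φ _).left_inv (G.mem_ch x)]
    exact hF.2.hasFDerivAt
  have hcont : ContinuousAt (fun u => H ((G.ch x).symm u)) (G.ch x x) :=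
    ContinuousAt.comp (by rw [ch, (G.φ _).left_inv (G.mem_ch x)]; exact hH.1)
      ((G.ch x).continuousAt_symm ((G.ch x).map_source (G.mem_ch x)))
  have hev : ∀ᶠ u in 𝓝 (G.ch x x), H ((G.ch x).symm u) ∈ (G.ch (H x)).source :=
    hcont.eventually_mem ((G.ch (H x)).open_source.mem_nhds
      (by simp only [ch, (G.φ _).left_inv (G.mem_ch x)]; exact G.mem_ch (H x)))
  have h : HasFDerivAt (fun u => G.ch ((F ∘ H) x) ((F ∘ H) ((G.ch x).symm u)))
      ((G.mder F (H x)).comp (G.mder H x)) (G.ch x x) := by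
    have h' := HasFDerivAt.comp (f := fun u => G.ch (H x) (H ((G.ch x).symm u))) (G.ch x x) h2
      hH.2.hasFDerivAt
    refine h'.congr_of_eventuallyEq ?_
    filter_upwards [hev] with u hu
    simp only [Function.comp_apply]
    rw [(G.ch (H x)).left_inv hu]
  exact ⟨h.fderiv, hF.1.comp hH.1, h.differentiableAt⟩

/-- A pulled back two-form in a chart. -/
lemma rep2_pb {F : X → X} {x : X} (hF : G.CDiffAt F x) {i j : Fin G.n}
    (hi : x ∈ (G.φ i).source) (hj : F x ∈ (G.φ j).source) (α : X → Form) :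
    G.rep2 i (G.pb F α) (G.φ i x) =
      pull (fderiv ℝ (fun u => G.φ j (F ((G.φ i).symm u))) (G.φ i x))
        (G.rep2 j α (G.φ j (F x))) := by
  rw [(G.hasFDerivAt_map hF hi hj).fderiv, G.rep2_apply _ hi, G.rep2_apply _ hj, pb, pull_comp,
    pull_comp, ← pull_comp (G.dT j (F x)), ← G.dT_cocycle (G.mem_ch (F x)) hj, G.dT_tr, pull_id]

/-- A pulled back one-form in a chart. -/
lemma rep1_pb1 {F : X → X} {x : X} (hF : G.CDiffAt F x) {i j : Fin G.n}
    (hi : x ∈ (G.φ i).source) (hj : F x ∈ (G.φ j).source) (a : X → V) :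
    G.rep1 i (G.pb1 F a) (G.φ i x) =
      pullV (fderiv ℝ (fun u => G.φ j (F ((G.φ i).symm u))) (G.φ i x))
        (G.rep1 j a (G.φ j (F x))) := by
  rw [(G.hasFDerivAt_map hF hi hj).fderiv, G.rep1_apply _ hi, G.rep1_apply _ hj, pb1, pullV_comp,
    pullV_comp, ← pullV_comp (G.dT j (F x)), ← G.dT_cocycle (G.mem_ch (F x)) hj, G.dT_tr,
    pullV_id]

/-- Pull-back commutes with `d`. -/
lemma d_pb1 {F : X → X} {a : X → V} (ha : G.Smooth1 a) {x : X} (hc : ContinuousAt F x)
    (hF : ∀ᶠ y in 𝓝 x, G.CDiffAt F y)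
    (h2 : ContDiffAt ℝ 2 (fun u => G.ch (F x) (F ((G.ch x).symm u))) (G.ch x x)) :
    G.d (G.pb1 F a) x = G.pb F (G.d a) x := by
  set i := G.tr x
  set j := G.tr (F x)
  have hi : x ∈ (G.φ i).source := G.mem_ch x
  have hsymm : Tendsto (G.φ i).symm (𝓝 (G.φ i x)) (𝓝 x) := by
    have := (G.φ i).continuousAt_symm ((G.φ i).map_source hi)
    rwa [ContinuousAt, (G.φ i).left_inv hi] at this
  have he : G.rep1 i (G.pb1 F a) =ᶠ[𝓝 (G.φ i x)]
      fun u => pullV (fderiv ℝ (fun w => G.φ j (F ((G.φ i).symm w))) u)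
        (G.rep1 j a (G.φ j (F ((G.φ i).symm u)))) := by
    filter_upwards [hsymm.eventually hF, hsymm.eventually
        (hc.eventually_mem ((G.φ j).open_source.mem_nhds (G.mem_ch (F x)))),
      (G.φ i).open_target.mem_nhds ((G.φ i).map_source hi)] with u hFu hju hu
    have h := G.rep1_pb1 hFu ((G.φ i).map_target hu) hju a
    rwa [(G.φ i).right_inv hu] at h
  have hlhs : G.d (G.pb1 F a) x = d1 (fun u => pullV
      (fderiv ℝ (fun w => G.φ j (F ((G.φ i).symm w))) u)
        (G.rep1 j a (G.φ j (F ((G.φ i).symm u))))) (G.φ i x) := by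
    show d1 (G.rep1 i (G.pb1 F a)) (G.φ i x) = _
    simp only [d1, he.fderiv_eq]
  have hd : DifferentiableAt ℝ (G.rep1 j a) (G.φ j (F ((G.φ i).symm (G.φ i x)))) := by
    rw [(G.φ i).left_inv hi]
    exact (G.contDiffAt_rep1 ha ((G.φ j).map_source (G.mem_ch (F x)))).differentiableAt (by simp)
  have h := d1_pullV (T := fun w => G.φ j (F ((G.φ i).symm w))) (u := G.φ i x) h2 hd
  rw [hlhs, h, (G.φ i).left_inv hi]
  rfl

end Geo

end Vale.Agent.P204.Gen
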