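import Vale.Agent.P204.Gen.IntegralAlg
import Vale.Agent.P204.Gen.GeoBasic

/-!
P204 on a closed four-manifold: the measure `μ` read in one chart (helper66, module `Integral`).
-/

open MeasureTheory Set Filter Topology
open scoped BigOperators ContDiff ENNReal

namespace Vale.Agent.P204.Gen

open Vale.Agent.P204.Torus

variable {X : Type*} [TopologicalSpace X] [MeasurableSpace X] {G : Geo X}

namespace Geo

lemma dT_eq_of_tr {j k : Fin G.n} {x : X} (hk : G.tr x = k) :
    G.dT j x = fderiv ℝ (fun u => G.φ k ((G.φ j).symm u)) (G.φ j x) := by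
  subst hk; rfl

section Compact

variable [T2Space X] [CompactSpace X]

lemma isCompact_supp (G : Geo X) (i : Fin G.n) : IsCompact (tsupport (G.ψ i)) :=
  (isClosed_tsupport _).isCompact

/-- Uniform bounds on a compact part of a chart. -/
theorem exists_dT_bound (G : Geo X) (j : Fin G.n) {K : Set X} (hK : IsCompact K)
    (hKs : K ⊆ (G.φ j).source) : ∃ C, 0 < C ∧ ∀ x ∈ K,
      (G.dT j x).det ≤ C ∧ 1 ≤ C * (G.dT j x).det ∧
      ∀ a, ‖pull (G.dT j x) a‖ ≤ C * ‖a‖ ∧ ‖a‖ ≤ C * ‖pull (G.dT j x) a‖ := by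
  have hk : ∀ k, ∃ B, ∀ x ∈ K ∩ tsupport (G.ψ k),
      ‖fderiv ℝ (fun u => G.φ k ((G.φ j).symm u)) (G.φ j x)‖ ≤ B ∧
      (fderiv ℝ (fun u => G.φ k ((G.φ j).symm u)) (G.φ j x)).det ≤ B ∧
      (fderiv ℝ (fun u => G.φ k ((G.φ j).symm u)) (G.φ j x)).det⁻¹ ≤ B := by
    intro k
    set L := G.φ j '' (K ∩ tsupport (G.ψ k)) with hL
    have hLc : IsCompact L := (hK.inter_right (isClosed_tsupport _)).image_of_continuousOn
      ((G.φ j).continuousOn.mono (inter_subset_left.trans hKs))
    have hLs : L ⊆ ((G.φ j).symm.trans (G.φ k)).source := by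
      rintro _ ⟨x, ⟨hxK, hxk⟩, rfl⟩
      exact G.chart_mem_tdom (hKs hxK) (G.ψ_supp k hxk)
    set D : V → V →L[ℝ] V := fun u => fderiv ℝ (fun w => G.φ k ((G.φ j).symm w)) u
    have hD : ContinuousOn D L :=
      ((G.trans_smooth j k).continuousOn_fderiv_of_isOpen
        ((G.φ j).symm.trans (G.φ k)).open_source (by simp)).mono hLs
    have hdet : ContinuousOn (fun u => (D u).det) L :=
      ContinuousLinearMap.continuous_det.comp_continuousOn hD
    have hinv : ContinuousOn (fun u => (D u).det⁻¹) L :=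
      hdet.inv₀ fun u hu => (G.trans_pos j k u (hLs hu)).ne'
    obtain ⟨B₁, hB₁⟩ := hLc.exists_bound_of_continuousOn hD
    obtain ⟨B₂, hB₂⟩ := hLc.exists_bound_of_continuousOn hdet
    obtain ⟨B₃, hB₃⟩ := hLc.exists_bound_of_continuousOn hinv
    refine ⟨max B₁ (max B₂ B₃), fun x hx => ⟨?_, ?_, ?_⟩⟩
    · exact (hB₁ _ (mem_image_of_mem _ hx)).trans (le_max_left _ _)
    · exact ((le_abs_self _).trans (hB₂ _ (mem_image_of_mem _ hx))).trans
        ((le_max_left _ _).trans (le_max_right _ _))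
    · exact ((le_abs_self _).trans (hB₃ _ (mem_image_of_mem _ hx))).trans
        ((le_max_right _ _).trans (le_max_right _ _))
  choose B hB using hk
  set T := 1 + ∑ k, |B k|
  have hT : 1 ≤ T := le_add_of_nonneg_right (Finset.sum_nonneg fun k _ => abs_nonneg _)
  refine ⟨432 * T ^ 3, by positivity, fun x hx => ?_⟩
  have hB' := hB (G.tr x) x ⟨hx, subset_tsupport _ (G.tr_pos x).ne'⟩
  simp only [← dT_eq_of_tr (j := j) (x := x) rfl] at hB'
  obtain ⟨h1, h2, h3⟩ := hB'
  have hle : B (G.tr x) ≤ T := (le_abs_self _).trans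
    ((Finset.single_le_sum (f := fun k => |B k|) (fun k _ => abs_nonneg _)
      (Finset.mem_univ (G.tr x))).trans (le_add_of_nonneg_left zero_le_one))
  set A := G.dT j x
  have hA : 0 < A.det := G.dT_det_pos (hKs hx)
  have h4 : ‖A‖ ≤ T := h1.trans hle
  have h5 : A.det ≤ T := h2.trans hle
  have h6 : 1 ≤ T * A.det := by
    have := mul_le_mul_of_nonneg_right (h3.trans hle) hA.le
    rwa [inv_mul_cancel₀ hA.ne'] at this
  have h7 : T ≤ 432 * T ^ 3 := by nlinarith [mul_le_mul hT hT zero_le_one (by linarith)]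
  have h8 : ‖A‖ ^ 2 ≤ T ^ 2 := pow_le_pow_left₀ (norm_nonneg A) h4 2
  refine ⟨h5.trans h7, h6.trans (mul_le_mul_of_nonneg_right h7 hA.le), fun a => ⟨?_, ?_⟩⟩
  · refine (norm_pull_le_sq A a).trans (mul_le_mul_of_nonneg_right ?_ (norm_nonneg a))
    have : T ^ 2 ≤ T ^ 3 := pow_le_pow_right₀ hT (by norm_num)
    linarith [sq_nonneg ‖A‖]
  · calc ‖a‖ ≤ T * A.det * ‖a‖ := le_mul_of_one_le_left (norm_nonneg a) h6
      _ = T * (A.det * ‖a‖) := by ring
      _ ≤ T * (432 * ‖A‖ ^ 2 * ‖pull A a‖) :=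
          mul_le_mul_of_nonneg_left (det_mul_norm_le A hA a) (by linarith)
      _ ≤ T * (432 * T ^ 2 * ‖pull A a‖) := by gcongr
      _ = 432 * T ^ 3 * ‖pull A a‖ := by ring

end Compact

/-! ## The measure -/

variable [BorelSpace X]

lemma measurableSet_chart (G : Geo X) (j : Fin G.n) {t : Set X} (ht : MeasurableSet t) :
    MeasurableSet ((G.φ j).target ∩ (G.φ j).symm ⁻¹' t) := by
  have hc : Measurable ((G.φ j).target.restrict (G.φ j).symm) :=
    ((G.φ j).continuousOn_symm.restrict).measurable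
  have e : (G.φ j).target ∩ (G.φ j).symm ⁻¹' t =
      Subtype.val '' ((G.φ j).target.restrict (G.φ j).symm ⁻¹' t) := by
    ext v
    constructor
    · rintro ⟨h1, h2⟩; exact ⟨⟨v, h1⟩, h2, rfl⟩
    · rintro ⟨⟨w, hw⟩, h2, rfl⟩; exact ⟨hw, h2⟩
  rw [e]
  exact (G.φ j).open_target.measurableSet.subtype_image (hc ht)

lemma aemeasurable_symm (G : Geo X) (j : Fin G.n) :
    AEMeasurable (G.φ j).symm (volume.restrict (G.φ j).target) :=
  (G.φ j).continuousOn_symm.aemeasurable (G.φ j).open_target.measurableSet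

/-- The Jacobian of `μ` in the chart `j`. -/
noncomputable def jac (G : Geo X) (j : Fin G.n) (v : V) : ℝ := (G.dT j ((G.φ j).symm v)).det

lemma aemeasurable_dT (G : Geo X) (j : Fin G.n) :
    AEMeasurable (fun v => G.dT j ((G.φ j).symm v)) (volume.restrict (G.φ j).target) := by
  have hF : Measurable fun p : Fin G.n × V => fderiv ℝ (fun u => G.φ p.1 ((G.φ j).symm u)) p.2 :=
    measurable_from_prod_countable_right fun k =>
      measurable_fderiv ℝ fun u => G.φ k ((G.φ j).symm u)
  refine (hF.comp_aemeasurable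
    ((G.tr_meas.comp_aemeasurable (G.aemeasurable_symm j)).prodMk aemeasurable_id)).congr ?_
  filter_upwards [ae_restrict_mem (G.φ j).open_target.measurableSet] with v hv
  simp only [Function.comp_apply, dT_eq_of_tr (j := j) (x := (G.φ j).symm v) rfl, (G.φ j).right_inv hv,
    id_eq]

lemma aemeasurable_jac (G : Geo X) (j : Fin G.n) :
    AEMeasurable (G.jac j) (volume.restrict (G.φ j).target) :=
  ContinuousLinearMap.continuous_det.measurable.comp_aemeasurable (G.aemeasurable_dT j)

lemma jac_pos {j : Fin G.n} {v : V} (hv : v ∈ (G.φ j).target) : 0 < G.jac j v :=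
  G.dT_det_pos ((G.φ j).map_target hv)

/-- The weighted volume of the target of the chart `j`. -/
noncomputable def chartVol (G : Geo X) (j : Fin G.n) : Measure V :=
  (volume.restrict (G.φ j).target).withDensity fun v => ENNReal.ofReal (G.jac j v)

lemma aemeasurable_symm_chartVol (G : Geo X) (j : Fin G.n) :
    AEMeasurable (G.φ j).symm (G.chartVol j) :=
  (G.aemeasurable_symm j).mono_ac (withDensity_absolutelyContinuous _ _)

lemma ac_chartVol (G : Geo X) (j : Fin G.n) :
    volume.restrict (G.φ j).target ≪ G.chartVol j := by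
  refine withDensity_absolutelyContinuous' (G.aemeasurable_jac j).ennreal_ofReal ?_
  filter_upwards [ae_restrict_mem (G.φ j).open_target.measurableSet] with v hv
  simpa using jac_pos hv

/-- `μ` read in the chart `j`. -/
theorem restrict_μ (G : Geo X) (j : Fin G.n) :
    G.μ.restrict (G.φ j).source = (G.chartVol j).map (G.φ j).symm := by
  refine Measure.ext fun s hs => ?_
  have hsrc : MeasurableSet (G.φ j).source := (G.φ j).open_source.measurableSet
  have hA : ∀ k, MeasurableSet {x | G.tr x = k} := fun k => G.tr_meas (measurableSet_singleton k)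
  rw [Measure.map_apply_of_aemeasurable (G.aemeasurable_symm_chartVol j) hs, chartVol,
    withDensity_apply', Measure.restrict_restrict' (G.φ j).open_target.measurableSet]
  set W : Fin G.n → Set V :=
    fun k => (G.φ j).target ∩ (G.φ j).symm ⁻¹' (s ∩ {x | G.tr x = k}) with hW
  have hU : (G.φ j).symm ⁻¹' s ∩ (G.φ j).target = ⋃ k, W k := by
    ext v
    simp only [hW, mem_iUnion, mem_inter_iff, mem_preimage, mem_setOf_eq]
    exact ⟨fun h => ⟨_, h.2, h.1, rfl⟩, fun ⟨k, h1, h2, _⟩ => ⟨h2, h1⟩⟩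
  have hWm : ∀ k, MeasurableSet (W k) := fun k => G.measurableSet_chart j (hs.inter (hA k))
  have hWd : Pairwise (Function.onFun Disjoint W) := fun k l hkl =>
    Set.disjoint_left.2 fun v hk hl => hkl (hk.2.2.symm.trans hl.2.2)
  rw [hU, lintegral_iUnion hWm hWd, Measure.restrict_apply hs, μ,
    Measure.sum_apply _ (hs.inter hsrc)]
  refine tsum_congr fun k => ?_
  rw [Measure.restrict_apply (hs.inter hsrc),
    Measure.map_apply_of_aemeasurable (G.aemeasurable_symm k) ((hs.inter hsrc).inter (hA k)),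
    Measure.restrict_apply' (G.φ k).open_target.measurableSet]
  set T : V → V := fun v => G.φ k ((G.φ j).symm v) with hT
  have himg : T '' W k =
      (G.φ k).symm ⁻¹' (s ∩ (G.φ j).source ∩ {x | G.tr x = k}) ∩ (G.φ k).target := by
    ext u
    constructor
    · rintro ⟨v, ⟨hv, hvs, hvk⟩, rfl⟩
      have hx : (G.φ j).symm v ∈ (G.φ k).source := by
        rw [← (hvk : G.tr _ = k)]; exact G.mem_ch _
      refine ⟨?_, (G.φ k).map_source hx⟩
      rw [mem_preimage, hT, (G.φ k).left_inv hx]
      exact ⟨⟨hvs, (G.φ j).map_target hv⟩, hvk⟩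
    · rintro ⟨⟨⟨hus, huj⟩, huk⟩, hu⟩
      refine ⟨G.φ j ((G.φ k).symm u), ⟨(G.φ j).map_source huj, ?_⟩, ?_⟩
      · rw [mem_preimage, (G.φ j).left_inv huj]; exact ⟨hus, huk⟩
      · rw [hT]; simp only [(G.φ j).left_inv huj, (G.φ k).right_inv hu]
  have hsub : ∀ v ∈ W k, (G.φ j).symm v ∈ (G.φ k).source := fun v hv => by
    rw [← (hv.2.2 : G.tr _ = k)]; exact G.mem_ch _
  have hd : ∀ v ∈ W k, HasFDerivWithinAt T (G.dT j ((G.φ j).symm v)) (W k) v := fun v hv => by
    have h1 := (G.contDiffAt_tc (G.mem_tdom.2 ⟨hv.1, hsub v hv⟩)).differentiableAt (by simp)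
    rw [dT_eq_of_tr (hv.2.2 : G.tr _ = k), (G.φ j).right_inv hv.1]
    exact h1.hasFDerivAt.hasFDerivWithinAt
  have hinj : InjOn T (W k) := fun v hv w hw h => by
    have := congrArg (G.φ k).symm h
    simp only [hT, (G.φ k).left_inv (hsub v hv), (G.φ k).left_inv (hsub w hw)] at this
    rw [← (G.φ j).right_inv hv.1, this, (G.φ j).right_inv hw.1]
  rw [← himg, ← lintegral_abs_det_fderiv_eq_addHaar_image volume (hWm k) hd hinj]
  refine setLIntegral_congr_fun (hWm k) fun v hv => ?_
  rw [abs_of_pos (G.dT_det_pos ((G.φ j).map_target hv.1))]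
  rfl

lemma integrable_chart {E : Type*} [NormedAddCommGroup E] [NormedSpace ℝ E] {j : Fin G.n}
    {f : X → E} (hf : Integrable f G.μ) :
    IntegrableOn (fun v => G.jac j v • f ((G.φ j).symm v)) (G.φ j).target := by
  have h1 : Integrable f ((G.chartVol j).map (G.φ j).symm) := G.restrict_μ j ▸ hf.restrict
  have h2 := h1.comp_aemeasurable (G.aemeasurable_symm_chartVol j)
  rw [chartVol, integrable_withDensity_iff_integrable_smul₀'
    (G.aemeasurable_jac j).ennreal_ofReal (Eventually.of_forall fun _ => ENNReal.ofReal_lt_top)]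
    at h2
  refine h2.congr ?_
  filter_upwards [ae_restrict_mem (G.φ j).open_target.measurableSet] with v hv
  simp [ENNReal.toReal_ofReal (jac_pos hv).le]

/-- Change of variables to a chart. -/
theorem integral_chart {E : Type*} [NormedAddCommGroup E] [NormedSpace ℝ E] (j : Fin G.n)
    {f : X → E} (hf : AEStronglyMeasurable f G.μ) :
    ∫ x in (G.φ j).source, f x ∂G.μ =
      ∫ v in (G.φ j).target, G.jac j v • f ((G.φ j).symm v) := by
  rw [G.restrict_μ j, integral_map (G.aemeasurable_symm_chartVol j)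
    (G.restrict_μ j ▸ hf.restrict), chartVol,
    integral_withDensity_eq_integral_toReal_smul₀
      (G.aemeasurable_jac j).ennreal_ofReal (Eventually.of_forall fun _ => ENNReal.ofReal_lt_top)]
  refine integral_congr_ae ?_
  filter_upwards [ae_restrict_mem (G.φ j).open_target.measurableSet] with v hv
  simp [ENNReal.toReal_ofReal (jac_pos hv).le]

lemma aestronglyMeasurable_chart {E : Type*} [TopologicalSpace E] {j : Fin G.n} {f : X → E}
    (hf : AEStronglyMeasurable f G.μ) :
    AEStronglyMeasurable (fun v => f ((G.φ j).symm v)) (volume.restrict (G.φ j).target) := by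
  have h1 : AEStronglyMeasurable f ((G.chartVol j).map (G.φ j).symm) :=
    G.restrict_μ j ▸ hf.restrict
  exact (h1.comp_aemeasurable (G.aemeasurable_symm_chartVol j)).mono_ac (G.ac_chartVol j)

end Geo

end Vale.Agent.P204.Gen
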