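import Vale.Agent.P204.Gen.PointRepAux
import Vale.Agent.P204.Gen.IntegralMeasure
import Vale.Agent.P204.Gen.HBound

/-!
P204, general four-manifold: almost every value of a regularised weighted current is a limit of
averages of congruent positive forms (helper51).
-/

open MeasureTheory Filter Topology Set
open scoped BigOperators ContDiff

namespace Vale.Agent.P204.Gen

open Vale.Agent.P204.Torus PairAux

variable {X : Type*} [TopologicalSpace X] [MeasurableSpace X]

namespace PairAux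

/-- One positive number below finitely many. -/
lemma exists_pos_le {ι : Type*} [Fintype ι] (e : ι → ℝ) (he : ∀ i, 0 < e i) :
    ∃ e₀, 0 < e₀ ∧ e₀ ≤ 1 ∧ ∀ i, e₀ ≤ e i := by
  have hs : 0 ≤ ∑ i, (e i)⁻¹ := Finset.sum_nonneg fun i _ => (inv_pos.2 (he i)).le
  refine ⟨(1 + ∑ i, (e i)⁻¹)⁻¹, by positivity, inv_le_one_of_one_le₀ (by linarith), fun i => ?_⟩
  have h1 : (e i)⁻¹ ≤ ∑ j, (e j)⁻¹ :=
    Finset.single_le_sum (fun j _ => (inv_pos.2 (he j)).le) (Finset.mem_univ i)
  calc (1 + ∑ j, (e j)⁻¹)⁻¹ ≤ ((e i)⁻¹)⁻¹ := inv_anti₀ (inv_pos.2 (he i)) (by linarith)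
    _ = e i := inv_inv _

/-- A bump centred at `u`, of mass one, and the bounds of its averages. -/
lemma bump_avg {u : V} (φ : ContDiffBump (0 : V)) :
    Continuous (fun v => φ.normed volume (v - u)) ∧
      ContDiff ℝ ∞ (fun v => φ.normed volume (v - u)) ∧
      HasCompactSupport (fun v => φ.normed volume (v - u)) ∧
      tsupport (fun v => φ.normed volume (v - u)) ⊆ Metric.closedBall u φ.rOut ∧
      (∀ v, φ.normed volume (v - u) ≠ 0 → ‖v - u‖ ≤ φ.rOut) ∧
      (∀ v, 0 ≤ φ.normed volume (v - u)) ∧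
      Integrable (fun v => φ.normed volume (v - u)) ∧
      ∫ v, φ.normed volume (v - u) = 1 ∧
      ∃ K, ∀ v, φ.normed volume (v - u) ≤ K := by
  have hc : ContDiff ℝ ∞ (fun v => φ.normed volume (v - u)) :=
    φ.contDiff_normed.comp (contDiff_id.sub contDiff_const)
  have h1 : ∀ v, φ.normed volume (v - u) ≠ 0 → ‖v - u‖ ≤ φ.rOut := fun v hv => by
    have : v - u ∈ Function.support (φ.normed volume) := hv
    rw [φ.support_normed_eq, Metric.mem_ball, dist_zero_right] at this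
    exact this.le
  have hts : tsupport (fun v => φ.normed volume (v - u)) ⊆ Metric.closedBall u φ.rOut :=
    closure_minimal (fun v hv => by
      rw [Metric.mem_closedBall, dist_eq_norm]; exact h1 v hv) Metric.isClosed_closedBall
  have hcs : HasCompactSupport (fun v => φ.normed volume (v - u)) :=
    (isCompact_closedBall u φ.rOut).of_isClosed_subset (isClosed_tsupport _) hts
  obtain ⟨K, hK⟩ := hc.continuous.bounded_above_of_compact_support hcs
  refine ⟨hc.continuous, hc, hcs, hts, h1, fun v => φ.nonneg_normed _,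
    hc.continuous.integrable_of_hasCompactSupport hcs, ?_,
    ⟨K, fun v => (le_abs_self _).trans (hK v)⟩⟩
  rw [integral_sub_right_eq_self (μ := volume) (φ.normed volume) u]
  exact φ.integral_normed

end PairAux

namespace Geo

variable [T2Space X] [CompactSpace X] [BorelSpace X] (G : Geo X)

/-- A square integrable field is integrable on compact parts of the charts. -/
lemma integrableOn_rep2 (hB : Basic G) {f : X → Form} (hf : MemLp f 2 G.μ) (i : Fin G.n)
    {K : Set V} (hK : IsCompact K) (hKt : K ⊆ (G.φ i).target) :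
    IntegrableOn (G.rep2 i f) K := by
  have := hB.finite_μ
  have hKX : IsCompact ((G.φ i).symm '' K) :=
    hK.image_of_continuousOn ((G.φ i).continuousOn_symm.mono hKt)
  obtain ⟨C, hC, hb⟩ := G.exists_dT_bound i hKX
    (image_subset_iff.2 fun v hv => (G.φ i).map_target (hKt hv))
  have h1 : IntegrableOn (fun v => G.jac i v • f ((G.φ i).symm v)) K :=
    (G.integrable_chart (hf.integrable one_le_two)).mono_set hKt
  have hmeas : AEStronglyMeasurable (G.rep2 i f) (volume.restrict K) := by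
    have hd := ((G.aemeasurable_dT i).mono_measure (Measure.restrict_mono hKt le_rfl)).prodMk
      ((G.aestronglyMeasurable_chart (j := i) hf.1).aemeasurable.mono_measure
        (Measure.restrict_mono hKt le_rfl))
    refine ((contDiff_pull.continuous.measurable.comp_aemeasurable hd).aestronglyMeasurable).congr ?_
    filter_upwards [ae_restrict_mem hK.measurableSet] with v hv
    simp [Geo.rep2, hKt hv]
  refine Integrable.mono' (h1.norm.const_mul (C * C)) hmeas ?_
  filter_upwards [ae_restrict_mem hK.measurableSet] with v hv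
  obtain ⟨-, hd, hp⟩ := hb _ (mem_image_of_mem _ hv)
  have hj : 0 ≤ G.jac i v := (jac_pos (hKt hv)).le
  simp only [Geo.rep2, hKt hv, if_true]
  refine (hp _).1.trans ?_
  rw [norm_smul, Real.norm_eq_abs, abs_of_nonneg hj]
  have : 1 ≤ C * G.jac i v := hd
  nlinarith [norm_nonneg (f ((G.φ i).symm v)),
    mul_le_mul_of_nonneg_left this (mul_nonneg hC.le (norm_nonneg (f ((G.φ i).symm v))))]

omit [T2Space X] [CompactSpace X] in
/-- The pairing with a field supported in a chart, in that chart. -/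
lemma pairing_eq_chart (hB : Basic G) {f α : X → Form} (hf : MemLp f 2 G.μ) (hα : G.Smooth2 α)
    (i : Fin G.n) (h0 : ∀ x ∉ (G.φ i).source, α x = 0) :
    G.pairing f α = ∫ v in (G.φ i).target, q (G.rep2 i f v) (G.rep2 i α v) := by
  have hm : AEStronglyMeasurable (fun x => q (f x) (α x)) G.μ :=
    (Setup.continuous_q continuous_fst continuous_snd).comp_aestronglyMeasurable
      (hf.1.prodMk (hB.smooth_meas α hα).aestronglyMeasurable)
  rw [Geo.pairing, ← setIntegral_eq_integral_of_forall_compl_eq_zero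
    (s := (G.φ i).source) fun x hx => by rw [h0 x hx, q_zero_right], G.integral_chart i hm]
  refine setIntegral_congr_fun (G.φ i).open_target.measurableSet fun v hv => ?_
  simp only [Geo.rep2, hv, if_true, q_pull, smul_eq_mul, jac]

end Geo

variable [T2Space X] [CompactSpace X] [BorelSpace X]

/-- The averaged congruent form at one point: the measure on congruences, its mass and the
identity of the pairings. -/
lemma exists_point_measure (m : Measure (V × (V →L[ℝ] V))) [IsProbabilityMeasure m] (H : Form)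
    {φ : ContDiffBump (0 : V)} {u z : V} {ε C₁ c₁ c N ρ : ℝ} {R : (V →L[ℝ] V) → V →L[ℝ] V}
    (hε : 0 < ε) (hC₁ : 0 < C₁) (hc₁ : 0 < c₁) (hc : c ≤ c₁ / 2) (hc' : c ≤ 1)
    (hφ : φ.rOut ≤ c * ε) (hN : ‖H‖ ≤ N) (h6 : C₁ * ε ≤ ρ) (hRm : Measurable R)
    (hRp : ∀ A, ‖A - 1‖ ≤ ρ → A.det ≠ 0 ∧ 1 / 2 ≤ A.det ∧ A.det ≤ 2 ∧ R A = A.inverse ∧
      ‖R A - 1‖ ≤ 2 * ‖A - 1‖)
    (hsup : ∀ᵐ p ∂m, ‖p.1 - z‖ ≤ C₁ * ε ∧ ‖p.2 - 1‖ ≤ C₁ * ε)
    (hup : m.map Prod.fst ≤ ENNReal.ofReal (C₁ / ε ^ 4) • volume)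
    (hlow : ENNReal.ofReal (c₁ / ε ^ 4) • volume.restrict (Metric.closedBall z (c₁ * ε)) ≤
      m.map Prod.fst) :
    ∃ M : Measure (V →L[ℝ] V), IsFiniteMeasure M ∧ M.real univ ≤ 2 * C₁ / ε ^ 4 ∧
      (M ≠ 0 → ‖z - u‖ ≤ (C₁ + 1) * ε) ∧ (‖z - u‖ ≤ c * ε → c / ε ^ 4 ≤ M.real univ) ∧
      (∀ᵐ L ∂M, ‖L - 1‖ ≤ 2 * (C₁ * ε)) ∧
      (∀ β, q H (∫ p, pull p.2 (φ.normed volume (p.1 - u) • β) ∂m) =
        q (∫ L, pull L H ∂M) β) ∧
      ‖∫ L, pull L H ∂M‖ ≤ 72 * (1 + 2 * ρ) ^ 2 * N * (2 * C₁) / ε ^ 4 := by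
  obtain ⟨hgc, -, -, -, hgs, hg0, hgi, hg1, Kg, hgK⟩ := bump_avg (u := u) φ
  obtain ⟨M, hMf, hMu, hMl, hMne, hML, hMq⟩ := exists_congr_measure m
    H hgc hg0 hgK hRm hRp h6 (hsup.mono fun p hp => hp.2)
  have hint : ∫ p, φ.normed volume (p.1 - u) ∂m = ∫ v, φ.normed volume (v - u) ∂m.map Prod.fst :=
    (integral_map measurable_fst.aemeasurable hgc.aestronglyMeasurable).symm
  have hu1 : ∫ p, φ.normed volume (p.1 - u) ∂m ≤ C₁ / ε ^ 4 := by
    rw [hint]
    refine (integral_mono_measure hup (Eventually.of_forall hg0)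
      (hgi.smul_measure ENNReal.ofReal_ne_top)).trans ?_
    rw [integral_smul_measure, hg1, ENNReal.toReal_ofReal (by positivity), smul_eq_mul,
      mul_one]
  have hMu' : M.real univ ≤ 2 * C₁ / ε ^ 4 :=
    hMu.trans ((mul_le_mul_of_nonneg_left hu1 two_pos.le).trans_eq (by ring))
  have hρ : 0 ≤ ρ := le_trans (by positivity) h6
  refine ⟨M, hMf, hMu', fun hne => ?_, fun hd => ?_, hML, fun β => ?_, ?_⟩
  · obtain ⟨p, hp0, hpd, -⟩ := ((hMne hne).and_eventually hsup).exists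
    calc ‖z - u‖ ≤ ‖z - p.1‖ + ‖p.1 - u‖ := norm_sub_le_norm_sub_add_norm_sub _ _ _
      _ ≤ C₁ * ε + c * ε :=
          add_le_add ((norm_sub_rev _ _).trans_le hpd) ((hgs _ hp0).trans hφ)
      _ ≤ (C₁ + 1) * ε := by
        rw [add_mul]
        exact add_le_add le_rfl (mul_le_mul_of_nonneg_right hc' hε.le)
  · refine le_trans ?_ hMl
    have hball : ∀ v, φ.normed volume (v - u) ≠ 0 → v ∈ Metric.closedBall z (c₁ * ε) :=
      fun v hv => by
        rw [Metric.mem_closedBall, dist_eq_norm]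
        calc ‖v - z‖ ≤ ‖v - u‖ + ‖u - z‖ := norm_sub_le_norm_sub_add_norm_sub _ _ _
          _ ≤ c * ε + c * ε := add_le_add ((hgs v hv).trans hφ) ((norm_sub_rev _ _).trans_le hd)
          _ ≤ c₁ / 2 * ε + c₁ / 2 * ε := by gcongr
          _ = c₁ * ε := by ring
    have hl1 : c₁ / ε ^ 4 ≤ ∫ p, φ.normed volume (p.1 - u) ∂m := by
      rw [hint]
      refine le_trans (le_of_eq ?_) (integral_mono_measure hlow (Eventually.of_forall hg0)
        (Integrable.of_bound hgc.aestronglyMeasurable Kg (Eventually.of_forall fun v => by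
          rw [Real.norm_eq_abs, abs_of_nonneg (hg0 v)]; exact hgK v)))
      rw [integral_smul_measure, setIntegral_eq_integral_of_forall_compl_eq_zero
        fun v hv => not_not.1 fun h => hv (hball v h), hg1,
        ENNReal.toReal_ofReal (by positivity), smul_eq_mul, mul_one]
    have h1 : c / ε ^ 4 ≤ c₁ / 2 / ε ^ 4 := div_le_div_of_nonneg_right hc (by positivity)
    have h2 : c₁ / 2 / ε ^ 4 = c₁ / ε ^ 4 / 2 := div_right_comm _ _ _
    linarith
  · rw [← hMq, q_integral]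
    refine Integrable.of_bound ((contDiff_pull.continuous.comp (continuous_snd.prodMk
      ((hgc.comp continuous_fst).smul continuous_const)))).aestronglyMeasurable
      (72 * (1 + ρ) ^ 2 * (Kg * ‖β‖)) ?_
    filter_upwards [hsup] with p hp
    refine (norm_pull_le_sq _ _).trans ?_
    have hL : ‖p.2‖ ≤ 1 + ρ := by
      calc ‖p.2‖ = ‖(p.2 - 1) + 1‖ := by rw [sub_add_cancel]
        _ ≤ ‖p.2 - 1‖ + ‖(1 : V →L[ℝ] V)‖ := norm_add_le _ _
        _ ≤ C₁ * ε + 1 := add_le_add hp.2 ContinuousLinearMap.norm_id_le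
        _ ≤ 1 + ρ := by linarith
    have hb : ‖φ.normed volume (p.1 - u) • β‖ ≤ Kg * ‖β‖ := by
      rw [norm_smul, Real.norm_eq_abs, abs_of_nonneg (hg0 _)]
      exact mul_le_mul_of_nonneg_right (hgK _) (norm_nonneg _)
    exact mul_le_mul (mul_le_mul_of_nonneg_left (pow_le_pow_left₀ (norm_nonneg _) hL 2)
      (by norm_num)) hb (norm_nonneg _) (by positivity)
  · refine (norm_integral_le_of_norm_le_const (C := 72 * (1 + 2 * ρ) ^ 2 * N) ?_).trans ?_
    · filter_upwards [hML] with L hL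
      refine (norm_pull_le_sq _ _).trans ?_
      have hL' : ‖L‖ ≤ 1 + 2 * ρ := by
        calc ‖L‖ = ‖(L - 1) + 1‖ := by rw [sub_add_cancel]
          _ ≤ ‖L - 1‖ + ‖(1 : V →L[ℝ] V)‖ := norm_add_le _ _
          _ ≤ 2 * (C₁ * ε) + 1 := add_le_add hL ContinuousLinearMap.norm_id_le
          _ ≤ 1 + 2 * ρ := by linarith
      gcongr
    · rw [mul_div_assoc (72 * (1 + 2 * ρ) ^ 2 * N)]
      exact mul_le_mul_of_nonneg_left hMu' (mul_nonneg (by positivity) ((norm_nonneg H).trans hN))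

/-- The averages of the representation converge to the value of the field. -/
lemma avg_eq_conv {S : GSetup X} (hB : Basic S.toGeo) (T : Positive S) [IsFiniteMeasure T.ν]
    {i : Fin S.n} {w : X → ℝ} (hw : Measurable w) (hw1 : ∀ y, |w y| ≤ 1) {f : X → Form} {ε : ℝ}
    (hf : T.RegRep w ε f) {K : Set V} (hKt : K ⊆ (S.φ i).target)
    (hF : Integrable (K.indicator (S.rep2 i f))) {φ : ContDiffBump (0 : V)} {u : V}
    {g : X → Form} (hgm : Measurable g) {B : ℝ} (hgB : ∀ z, ‖g z‖ ≤ B)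
    (hφK : ∀ v, φ.normed volume (v - u) ≠ 0 → v ∈ K) {α : Form → X → Form}
    (hαs : ∀ β, S.Smooth2 (α β)) (hα0 : ∀ β, ∀ x ∉ (S.φ i).source, α β x = 0)
    (hαrep : ∀ β v, S.rep2 i (α β) v = φ.normed volume (v - u) • β)
    (hg : ∀ j z, g z j = q (T.h z) (S.reg ε (α (EuclideanSpace.single (swIx j) 1)) z)) :
    ∫ z, w z • g z ∂T.ν =
      convolution (φ.normed volume) (K.indicator (S.rep2 i f)) (ContinuousLinearMap.lsmul ℝ ℝ)
        volume u := by
  obtain ⟨hgc, -, -, -, -, hg0, -, -, Kg, hgK⟩ := bump_avg (u := u) φ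
  have hig : Integrable (fun z => w z • g z) T.ν :=
    Integrable.of_bound (hw.smul hgm).aestronglyMeasurable B
      (Eventually.of_forall fun z => by
        rw [norm_smul, Real.norm_eq_abs]
        exact (mul_le_of_le_one_left (norm_nonneg _) (hw1 z)).trans (hgB z))
  have hiv : Integrable (fun v => φ.normed volume (v - u) • K.indicator (S.rep2 i f) v) :=
    hF.bdd_smul Kg hgc.aestronglyMeasurable
      (Eventually.of_forall fun v => by rw [Real.norm_eq_abs, abs_of_nonneg (hg0 v)]; exact hgK v)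
  have hsub : ∫ t, (ContinuousLinearMap.lsmul ℝ ℝ) (φ.normed volume t)
      (K.indicator (S.rep2 i f) (u - t)) =
      ∫ v, φ.normed volume (v - u) • K.indicator (S.rep2 i f) v := by
    rw [← integral_sub_left_eq_self (μ := (volume : Measure V))
      (fun v => φ.normed volume (v - u) • K.indicator (S.rep2 i f) v) u]
    refine integral_congr_ae (Eventually.of_forall fun t => ?_)
    simp only [ContinuousLinearMap.lsmul_apply, sub_sub_cancel_left, ContDiffBump.normed_neg]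
  rw [convolution_def, hsub]
  ext j
  rw [← q_single_swap (∫ v, φ.normed volume (v - u) • K.indicator (S.rep2 i f) v) j,
    ← q_single_swap (∫ z, w z • g z ∂T.ν) j, q_comm, q_integral hig, q_comm (∫ v, _),
    q_integral hiv]
  have hleft : ∫ z, q (EuclideanSpace.single (swIx j) 1) (w z • g z) ∂T.ν =
      T.app fun z => w z • S.reg ε (α (EuclideanSpace.single (swIx j) 1)) z :=
    integral_congr_ae (Eventually.of_forall fun z => by
      simp only [q_smul_right]
      rw [q_comm, q_single_swap, hg])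
  rw [hleft, ← hf.2 _ (hαs _), S.pairing_eq_chart hB hf.1 (hαs _) i (hα0 _),
    setIntegral_eq_integral_of_forall_compl_eq_zero fun v hv => by
      rw [hαrep, not_not.1 fun h => hv (hKt (hφK v h)), zero_smul, q_zero_right]]
  refine integral_congr_ae (Eventually.of_forall fun v => ?_)
  simp only [q_smul_right, hαrep]
  by_cases hv : φ.normed volume (v - u) = 0
  · simp [hv]
  · rw [indicator_of_mem (hφK v hv), q_comm]

/-- The pointwise representation of regularised weighted currents. -/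
theorem pointRep {S : GSetup X} (hB : Basic S.toGeo) (hR : RegFacts S.toGeo)
    (hA : AvgRep S.toGeo) (T : Positive S) : PointRep T := by
  intro i
  have hn : 0 < (S.n : ℝ) := by exact_mod_cast i.pos
  have := T.finite
  set a₁ : ℝ := 1 / (2 * (S.n : ℝ)) with ha₁
  set a₂ : ℝ := 1 / (4 * (S.n : ℝ)) with ha₂
  have ha₂0 : 0 < a₂ := by positivity
  have ha₁0 : 0 < a₁ := by positivity
  have ha12 : a₁ = 2 * a₂ := by rw [ha₁, ha₂]; field_simp; ring
  set K₁ := S.lowSet i a₂ with hK₁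
  have hK₁c : IsCompact K₁ := S.isCompact_lowSet i a₂
  have hK₁s : K₁ ⊆ (S.φ i).source := S.lowSet_subset_source ha₂0
  set K₂ := S.φ i '' K₁ with hK₂
  have hK₂c : IsCompact K₂ := hK₁c.image_of_continuousOn ((S.φ i).continuousOn.mono hK₁s)
  have hK₂t : K₂ ⊆ (S.φ i).target := image_subset_iff.2 fun x hx => (S.φ i).map_source (hK₁s hx)
  obtain ⟨η, Cr, hη, hCr, hroom⟩ := S.exists_room i ha₂0
  obtain ⟨C₁, c₁, e₁, hC₁, hc₁, he₁, hav⟩ := hA.rep i K₁ hK₁c hK₁s
    fun z hz => S.χ_one i z (S.lowSet_subset_tsupport ha₂0 hz)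
  have hn1 : 0 < 1 / (S.n : ℝ) := by positivity
  choose Cl cl el hCl hcl hel havl using fun l => hA.rep l (S.lowSet l (1 / (S.n : ℝ)))
    (S.isCompact_lowSet l _) (S.lowSet_subset_source hn1)
    fun z hz => S.χ_one l z (S.lowSet_subset_tsupport hn1 hz)
  choose ηl Crl hηl hCrl hrooml using fun l => S.exists_room l hn1
  obtain ⟨R, ρ, hρ, hRm, hRp⟩ := exists_near_inverse
  obtain ⟨CN, N, -, hN, hpairN⟩ := S.exists_chart_pair i hK₂c hK₂t
  obtain ⟨er, her, -, hreg⟩ := hR.exists_scale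
  obtain ⟨Nh, hNh⟩ := T.exists_h_bound
  set C₂ := (∑ l, Crl l * Cl l) + Cr * (C₁ + 2) + 1 with hC₂
  have hC₂0 : 0 < C₂ := by
    have : 0 ≤ ∑ l, Crl l * Cl l :=
      Finset.sum_nonneg fun l _ => (mul_pos (hCrl l) (hCl l)).le
    positivity
  obtain ⟨el₀, hel₀, -, hel₀l⟩ := exists_pos_le (fun l => min (el l) (ηl l / Cl l))
    fun l => lt_min (hel l) (div_pos (hηl l) (hCl l))
  obtain ⟨ε₁, hε₁, hε₁1, hε₁l⟩ := exists_pos_le ![e₁, er, el₀, η / (C₁ + 2), a₂ / C₂, ρ / C₁]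
    (fun k => by fin_cases k <;> simp <;> positivity)
  have hb1 : ε₁ ≤ e₁ := by simpa using hε₁l 0
  have hb2 : ε₁ ≤ er := by simpa using hε₁l 1
  have hb3 : ε₁ ≤ el₀ := by simpa using hε₁l 2
  have hb4 : ε₁ ≤ η / (C₁ + 2) := by simpa using hε₁l 3
  have hb5 : ε₁ ≤ a₂ / C₂ := by simpa using hε₁l 4
  have hb6 : ε₁ ≤ ρ / C₁ := by simpa using hε₁l 5
  set c := min (c₁ / 2) 1 with hc
  have hc0 : 0 < c := lt_min (by positivity) one_pos
  set CM := 72 * (1 + 2 * ρ) ^ 2 * N * (2 * C₁) with hCM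
  set C := C₁ * 2 + C₂ + CM + 2 with hC
  have hCM0 : 0 ≤ CM := by positivity
  have hS0 : 0 ≤ ∑ l, Crl l * Cl l :=
    Finset.sum_nonneg fun l _ => (mul_pos (hCrl l) (hCl l)).le
  have hCp : 2 * C₁ ≤ C ∧ C₁ + 1 ≤ C ∧ CM ≤ C ∧ Cr * (C₁ + 1) ≤ C ∧ C₁ + 1 ≤ C₁ + 2 := by
    have : 0 < Cr * (C₁ + 2) := mul_pos hCr (by linarith)
    rw [hC]
    refine ⟨?_, ?_, ?_, ?_, by linarith⟩ <;> rw [hC₂] <;>
      linarith [mul_le_mul_of_nonneg_left (show C₁ + 1 ≤ C₁ + 2 by linarith) hCr.le]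
  refine ⟨C, c, ε₁, by positivity, hc0, hε₁, fun ε hε hεb w hw hw1 f hf => ?_⟩
  have h4 : (C₁ + 2) * ε ≤ η := by
    rw [mul_comm]; exact (le_div_iff₀ (by positivity)).1 (hεb.trans hb4)
  have h5 : C₂ * ε ≤ a₂ := by
    rw [mul_comm]; exact (le_div_iff₀ hC₂0).1 (hεb.trans hb5)
  have h6 : C₁ * ε ≤ ρ := by
    rw [mul_comm]; exact (le_div_iff₀ hC₁).1 (hεb.trans hb6)
  obtain ⟨hsm, -, -, -, -, -, -⟩ := hreg ε hε (hεb.trans hb2)
  let φ : ℕ → ContDiffBump (0 : V) := fun k =>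
    { rIn := c * ε / (2 * (k + 1))
      rOut := c * ε / (k + 1)
      rIn_pos := by positivity
      rIn_lt_rOut := by
        refine div_lt_div_of_pos_left (by positivity) (by positivity) ?_
        linarith [k.cast_nonneg (α := ℝ)] }
  have hφ : ∀ k, (φ k).rOut ≤ c * ε := fun k =>
    div_le_self (by positivity) (by linarith [k.cast_nonneg (α := ℝ)])
  have hφ0 : Tendsto (fun k => (φ k).rOut) atTop (𝓝 0) := by
    have h := (tendsto_one_div_add_atTop_nhds_zero_nat).const_mul (c * ε)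
    rw [mul_zero] at h
    exact h.congr fun k => by show c * ε * (1 / ((k : ℝ) + 1)) = _; simp [φ, div_eq_mul_inv]
  have hφK : ∀ᶠ k in atTop, (φ k).rOut ≤ 2 * (φ k).rIn := Eventually.of_forall fun k => by
    show c * ε / ((k : ℝ) + 1) ≤ 2 * (c * ε / (2 * ((k : ℝ) + 1)))
    exact le_of_eq (by field_simp)
  have hF : Integrable (K₂.indicator (S.rep2 i f)) :=
    (S.integrableOn_rep2 hB hf.1 i hK₂c hK₂t).integrable_indicator hK₂c.measurableSet
  have hae := ContDiffBump.ae_convolution_tendsto_right_of_locallyIntegrable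
    (μ := (volume : Measure V)) hφ0 hφK hF.locallyIntegrable
  have hcore : MeasurableSet (S.φ i '' S.coreSet i) :=
    ((S.isCompact_lowSet i a₁).image_of_continuousOn
      ((S.φ i).continuousOn.mono (S.lowSet_subset_source ha₁0))).measurableSet
  filter_upwards [ae_restrict_of_ae hae, ae_restrict_mem hcore] with u hu hu'
  obtain ⟨x₀, hx₀, rfl⟩ := hu'
  set u := S.φ i x₀ with hu_def
  have hx₀' : a₁ ≤ S.ψ i x₀ := hx₀
  have hx₀s : x₀ ∈ (S.φ i).source := S.lowSet_subset_source ha₁0 hx₀'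
  have huK : u ∈ S.φ i '' S.lowSet i a₂ := ⟨x₀, show a₂ ≤ S.ψ i x₀ by linarith, rfl⟩
  have hsymm : (S.φ i).symm u = x₀ := (S.φ i).left_inv hx₀s
  have hnear : ∀ v, ‖v - u‖ ≤ η → v ∈ (S.φ i).target ∧
      S.dX x₀ ((S.φ i).symm v) ≤ Cr * ‖v - u‖ := fun v hv => by
    obtain ⟨h1, -, h2⟩ := hroom u huK v hv
    rw [hsymm, norm_sub_rev] at h2
    exact ⟨h1, h2⟩
  have hψnear : ∀ z, S.dX z x₀ ≤ C₂ * ε → z ∈ K₁ := fun z hz => by
    have := abs_le.1 ((S.abs_psi_sub_le i z x₀).trans (hz.trans h5))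
    show a₂ ≤ S.ψ i z
    linarith [this.1]
  have hsum : ∀ l, Crl l * Cl l ≤ ∑ l', Crl l' * Cl l' := fun l =>
    Finset.single_le_sum (fun l' _ => (mul_pos (hCrl l') (hCl l')).le) (Finset.mem_univ l)
  let gb : ℕ → V → ℝ := fun k v => (φ k).normed volume (v - u)
  have hgb : ∀ k v, gb k v ≠ 0 → ‖v - u‖ ≤ c * ε ∧ v ∈ (S.φ i).target ∧
      (∀ᶠ v' in 𝓝 v, S.χ i v' = 1) ∧ (S.φ i).symm v ∈ K₁ ∧
      S.dX ((S.φ i).symm v) x₀ ≤ Cr * (c * ε) := fun k v hv => by
    have h1 : ‖v - u‖ ≤ c * ε := ((bump_avg (u := u) (φ k)).2.2.2.2.1 v hv).trans (hφ k)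
    have hcε : c * ε ≤ (C₁ + 2) * ε :=
      mul_le_mul_of_nonneg_right (by linarith [min_le_right (c₁ / 2) (1 : ℝ)]) hε.le
    have h2 : ‖v - u‖ ≤ η := h1.trans (hcε.trans h4)
    obtain ⟨h3, h3'⟩ := hnear v h2
    have h3d : S.dX ((S.φ i).symm v) x₀ ≤ Cr * (c * ε) := by
      rw [S.dX_comm]; exact h3'.trans (mul_le_mul_of_nonneg_left h1 hCr.le)
    refine ⟨h1, h3, (hroom u huK v h2).2.1, hψnear _ (h3d.trans ?_), h3d⟩
    refine le_trans ?_ (le_of_eq (mul_comm ε C₂))
    calc Cr * (c * ε) ≤ Cr * ((C₁ + 2) * ε) := mul_le_mul_of_nonneg_left hcε hCr.le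
      _ ≤ ε * C₂ := by
        rw [hC₂]
        nlinarith [mul_nonneg (Finset.sum_nonneg
          fun l (_ : l ∈ (Finset.univ : Finset (Fin S.n))) => (mul_pos (hCrl l) (hCl l)).le) hε.le]
  have hgts : ∀ k, tsupport (gb k) ⊆ (S.φ i).target := fun k v hv => by
    have h1 := (bump_avg (u := u) (φ k)).2.2.2.1 hv
    rw [Metric.mem_closedBall, dist_eq_norm] at h1
    refine (hnear v (h1.trans ((hφ k).trans ?_))).1
    exact (mul_le_mul_of_nonneg_right (show c ≤ C₁ + 2 by linarith [min_le_right (c₁ / 2) (1 : ℝ)])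
      hε.le).trans h4
  let α : ℕ → Form → X → Form := fun k β => S.testForm i (gb k) β
  have hαs : ∀ k β, S.Smooth2 (α k β) := fun k β =>
    S.smooth_testForm (bump_avg (φ k)).2.1 (bump_avg (φ k)).2.2.1 (hgts k) β
  have hαrep : ∀ k β v, S.rep2 i (α k β) v = gb k v • β := fun k β v =>
    S.rep2_testForm β (fun v hv => ⟨(hgb k v hv).2.1, (hgb k v hv).2.2.1⟩) v
  have hfar : ∀ k β z, S.reg ε (α k β) z ≠ 0 → z ∈ K₁ ∧ S.dX z x₀ ≤ C₂ * ε := fun k β z hz => by
    obtain ⟨l, hl⟩ := S.exists_inv_n_le z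
    have hεl : ε ≤ el l ∧ Cl l * ε ≤ ηl l := by
      have := (hεb.trans hb3).trans (hel₀l l)
      refine ⟨this.trans (min_le_left _ _), ?_⟩
      rw [mul_comm]
      exact (le_div_iff₀ (hCl l)).1 (this.trans (min_le_right _ _))
    obtain ⟨m, hm, hsup, -, -, hrep⟩ := havl l z hl ε hε hεl.1
    have hzs := S.lowSet_subset_source hn1 hl
    have hex : ∃ p : V × (V →L[ℝ] V), p.1 ∈ (S.φ l).target ∧ ‖p.1 - S.φ l z‖ ≤ Cl l * ε ∧
        S.rep2 l (α k β) p.1 ≠ 0 := by
      by_contra hcon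
      push Not at hcon
      refine hz ?_
      rw [S.eq_pull_rep2 (S.reg ε (α k β)) hzs, hrep _ (hαs k β)]
      rw [integral_eq_zero_of_ae, pull_zero]
      filter_upwards [hsup] with p hp
      rw [hcon p hp.1 hp.2.1, pull_zero]
      rfl
    obtain ⟨p, hpt, hpd, hpn⟩ := hex
    have hx' : α k β ((S.φ l).symm p.1) ≠ 0 := fun h0 => hpn (by
      simp [Geo.rep2, hpt, h0, pull_zero])
    set x' := (S.φ l).symm p.1
    have hx's : x' ∈ (S.φ i).source ∧ gb k (S.φ i x') ≠ 0 := by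
      by_contra hcon
      exact hx' (S.testForm_eq_zero β (Classical.not_and_iff_not_or_not.1 hcon |>.imp id not_not.1))
    obtain ⟨hd1, -, -, -, hd2⟩ := hgb k _ hx's.2
    rw [(S.φ i).left_inv hx's.1] at hd2
    obtain ⟨-, -, hd3⟩ := hrooml l (S.φ l z) (mem_image_of_mem _ hl) p.1
      (hpd.trans hεl.2)
    rw [(S.φ l).left_inv hzs] at hd3
    have hd4 : S.dX z x₀ ≤ C₂ * ε := by
      refine (S.dX_triangle z x' x₀).trans ((add_le_add (hd3.trans (mul_le_mul_of_nonneg_left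
        ((norm_sub_rev _ _).trans_le hpd) (hCrl l).le)) hd2).trans ?_)
      have h1 := mul_le_mul_of_nonneg_right (hsum l) hε.le
      have h2 : Cr * (c * ε) ≤ Cr * (C₁ + 2) * ε := by
        rw [mul_assoc]
        exact mul_le_mul_of_nonneg_left (mul_le_mul_of_nonneg_right
          (by linarith [min_le_right (c₁ / 2) (1 : ℝ)]) hε.le) hCr.le
      rw [hC₂]
      linarith
    exact ⟨hψnear z hd4, hd4⟩
  let g : ℕ → X → Form := fun k z =>
    ofPairs fun j => q (T.h z) (S.reg ε (α k (EuclideanSpace.single (swIx j) 1)) z)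
  have hgz : ∀ k z, ∃ M : Measure (V →L[ℝ] V), IsFiniteMeasure M ∧ M.real univ ≤ 2 * C₁ / ε ^ 4 ∧
      (M ≠ 0 → z ∈ K₁ ∧ ‖S.φ i z - u‖ ≤ (C₁ + 1) * ε) ∧
      (z ∈ (S.φ i).source → ‖S.φ i z - u‖ ≤ c * ε → c / ε ^ 4 ≤ M.real univ) ∧
      (∀ᵐ L ∂M, ‖L - 1‖ ≤ 2 * (C₁ * ε)) ∧
      g k z = ∫ L, pull L (S.formIn i z (T.h z)) ∂M ∧ ‖g k z‖ ≤ CM / ε ^ 4 := by
    intro k z
    by_cases hz : z ∈ K₁
    · obtain ⟨m, hm, hsup, hup, hlow, hrep⟩ := hav z hz ε hε (hεb.trans hb1)
      have hHN : ‖S.formIn i z (T.h z)‖ ≤ N :=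
        (hpairN z (hK₁s hz) z (hK₁s hz) _ _ (mem_image_of_mem _ hz) (mem_image_of_mem _ hz)
          (T.psd z) (T.trace z) (T.psd z) (T.trace z)).1
      obtain ⟨M, hMf, hMu, hMne, hMl, hML, hMq, hMn⟩ := exists_point_measure (φ := φ k) (u := u)
        (z := S.φ i z) m (S.formIn i z (T.h z)) hε hC₁ hc₁ (min_le_left _ _) (min_le_right _ _)
        (hφ k) hHN h6 hRm hRp (hsup.mono fun p hp => ⟨hp.2.1, hp.2.2⟩) hup hlow
      have heq : g k z = ∫ L, pull L (S.formIn i z (T.h z)) ∂M := by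
        ext j
        show q (T.h z) (S.reg ε (α k (EuclideanSpace.single (swIx j) 1)) z) = _
        rw [← S.q_formIn (hK₁s hz) (T.h z) (S.reg ε _), hrep _ (hαs k _),
          ← q_single_swap (∫ L, pull L (S.formIn i z (T.h z)) ∂M) j, ← hMq]
        simp only [hαrep, gb]
      exact ⟨M, hMf, hMu, fun hne => ⟨hz, hMne hne⟩, fun _ hd => hMl hd, hML, heq, heq ▸ hMn⟩
    · have h0 : g k z = 0 := by
        ext j
        show q (T.h z) _ = 0
        rw [not_not.1 fun h => hz (hfar k _ z h).1, q_zero_right]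
      refine ⟨0, inferInstance, by rw [measureReal_zero_apply]; positivity,
        fun h => absurd rfl h, fun hzs hd => ?_, by simp, by simp [h0], ?_⟩
      · exfalso
        refine hz ?_
        have hcε : c * ε ≤ (C₁ + 2) * ε :=
          mul_le_mul_of_nonneg_right (by linarith [min_le_right (c₁ / 2) (1 : ℝ)]) hε.le
        obtain ⟨-, h2⟩ := hnear _ (hd.trans (hcε.trans h4))
        rw [(S.φ i).left_inv hzs, S.dX_comm] at h2
        refine hψnear z (h2.trans ((mul_le_mul_of_nonneg_left (hd.trans hcε) hCr.le).trans ?_))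
        rw [hC₂, ← mul_assoc]
        refine mul_le_mul_of_nonneg_right ?_ hε.le
        linarith [Finset.sum_nonneg fun l (_ : l ∈ (Finset.univ : Finset (Fin S.n))) =>
          (mul_pos (hCrl l) (hCl l)).le]
      · rw [h0, norm_zero]
        positivity
  have hgm : ∀ k, Measurable (g k) := fun k => by
    refine (PiLp.continuous_toLp 2 (fun _ : Fin 6 => ℝ)).measurable.comp
      (measurable_pi_lambda _ fun j => ?_)
    exact (Setup.continuous_q continuous_fst continuous_snd).measurable.comp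
      (T.meas.prodMk (hB.smooth_meas _ (hsm _ (hαs k _)).1))
  have hle : ∀ {a}, a ≤ C → ∀ {b}, b ≤ a / ε ^ 4 → b ≤ C / ε ^ 4 := fun {a} ha {b} hb =>
    hb.trans (div_le_div_of_nonneg_right ha (by positivity))
  have hgbd : ∀ k z, ‖g k z‖ ≤ C / ε ^ 4 := fun k z => by
    obtain ⟨M, -, -, -, -, -, -, h⟩ := hgz k z
    exact hle hCp.2.2.1 h
  refine ⟨g, fun k => ⟨hgm k, hgbd k⟩, ?_, fun k z => ?_⟩
  · have huK₂ : u ∈ K₂ := huK
    rw [← indicator_of_mem huK₂ (S.rep2 i f)]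
    exact hu.congr fun k => (avg_eq_conv hB T hw hw1 hf hK₂t hF (hgm k) (hgbd k)
      (fun v hv => ⟨(S.φ i).symm v, (hgb k v hv).2.2.2.1, (S.φ i).right_inv (hgb k v hv).2.1⟩)
      (hαs k) (fun β x hx => S.testForm_eq_zero β (Or.inl hx)) (hαrep k) fun j z => rfl).symm
  · obtain ⟨M, h1, h2, h3, h4', h5', h6', -⟩ := hgz k z
    refine ⟨M, h1, hle hCp.1 h2, fun hne => ?_, h4', ?_, h6'⟩
    · obtain ⟨hz, hd⟩ := h3 hne
      refine ⟨hK₁s hz, S.lowSet_subset_tsupport ha₂0 hz, hd.trans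
        (mul_le_mul_of_nonneg_right hCp.2.1 hε.le), ?_⟩
      rw [hsymm, S.dX_comm]
      obtain ⟨-, h⟩ := hnear _ (hd.trans ((mul_le_mul_of_nonneg_right hCp.2.2.2.2 hε.le).trans h4))
      rw [(S.φ i).left_inv (hK₁s hz)] at h
      refine h.trans ((mul_le_mul_of_nonneg_left hd hCr.le).trans ?_)
      rw [← mul_assoc]
      exact mul_le_mul_of_nonneg_right hCp.2.2.2.1 hε.le
    · filter_upwards [h5'] with L hL
      refine hL.trans ?_
      rw [← mul_assoc]
      exact mul_le_mul_of_nonneg_right hCp.1 hε.le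

end Vale.Agent.P204.Gen
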