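import Vale.Agent.P204.Gen.Congr
import Vale.Agent.P204.Gen.PtBounds
import Vale.Agent.P204.Gen.GeoSmooth

/-!
P204 on a closed four-manifold: the congruent images of a normalised positive form, read in a chart
near a point (module 12).
-/

open MeasureTheory Set Filter Topology
open scoped ContDiff

namespace Vale.Agent.P204.Gen

open Vale.Agent.P204.Torus

lemma continuous_pull_left (H : Form) : Continuous fun L : V →L[ℝ] V => pull L H := by
  refine (PiLp.continuous_toLp 2 _).comp (continuous_pi fun k => ?_)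
  have h : ∀ i j, Continuous fun L : V →L[ℝ] V => L (e i) j := fun i j =>
    (continuous_apply j).comp (ContinuousLinearMap.apply ℝ V (e i)).continuous
  exact continuous_finsetSum _ fun j _ =>
    continuous_const.mul (((h _ _).mul (h _ _)).sub ((h _ _).mul (h _ _)))

lemma norm_pull_reg_le (A : V →L[ℝ] V) (α : Form) : ‖pull A α‖ ≤ 72 * ‖A‖ ^ 2 * ‖α‖ := by
  refine (norm_le_of_ev (K := 12 * ‖A‖ ^ 2 * ‖α‖) fun i j => ?_).trans (le_of_eq (by ring))
  rw [ev_pull]
  refine (abs_ev_le _ _ _).trans ?_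
  have h : ∀ i, ‖A (e i)‖ ≤ ‖A‖ := fun i => by simpa [norm_e] using A.le_opNorm (e i)
  calc 12 * (‖α‖ * (‖A (e i)‖ * ‖A (e j)‖)) ≤ 12 * (‖α‖ * (‖A‖ * ‖A‖)) := by
        gcongr <;> apply h
    _ = _ := by ring

variable {X : Type*} [TopologicalSpace X] [MeasurableSpace X]

namespace GSetup

variable (S : GSetup X)

lemma Om_inv (x : X) : piM (S.J x) (S.Om x) = 0 := ((S.pt x).psd_Om 0).1

lemma ev_Om_self (x : X) (u : V) : ev (S.Om x) u (S.J x u) = ev (S.om x) u (S.J x u) :=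
  (S.pt x).ev_piP_self 0 (S.om x) u

lemma q_Om_pos (x : X) : 0 < q (S.Om x) (S.Om x) := by
  have h : 0 < q (S.Om x) (S.Om x) / 2 := (S.pt x).kap_pos 0
  linarith

lemma dT_repE_apply {i : Fin S.n} {u : V} (hu : u ∈ (S.φ i).target) (w : V) :
    S.dT i ((S.φ i).symm u) (S.repE i S.J u w) =
      S.J ((S.φ i).symm u) (S.dT i ((S.φ i).symm u) w) := by
  rw [S.repE_apply S.J hu]
  exact DFunLike.congr_fun (self_comp_inverse (S.dT_det_ne ((S.φ i).map_target hu))) _

/-- The data of a point read in a chart. -/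
noncomputable def chartDatum (i : Fin S.n) (u : V) (hu : u ∈ (S.φ i).target) : Datum where
  J := S.repE i S.J u
  Om := S.rep2 i S.Om u
  sq v := by
    have hd := S.dT_det_ne ((S.φ i).map_target hu)
    have h : ∀ w, (S.dT i ((S.φ i).symm u)).inverse (S.dT i ((S.φ i).symm u) w) = w :=
      fun w => DFunLike.congr_fun (inverse_comp_self hd) w
    rw [← h (S.repE i S.J u (S.repE i S.J u v)), S.dT_repE_apply hu, S.dT_repE_apply hu, S.J_sq, map_neg, h]
  inv := by
    have hd := S.dT_det_ne ((S.φ i).map_target hu)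
    have h : S.rep2 i S.Om u = pull (S.dT i ((S.φ i).symm u)) (S.Om ((S.φ i).symm u)) := if_pos hu
    rw [S.repE_apply S.J hu, h, piM_conj hd, S.Om_inv, pull_zero]
  pos v hv := by
    have hd := S.dT_det_ne ((S.φ i).map_target hu)
    have h : S.rep2 i S.Om u = pull (S.dT i ((S.φ i).symm u)) (S.Om ((S.φ i).symm u)) := if_pos hu
    rw [h, ev_pull, S.dT_repE_apply hu, S.ev_Om_self]
    refine S.tames _ _ fun h0 => hv ?_
    simpa [h0] using (DFunLike.congr_fun (inverse_comp_self hd) v).symm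
  orient := by
    have hs := (S.φ i).map_target hu
    have h : S.rep2 i S.Om u = pull (S.dT i ((S.φ i).symm u)) (S.Om ((S.φ i).symm u)) := if_pos hu
    rw [h, q_pull]
    exact mul_pos (S.dT_det_pos hs) (S.q_Om_pos _)

/-- A normalised positive form of a point, read in a chart. -/
lemma chartDatum_psd {i : Fin S.n} {z : X} (hz : z ∈ (S.φ i).source) {h : Form} (hh : S.Psd z h)
    (htr : q h (S.Om z) = 1) :
    (S.chartDatum i (S.φ i z) ((S.φ i).map_source hz)).Psd (S.formIn i z h) ∧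
      q (S.formIn i z h) (S.rep2 i S.Om (S.φ i z)) = 1 := by
  have ht := (S.φ i).map_source hz
  have hd := S.dT_det_ne hz
  refine ⟨(Datum.psd_iff _ _).2 ⟨?_, fun v => ?_⟩, ?_⟩
  · change piM (S.repE i S.J (S.φ i z)) _ = 0
    rw [S.repE_apply S.J ht, (S.φ i).left_inv hz, Geo.formIn, piM_smul, piM_conj hd, hh.1,
      pull_zero, smul_zero]
  · change 0 ≤ ev _ v (S.repE i S.J (S.φ i z) v)
    have h1 := S.dT_repE_apply ht v
    rw [(S.φ i).left_inv hz] at h1
    rw [Geo.formIn, ev_smul, ev_pull, h1]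
    exact mul_nonneg (inv_nonneg.2 (S.dT_det_pos hz).le) (hh.2 _)
  · rw [S.q_formIn hz]; exact htr

/-- The chart data on the support of the partition: uniform bounds and Lipschitz dependence. -/
lemma exists_chart_bounds [T2Space X] [CompactSpace X] (i : Fin S.n) :
    ∃ c M L : ℝ, 0 < c ∧ 0 < M ∧ 0 ≤ L ∧ ∀ u ∈ S.φ i '' tsupport (S.ψ i),
      ∀ hu : u ∈ (S.φ i).target, (S.chartDatum i u hu).Bdd c M ∧
        ∀ v ∈ S.φ i '' tsupport (S.ψ i),
          ‖S.repE i S.J u - S.repE i S.J v‖ ≤ L * ‖u - v‖ ∧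
          ‖S.rep2 i S.Om u - S.rep2 i S.Om v‖ ≤ L * ‖u - v‖ := by
  set Z := S.φ i '' tsupport (S.ψ i)
  have hZt : Z ⊆ (S.φ i).target := image_subset_iff.2 fun x hx => (S.φ i).map_source (S.ψ_supp i hx)
  have hZc : IsCompact Z := (isClosed_tsupport _).isCompact.image_of_continuousOn
    ((S.φ i).continuousOn.mono (S.ψ_supp i))
  have hlip : ∀ {F : Type} [NormedAddCommGroup F] [NormedSpace ℝ F] (f : V → F),
      ContDiffOn ℝ ∞ f (S.φ i).target →
      ∃ L : ℝ, 0 ≤ L ∧ ∀ u ∈ Z, ∀ v ∈ Z, ‖f u - f v‖ ≤ L * ‖u - v‖ := by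
    intro F _ _ f hf
    have hloc : LocallyLipschitzOn Z f := fun u hu => by
      obtain ⟨L, t, ht, hL⟩ := ((hf.contDiffAt ((S.φ i).open_target.mem_nhds (hZt hu))).of_le
        (WithTop.coe_le_coe.2 le_top : (1 : WithTop ℕ∞) ≤ ∞)).exists_lipschitzOnWith
      exact ⟨L, t, mem_nhdsWithin_of_mem_nhds ht, hL⟩
    obtain ⟨L, hL⟩ := hloc.exists_lipschitzOnWith_of_compact hZc
    exact ⟨L, L.coe_nonneg, fun u hu v hv => by
      simpa [dist_eq_norm] using hL.dist_le_mul u hu v hv⟩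
  obtain ⟨L1, hL1, h1⟩ := hlip _ (S.J_smooth i)
  obtain ⟨L2, hL2, h2⟩ := hlip _ (S.smooth_Om i)
  set K := (fun u => (S.repE i S.J u, S.rep2 i S.om u)) '' Z
  have hKc : IsCompact K := hZc.image_of_continuousOn
    (((S.J_smooth i).continuousOn.prodMk (S.om_smooth i).continuousOn).mono hZt)
  have hsub : K ⊆ tamedPairs := by
    rintro _ ⟨_, ⟨x, hx, rfl⟩, rfl⟩
    refine S.rep_tamed ((S.φ i).map_source (S.ψ_supp i hx)) ?_
    rw [S.q_rep2 (S.ψ_supp i hx)]
    exact mul_nonneg (S.dT_det_pos (S.ψ_supp i hx)).le (S.orient x).le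
  obtain ⟨c, M, hc, hM, hb⟩ := exists_pair_bounds hKc hsub
  refine ⟨c, M, L1 + L2, hc, hM, by positivity, fun u hu hut => ⟨?_, fun v hv => ?_⟩⟩
  · obtain ⟨b1, b2, b3, b4, -, -⟩ := hb _ ⟨u, hu, rfl⟩
    simp only at b1 b2 b3 b4
    rw [← S.rep2_piP S.J S.om hut] at b2 b4
    simp only [← S.rep2_piP S.J S.om hut] at b1
    exact ⟨b1, b2, b3, b4⟩
  · exact ⟨(h1 u hu v hv).trans (by gcongr; linarith), (h2 u hu v hv).trans (by gcongr; linarith)⟩

/-- A normalised positive form moved to a nearby point by a map near the identity. -/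
theorem exists_moved [T2Space X] [CompactSpace X] (i : Fin S.n) {C₁ : ℝ} (hC₁ : 0 < C₁) :
    ∃ K ε₁ : ℝ, 0 < K ∧ 0 < ε₁ ∧ ∀ (ε : ℝ) (x z : X) (L : V →L[ℝ] V) (h : Form),
      0 ≤ ε → ε ≤ ε₁ → x ∈ tsupport (S.ψ i) → z ∈ tsupport (S.ψ i) →
      ‖S.φ i z - S.φ i x‖ ≤ C₁ * ε → ‖L - 1‖ ≤ C₁ * ε → S.Psd z h → q h (S.Om z) = 1 →
      ‖pull L (S.formIn i z h)‖ ≤ K ∧
        ‖piM (S.repE i S.J (S.φ i x)) (pull L (S.formIn i z h))‖ ≤ K * ε ∧
        ∀ v, 0 ≤ ev (pull L (S.formIn i z h)) v (S.repE i S.J (S.φ i x) v) +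
          K * ε ^ 2 * ev (S.rep2 i S.Om (S.φ i x)) v (S.repE i S.J (S.φ i x) v) := by
  obtain ⟨c, M, Lp, hc, hM, hLp, hch⟩ := S.exists_chart_bounds i
  obtain ⟨Cm, hCm, hmove⟩ := exists_move hc hM
  set P := C₁ * (1 + Lp) with hP
  have hP0 : 0 < P := by positivity
  set N := 72 * M ^ 2 / c
  have hN : 0 < N := by positivity
  set K1 := (1 + 72 * (2 + M) * M) * N
  have hK1 : 0 < K1 := by positivity
  refine ⟨K1 + Cm * P + Cm * P ^ 2, M / P, by positivity, by positivity,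
    fun ε x z L h hε hε1 hx hz hzx hL hh htr => ?_⟩
  set K := K1 + Cm * P + Cm * P ^ 2
  have hxs := S.ψ_supp i hx
  have hzs := S.ψ_supp i hz
  obtain ⟨hDb, hlip⟩ := hch _ (mem_image_of_mem _ hx) ((S.φ i).map_source hxs)
  obtain ⟨hDb', -⟩ := hch _ (mem_image_of_mem _ hz) ((S.φ i).map_source hzs)
  obtain ⟨l1, l2⟩ := hlip _ (mem_image_of_mem _ hz)
  obtain ⟨hpsd, htr'⟩ := S.chartDatum_psd hzs hh htr
  set D := S.chartDatum i (S.φ i x) ((S.φ i).map_source hxs)
  set D' := S.chartDatum i (S.φ i z) ((S.φ i).map_source hzs)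
  set H := S.formIn i z h
  have hd : Lp * ‖S.φ i x - S.φ i z‖ ≤ Lp * (C₁ * ε) := by
    rw [norm_sub_rev]; gcongr
  have hε' : C₁ * ε + Lp * (C₁ * ε) = P * ε := by rw [hP]; ring
  have hn : Datum.Near L D D' M (P * ε) := by
    refine ⟨?_, ?_, ?_, ?_⟩
    · have := mul_nonneg hLp (mul_nonneg hC₁.le hε)
      linarith
    · have := mul_nonneg hC₁.le hε
      exact (l1.trans hd).trans (by linarith)
    · have := mul_nonneg hC₁.le hε
      exact (l2.trans hd).trans (by linarith)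
    · rwa [le_div_iff₀ hP0, mul_comm] at hε1
  obtain ⟨m1, m2, -, -⟩ := hmove D D' L H (P * ε) hDb hDb' hn hpsd htr'
  refine ⟨?_, ?_, fun v => ?_⟩
  · have hnorm : ‖H‖ ≤ N := Datum.norm_le hDb' hc hpsd htr'
    have h1 := hn.pull_sub_le H
    have h2 := norm_le_insert' (pull L H) H
    have h3 : 72 * (2 + M) * (P * ε) * ‖H‖ ≤ 72 * (2 + M) * M * N := by
      gcongr
      exact hn.eps_le
    calc ‖pull L H‖ ≤ N + 72 * (2 + M) * M * N := by linarith
      _ = K1 := by ring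
      _ ≤ K := by
        have h4 : 0 < Cm * P := by positivity
        have h5 : 0 < Cm * P ^ 2 := by positivity
        linarith
  · refine m2.trans ?_
    rw [← mul_assoc]
    refine mul_le_mul_of_nonneg_right ?_ hε
    have h5 : 0 < Cm * P ^ 2 := by positivity
    linarith
  · have h1 := m1.2 v
    change 0 ≤ ev _ v (D.J v) at h1
    rw [ev_add, ev_smul] at h1
    have h2 : ev (piP D.J (pull L H)) v (D.J v) = ev (pull L H) v (D.J v) := by
      simpa [Datum.setup] using D.setup.ev_piP_self 0 (pull L H) v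
    rw [h2] at h1
    refine le_trans h1 (add_le_add_right ?_ _)
    refine mul_le_mul_of_nonneg_right ?_
      ((mul_nonneg hc.le (sq_nonneg ‖v‖)).trans (hDb.lower v))
    rw [mul_pow, ← mul_assoc]
    refine mul_le_mul_of_nonneg_right ?_ (sq_nonneg ε)
    have h4 : 0 < Cm * P := by positivity
    linarith

end GSetup

end Vale.Agent.P204.Gen
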