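import Vale.Agent.P204.Gen.ChartVolume
import Vale.Agent.P204.Gen.RegPoint

/-!
P204 on a closed four-manifold: the pointwise bounds of the regularised weighted currents
(module 12), from their pointwise representation.
-/

open MeasureTheory Set Filter Topology
open scoped BigOperators

namespace Vale.Agent.P204.Gen

open Vale.Agent.P204.Torus

/-- The forms `pull L H` for `L` near the identity are integrable for a finite measure. -/
lemma integrable_pull {M : Measure (V →L[ℝ] V)} [IsFiniteMeasure M] {δ : ℝ}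
    (hM : ∀ᵐ L ∂M, ‖L - 1‖ ≤ δ) (H : Form) : Integrable (fun L => pull L H) M := by
  refine Integrable.of_bound (continuous_pull_left H).aestronglyMeasurable
    (72 * (δ + 1) ^ 2 * ‖H‖) ?_
  filter_upwards [hM] with L hL
  refine (norm_pull_reg_le L H).trans ?_
  have h1 : ‖L‖ ≤ δ + 1 := by
    have h2 := norm_le_insert' L (1 : V →L[ℝ] V)
    have h3 : ‖(1 : V →L[ℝ] V)‖ ≤ 1 := ContinuousLinearMap.norm_id_le
    linarith
  gcongr

namespace Positive

variable {X : Type*} [TopologicalSpace X] [MeasurableSpace X] {S : GSetup X} (T : Positive S)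

/-- Linear functionals of a weighted sum of averages which are supported in a set. -/
lemma norm_weighted_le {Y : Type*} [NormedAddCommGroup Y] [NormedSpace ℝ Y] [CompleteSpace Y]
    (Φ : Form →L[ℝ] Y) {w : X → ℝ} (hw : Measurable w) (hb : ∀ y, |w y| ≤ 1)
    {g : X → Form} (hg : Measurable g) {B : ℝ} (hgb : ∀ z, ‖g z‖ ≤ B) {A : Set X}
    (hA : MeasurableSet A) {b : ℝ}
    (hin : ∀ z ∈ A, ‖Φ (g z)‖ ≤ b) (hout : ∀ z ∉ A, g z = 0) :
    Integrable (fun z => w z • g z) T.ν ∧
      ‖Φ (∫ z, w z • g z ∂T.ν)‖ ≤ b * ∫ z in A, |w z| ∂T.ν := by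
  have := T.finite
  have hi : Integrable (fun z => w z • g z) T.ν :=
    Integrable.of_bound (hw.smul hg).aestronglyMeasurable B (Eventually.of_forall fun z => by
      rw [norm_smul, Real.norm_eq_abs]
      exact (mul_le_mul (hb z) (hgb z) (norm_nonneg _) zero_le_one).trans_eq (one_mul B))
  refine ⟨hi, ?_⟩
  rw [← Φ.integral_comp_comm hi, ← integral_const_mul, ← integral_indicator hA]
  refine norm_integral_le_of_norm_le ?_ (Eventually.of_forall fun z => ?_)
  · refine (((Integrable.of_bound hw.norm.aestronglyMeasurable 1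
      (Eventually.of_forall fun z => by simpa using hb z)).const_mul b)).indicator hA
  · rw [map_smul, norm_smul, Real.norm_eq_abs]
    by_cases hz : z ∈ A
    · rw [indicator_of_mem hz, mul_comm b]
      exact mul_le_mul_of_nonneg_left (hin z hz) (abs_nonneg _)
    · rw [indicator_of_notMem hz, hout z hz, map_zero, norm_zero, mul_zero]

/-- A lower bound for a functional of a nonnegatively weighted sum of averages. -/
lemma le_weighted {Φ : Form →L[ℝ] ℝ} {w : X → ℝ} (hw : Measurable w) (hb : ∀ y, |w y| ≤ 1)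
    (hw0 : ∀ y, 0 ≤ w y) {g : X → Form} {A : Set X} (hA : MeasurableSet A) {b : ℝ}
    (hi : Integrable (fun z => w z • g z) T.ν)
    (hin : ∀ z ∈ A, -b ≤ Φ (g z)) (hout : ∀ z ∉ A, g z = 0) :
    -(b * ∫ z in A, |w z| ∂T.ν) ≤ Φ (∫ z, w z • g z ∂T.ν) := by
  have := T.finite
  rw [← Φ.integral_comp_comm hi, ← integral_const_mul, ← integral_indicator hA, ← integral_neg]
  refine integral_mono (((Integrable.of_bound hw.norm.aestronglyMeasurable 1
    (Eventually.of_forall fun z => by simpa using hb z)).const_mul b).indicator hA).neg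
    (Φ.integrable_comp hi) fun z => ?_
  rw [map_smul, smul_eq_mul]
  by_cases hz : z ∈ A
  · simp only [indicator_of_mem hz, abs_of_nonneg (hw0 z)]
    nlinarith [hin z hz, hw0 z]
  · simp [indicator_of_notMem hz, hout z hz]

variable [T2Space X] [CompactSpace X] [BorelSpace X]

/-- The bounds in one chart, at almost every point of its core. -/
lemma exists_reg_chart (hP : PointRep T) (i : Fin S.n) :
    ∃ K R ε₁ : ℝ, 0 < K ∧ 0 < R ∧ 0 < ε₁ ∧ ∀ ε, 0 < ε → ε ≤ ε₁ → ∀ w : X → ℝ, Measurable w →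
      (∀ y, |w y| ≤ 1) → ∀ f, T.RegRep w ε f →
      ∀ᵐ u ∂volume.restrict (S.φ i '' S.coreSet i), u ∈ S.φ i '' S.coreSet i →
        ∀ I, (∫ z in {z | S.dX z ((S.φ i).symm u) ≤ R * ε}, |w z| ∂T.ν) / ε ^ 4 ≤ I →
          ‖S.rep2 i f u‖ ≤ K * I ∧
          ‖piM (S.repE i S.J u) (S.rep2 i f u)‖ ≤ K * ε * I ∧
          ((∀ y, 0 ≤ w y) → ∀ v, 0 ≤ ev (S.rep2 i f u) v (S.repE i S.J u v) +
            K * ε ^ 2 * I * ev (S.rep2 i S.Om u) v (S.repE i S.J u v)) := by
  obtain ⟨C, c, e1, hC, -, he1, hrep⟩ := hP i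
  obtain ⟨K₀, e2, hK₀, he2, hgood⟩ := S.exists_moved i hC
  refine ⟨K₀ * C, C, min e1 e2, by positivity, hC, lt_min he1 he2,
    fun ε hε hle w hw hb f hf => ?_⟩
  obtain ⟨h1, h2⟩ := le_min_iff.1 hle
  filter_upwards [hrep ε hε h1 w hw hb f hf] with u hu huc I hI
  obtain ⟨x, hx, rfl⟩ := huc
  have hxs := S.coreSet_source i hx
  rw [(S.φ i).left_inv hxs] at hI
  obtain ⟨g, hg, hlim, hM⟩ := hu
  set A := {z | S.dX z x ≤ C * ε}
  have hA : MeasurableSet A := (isClosed_le (S.continuous_dX_left x) continuous_const).measurableSet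
  set J := S.repE i S.J (S.φ i x)
  set Om := S.rep2 i S.Om (S.φ i x)
  have hK0I : ∀ {a : ℝ}, 0 ≤ a → a * K₀ * C / ε ^ 4 * ∫ z in A, |w z| ∂T.ν ≤ a * (K₀ * C) * I := by
    intro a ha
    calc a * K₀ * C / ε ^ 4 * ∫ z in A, |w z| ∂T.ν
        = a * (K₀ * C) * ((∫ z in A, |w z| ∂T.ν) / ε ^ 4) := by ring
      _ ≤ _ := mul_le_mul_of_nonneg_left hI (by positivity)
  -- what one average satisfies
  have hone : ∀ k z, (z ∉ A → g k z = 0) ∧ ‖g k z‖ ≤ K₀ * C / ε ^ 4 ∧
      ‖piML J (g k z)‖ ≤ ε * K₀ * C / ε ^ 4 ∧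
      ∀ (ℓ : Form →L[ℝ] ℝ) (v : V), (∀ H, ℓ H = ev H v (J v)) →
        -(ε ^ 2 * ev Om v (J v) * K₀ * C / ε ^ 4) ≤ ℓ (g k z) := by
    intro k z
    obtain ⟨M, hfin, hmass, hsupp, -, hL, hgk⟩ := hM k z
    have hxd := (S.φ i).map_source hxs
    have hO : ∀ v, 0 ≤ ev Om v (J v) := fun v => by
      rcases eq_or_ne v 0 with rfl | hv
      · simp [ev_def]
      · exact ((S.chartDatum i _ hxd).pos v hv).le
    by_cases hM0 : M = 0
    · rw [hgk, hM0]
      simp only [integral_zero_measure, map_zero, norm_zero]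
      refine ⟨fun _ => trivial, by positivity, by positivity, fun ℓ v _ => ?_⟩
      have := hO v
      have : 0 ≤ ε ^ 2 * ev Om v (J v) * K₀ * C / ε ^ 4 := by positivity
      linarith
    obtain ⟨hzs, hzψ, hzu, hzx⟩ := hsupp hM0
    rw [(S.φ i).left_inv hxs] at hzx
    refine ⟨fun hz => absurd hzx hz, ?_⟩
    have hint := integrable_pull hL (S.formIn i z (T.h z))
    have hall : ∀ᵐ L ∂M, ‖pull L (S.formIn i z (T.h z))‖ ≤ K₀ ∧
        ‖piM J (pull L (S.formIn i z (T.h z)))‖ ≤ K₀ * ε ∧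
        ∀ v, 0 ≤ ev (pull L (S.formIn i z (T.h z))) v (J v) + K₀ * ε ^ 2 * ev Om v (J v) := by
      filter_upwards [hL] with L hL
      exact hgood ε x z L (T.h z) hε.le h2 (S.coreSet_subset i hx) hzψ hzu hL (T.psd z) (T.trace z)
    rw [hgk]
    refine ⟨?_, ?_, fun ℓ v hℓ => ?_⟩
    · refine (norm_integral_le_of_norm_le_const (hall.mono fun L h => h.1)).trans ?_
      rw [mul_div_assoc]
      exact mul_le_mul_of_nonneg_left hmass hK₀.le
    · rw [← (piML J).integral_comp_comm hint]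
      refine (norm_integral_le_of_norm_le_const (hall.mono fun L h => ?_)).trans
        ((mul_le_mul_of_nonneg_left hmass (mul_nonneg hK₀.le hε.le)).trans_eq (by ring))
      simpa using h.2.1
    · rw [← ℓ.integral_comp_comm hint]
      have h3 : ∀ᵐ L ∂M, -(K₀ * ε ^ 2 * ev Om v (J v)) ≤ ℓ (pull L (S.formIn i z (T.h z))) := by
        filter_upwards [hall] with L h
        rw [hℓ]
        linarith [h.2.2 v]
      have h4 := integral_mono_ae (integrable_const _) (ℓ.integrable_comp hint) h3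
      rw [integral_const, smul_eq_mul] at h4
      refine le_trans ?_ h4
      have h5 := mul_le_mul_of_nonneg_left hmass
        (mul_nonneg (mul_nonneg hK₀.le (sq_nonneg ε)) (hO v))
      calc -(ε ^ 2 * ev Om v (J v) * K₀ * C / ε ^ 4)
          = -(K₀ * ε ^ 2 * ev Om v (J v) * (C / ε ^ 4)) := by ring
        _ ≤ -(K₀ * ε ^ 2 * ev Om v (J v) * M.real univ) := neg_le_neg h5
        _ = _ := by ring
  have hgi : ∀ k, Integrable (fun z => w z • g k z) T.ν := fun k =>
    (T.norm_weighted_le (ContinuousLinearMap.id ℝ Form) hw hb (hg k).1 (hg k).2 hA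
      (b := K₀ * C / ε ^ 4) (fun z _ => (hone k z).2.1) (fun z hz => (hone k z).1 hz)).1
  refine ⟨?_, ?_, fun hw0 v => ?_⟩
  · refine le_of_tendsto hlim.norm (Eventually.of_forall fun k => ?_)
    refine ((T.norm_weighted_le (ContinuousLinearMap.id ℝ Form) hw hb (hg k).1 (hg k).2 hA
      (b := 1 * K₀ * C / ε ^ 4) (fun z _ => by rw [one_mul]; exact (hone k z).2.1)
      (fun z hz => (hone k z).1 hz)).2).trans ?_
    simpa using hK0I zero_le_one
  · rw [← piML_apply]
    refine le_of_tendsto (((piML J).continuous.tendsto _).comp hlim).norm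
      (Eventually.of_forall fun k => ?_)
    refine ((T.norm_weighted_le (piML J) hw hb (hg k).1 (hg k).2 hA
      (b := ε * K₀ * C / ε ^ 4) (fun z _ => (hone k z).2.2.1) (fun z hz => (hone k z).1 hz)).2).trans
      ((hK0I hε.le).trans_eq (by ring))
  · let ℓ : Form →L[ℝ] ℝ := LinearMap.toContinuousLinearMap
      { toFun := fun H => ev H v (J v)
        map_add' := fun a b => ev_add a b v (J v)
        map_smul' := fun a b => ev_smul a b v (J v) }
    have hℓ : ∀ H, ℓ H = ev H v (J v) := fun H => rfl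
    have hO : 0 ≤ ev Om v (J v) := by
      rcases eq_or_ne v 0 with rfl | hv
      · simp [ev_def]
      · exact ((S.chartDatum i _ ((S.φ i).map_source hxs)).pos v hv).le
    rw [← hℓ, ← neg_le_iff_add_nonneg]
    refine ge_of_tendsto ((ℓ.continuous.tendsto _).comp hlim) (Eventually.of_forall fun k => ?_)
    refine le_trans ?_ (T.le_weighted hw hb hw0 hA (hgi k)
      (fun z _ => (hone k z).2.2.2 ℓ v hℓ) (fun z hz => (hone k z).1 hz))
    refine neg_le_neg ((hK0I (mul_nonneg (sq_nonneg ε) hO)).trans_eq ?_)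
    ring

/-- Almost everywhere on the core of a chart, from almost everywhere in its coordinates. -/
lemma _root_.Vale.Agent.P204.Gen.Geo.ae_core {G : Geo X} (i : Fin G.n) {P : V → Prop}
    (h : ∀ᵐ u ∂volume.restrict (G.φ i '' G.coreSet i), P u) :
    ∀ᵐ x ∂G.μ, x ∈ G.coreSet i → P (G.φ i x) := by
  obtain ⟨C, -, hle⟩ := G.exists_core_le i
  have hK : MeasurableSet (G.φ i '' G.coreSet i) :=
    ((G.isClosed_coreSet i).isCompact.image_of_continuousOn
      ((G.φ i).continuousOn.mono (G.coreSet_source i))).measurableSet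
  obtain ⟨N, hN, hNm, hN0⟩ := exists_measurable_superset_of_null (ae_iff.1 h)
  rw [Measure.restrict_apply hNm] at hN0
  have h0 := hle _ (hNm.inter hK)
  rw [hN0, mul_zero, nonpos_iff_eq_zero] at h0
  refine ae_iff.2 (measure_mono_null (fun x hx => ?_) h0)
  simp only [mem_ofPred_eq, Classical.not_imp] at hx
  exact ⟨hx.1, hN hx.2, mem_image_of_mem _ hx.1⟩

/-- Module 12: the pointwise bounds of the regularised weighted currents. -/
theorem regBound (hP : PointRep T) : RegBound T := by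
  choose K R e hK hR he hch using T.exists_reg_chart hP
  choose A hA0 hA using fun i => S.exists_dT_inv_bound i
  rcases isEmpty_or_nonempty X with hX | hX
  · exact ⟨1, 1, 1, one_pos, one_pos, one_pos, fun ε _ _ w _ _ f _ =>
      Eventually.of_forall fun x => isEmptyElim x⟩
  have hne : (Finset.univ : Finset (Fin S.n)).Nonempty :=
    ⟨S.tr (Classical.arbitrary X), Finset.mem_univ _⟩
  set R0 := ∑ i, R i
  have hR0 : 0 < R0 := Finset.sum_pos (fun i _ => hR i) hne
  set C := ∑ i, (72 * A i ^ 2 + 1) * K i * R0 ^ 4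
  have hC : 0 < C := Finset.sum_pos (fun i _ => by have := hK i; positivity) hne
  refine ⟨C, R0, Finset.univ.inf' hne e, hC, hR0, (Finset.lt_inf'_iff _).2 fun i _ => he i,
    fun ε hε hle w hw hb f hf => ?_⟩
  have hall : ∀ᵐ x ∂S.μ, ∀ i, x ∈ S.coreSet i →
      ∀ I, (∫ z in {z | S.dX z ((S.φ i).symm (S.φ i x)) ≤ R i * ε}, |w z| ∂T.ν) / ε ^ 4 ≤ I →
          ‖S.rep2 i f (S.φ i x)‖ ≤ K i * I ∧
          ‖piM (S.repE i S.J (S.φ i x)) (S.rep2 i f (S.φ i x))‖ ≤ K i * ε * I ∧
          ((∀ y, 0 ≤ w y) → ∀ v,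
            0 ≤ ev (S.rep2 i f (S.φ i x)) v (S.repE i S.J (S.φ i x) v) +
              K i * ε ^ 2 * I * ev (S.rep2 i S.Om (S.φ i x)) v (S.repE i S.J (S.φ i x) v)) := by
    refine ae_all_iff.2 fun i => ?_
    filter_upwards [Geo.ae_core i (hch i ε hε
      (hle.trans (Finset.inf'_le _ (Finset.mem_univ i))) w hw hb f hf)] with x hx hxc
    exact hx hxc (mem_image_of_mem _ hxc)
  filter_upwards [hall] with x hx
  obtain ⟨i, hi⟩ := S.exists_psi_ge x
  have hxc := S.mem_coreSet_of_ge hi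
  have hxs := S.coreSet_source i hxc
  have ht := (S.φ i).map_source hxs
  have := T.finite
  set B := T.ball4W w (R0 * ε) x with hBdef
  have hB : 0 ≤ B := div_nonneg (integral_nonneg fun _ => abs_nonneg _) (by positivity)
  obtain ⟨h1, h2, h3⟩ := hx i hxc (R0 ^ 4 * B) (by
    rw [(S.φ i).left_inv hxs, hBdef, Positive.ball4W,
      show R0 ^ 4 * ((∫ z in {z | S.dX z x ≤ R0 * ε}, |w z| ∂T.ν) / (R0 * ε) ^ 4) =
        (∫ z in {z | S.dX z x ≤ R0 * ε}, |w z| ∂T.ν) / ε ^ 4 by
        rw [mul_pow]; field_simp]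
    refine div_le_div_of_nonneg_right (setIntegral_mono_set ?_
      (Eventually.of_forall fun z => abs_nonneg _) (Eventually.of_forall fun z hz => ?_))
      (by positivity)
    · exact (Integrable.of_bound hw.norm.aestronglyMeasurable 1
        (Eventually.of_forall fun z => by simpa using hb z)).integrableOn
    · exact le_trans (show S.dX z x ≤ R i * ε from hz) (mul_le_mul_of_nonneg_right
        (Finset.single_le_sum (fun j _ => (hR j).le) (Finset.mem_univ i)) hε.le))
  have hAi : 72 * ‖(S.dT i x).inverse‖ ^ 2 ≤ 72 * A i ^ 2 := by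
    have := hA i x (S.coreSet_subset i hxc)
    gcongr
  have hCi : (72 * A i ^ 2 + 1) * K i * R0 ^ 4 ≤ C :=
    Finset.single_le_sum (f := fun i => (72 * A i ^ 2 + 1) * K i * R0 ^ 4)
      (fun j _ => by have := (hK j).le; positivity) (Finset.mem_univ i)
  have hKi := (hK i).le
  have hmove : ∀ {α : Form} {β : ℝ}, 0 ≤ β → ‖α‖ ≤ K i * (β * (R0 ^ 4 * B)) →
      ‖pull (S.dT i x).inverse α‖ ≤ C * β * B := by
    intro α β hβ hα
    refine (norm_pull_reg_le _ _).trans ((mul_le_mul hAi hα (norm_nonneg _) (by positivity)).trans ?_)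
    calc 72 * A i ^ 2 * (K i * (β * (R0 ^ 4 * B))) = 72 * A i ^ 2 * K i * R0 ^ 4 * (β * B) := by ring
      _ ≤ C * (β * B) := mul_le_mul_of_nonneg_right (le_trans (by
          have : 0 ≤ K i * R0 ^ 4 := by positivity
          linarith) hCi) (by positivity)
      _ = _ := by ring
  refine ⟨?_, ?_, fun hw0 => ⟨?_, fun v => ?_⟩⟩
  · rw [S.eq_pull_rep2 f hxs]
    simpa using hmove zero_le_one (by simpa using h1)
  · rw [S.eq_pull_rep2 (fun y => piM (S.J y) (f y)) hxs, S.rep2_piM S.J f ht]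
    exact hmove hε.le (h2.trans_eq (by ring))
  · have e1 : piM (S.J x) (piP (S.J x) (f x)) = 0 := (S.pt x).piM_piP 0 _
    rw [piM_add, piM_smul, e1, S.Om_inv, smul_zero, add_zero]
  · rw [ev_add, ev_smul, show ev (piP (S.J x) (f x)) v (S.J x v) = ev (f x) v (S.J x v) from
      (S.pt x).ev_piP_self 0 (f x) v]
    have hd := S.dT_det_ne hxs
    set u := (S.dT i x).inverse v with hu
    have hv : S.dT i x u = v := DFunLike.congr_fun (self_comp_inverse hd) v
    have hJ := S.dT_repE_apply ht u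
    rw [(S.φ i).left_inv hxs, hv] at hJ
    have h4 := h3 hw0 u
    rw [S.rep2_apply f hxs, S.rep2_apply S.Om hxs, ev_pull, ev_pull, hJ, hv] at h4
    refine h4.trans (add_le_add_right ?_ _)
    have hO : 0 ≤ ev (S.Om x) v (S.J x v) := ((S.pt x).psd_Om 0).2 v
    refine mul_le_mul_of_nonneg_right ?_ hO
    calc K i * ε ^ 2 * (R0 ^ 4 * B) = K i * R0 ^ 4 * (ε ^ 2 * B) := by ring
      _ ≤ C * (ε ^ 2 * B) := mul_le_mul_of_nonneg_right (le_trans (by
          have : 0 ≤ 72 * A i ^ 2 * (K i * R0 ^ 4) := by positivity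
          linarith) hCi) (by positivity)
      _ = _ := by ring

end Positive

end Vale.Agent.P204.Gen
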