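import Vale.Agent.P204.Gen.RegEst
import Vale.Agent.P204.Gen.EnergyBase

/-!
P204 on a closed four-manifold, module RegEst: smooth closed fields are dense among square
integrable weakly closed fields, and with it all fields of `RegFacts`.

The regularisations of smooth approximations converge in square mean and are bounded in every
order, so the regularisation of the limit is smooth; it is closed because the transpose of the
regulariser commutes with `d`.
-/

open MeasureTheory Set Filter Topology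
open scoped ContDiff RealInnerProductSpace

namespace Vale.Agent.P204.Gen

open Vale.Agent.P204.Torus

lemma integral_norm_sq_eq {Ω : Type*} [MeasurableSpace Ω] {μ : Measure Ω} {f : Ω → Form}
    (hf : MemLp f 2 μ) : ∫ x, ‖f x‖ ^ 2 ∂μ = ‖hf.toLp f‖ ^ 2 := by
  rw [← real_inner_self_eq_norm_sq, L2.inner_def]
  refine integral_congr_ae ?_
  filter_upwards [hf.coeFn_toLp] with x hx
  rw [hx, real_inner_self_eq_norm_sq]

namespace Geo

variable {X : Type*} [TopologicalSpace X] [MeasurableSpace X] [BorelSpace X] [T2Space X]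
  [CompactSpace X] {G : Geo X}

omit [BorelSpace X] [T2Space X] [CompactSpace X] in
lemma n2_sub_le {f g h : X → Form} (hf : MemLp f 2 G.μ) (hg : MemLp g 2 G.μ) (hh : MemLp h 2 G.μ) :
    G.n2 (fun x => f x - h x) ≤ G.n2 (fun x => f x - g x) + G.n2 (fun x => g x - h x) := by
  change G.n2 (f - h) ≤ G.n2 (f - g) + G.n2 (g - h)
  rw [n2_eq_norm (hf.sub hh), n2_eq_norm (hf.sub hg), n2_eq_norm (hg.sub hh),
    MemLp.toLp_sub hf hh, MemLp.toLp_sub hf hg, MemLp.toLp_sub hg hh]
  exact norm_sub_le_norm_sub_add_norm_sub _ _ _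

/-- A field of the chart, cut off and read on `X`, in square mean. -/
theorem exists_fromChart2_le (G : Geo X) (i : Fin G.n) :
    ∃ C, 0 ≤ C ∧ ∀ h : V → Form, ContDiff ℝ ∞ h →
      ∫ x, ‖G.fromChart2 i (fun u => G.χ i u • h u) x‖ ^ 2 ∂G.μ ≤ C * ∫ u in cube, ‖h u‖ ^ 2 := by
  obtain ⟨B, hB, hb⟩ := G.exists_dT_bound i (G.isCompact_supX i) (G.supX_subset i)
  refine ⟨B * B ^ 2, by positivity, fun h hh => ?_⟩
  set g : V → Form := fun u => G.χ i u • h u
  have hg : ContDiff ℝ ∞ g := (G.χ_smooth i).smul hh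
  have hgs : tsupport g ⊆ tsupport (G.χ i) := tsupport_smul_subset_left _ _
  have hgc : HasCompactSupport g := (G.χ_cpt i).smul_right
  have hsm : G.Smooth2 (G.fromChart2 i g) :=
    smooth2_fromChart2 hg hgc (hgs.trans (G.χ_supp i))
  have hi : Integrable (fun x => ‖G.fromChart2 i g x‖ ^ 2) G.μ :=
    (memLp_smooth2 hsm).norm.integrable_sq
  rw [← setIntegral_eq_integral_of_forall_compl_eq_zero (s := (G.φ i).source)
    (fun x hx => by simp [fromChart2, hx]), G.integral_chart i hi.aestronglyMeasurable,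
    ← integral_const_mul]
  have hcube : IntegrableOn (fun u => B * B ^ 2 * ‖h u‖ ^ 2) cube :=
    (((hh.continuous.norm.pow 2).const_mul _).integrableOn_Icc.mono_set
      (fun u hu => ⟨fun k => (hu k (mem_univ k)).1, fun k => (hu k (mem_univ k)).2.le⟩) :
      IntegrableOn _ cube)
  refine le_trans ?_ (setIntegral_mono_set hcube (Eventually.of_forall fun u => by positivity)
    (Eventually.of_forall fun u hu => (G.target_sub i).trans Q0_subset_cube hu))
  refine setIntegral_mono_on (integrable_chart hi)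
    (hcube.mono_set ((G.target_sub i).trans Q0_subset_cube)) (G.φ i).open_target.measurableSet
    fun u hu => ?_
  have hx : (G.φ i).symm u ∈ (G.φ i).source := (G.φ i).map_target hu
  simp only [fromChart2, hx, if_true, (G.φ i).right_inv hu, jac, smul_eq_mul]
  by_cases hs : u ∈ tsupport (G.χ i)
  · obtain ⟨h1, -, h3⟩ := hb ((G.φ i).symm u) ⟨u, hs, rfl⟩
    set A := G.dT i ((G.φ i).symm u)
    have h4 : ‖pull A.inverse (g u)‖ ≤ B * ‖h u‖ := by
      refine (h3 _).2.trans ?_
      rw [pull_inverse_pull (G.dT_det_ne hx)]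
      refine mul_le_mul_of_nonneg_left ?_ hB.le
      rw [norm_smul, Real.norm_eq_abs, abs_of_nonneg (G.χ_range i u).1]
      exact mul_le_of_le_one_left (norm_nonneg _) (G.χ_range i u).2
    calc A.det * ‖pull A.inverse (g u)‖ ^ 2 ≤ B * (B * ‖h u‖) ^ 2 :=
          mul_le_mul h1 (pow_le_pow_left₀ (norm_nonneg _) h4 2) (sq_nonneg _) hB.le
      _ = _ := by ring
  · simp only [g, image_eq_zero_of_notMem_tsupport hs, zero_smul, pull_zero, norm_zero, ne_eq,
      OfNat.ofNat_ne_zero, not_false_eq_true, zero_pow, mul_zero]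
    positivity

omit [BorelSpace X] [T2Space X] [CompactSpace X] in
lemma sum_fromChart2 (α : X → Form) (x : X) :
    ∑ i, G.fromChart2 i (fun u => G.χ i u • G.locF i α u) x = α x := by
  have h : ∀ i, G.fromChart2 i (fun u => G.χ i u • G.locF i α u) x = G.ψ i x • α x := by
    intro i
    by_cases hx : x ∈ tsupport (G.ψ i)
    · have hs := G.ψ_supp i hx
      have hu := (G.φ i).map_source hs
      simp only [fromChart2, hs, if_true, (G.χ_one i x hx).self_of_nhds, one_smul, locF,
        pext_eq_self _ ((G.target_sub i).trans Q0_subset_cube hu), G.rep2_apply _ hs,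
        pull_pull_inverse (G.dT_det_ne hs)]
    · rw [image_eq_zero_of_notMem_tsupport hx, zero_smul, fromChart2]
      split
      · rename_i hs
        simp only [locF, pext_eq_self _ ((G.target_sub i).trans Q0_subset_cube ((G.φ i).map_source hs)),
          G.rep2_apply _ hs, image_eq_zero_of_notMem_tsupport hx, zero_smul, pull_zero, smul_zero]
      · rfl
  rw [Finset.sum_congr rfl fun i _ => h i, ← Finset.sum_smul, G.ψ_sum, one_smul]

/-- The limit of smooth fields which is Cauchy in square mean and bounded in every order is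
smooth. -/
theorem exists_smooth_limit (G : Geo X) {v : ℕ → X → Form} (hv : ∀ n, G.Smooth2 (v n))
    (hc : ∀ δ > 0, ∃ N, ∀ m ≥ N, ∀ n ≥ N, G.n2 (fun x => v m x - v n x) < δ)
    (hb : ∀ k, ∃ B, ∀ n, G.sob k 1 (v n) ≤ B) :
    ∃ u, G.Smooth2 u ∧ Tendsto (fun n => G.n2 (fun x => v n x - u x)) atTop (𝓝 0) := by
  obtain ⟨Cz, hCz, hz⟩ := G.exists_sob_zero
  choose B hB using hb
  have hB0 : ∀ k, 0 ≤ B k := fun k => (sob_nonneg' _ _ _).trans (hB k 0)
  -- the limits in the charts
  have h : ∀ i, ∃ w, Smooth w ∧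
      Tendsto (fun n => ∫ u in cube, ‖G.locF i (v n) u - w u‖ ^ 2) atTop (𝓝 0) := by
    intro i
    set F : ℕ → V → Form := fun n => G.locF i (v n)
    have hF : ∀ n, Smooth (F n) := fun n => G.smooth_locF i (hv n)
    set T : ℕ → Lp Form 2 (volume.restrict cube) := fun n => ((hF n).memLp 2).toLp (F n)
    have hd : ∀ m n, ‖T m - T n‖ ≤ Cz * G.n2 (fun x => v m x - v n x) := by
      intro m n
      refine le_trans ?_ (hz 1 _ ((hv m).sub (hv n))).1
      refine (sq_le_sq₀ (norm_nonneg _) (sob_nonneg' _ _ _)).1 ?_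
      rw [← MemLp.toLp_sub, ← integral_norm_sq_eq (((hF m).memLp 2).sub ((hF n).memLp 2)), sob_sq]
      refine le_trans (le_of_eq ?_) (Finset.single_le_sum (f := fun j => hsq 0 1 (G.locF j (v m - v n)))
        (fun j _ => hsq_nonneg 0 1 _) (Finset.mem_univ i))
      have hadd : G.locF i (v m) = fun u => G.locF i (v m - v n) u + G.locF i (v n) u := by
        rw [← locF_add, sub_add_cancel]
      simp only [hsq, F, Pi.sub_apply, hadd, add_sub_cancel_right]
    have hT : CauchySeq T := Metric.cauchySeq_iff.2 fun δ hδ => by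
      obtain ⟨N, hN⟩ := hc (δ / (Cz + 1)) (by positivity)
      refine ⟨N, fun m hm n hn => ?_⟩
      rw [dist_eq_norm]
      calc ‖T m - T n‖ ≤ Cz * G.n2 (fun x => v m x - v n x) := hd m n
        _ ≤ Cz * (δ / (Cz + 1)) := mul_le_mul_of_nonneg_left (hN m hm n hn).le hCz
        _ < δ := by rw [← mul_div_assoc, div_lt_iff₀ (by positivity)]; nlinarith
    obtain ⟨L, hL⟩ := cauchySeq_tendsto_of_complete hT
    have e : ∀ n, ∫ u in cube, ‖F n u - L u‖ ^ 2 = ‖T n - L‖ ^ 2 := fun n => by
      have h2 := integral_norm_sq_eq (((hF n).memLp 2).sub (Lp.memLp L))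
      rw [MemLp.toLp_sub ((hF n).memLp 2) (Lp.memLp L), Lp.toLp_coeFn] at h2
      exact h2
    have hlim : Tendsto (fun n => ∫ u in cube, ‖F n u - L u‖ ^ 2) atTop (𝓝 0) := by
      simp only [e]
      simpa using (tendsto_iff_norm_sub_tendsto_zero.1 hL).pow 2
    obtain ⟨w, hw, hwL, -⟩ := exists_smooth_of_bound (Lp.memLp L) hF hlim
      (B := fun k => B k ^ 2) fun k n => by
        refine le_trans ?_ (pow_le_pow_left₀ (sob_nonneg' _ _ _) (hB k n) 2)
        rw [sob_sq]
        exact Finset.single_le_sum (f := fun j => hsq k 1 (G.locF j (v n)))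
          (fun j _ => hsq_nonneg k 1 _) (Finset.mem_univ i)
    refine ⟨w, hw, hlim.congr fun n => integral_congr_ae ?_⟩
    filter_upwards [hwL] with u hu
    rw [hu]
  choose w hw hlim using h
  set U : Fin G.n → X → Form := fun i => G.fromChart2 i fun u => G.χ i u • w i u
  have hU : ∀ i, G.Smooth2 (U i) := fun i =>
    smooth2_fromChart2 ((G.χ_smooth i).smul (hw i).smooth) (G.χ_cpt i).smul_right
      ((tsupport_smul_subset_left _ _).trans (G.χ_supp i))
  refine ⟨∑ i, U i, Smooth2.sum _ fun i _ => hU i, ?_⟩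
  choose C hC hC' using fun i => G.exists_fromChart2_le i
  have hbnd : ∀ n, G.n2 (fun x => v n x - (∑ i, U i) x) ≤
      Real.sqrt (G.n * ∑ i, C i * ∫ u in cube, ‖G.locF i (v n) u - w i u‖ ^ 2) := by
    intro n
    set E : Fin G.n → X → Form := fun i =>
      G.fromChart2 i fun u => G.χ i u • (G.locF i (v n) u - w i u)
    have hs : ∀ i, ContDiff ℝ ∞ fun u => G.locF i (v n) u - w i u := fun i =>
      (G.smooth_locF i (hv n)).smooth.sub (hw i).smooth
    have hE : ∀ i, G.Smooth2 (E i) := fun i =>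
      smooth2_fromChart2 ((G.χ_smooth i).smul (hs i)) (G.χ_cpt i).smul_right
        ((tsupport_smul_subset_left _ _).trans (G.χ_supp i))
    have heq : ∀ x, v n x - (∑ i, U i) x = ∑ i, E i x := by
      intro x
      rw [Finset.sum_apply]
      conv_lhs => rw [← G.sum_fromChart2 (v n) x]
      rw [← Finset.sum_sub_distrib]
      refine Finset.sum_congr rfl fun i _ => ?_
      simp only [U, E, fromChart2]
      split
      · rw [smul_sub, ← pullL_apply, ← pullL_apply, ← pullL_apply, map_sub]
      · exact sub_zero 0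
    refine Real.sqrt_le_sqrt ?_
    simp only [heq]
    have hi : ∀ i, Integrable (fun x => ‖E i x‖ ^ 2) G.μ := fun i =>
      (memLp_smooth2 (hE i)).norm.integrable_sq
    calc ∫ x, ‖∑ i, E i x‖ ^ 2 ∂G.μ ≤ ∫ x, (G.n : ℝ) * ∑ i, ‖E i x‖ ^ 2 ∂G.μ := by
          refine integral_mono_of_nonneg (Eventually.of_forall fun x => sq_nonneg _)
            ((integrable_finsetSum _ fun i _ => hi i).const_mul _) (Eventually.of_forall fun x => ?_)
          refine (pow_le_pow_left₀ (norm_nonneg _) (norm_sum_le _ _) 2).trans ?_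
          simpa using sq_sum_le_card_mul_sum_sq (s := Finset.univ) (f := fun i => ‖E i x‖)
      _ ≤ _ := by
          rw [integral_const_mul, integral_finsetSum _ fun i _ => hi i]
          exact mul_le_mul_of_nonneg_left (Finset.sum_le_sum fun i _ => hC' i _ (hs i))
            (Nat.cast_nonneg _)
  refine squeeze_zero (fun n => Real.sqrt_nonneg _) hbnd ?_
  simpa using ((tendsto_finsetSum Finset.univ fun i _ => (hlim i).const_mul (C i)).const_mul
    (G.n : ℝ)).sqrt

/-- Smooth closed fields are dense among the weakly closed fields. -/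
theorem exists_closed_near (G : Geo X) {w : X → Form} (hw : MemLp w 2 G.μ) (hwc : G.WeakClosed w)
    {δ : ℝ} (hδ : 0 < δ) :
    ∃ α, G.Smooth2 α ∧ G.WeakClosed α ∧ G.n2 (fun x => w x - α x) ≤ δ := by
  obtain ⟨Cz, hCz, hz⟩ := G.exists_sob_zero
  obtain ⟨eg, heg, hg⟩ := G.exists_reg_gain
  obtain ⟨eb, heb, hb⟩ := G.exists_reg_bounded
  obtain ⟨Cb, hCb, hb⟩ := hb 0
  obtain ⟨es, hes, -, hscale⟩ := G.exists_scale
  set K := Cz * Cb * Cz
  have hK : 0 ≤ K := by positivity
  set δ' := δ / (K + 2)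
  have hδ' : 0 < δ' := by positivity
  obtain ⟨a, ha, hwa⟩ := dense_smooth2 w hw δ' hδ'
  choose α hα hwα using fun m : ℕ => dense_smooth2 w hw (1 / ((m : ℝ) + 1)) (by positivity)
  obtain ⟨Cn, en, hen, hn⟩ := G.exists_reg_near ha
  set ε := min (min (min eg eb) (min es en)) (min 1 (Real.sqrt (δ' / (|Cn| + 1))))
  have hε : 0 < ε := lt_min (lt_min (lt_min heg heb) (lt_min hes hen))
    (lt_min one_pos (Real.sqrt_pos.2 (by positivity)))
  have hεg : ε ≤ eg := ((min_le_left _ _).trans (min_le_left _ _)).trans (min_le_left _ _)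
  have hεb : ε ≤ eb := ((min_le_left _ _).trans (min_le_left _ _)).trans (min_le_right _ _)
  have hεs : ε ≤ es := ((min_le_left _ _).trans (min_le_right _ _)).trans (min_le_left _ _)
  have hεn : ε ≤ en := ((min_le_left _ _).trans (min_le_right _ _)).trans (min_le_right _ _)
  have hε1 : ε ≤ 1 := (min_le_right _ _).trans (min_le_left _ _)
  obtain ⟨hs, -, hT, -, hadd, hsmul, hadj⟩ := hscale ε hε hεs
  have hm : ∀ {β : X → Form}, G.Smooth2 β → MemLp β 2 G.μ := fun h => memLp_smooth2 h
  -- the regulariser in square mean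
  have hL2 : ∀ β γ, G.Smooth2 β → G.Smooth2 γ →
      G.n2 (fun x => G.reg ε β x - G.reg ε γ x) ≤ K * G.n2 (fun x => β x - γ x) := by
    intro β γ hβ hγ
    have hd : G.reg ε (β - γ) = G.reg ε β - G.reg ε γ := by
      rw [sub_eq_add_neg, ← neg_one_smul ℝ γ, hadd β _ hβ (hγ.smul _), hsmul _ γ hγ, neg_one_smul,
        ← sub_eq_add_neg]
    have h1 := (hz 1 _ (hs _ (hβ.sub hγ)).1).2.trans (mul_le_mul_of_nonneg_left
      ((hb ε hε hεb _ (hβ.sub hγ)).trans (mul_le_mul_of_nonneg_left (hz 1 _ (hβ.sub hγ)).1 hCb)) hCz)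
    rw [hd, ← mul_assoc, ← mul_assoc] at h1
    exact h1
  set v : ℕ → X → Form := fun m => G.reg ε (α m)
  have hv : ∀ m, G.Smooth2 (v m) := fun m => (hs _ (hα m)).1
  have hdiff : ∀ m p, G.n2 (fun x => v m x - v p x) ≤
      K * (1 / ((m : ℝ) + 1) + 1 / ((p : ℝ) + 1)) := by
    intro m p
    refine (hL2 _ _ (hα m) (hα p)).trans (mul_le_mul_of_nonneg_left ?_ hK)
    refine (n2_sub_le (hm (hα m)) hw (hm (hα p))).trans (add_le_add ?_ (hwα p))
    rw [show G.n2 (fun x => α m x - w x) = G.n2 (fun x => w x - α m x) by simp [n2, norm_sub_rev]]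
    exact hwα m
  obtain ⟨u, hu, hlim⟩ := G.exists_smooth_limit hv (fun η hη => by
      obtain ⟨N, hN⟩ := exists_nat_gt (2 * (K + 1) / η)
      refine ⟨N, fun m hm' p hp => (hdiff m p).trans_lt ?_⟩
      have hN1 : 0 < (N : ℝ) + 1 := by positivity
      have h1 : ∀ q : ℕ, N ≤ q → 1 / ((q : ℝ) + 1) ≤ 1 / ((N : ℝ) + 1) := fun q hq =>
        one_div_le_one_div_of_le hN1 (by exact_mod_cast Nat.succ_le_succ hq)
      calc K * (1 / ((m : ℝ) + 1) + 1 / ((p : ℝ) + 1)) ≤ (K + 1) * (1 / ((N : ℝ) + 1) * 2) :=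
            mul_le_mul (by linarith) (by linarith [h1 m hm', h1 p hp]) (by positivity) (by linarith)
        _ = 2 * (K + 1) / ((N : ℝ) + 1) := by ring
        _ < η := by
            rw [div_lt_iff₀ hN1]
            rw [div_lt_iff₀ hη] at hN
            nlinarith)
    (fun k => by
      obtain ⟨C, hC, hgk⟩ := hg k
      refine ⟨C * (G.n2 w + 1) / ε ^ k, fun m => ?_⟩
      rw [le_div_iff₀ (pow_pos hε k), mul_comm]
      refine ((sob_scale_le k hε.le hε1 (hv m)).trans (hgk ε hε hεg _ (hα m))).trans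
        (mul_le_mul_of_nonneg_left ?_ hC)
      have h1 := n2_sub_le (G := G) (hm (hα m)) hw MemLp.zero'
      simp only [sub_zero] at h1
      rw [show G.n2 (fun x => α m x - w x) = G.n2 (fun x => w x - α m x) by
        simp [n2, norm_sub_rev]] at h1
      have : 1 / ((m : ℝ) + 1) ≤ 1 := by
        rw [div_le_one (by positivity)]; linarith [Nat.cast_nonneg (α := ℝ) m]
      linarith [hwα m])
  have h0 : Tendsto (fun m : ℕ => 1 / ((m : ℝ) + 1)) atTop (𝓝 0) :=
    tendsto_one_div_add_atTop_nhds_zero_nat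
  refine ⟨u, hu, fun η hη => ?_, ?_⟩
  · -- the limit is closed
    obtain ⟨hη', heq⟩ := hT η hη
    have hdη := G.smooth2_d hη
    have hdη' := G.smooth2_d hη'
    have l1 : Tendsto (fun m => G.pairing (v m) (G.d η)) atTop (𝓝 (G.pairing u (G.d η))) := by
      refine tendsto_iff_norm_sub_tendsto_zero.2 (squeeze_zero (fun m => norm_nonneg _) (fun m => ?_)
        (by simpa using (hlim.mul_const (G.n2 (G.d η))).const_mul (6 : ℝ)))
      rw [Real.norm_eq_abs, G.pairing_comm, G.pairing_comm u,
        ← G.pairing_sub_right (hm hdη) (hm (hv m)) (hm hu), G.pairing_comm]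
      exact G.abs_pairing_le ((hm (hv m)).sub (hm hu)) (hm hdη)
    have l2 : Tendsto (fun m => G.pairing (v m) (G.d η)) atTop (𝓝 0) := by
      refine tendsto_zero_iff_norm_tendsto_zero.2 (squeeze_zero (fun m => norm_nonneg _) (fun m => ?_)
        (by simpa using (h0.mul_const (G.n2 (G.d (G.regT1 ε η)))).const_mul (6 : ℝ)))
      have h1 : G.pairing (v m) (G.d η) =
          -G.pairing (fun x => w x - α m x) (G.d (G.regT1 ε η)) := by
        rw [hadj _ _ (hα m) hdη, heq, G.pairing_comm, G.pairing_comm (fun x => w x - α m x),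
          G.pairing_sub_right (hm hdη') hw (hm (hα m)), G.pairing_comm _ w, hwc _ hη']
        ring
      rw [h1, norm_neg, Real.norm_eq_abs]
      refine (G.abs_pairing_le (hw.sub (hm (hα m))) (hm hdη')).trans ?_
      refine mul_le_mul_of_nonneg_left (mul_le_mul_of_nonneg_right ?_ (G.n2_nonneg _)) (by norm_num)
      simpa [Pi.sub_def] using hwα m
    exact tendsto_nhds_unique l1 l2
  · -- the limit is near
    have l3 : G.n2 (fun x => G.reg ε a x - u x) ≤ K * δ' := by
      have hlim' : Tendsto (fun m : ℕ => K * (δ' + 1 / ((m : ℝ) + 1)) +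
          G.n2 (fun x => v m x - u x)) atTop (𝓝 (K * δ')) := by
        simpa using ((h0.const_add δ').const_mul K).add hlim
      refine ge_of_tendsto hlim' (Eventually.of_forall fun m => ?_)
      refine (n2_sub_le (hm (hs a ha).1) (hm (hv m)) (hm hu)).trans (add_le_add ?_ le_rfl)
      refine (hL2 _ _ ha (hα m)).trans (mul_le_mul_of_nonneg_left ?_ hK)
      refine (n2_sub_le (hm ha) hw (hm (hα m))).trans (add_le_add ?_ (hwα m))
      rw [show G.n2 (fun x => a x - w x) = G.n2 (fun x => w x - a x) by simp [n2, norm_sub_rev]]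
      exact hwa
    have l4 : G.n2 (fun x => a x - G.reg ε a x) ≤ δ' := by
      rw [show G.n2 (fun x => a x - G.reg ε a x) = G.n2 (fun x => G.reg ε a x - a x) by
        simp [n2, norm_sub_rev]]
      have h1 : ε ^ 2 ≤ δ' / (|Cn| + 1) := by
        calc ε ^ 2 ≤ Real.sqrt (δ' / (|Cn| + 1)) ^ 2 :=
              pow_le_pow_left₀ hε.le ((min_le_right _ _).trans (min_le_right _ _)) 2
          _ = _ := Real.sq_sqrt (by positivity)
      rw [le_div_iff₀ (by positivity)] at h1
      refine (hn ε hε hεn).2.trans ?_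
      nlinarith [le_abs_self Cn, sq_nonneg ε]
    calc G.n2 (fun x => w x - u x)
        ≤ G.n2 (fun x => w x - a x) + G.n2 (fun x => a x - u x) := n2_sub_le hw (hm ha) (hm hu)
      _ ≤ δ' + (δ' + K * δ') := add_le_add hwa
          ((n2_sub_le (hm ha) (hm (hs a ha).1) (hm hu)).trans (add_le_add l4 l3))
      _ = δ := by simp only [δ']; field_simp; ring

end Geo

/-- The Sobolev estimates of the regulariser hold. -/
theorem regFacts {X : Type*} [TopologicalSpace X] [MeasurableSpace X] [BorelSpace X] [T2Space X]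
    [CompactSpace X] (G : Geo X) : RegFacts G where
  exists_scale := G.exists_scale
  gain k := by
    obtain ⟨e, he, h⟩ := G.exists_reg_gain
    obtain ⟨C, -, h⟩ := h k
    exact ⟨C, e, he, h⟩
  bounded k := by
    obtain ⟨e, he, h⟩ := G.exists_reg_bounded
    obtain ⟨C, -, h⟩ := h k
    exact ⟨C, e, he, h⟩
  key k := G.exists_reg_key k
  comm F hF k := by
    obtain ⟨e, he, h⟩ := G.exists_reg_comm hF
    obtain ⟨C, -, h⟩ := h k
    refine ⟨C, e, he, fun ε hε hεe α hα => le_of_eq_of_le ?_ (h ε hε hεe α hα)⟩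
    simp only [Geo.reg_eq_run]
    rfl
  near α hα := G.exists_reg_near hα
  closed_dense _ hw hwc _ hδ := G.exists_closed_near hw hwc hδ

end Vale.Agent.P204.Gen
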