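import Vale.Agent.P204.Gen.Final
import Vale.Agent.P204.Gen.BridgeClosed
import Vale.Agent.P204.Gen.RegClosed
import Vale.Agent.P204.Gen.SobX
import Vale.Agent.P204.Gen.AvgRep
import Vale.Agent.P204.Gen.GSolveFull
import Vale.Agent.P204.Gen.GSeparation
import Vale.Agent.P204.Gen.GU
import Vale.Agent.P204.Gen.GPhase1
import Vale.Agent.P204.Gen.GSLimitFull
import Vale.Agent.P204.Gen.GEnergy
import Vale.Agent.P204.Gen.RegBounds
import Vale.Agent.P204.Gen.BallVolume
import Vale.Agent.P204.Gen.PointRep
import Vale.Agent.P204.Gen.MonoFirst
import Vale.Agent.P204.Gen.GVanish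

/-!
P204 on a closed four-manifold: the modules put together.
-/

namespace Vale.Agent.P204.Gen

variable {X : Type*} [TopologicalSpace X] [T2Space X] [CompactSpace X] [MeasurableSpace X]
  [BorelSpace X]

/-- The modules, from the bound of the mass of close pairs. -/
theorem modules_of_pairMass (S : GSetup X)
    (hpm : ∀ (T : GCurrent S) (D : GUData T), Phase1Done D → ∀ L : D.SLimit,
      EnergyFacts D L → PairMass T.toPositive) : Modules S := by
  have hB := basic S.toGeo
  have hR := regFacts S.toGeo
  have hS := sobFacts S.toGeo
  have hA := avgRep S.toGeo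
  have := hB.finite_μ
  have hW : ∀ T : Positive S, RegBound T := fun T => T.regBound (pointRep hB hR hA T)
  have hE : ∀ (T : GCurrent S) (D : GUData T), Phase1Done D → ∀ L : D.SLimit,
      EnergyFacts D L := fun T D hd L =>
    D.energyFacts hB hR T.toPositive.ballPair (hW T.toPositive) T.toPositive.ballSquare hd.1 L
  exact
    { basic := hB
      reg := hR
      sep := exists_gcurrent S
      udata := fun T => nonempty_guData hB hR hS (gSolveX S) T
      regRep := fun T => regRepExists hB hR hS T.toPositive
      phase1 := fun T D => D.phase1Done (monoFirst hB hR hA (seComm hB hR hS D))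
        (yKey hB hR hS D) (D.energyFirst hB (hW T.toPositive) T.toPositive.ballSquare
          (seComm hB hR hS D))
      slimit := fun T D hb => exists_slimit hR hS T D hb
      energy := hE
      cut := fun T D hd L => cutFamily_of_pairMass hd.1 (hpm T D hd L (hE T D hd L)) L }

/-- The literal statement, from the bound of the mass of close pairs. -/
theorem tamedToCompatible_of_pairMass.{u}
    (hpm : ∀ (X : Type u) [TopologicalSpace X] [T2Space X] [CompactSpace X] [MeasurableSpace X]
      [BorelSpace X] (S : GSetup X) (T : GCurrent S) (D : GUData T), Phase1Done D →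
      ∀ L : D.SLimit, EnergyFacts D L → PairMass T.toPositive) :
    TamedToCompatible.{u} :=
  Four.tamedToCompatible_of_main fun X _ _ _ _ _ S =>
    exists_compatible_of_modules S (modules_of_pairMass S (hpm X S))

end Vale.Agent.P204.Gen
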