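import Vale.Agent.P204.Gen.Core
import Vale.Agent.P204.Torus.Calculus

/-!
P204 on a closed four-manifold, module GeoBasic: pull-backs by linear maps.
-/

open scoped ContDiff

namespace Vale.Agent.P204.Gen

open Vale.Agent.P204.Torus

lemma pull_id (α : Form) : pull (ContinuousLinearMap.id ℝ V) α = α :=
  form_ext fun u v => by rw [ev_pull]; rfl

lemma pull_comp (A B : V →L[ℝ] V) (α : Form) : pull (A.comp B) α = pull B (pull A α) :=
  form_ext fun u v => by simp only [ev_pull, ContinuousLinearMap.comp_apply]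

lemma pull_zero (A : V →L[ℝ] V) : pull A (0 : Form) = 0 :=
  form_ext fun u v => by simp [ev_pull, ev_zero]

lemma pull_neg (A : V →L[ℝ] V) (α : Form) : pull A (-α) = -pull A α := by
  rw [← neg_one_smul ℝ α, pull_smul, neg_one_smul]

/-- Pull-back of two-forms as a linear map. -/
noncomputable def pullL (A : V →L[ℝ] V) : Form →L[ℝ] Form :=
  LinearMap.toContinuousLinearMap
    { toFun := pull A, map_add' := pull_add A, map_smul' := pull_smul A }

@[simp] lemma pullL_apply (A : V →L[ℝ] V) (α : Form) : pullL A α = pull A α := rfl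

lemma pair_pullV (A : V →L[ℝ] V) (a u : V) : pair (pullV A a) u = pair a (A u) := by
  conv_rhs => rw [sum_e u]
  simp only [pullV, pair, map_sum, map_smul, Finset.sum_apply, Pi.smul_apply, smul_eq_mul,
    Finset.mul_sum, Finset.sum_mul]
  rw [Finset.sum_comm]
  exact Finset.sum_congr rfl fun i _ => Finset.sum_congr rfl fun j _ => by ring

lemma covec_ext {a b : V} (h : ∀ u, pair a u = pair b u) : a = b := by
  funext i
  have := h (e i)
  rwa [pair_e', pair_e'] at this

lemma pullV_id (a : V) : pullV (ContinuousLinearMap.id ℝ V) a = a :=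
  covec_ext fun u => by rw [pair_pullV]; rfl

lemma pullV_comp (A B : V →L[ℝ] V) (a : V) : pullV (A.comp B) a = pullV B (pullV A a) :=
  covec_ext fun u => by simp only [pair_pullV, ContinuousLinearMap.comp_apply]

lemma pullV_add (A : V →L[ℝ] V) (a b : V) : pullV A (a + b) = pullV A a + pullV A b :=
  covec_ext fun u => by
    rw [show ∀ p q : V, pair (p + q) u = pair p u + pair q u from fun p q => by
      simp only [pair_def, Pi.add_apply]; ring]
    rw [pair_pullV, pair_pullV, pair_pullV]
    simp only [pair_def, Pi.add_apply]; ring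

lemma pullV_smul (A : V →L[ℝ] V) (t : ℝ) (a : V) : pullV A (t • a) = t • pullV A a :=
  covec_ext fun u => by
    rw [show ∀ p : V, pair (t • p) u = t * pair p u from fun p => by
      simp only [pair_def, Pi.smul_apply, smul_eq_mul]; ring]
    rw [pair_pullV, pair_pullV]
    simp only [pair_def, Pi.smul_apply, smul_eq_mul]; ring

lemma pullV_zero (A : V →L[ℝ] V) : pullV A (0 : V) = 0 := by
  simpa using pullV_smul A 0 0

lemma pull_wedge (A : V →L[ℝ] V) (ξ η : V) :
    pull A (wedge ξ η) = wedge (pullV A ξ) (pullV A η) :=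
  form_ext fun u v => by simp only [ev_pull, ev_wedge, pair_pullV]

lemma det_eq_det4 (A : V →L[ℝ] V) : A.det = det4 (A (e 0)) (A (e 1)) (A (e 2)) (A (e 3)) := by
  show LinearMap.det (A : V →ₗ[ℝ] V) = _
  rw [← LinearMap.det_toMatrix', Matrix.det_succ_row_zero]
  simp [Fin.sum_univ_succ, Matrix.det_fin_three, LinearMap.toMatrix'_apply, e, det4,
    Fin.succAbove]
  ring

lemma q_pull (A : V →L[ℝ] V) (α β : Form) : q (pull A α) (pull A β) = A.det * q α β := by
  have h : ∀ γ, pull A γ = co (fun i => A (e i)) γ := fun γ => rfl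
  rw [h, h, q_co, det_eq_det4]

lemma clm_det_comp (A B : V →L[ℝ] V) : (A.comp B).det = A.det * B.det :=
  LinearMap.det_comp _ _

lemma exists_equiv_of_det_ne_zero {A : V →L[ℝ] V} (hA : A.det ≠ 0) :
    ∃ e' : V ≃L[ℝ] V, (e' : V →L[ℝ] V) = A :=
  ⟨A.toContinuousLinearEquivOfDetNeZero hA, A.coe_toContinuousLinearEquivOfDetNeZero hA⟩

lemma inverse_comp_self {A : V →L[ℝ] V} (hA : A.det ≠ 0) :
    A.inverse.comp A = ContinuousLinearMap.id ℝ V := by
  obtain ⟨e', rfl⟩ := exists_equiv_of_det_ne_zero hA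
  rw [ContinuousLinearMap.inverse_equiv]
  ext u i
  simp

lemma self_comp_inverse {A : V →L[ℝ] V} (hA : A.det ≠ 0) :
    A.comp A.inverse = ContinuousLinearMap.id ℝ V := by
  obtain ⟨e', rfl⟩ := exists_equiv_of_det_ne_zero hA
  rw [ContinuousLinearMap.inverse_equiv]
  ext u i
  simp

lemma pull_inverse_pull {A : V →L[ℝ] V} (hA : A.det ≠ 0) (α : Form) :
    pull A (pull A.inverse α) = α := by
  rw [← pull_comp, inverse_comp_self hA, pull_id]

lemma pull_pull_inverse {A : V →L[ℝ] V} (hA : A.det ≠ 0) (α : Form) :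
    pull A.inverse (pull A α) = α := by
  rw [← pull_comp, self_comp_inverse hA, pull_id]

lemma pullV_inverse_pullV {A : V →L[ℝ] V} (hA : A.det ≠ 0) (a : V) :
    pullV A (pullV A.inverse a) = a := by
  rw [← pullV_comp, inverse_comp_self hA, pullV_id]

lemma pullV_pullV_inverse {A : V →L[ℝ] V} (hA : A.det ≠ 0) (a : V) :
    pullV A.inverse (pullV A a) = a := by
  rw [← pullV_comp, self_comp_inverse hA, pullV_id]

lemma piP_apply (A : V →L[ℝ] V) (α : Form) : piP A α = (1 / 2 : ℝ) • (α + pullL A α) := rfl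

/-- The invariant part as a linear map. -/
noncomputable def piPL (A : V →L[ℝ] V) : Form →L[ℝ] Form :=
  (1 / 2 : ℝ) • (ContinuousLinearMap.id ℝ Form + pullL A)

/-- The anti-invariant part as a linear map. -/
noncomputable def piML (A : V →L[ℝ] V) : Form →L[ℝ] Form :=
  (1 / 2 : ℝ) • (ContinuousLinearMap.id ℝ Form - pullL A)

@[simp] lemma piPL_apply (A : V →L[ℝ] V) (α : Form) : piPL A α = piP A α := by
  simp [piPL, piP]

@[simp] lemma piML_apply (A : V →L[ℝ] V) (α : Form) : piML A α = piM A α := by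
  simp [piML, piM]

/-- Conjugation commutes with pull-back. -/
lemma pull_conj {D : V →L[ℝ] V} (hD : D.det ≠ 0) (J : V →L[ℝ] V) (α : Form) :
    pull (D.inverse.comp (J.comp D)) (pull D α) = pull D (pull J α) := by
  rw [pull_comp, pull_pull_inverse hD, pull_comp]

lemma piP_conj {D : V →L[ℝ] V} (hD : D.det ≠ 0) (J : V →L[ℝ] V) (α : Form) :
    piP (D.inverse.comp (J.comp D)) (pull D α) = pull D (piP J α) := by
  simp only [piP, pull_conj hD, pull_smul, pull_add]

lemma piM_conj {D : V →L[ℝ] V} (hD : D.det ≠ 0) (J : V →L[ℝ] V) (α : Form) :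
    piM (D.inverse.comp (J.comp D)) (pull D α) = pull D (piM J α) := by
  simp only [piM, pull_conj hD, pull_smul, pull_sub]

/-- `d` commutes with pull-back by a smooth map. -/
lemma d1_pullV {T : V → V} {b : V → V} {u : V} (hT : ContDiffAt ℝ 2 T u)
    (hb : DifferentiableAt ℝ b (T u)) :
    d1 (fun v => pullV (fderiv ℝ T v) (b (T v))) u = pull (fderiv ℝ T u) (d1 b (T u)) := by
  have hT1 : DifferentiableAt ℝ T u := hT.differentiableAt (by norm_num)
  have hT2 : DifferentiableAt ℝ (fderiv ℝ T) u :=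
    (hT.fderiv_right (m := 1) (by norm_num)).differentiableAt (by norm_num)
  have hsym : IsSymmSndFDerivAt ℝ T u := hT.isSymmSndFDerivAt (by simp)
  have hpair : ∀ (F : V → V) (c : V), DifferentiableAt ℝ F u →
      ∀ a, fderiv ℝ (fun v => pair (F v) c) u a = pair (fderiv ℝ F u a) c := by
    intro F c hF a
    have h : HasFDerivAt (fun v => pair (F v) c) (∑ i, c i •
        (ContinuousLinearMap.proj (R := ℝ) (φ := fun _ : Fin 4 => ℝ) i).comp (fderiv ℝ F u)) u := by
      refine HasFDerivAt.fun_sum fun i _ => ?_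
      exact ((ContinuousLinearMap.proj (R := ℝ) (φ := fun _ : Fin 4 => ℝ) i).hasFDerivAt.comp u
        hF.hasFDerivAt).mul_const _
    rw [h.fderiv]
    simp [pair, mul_comm]
  have hB : DifferentiableAt ℝ (fun v => b (T v)) u := hb.comp u hT1
  have hF : DifferentiableAt ℝ (fun v => pullV (fderiv ℝ T v) (b (T v))) u := by
    refine differentiableAt_pi.2 fun i => ?_
    refine DifferentiableAt.fun_sum (u := Finset.univ)
      (A := fun (l : Fin 4) (v : V) => b (T v) l * fderiv ℝ T v (e i) l) fun l _ => ?_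
    exact (differentiableAt_pi.1 hB l).mul
      (differentiableAt_pi.1 (hT2.clm_apply (differentiableAt_const (e i))) l)
  have key : ∀ a c, pair (fderiv ℝ (fun v => pullV (fderiv ℝ T v) (b (T v))) u a) c =
      pair (fderiv ℝ b (T u) (fderiv ℝ T u a)) (fderiv ℝ T u c) +
        pair (b (T u)) (fderiv ℝ (fderiv ℝ T) u a c) := by
    intro a c
    rw [← hpair _ c hF a]
    simp only [pair_pullV]
    set P : Fin 4 → V →L[ℝ] ℝ := fun i =>
      ContinuousLinearMap.proj (R := ℝ) (φ := fun _ : Fin 4 => ℝ) i with hP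
    have h : HasFDerivAt (fun v => pair (b (T v)) (fderiv ℝ T v c))
        (∑ l : Fin 4, (b (T u) l • ((P l).comp (ContinuousLinearMap.apply ℝ V c)).comp
            (fderiv ℝ (fderiv ℝ T) u) +
          fderiv ℝ T u c l • (P l).comp ((fderiv ℝ b (T u)).comp (fderiv ℝ T u)))) u := by
      refine HasFDerivAt.fun_sum fun l _ => ?_
      exact ((P l).hasFDerivAt.comp u (hb.hasFDerivAt.comp u hT1.hasFDerivAt)).mul
        (((P l).comp (ContinuousLinearMap.apply ℝ V c)).hasFDerivAt.comp u hT2.hasFDerivAt)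
    rw [h.fderiv]
    simp only [hP, add_apply, smul_apply,
      ContinuousLinearMap.comp_apply, ContinuousLinearMap.proj_apply,
      ContinuousLinearMap.apply_apply, smul_eq_mul, pair_def, Fin.sum_univ_four]
    ring
  refine form_ext fun a c => ?_
  rw [ev_d1, ev_pull, ev_d1, key, key, hsym a c]
  ring

end Vale.Agent.P204.Gen
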