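import Vale.Agent.P204.Gen.Manifold
import Vale.Agent.P204.Gen.GeoLin
import Vale.Agent.P204.Torus.Main

/-!
P204: a finite atlas in which a given nondegenerate two-form has positive square, with a partition
of unity and cut-offs.
-/

noncomputable section

open scoped Manifold ContDiff Topology
open Filter Set Metric

namespace Vale.Agent.P204.Four

open Vale.Agent.P204.Torus Vale.Agent.P204.Gen

variable {X : Type*} [TopologicalSpace X] [ChartedSpace E4 X] [IsManifold (𝓡 4) ∞ X]

/-- The reflection as an equivalence. -/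
def mirrorEquiv : V ≃L[ℝ] V :=
  ContinuousLinearEquiv.equivOfInverse Main.mirror Main.mirror Main.mirror_mirror
    Main.mirror_mirror

/-- The centre of the cube. -/
def ctr : V := fun _ => 1 / 2

lemma ctr_mem : ctr ∈ Q0 := fun _ _ => by norm_num [ctr]

lemma isOpen_cubeQ0 : IsOpen Q0 := isOpen_set_pi finite_univ fun _ _ => isOpen_Ioo

omit [IsManifold (𝓡 4) ∞ X] in
lemma IsChart.trans_homeomorph {φ : OpenPartialHomeomorph X V} (hφ : IsChart φ) (h : V ≃ₜ V)
    (h1 : ContDiff ℝ ∞ h) (h2 : ContDiff ℝ ∞ h.symm) :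
    IsChart (φ.trans h.toOpenPartialHomeomorph) where
  fwd := (h1.contMDiff.comp_contMDiffOn hφ.fwd).mono fun _ hx => hx.1
  inv := hφ.inv.comp h2.contMDiff.contMDiffOn fun _ hx => hx.2

omit [IsManifold (𝓡 4) ∞ X] in
lemma IsChart.trans_ofSet {φ : OpenPartialHomeomorph X V} (hφ : IsChart φ) {U : Set V}
    (hU : IsOpen U) : IsChart (φ.trans (OpenPartialHomeomorph.ofSet U hU)) where
  fwd := hφ.fwd.mono fun _ hx => hx.1
  inv := hφ.inv.mono fun _ hx => hx.2

omit [IsManifold (𝓡 4) ∞ X] in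
lemma mem_stdChart_source (x : X) : x ∈ (stdChart x).source :=
  ⟨mem_chart_source E4 x, mem_univ _⟩

lemma q_formRep_ne_zero {J : Endo X} {om : Bilin X} (hω : ClosedTwoForm om)
    (hT : ∀ x v, v ≠ 0 → 0 < Bm om x v (Jm J x v)) {φ : OpenPartialHomeomorph X V}
    (hφ : IsChart φ) {x : X} (hx : x ∈ φ.source) :
    q (formRep φ om (φ x)) (formRep φ om (φ x)) ≠ 0 :=
  Main.q_self_ne_zero (A := endoRep φ J (φ x)) fun u hu => by
    have h1 : φ.symm (φ x) = x := φ.left_inv hx
    rw [ev_formRep hω.skew, h1]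
    simp only [endoRep, ContinuousLinearMap.comp_apply, h1, hφ.P_D hx]
    refine hT x _ fun h0 => hu ?_
    rw [← hφ.D_P hx u, h0, map_zero]

/-- A chart around a point in a convex piece of the cube, where the form has positive square. -/
lemma exists_goodChart {J : Endo X} {om : Bilin X} (hω : ClosedTwoForm om)
    (hT : ∀ x v, v ≠ 0 → 0 < Bm om x v (Jm J x v)) (x₀ : X) :
    ∃ φ : OpenPartialHomeomorph X V, IsChart φ ∧ x₀ ∈ φ.source ∧ φ.target ⊆ Q0 ∧
      Convex ℝ φ.target ∧ ∀ u ∈ φ.target, 0 < q (formRep φ om u) (formRep φ om u) := by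
  set χ := stdChart x₀
  have hχ : IsChart χ := isChart_stdChart _
  have hx₀ : x₀ ∈ χ.source := mem_stdChart_source x₀
  have hne := q_formRep_ne_zero hω hT hχ hx₀
  obtain ⟨R, hR⟩ : ∃ R : V ≃L[ℝ] V, 0 < q (pull R (formRep χ om (χ x₀)))
      (pull R (formRep χ om (χ x₀))) := by
    rcases lt_or_gt_of_ne hne with h | h
    · refine ⟨mirrorEquiv, ?_⟩
      show 0 < q (pull Main.mirror _) (pull Main.mirror _)
      rw [Main.q_pull_refl]
      linarith
    · refine ⟨ContinuousLinearEquiv.refl ℝ V, ?_⟩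
      have e : pull (ContinuousLinearEquiv.refl ℝ V : V →L[ℝ] V) (formRep χ om (χ x₀))
          = formRep χ om (χ x₀) := form_ext fun u v => by rw [ev_pull]; rfl
      rwa [e]
  set h : V ≃ₜ V := ((Homeomorph.addRight (-χ x₀)).trans R.symm.toHomeomorph).trans
    (Homeomorph.addRight ctr)
  set φ := χ.trans h.toOpenPartialHomeomorph with hφdef
  have hh : ∀ v, h v = R.symm (v + -χ x₀) + ctr := fun v => rfl
  have hs : ∀ w, h.symm w = R (w + -ctr) + χ x₀ := fun w => by
    simp [h, Homeomorph.addRight]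
  have hφ : IsChart φ := hχ.trans_homeomorph h
    (by rw [show (h : V → V) = _ from funext hh]; fun_prop)
    (by rw [show (h.symm : V → V) = _ from funext hs]; fun_prop)
  have hc : φ x₀ = ctr := by
    show h (χ x₀) = ctr
    simp [hh]
  have hx : x₀ ∈ φ.source := ⟨hx₀, mem_univ _⟩
  have hctr : ctr ∈ φ.target := hc ▸ φ.map_source hx
  have hpos : 0 < q (formRep φ om ctr) (formRep φ om ctr) := by
    have hsym : φ.symm ctr = x₀ := by rw [← hc, φ.left_inv hx]
    have hev : change φ χ =ᶠ[𝓝 ctr] fun w => R (w + -ctr) + χ x₀ :=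
      eventually_of_mem (φ.open_target.mem_nhds hctr) fun w hw => by
        show χ (χ.symm (h.symm w)) = _
        exact (χ.right_inv hw.2).trans (hs w)
    have hd : HasFDerivAt (fun w : V => R (w + -ctr) + χ x₀) (R : V →L[ℝ] V) ctr :=
      ((R.hasFDerivAt).comp ctr ((hasFDerivAt_id ctr).add_const (-ctr))).add_const (χ x₀)
    rw [formRep_change hφ hχ hω.skew hctr (by rw [hsym]; exact hx₀), hev.fderiv_eq, hd.fderiv,
      change, hsym]
    exact hR
  obtain ⟨r, hr, hball⟩ : ∃ r > 0, ball ctr r ⊆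
      (φ.target ∩ (fun u => q (formRep φ om u) (formRep φ om u)) ⁻¹' Ioi 0) ∩ Q0 := by
    refine Metric.isOpen_iff.1 (IsOpen.inter ?_ isOpen_cubeQ0) _ ⟨⟨hctr, hpos⟩, ctr_mem⟩
    refine ContinuousOn.isOpen_inter_preimage ?_ φ.open_target isOpen_Ioi
    have hc := contDiffOn_form.1 (hω.contDiffOn_formRep hφ)
    simp only [q]
    have := fun k => (hc k).continuousOn
    fun_prop
  set φ' := φ.trans (OpenPartialHomeomorph.ofSet (ball ctr r) isOpen_ball)
  have ht : φ'.target = ball ctr r := by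
    refine Subset.antisymm (fun u hu => hu.1) fun u hu => ?_
    exact ⟨hu, (hball hu).1.1⟩
  refine ⟨φ', hφ.trans_ofSet isOpen_ball, ⟨hx, ?_⟩, ?_, ?_, ?_⟩
  · show φ x₀ ∈ ball ctr r
    rw [hc]; exact mem_ball_self hr
  · rw [ht]; exact fun u hu => (hball hu).2
  · rw [ht]; exact convex_ball _ _
  · rw [ht]
    exact fun u hu => (hball hu).1.2

variable [T2Space X] [CompactSpace X] [MeasurableSpace X] [BorelSpace X]

/-- A finite atlas adapted to the form. -/
lemma exists_geo {J : Endo X} {om : Bilin X} (hω : ClosedTwoForm om)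
    (hT : ∀ x v, v ≠ 0 → 0 < Bm om x v (Jm J x v)) :
    ∃ G : Geo X, (∀ i, IsChart (G.φ i)) ∧
      ∀ i, ∀ u ∈ (G.φ i).target, 0 < q (formRep (G.φ i) om u) (formRep (G.φ i) om u) := by
  classical
  choose φ₀ hφ₀ hmem hQ hconv hpos using fun x : X => exists_goodChart hω hT x
  obtain ⟨t, ht⟩ := (isCompact_univ : IsCompact (univ : Set X)).elim_finite_subcover
    (fun x => (φ₀ x).source) (fun x => (φ₀ x).open_source)
    (fun x _ => mem_iUnion.2 ⟨x, hmem x⟩)
  set c : Fin t.card → X := fun i => (t.equivFin.symm i : X)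
  have hcov : (univ : Set X) ⊆ ⋃ i, (φ₀ (c i)).source := fun x hx => by
    obtain ⟨y, hy, hxy⟩ := mem_iUnion₂.1 (ht hx)
    refine mem_iUnion.2 ⟨t.equivFin ⟨y, hy⟩, ?_⟩
    simpa [c] using hxy
  obtain ⟨f, hf⟩ := SmoothPartitionOfUnity.exists_isSubordinate (𝓡 4) isClosed_univ
    (fun i => (φ₀ (c i)).source) (fun i => (φ₀ (c i)).open_source) hcov
  have hsum : ∀ x, ∑ i, f i x = 1 := fun x => by
    have := f.sum_eq_one (mem_univ x)
    rwa [finsum_eq_sum_of_fintype] at this
  have hχ : ∀ i, ∃ χ : V → ℝ, ContDiff ℝ ∞ χ ∧ (∀ u, χ u ∈ Icc (0 : ℝ) 1) ∧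
      HasCompactSupport χ ∧ tsupport χ ⊆ (φ₀ (c i)).target ∧
      ∀ x ∈ tsupport (f i), ∀ᶠ u in 𝓝 (φ₀ (c i) x), χ u = 1 := by
    intro i
    have hK : IsCompact (φ₀ (c i) '' tsupport (f i)) :=
      (isClosed_tsupport _).isCompact.image_of_continuousOn
        ((φ₀ (c i)).continuousOn.mono (hf i))
    obtain ⟨L, hL, hKL, hLt⟩ := exists_compact_between hK (φ₀ (c i)).open_target
      (image_subset_iff.2 fun x hx => (φ₀ (c i)).map_source (hf i hx))
    obtain ⟨g, hg0, hg1, hg⟩ := exists_contMDiffMap_zero_one_nhds_of_isClosed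
      (I := 𝓘(ℝ, V)) (n := (⊤ : ℕ∞)) (isOpen_interior (s := L)).isClosed_compl hK.isClosed
      (disjoint_compl_left.mono_right hKL)
    have hsupp : Function.support g ⊆ L := fun u hu => by
      by_contra hL'
      exact hu (hg0.self_of_nhdsSet u fun h => hL' (interior_subset h))
    refine ⟨g, g.contMDiff.contDiff, hg, HasCompactSupport.of_support_subset_isCompact hL hsupp,
      (closure_minimal hsupp hL.isClosed).trans hLt, fun x hx => ?_⟩
    exact eventually_nhdsSet_iff_forall.1 hg1 _ (mem_image_of_mem _ hx)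
  choose χ hχ1 hχ2 hχ3 hχ4 hχ5 using hχ
  have hne : ∀ x, (Finset.univ.filter fun i => 0 < f i x).Nonempty := fun x => by
    by_contra h
    have h0 : ∑ i, f i x ≤ 0 := Finset.sum_nonpos fun i _ => by
      by_contra hi
      exact h ⟨i, Finset.mem_filter.2 ⟨Finset.mem_univ i, not_le.1 hi⟩⟩
    linarith [hsum x]
  set tr : X → Fin t.card := fun x => (Finset.univ.filter fun i => 0 < f i x).min' (hne x)
  have htr : Measurable tr := measurable_to_countable' fun i => by
    have e : tr ⁻¹' {i} = {x | 0 < f i x} ∩ ⋂ j ∈ {j | j < i}, {x | f j x ≤ 0} := by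
      ext x
      simp only [mem_preimage, mem_singleton_iff, tr, Finset.min'_eq_iff, Finset.mem_filter,
        Finset.mem_univ, true_and, mem_inter_iff, mem_ofPred_eq, mem_iInter]
      exact and_congr_right fun _ => forall_congr' fun j => by rw [← not_imp_not, not_le, not_lt]
    rw [e]
    exact (measurableSet_lt measurable_const (f i).contMDiff.continuous.measurable).inter
      (MeasurableSet.biInter (to_countable _) fun j _ =>
        measurableSet_le (f j).contMDiff.continuous.measurable measurable_const)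
  refine ⟨{
    n := t.card
    φ := fun i => φ₀ (c i)
    target_sub := fun i => hQ _
    target_convex := fun i => hconv _
    trans_smooth := fun i j => (hφ₀ _).contDiffOn_change (hφ₀ _)
    trans_pos := fun i j u hu => ?_
    ψ := fun i x => f i x
    ψ_nonneg := fun i x => f.nonneg i x
    ψ_sum := hsum
    ψ_cont := fun i => (f i).contMDiff.continuous
    ψ_supp := hf
    ψ_smooth := fun i j => ((f i).contMDiff.comp_contMDiffOn (hφ₀ _).inv).contDiffOn
    χ := χ
    χ_smooth := hχ1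
    χ_range := hχ2
    χ_cpt := hχ3
    χ_supp := hχ4
    χ_one := hχ5
    tr := tr
    tr_pos := fun x => (Finset.mem_filter.1 (Finset.min'_mem _ (hne x))).2
    tr_meas := htr }, fun i => hφ₀ _, fun i => hpos _⟩
  have h1 := hpos (c i) u hu.1
  have h2 := hpos (c j) _ ((φ₀ (c j)).map_source hu.2)
  rw [formRep_change (hφ₀ _) (hφ₀ _) hω.skew hu.1 hu.2, q_pull] at h1
  exact (pos_iff_pos_of_mul_pos h1).2 h2

end Vale.Agent.P204.Four
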