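import Vale.Agent.P204.Gen.AvgBase

/-!
P204, general four-manifold: the estimates (i) and (iii) of the regulariser, in one chart.

For a smooth `Φ (a, x)` which is the identity at `a = 0` with onto derivative in `a`, the average
`∫ e^{-N} ρ (a / e) M (a, x) φ (Φ (a, x)) da` maps `L²` to the semiclassical spaces with norm
`O (1)`, and with norm `O (e)` when `M (0, x) = 0`, as for a commutator `f x - f (Φ (a, x))`.
-/

open MeasureTheory Set Filter Topology
open scoped ContDiff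

namespace Vale.Agent.P204.Gen.Param

variable {N d : ℕ}

lemma dir_congr_on {f g : (Fin d → ℝ) → ℝ} {O : Set (Fin d → ℝ)} (hO : IsOpen O)
    (h : ∀ x ∈ O, f x = g x) (i : Fin d) : ∀ x ∈ O, dir i f x = dir i g x := fun x hx => by
  rw [dir, dir, Filter.EventuallyEq.fderiv_eq (f₁ := f) (f := g) (by
    filter_upwards [hO.mem_nhds hx] with y hy using h y hy)]

lemma dirs_congr_on {f g : (Fin d → ℝ) → ℝ} {O : Set (Fin d → ℝ)} (hO : IsOpen O)
    (h : ∀ x ∈ O, f x = g x) : ∀ l : List (Fin d), ∀ x ∈ O, dirs l f x = dirs l g x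
  | [] => h
  | i :: l => dir_congr_on hO (dirs_congr_on hO h l) i

/-- A weight at scale `e`. -/
noncomputable def scaled (ρ : (Fin N → ℝ) → ℝ) (M : Joint N d → ℝ) (e : ℝ) (p : Joint N d) : ℝ :=
  (e⁻¹) ^ N * ρ (e⁻¹ • p.1) * M p

/-- The average with a weight at scale `e`. -/
noncomputable def scaledAvg (Φ : Joint N d → (Fin d → ℝ)) (ρ : (Fin N → ℝ) → ℝ)
    (M : Joint N d → ℝ) (e : ℝ) (φ : (Fin d → ℝ) → ℝ) (x : Fin d → ℝ) : ℝ :=
  ∫ a : Fin N → ℝ, scaled ρ M e (a, x) * φ (Φ (a, x))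

namespace Fam

variable {F : Fam N d}

/-- A weight at scale `e` has order zero. -/
theorem isScale_scaled {r : ℝ} {K : Set (Fin d → ℝ)} (hFK : F.K = Metric.closedBall 0 r ×ˢ K)
    {ρ : (Fin N → ℝ) → ℝ} (hρ : ContDiff ℝ ∞ ρ) (hρr : ∀ b, ρ b ≠ 0 → ‖b‖ ≤ r) {M : Joint N d → ℝ}
    (hM : ContDiff ℝ ∞ M) (hMc : HasCompactSupport M) (hMK : ∀ p, M p ≠ 0 → p.2 ∈ K) {m : ℤ}
    (hm : m = 0 ∨ m = 1 ∧ ∀ x, M (0, x) = 0) :
    F.IsScale (scaled ρ M) r m := by
  have hρc : HasCompactSupport ρ := HasCompactSupport.intro (isCompact_closedBall 0 r) fun b hb => by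
    by_contra h
    exact hb (mem_closedBall_zero_iff.2 (hρr b h))
  have hsmall : ∀ e, 0 < e → ∀ p : Joint N d, scaled ρ M e p ≠ 0 → ‖p.1‖ ≤ r * e := fun e he p hp => by
    have h := hρr (e⁻¹ • p.1) fun h => hp (by simp [scaled, h])
    rw [norm_smul, norm_inv, Real.norm_eq_abs, abs_of_pos he, inv_mul_le_iff₀ he] at h
    linarith
  have hr0 : ∀ b, ρ b ≠ 0 → 0 ≤ r := fun b hb => (norm_nonneg b).trans (hρr b hb)
  refine ⟨fun e he he1 => ⟨?_, ?_⟩, fun e he _ => hsmall e he, fun n => ?_⟩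
  · exact ((contDiff_const.mul (hρ.comp (contDiff_fst.const_smul e⁻¹))).mul hM)
  · refine closure_minimal (fun p hp => ?_) F.compact.isClosed
    rw [hFK]
    have hb : ρ (e⁻¹ • p.1) ≠ 0 := fun h => hp (by simp [scaled, h])
    exact ⟨mem_closedBall_zero_iff.2
      ((hsmall e he p hp).trans (mul_le_of_le_one_right (hr0 _ hb) he1)),
      hMK p fun h => hp (by simp [scaled, h])⟩
  · have hn : ∀ j : ℕ, (j : WithTop ℕ∞) ≤ ∞ := fun j => by exact_mod_cast le_top
    have hb : ∀ j, ∃ A, 0 ≤ A ∧ ∀ b, ‖iteratedFDeriv ℝ j ρ b‖ ≤ A := fun j => by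
      obtain ⟨A, hA⟩ := (hρc.iteratedFDeriv j).exists_bound_of_continuous
        (hρ.continuous_iteratedFDeriv (m := j) (hn j))
      exact ⟨A, (norm_nonneg _).trans (hA 0), hA⟩
    have hb' : ∀ j, ∃ A, 0 ≤ A ∧ ∀ p, ‖iteratedFDeriv ℝ j M p‖ ≤ A := fun j => by
      obtain ⟨A, hA⟩ := (hMc.iteratedFDeriv j).exists_bound_of_continuous
        (hM.continuous_iteratedFDeriv (m := j) (hn j))
      exact ⟨A, (norm_nonneg _).trans (hA 0), hA⟩
    choose A hA0 hA using hb
    choose B hB0 hB using hb'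
    set w : Fin (n + 1) → ℝ := fun j => (n.choose j : ℝ) * A j * (B (n - j) + max r 0 * B 1)
    refine ⟨∑ j, w j, Finset.sum_nonneg fun j _ => mul_nonneg (mul_nonneg (Nat.cast_nonneg _) (hA0 _))
      (add_nonneg (hB0 _) (mul_nonneg (le_max_right _ _) (hB0 _))), fun e he he1 p => ?_⟩
    set S : Joint N d →L[ℝ] (Fin N → ℝ) := e⁻¹ • ContinuousLinearMap.fst ℝ (Fin N → ℝ) (Fin d → ℝ)
      with hS
    have hSn : ‖S‖ ≤ e⁻¹ := by
      rw [hS, norm_smul, norm_inv, Real.norm_eq_abs, abs_of_pos he]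
      exact mul_le_of_le_one_right (inv_nonneg.2 he.le) (ContinuousLinearMap.norm_fst_le ℝ _ _)
    have hg : ∀ j, ‖iteratedFDeriv ℝ j (fun q : Joint N d => (e⁻¹) ^ N * ρ (S q)) p‖ ≤
        (e⁻¹) ^ N * (A j * (e⁻¹) ^ j) := fun j => by
      have h1 : (fun q : Joint N d => (e⁻¹) ^ N * ρ (S q)) =
          fun q => (((e⁻¹) ^ N) • (ρ ∘ S)) q := funext fun q => by simp
      rw [h1, iteratedFDeriv_const_smul_apply ((hρ.comp S.contDiff).of_le (hn j)).contDiffAt,
        norm_smul, norm_pow, norm_inv, Real.norm_eq_abs, abs_of_pos he,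
        ContinuousLinearMap.iteratedFDeriv_comp_right S hρ p (hn j)]
      refine mul_le_mul_of_nonneg_left ?_ (by positivity)
      refine (ContinuousMultilinearMap.norm_compContinuousLinearMap_le _ _).trans ?_
      simp only [Finset.prod_const, Finset.card_univ, Fintype.card_fin]
      exact mul_le_mul (hA j _) (pow_le_pow_left₀ (norm_nonneg _) hSn j) (by positivity) (hA0 j)
    by_cases hz : iteratedFDeriv ℝ n (scaled ρ M e) p = 0
    · rw [hz, norm_zero]
      exact mul_nonneg (Finset.sum_nonneg fun j _ => mul_nonneg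
        (mul_nonneg (Nat.cast_nonneg _) (hA0 _))
        (add_nonneg (hB0 _) (mul_nonneg (le_max_right _ _) (hB0 _)))) (zpow_nonneg he.le _)
    have hp1 : ‖p.1‖ ≤ r * e := by
      have hp : p ∈ tsupport (scaled ρ M e) := support_iteratedFDeriv_subset n hz
      exact closure_minimal (fun q hq => hsmall e he q hq)
        (isClosed_le continuous_fst.norm continuous_const) hp
    have hfun : scaled ρ M e = fun q => (e⁻¹) ^ N * ρ (S q) * M q := rfl
    rw [hfun]
    refine (norm_iteratedFDeriv_mul_le (N := ∞) (contDiff_const.mul (hρ.comp S.contDiff)) hM p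
      (hn n)).trans ?_
    rw [Finset.sum_mul, Finset.sum_range]
    refine Finset.sum_le_sum fun j _ => ?_
    have hjn : (j : ℕ) ≤ n := Nat.lt_succ_iff.1 j.2
    have he' : ∀ k : ℕ, (e⁻¹) ^ N * (e⁻¹) ^ k = e ^ (-(N : ℤ) - k) := fun k => by
      rw [zpow_sub₀ he.ne', zpow_neg, zpow_natCast, zpow_natCast, inv_pow, inv_pow, div_eq_mul_inv]
    have hstep := mul_le_mul (hg j) (hB (n - j) p) (norm_nonneg _)
      (mul_nonneg (by positivity) (mul_nonneg (hA0 _) (by positivity)))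
    have hgen : (e⁻¹) ^ N * (e⁻¹) ^ (j : ℕ) * B (n - j) ≤
        e ^ (m - N - n) * (B (n - j) + max r 0 * B 1) → (n.choose j : ℝ) *
        ‖iteratedFDeriv ℝ j (fun q : Joint N d => (e⁻¹) ^ N * ρ (S q)) p‖ *
          ‖iteratedFDeriv ℝ (n - j) M p‖ ≤ w j * e ^ (m - N - n) := fun hk => by
      calc _ ≤ (n.choose j : ℝ) * ((e⁻¹) ^ N * (A j * (e⁻¹) ^ (j : ℕ)) * B (n - j)) := by
            rw [mul_assoc]; exact mul_le_mul_of_nonneg_left hstep (Nat.cast_nonneg _)
        _ = (n.choose j : ℝ) * A j * ((e⁻¹) ^ N * (e⁻¹) ^ (j : ℕ) * B (n - j)) := by ring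
        _ ≤ (n.choose j : ℝ) * A j * (e ^ (m - N - n) * (B (n - j) + max r 0 * B 1)) :=
            mul_le_mul_of_nonneg_left hk (mul_nonneg (Nat.cast_nonneg _) (hA0 _))
        _ = w j * e ^ (m - N - n) := by simp only [w]; ring
    have hrB : 0 ≤ max r 0 * B 1 := mul_nonneg (le_max_right _ _) (hB0 _)
    rcases hm with rfl | ⟨rfl, h0⟩
    · refine hgen ?_
      rw [he' j]
      exact mul_le_mul (zpow_le_zpow_right_of_le_one₀ he he1 (by omega)) (by linarith) (hB0 _)
        (zpow_nonneg he.le _)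
    · rcases lt_or_eq_of_le hjn with hlt | heq
      · refine hgen ?_
        rw [he' j]
        exact mul_le_mul (zpow_le_zpow_right_of_le_one₀ he he1 (by omega)) (by linarith) (hB0 _)
          (zpow_nonneg he.le _)
      · -- here the derivatives all fall on `ρ`, and `M` is `O (e)` on the support
        have hval : |M p| ≤ max r 0 * B 1 * e := by
          have hd : ∀ q, ‖fderiv ℝ M q‖ ≤ B 1 := fun q => by
            rw [← norm_iteratedFDeriv_one]; exact hB 1 q
          have h := (convex_univ : Convex ℝ (univ : Set (Joint N d))).norm_image_sub_le_of_norm_fderiv_le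
            (fun q _ => hM.differentiable (by simp) q) (fun q _ => hd q)
            (mem_univ ((0 : Fin N → ℝ), p.2)) (mem_univ p)
          rw [h0, sub_zero, Real.norm_eq_abs] at h
          refine h.trans ?_
          rw [show p - ((0 : Fin N → ℝ), p.2) = (p.1, (0 : Fin d → ℝ)) from Prod.ext (by simp) (by simp)]
          rw [Prod.norm_def, norm_zero, max_eq_left (norm_nonneg _)]
          calc B 1 * ‖p.1‖ ≤ B 1 * (max r 0 * e) := mul_le_mul_of_nonneg_left
                (hp1.trans (mul_le_mul_of_nonneg_right (le_max_left _ _) he.le)) (hB0 _)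
            _ = _ := by ring
        have key : ∀ k : ℕ, k = n → (n.choose k : ℝ) *
            ‖iteratedFDeriv ℝ k (fun q : Joint N d => (e⁻¹) ^ N * ρ (S q)) p‖ *
              ‖iteratedFDeriv ℝ (n - k) M p‖ ≤
            A n * (max r 0 * B 1) * e ^ ((1 : ℤ) - N - n) := by
          intro k hk
          subst hk
          rw [Nat.choose_self, Nat.cast_one, one_mul, Nat.sub_self, norm_iteratedFDeriv_zero,
            Real.norm_eq_abs]
          calc ‖iteratedFDeriv ℝ k (fun q : Joint N d => (e⁻¹) ^ N * ρ (S q)) p‖ * |M p|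
              ≤ (e⁻¹) ^ N * (A k * (e⁻¹) ^ k) * (max r 0 * B 1 * e) :=
                mul_le_mul (hg k) hval (abs_nonneg _) (mul_nonneg (by positivity)
                  (mul_nonneg (hA0 _) (by positivity)))
            _ = A k * (max r 0 * B 1) * (e ^ (-(N : ℤ) - k) * e) := by rw [← he']; ring
            _ = _ := by rw [← zpow_add_one₀ he.ne', show -(N : ℤ) - k + 1 = 1 - N - k by ring]
        refine (key j heq).trans (mul_le_mul_of_nonneg_right ?_ (zpow_nonneg he.le _))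
        simp only [w, heq, Nat.choose_self, Nat.cast_one, one_mul]
        exact mul_le_mul_of_nonneg_left (le_add_of_nonneg_left (hB0 _)) (hA0 _)

/-- With a density bound, a kernel of order `m` maps `L²` to bounded functions. -/
theorem IsScale.exists_sup_bound {G : ℝ → Joint N d → ℝ} {r Cd : ℝ} {m : ℤ}
    (h : F.IsScale G r m) (hr : 0 ≤ r) (hD : F.Dense r Cd) :
    ∃ C, 0 ≤ C ∧ ∀ e, 0 < e → e ≤ 1 → ∀ φ : (Fin d → ℝ) → ℝ, Continuous φ →
      Integrable (fun z => φ z ^ 2) →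
        ∀ x, F.avg (G e) φ x ^ 2 ≤ C * e ^ (2 * m - d) * ∫ z, φ z ^ 2 := by
  obtain ⟨C₀, hC₀, hb⟩ := h.bound 0
  refine ⟨C₀ ^ 2 * (2 * r) ^ N * max Cd 0, by positivity, fun e he he1 φ hφ hint x => ?_⟩
  have hG := h.adm e he he1
  set b := C₀ * e ^ (m - N) with hbdef
  have hb0 : 0 ≤ b := mul_nonneg hC₀ (zpow_nonneg he.le _)
  have hGb : ∀ p, |G e p| ≤ b := fun p => by simpa [b] using hb e he he1 p
  set T : Set (Fin N → ℝ) := {a | (a, x) ∈ F.K ∧ ‖a‖ ≤ r * e}
  have hTc : IsClosed T := (F.compact.isClosed.preimage (by fun_prop)).inter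
    (isClosed_le continuous_norm continuous_const)
  have hTsub : T ⊆ Metric.closedBall 0 (r * e) := fun a ha => mem_closedBall_zero_iff.2 ha.2
  have hTk : IsCompact T := (isCompact_closedBall _ _).of_isClosed_subset hTc hTsub
  have hTv : volume.real T ≤ (2 * (r * e)) ^ N := by
    refine (measureReal_mono hTsub measure_closedBall_lt_top.ne).trans (le_of_eq ?_)
    simp [measureReal_def, Real.volume_pi_closedBall _ (mul_nonneg hr he.le)]
    positivity
  have hcu : Continuous fun a : Fin N → ℝ => φ (F.Φ (a, x)) :=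
    hφ.comp (F.smooth.continuous.comp (by fun_prop))
  set u := fun a : Fin N → ℝ => |φ (F.Φ (a, x))|
  have hI : |F.avg (G e) φ x| ≤ b * ∫ a in T, u a := by
    have hz : ∀ a, a ∉ T → G e (a, x) * φ (F.Φ (a, x)) = 0 := fun a ha => by
      by_contra hc
      have hne : G e (a, x) ≠ 0 := fun h0 => hc (by simp [h0])
      exact ha ⟨by_contra fun hk => hne (hG.zero_of_notMem hk), h.small e he he1 _ hne⟩
    show |∫ a, G e (a, x) * φ (F.Φ (a, x))| ≤ _
    rw [← setIntegral_eq_integral_of_forall_compl_eq_zero hz, ← integral_const_mul]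
    refine abs_integral_le_integral_abs.trans (integral_mono_of_nonneg
      (Eventually.of_forall fun a => abs_nonneg _)
      ((continuous_const.mul hcu.abs).continuousOn.integrableOn_compact hTk)
      (Eventually.of_forall fun a => ?_))
    simp only [abs_mul, u]
    exact mul_le_mul_of_nonneg_right (hGb _) (abs_nonneg _)
  set Q := ∫ a in T, u a ^ 2
  have hCS : (∫ a in T, u a) ^ 2 ≤ volume.real T * Q := by
    set J := ∫ a in T, u a
    set v := volume.real T
    have hu1 : IntegrableOn u T := hcu.abs.continuousOn.integrableOn_compact hTk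
    have hu2 : IntegrableOn (fun a => u a ^ 2) T :=
      (hcu.abs.pow 2).continuousOn.integrableOn_compact hTk
    have hv0 : 0 ≤ v := measureReal_nonneg
    rcases eq_or_lt_of_le hv0 with hv | hv
    · have hJ : J = 0 := setIntegral_measure_zero _
        ((measureReal_eq_zero_iff hTk.measure_lt_top.ne).1 hv.symm)
      rw [hJ, ← hv]; simp
    · have h1 : 0 ≤ ∫ a in T, (v * u a - J) ^ 2 := integral_nonneg fun a => sq_nonneg _
      have e1 : ∫ a in T, (v * u a - J) ^ 2 = v ^ 2 * Q - 2 * v * J * J + v * J ^ 2 := by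
        have hexp : (fun a => (v * u a - J) ^ 2) =
            fun a => v ^ 2 * u a ^ 2 - 2 * v * J * u a + J ^ 2 := funext fun a => by ring
        have i12 : IntegrableOn (fun a => v ^ 2 * u a ^ 2 - 2 * v * J * u a) T :=
          (hu2.const_mul _).sub (hu1.const_mul _)
        rw [hexp]
        rw [integral_add i12 (integrableOn_const hTk.measure_lt_top.ne),
          integral_sub (hu2.const_mul _) (hu1.const_mul _), integral_const_mul, integral_const_mul,
          setIntegral_const, smul_eq_mul]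
      have h2 : 0 ≤ v * (v * Q - J ^ 2) := by rw [e1] at h1; nlinarith
      linarith [nonneg_of_mul_nonneg_right h2 hv]
  have hQ : Q ≤ max Cd 0 * e ^ ((N : ℤ) - d) * ∫ z, φ z ^ 2 := by
    refine le_trans ?_ (mul_le_mul_of_nonneg_right
      (mul_le_mul_of_nonneg_right (le_max_left Cd 0) (zpow_nonneg he.le _))
      (integral_nonneg fun z => sq_nonneg _))
    refine le_of_eq_of_le ?_ (hD e he he1 x _ (hφ.pow 2) (fun z => sq_nonneg _) hint)
    simp [Q, u, sq_abs, T]
  have hQ0 : 0 ≤ Q := integral_nonneg fun a => sq_nonneg _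
  calc F.avg (G e) φ x ^ 2 = |F.avg (G e) φ x| ^ 2 := (sq_abs _).symm
    _ ≤ (b * ∫ a in T, u a) ^ 2 := pow_le_pow_left₀ (abs_nonneg _) hI 2
    _ = b ^ 2 * (∫ a in T, u a) ^ 2 := mul_pow _ _ _
    _ ≤ b ^ 2 * (volume.real T * Q) := mul_le_mul_of_nonneg_left hCS (sq_nonneg _)
    _ ≤ b ^ 2 * ((2 * (r * e)) ^ N * (max Cd 0 * e ^ ((N : ℤ) - d) * ∫ z, φ z ^ 2)) := by gcongr
    _ = C₀ ^ 2 * (2 * r) ^ N * max Cd 0 * e ^ (2 * m - d) * ∫ z, φ z ^ 2 := by
        have he2 : e ^ (2 * m - (d : ℤ)) = (e ^ (m - N)) ^ 2 * e ^ N * e ^ ((N : ℤ) - d) := by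
          rw [← zpow_natCast, ← zpow_natCast, ← zpow_mul, ← zpow_add₀ he.ne', ← zpow_add₀ he.ne']
          congr 1; push_cast; ring
        rw [he2, hbdef]
        simp only [mul_pow]
        ring

end Fam

/-- Estimates (i) and (iii), and their supremum version. -/
theorem exists_avg_bound {Φ : Joint N d → (Fin d → ℝ)} (hΦ : ContDiff ℝ ∞ Φ)
    {K K' U : Set (Fin d → ℝ)} (hK : IsCompact K) (hK' : IsCompact K') (hKK' : K ⊆ interior K')
    (hU : IsOpen U) (hK'U : K' ⊆ U) (h0 : ∀ x ∈ U, Φ (0, x) = x)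
    (honto : ∀ x ∈ K', Function.Surjective (dPar Φ (0, x)))
    {ρ : (Fin N → ℝ) → ℝ} (hρ : ContDiff ℝ ∞ ρ) (hρc : HasCompactSupport ρ)
    {M : Joint N d → ℝ} (hM : ContDiff ℝ ∞ M) {m : ℤ}
    (hm : m = 0 ∨ m = 1 ∧ ∀ x ∈ U, M (0, x) = 0) :
    ∃ e₀, 0 < e₀ ∧ ∀ l : List (Fin d), ∃ C, 0 ≤ C ∧ ∀ e, 0 < e → e ≤ e₀ →
      ∀ φ : (Fin d → ℝ) → ℝ, ContDiff ℝ 1 φ →
        (∫ x in K, dirs l (scaledAvg Φ ρ M e φ) x ^ 2 ≤
            C * (e ^ (m - l.length)) ^ 2 * ∫ z in K', φ z ^ 2) ∧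
          ∀ x ∈ K, dirs l (scaledAvg Φ ρ M e φ) x ^ 2 ≤
            C * e ^ (2 * (m - l.length) - d) * ∫ z in K', φ z ^ 2 := by
  obtain ⟨θ₁, hθ₁, hθ₁c, hθ₁K', -, hθ₁1⟩ := exists_cut hK isOpen_interior hKK'
  set K1 := tsupport θ₁
  have hK1K' : K1 ⊆ K' := hθ₁K'.trans interior_subset
  obtain ⟨θ₂, hθ₂, hθ₂c, hθ₂K', hθ₂01, hθ₂1⟩ := exists_cut hθ₁c isOpen_interior hθ₁K'
  obtain ⟨r₀, C, hr₀, hC, F, hFΦ, hFK, hcov, hden⟩ := exists_fam hΦ hθ₁c hU
    (hK1K'.trans hK'U) h0 fun x hx => honto x (hK1K' hx)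
  have hev : ∀ᶠ a in 𝓝 (0 : Fin N → ℝ), ∀ x ∈ K1, θ₂ (Φ (a, x)) = 1 := by
    refine IsCompact.eventually_forall_of_forall_eventually hθ₁c fun x hx => ?_
    have hcont : Tendsto Φ (𝓝 ((0 : Fin N → ℝ), x)) (𝓝 x) := by
      have := hΦ.continuous.tendsto ((0 : Fin N → ℝ), x)
      rwa [h0 x (hK'U (hK1K' hx))] at this
    exact hcont.eventually (eventually_nhdsSet_iff_forall.1 hθ₂1 x hx)
  obtain ⟨δ, hδ, hδθ⟩ := Metric.eventually_nhds_iff.1 hev
  obtain ⟨Λ, hΛ⟩ := hρc.isBounded.subset_closedBall (0 : Fin N → ℝ)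
  set c := min r₀ (δ / 2) / (max Λ 1)
  have hc : 0 < c := by positivity
  set ρ' := fun b : Fin N → ℝ => (c⁻¹) ^ N * ρ (c⁻¹ • b)
  have hρ' : ContDiff ℝ ∞ ρ' := contDiff_const.mul (hρ.comp (contDiff_id.const_smul c⁻¹))
  have hρ'r : ∀ b, ρ' b ≠ 0 → ‖b‖ ≤ min r₀ (δ / 2) := fun b hb => by
    have h := mem_closedBall_zero_iff.1 (hΛ (subset_tsupport ρ
      (show c⁻¹ • b ∈ Function.support ρ from fun h => hb (by simp [ρ', h]))))
    rw [norm_smul, norm_inv, Real.norm_eq_abs, abs_of_pos hc, inv_mul_le_iff₀ hc] at h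
    calc ‖b‖ ≤ c * max Λ 1 := h.trans (mul_le_mul_of_nonneg_left (le_max_left _ _) hc.le)
      _ = min r₀ (δ / 2) := div_mul_cancel₀ _ (by positivity)
  -- the localised weight
  obtain ⟨η, hη, hηc, -, -, hη1⟩ := exists_cut (isCompact_closedBall (0 : Fin N → ℝ) r₀)
    isOpen_univ (subset_univ _)
  set M' : Joint N d → ℝ := fun p => η p.1 * θ₁ p.2 * M p
  have hM' : ContDiff ℝ ∞ M' := ((hη.comp contDiff_fst).mul (hθ₁.comp contDiff_snd)).mul hM
  have hM'c : HasCompactSupport M' := HasCompactSupport.intro (hηc.prod hθ₁c) fun p hp => by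
    simp only [mem_prod, not_and_or] at hp
    rcases hp with hp | hp <;> simp [M', image_eq_zero_of_notMem_tsupport hp]
  have hM'K : ∀ p, M' p ≠ 0 → p.2 ∈ K1 := fun p hp => by
    by_contra h
    exact hp (by simp [M', image_eq_zero_of_notMem_tsupport h])
  have hm' : m = 0 ∨ m = 1 ∧ ∀ x, M' (0, x) = 0 := by
    rcases hm with h | ⟨h, h'⟩
    · exact Or.inl h
    · refine Or.inr ⟨h, fun x => ?_⟩
      by_cases hx : x ∈ K1
      · simp [M', h' x (hK'U (hK1K' hx))]
      · simp [M', image_eq_zero_of_notMem_tsupport hx]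
  have hsc := Fam.isScale_scaled hFK hρ' (fun b hb => (hρ'r b hb).trans (min_le_left _ _)) hM'
    hM'c hM'K hm'
  set O := interior {x | θ₁ x = 1}
  have hKO : K ⊆ O := fun x hx => mem_interior_iff_mem_nhds.2
    (eventually_nhdsSet_iff_forall.1 hθ₁1 x hx)
  refine ⟨c, hc, fun l => ?_⟩
  obtain ⟨C₁, hC₁, hC₁'⟩ := hsc.exists_dirs_bound hr₀.le hcov l
  obtain ⟨C₂, hC₂, hC₂'⟩ := (hsc.steps l).exists_sup_bound hr₀.le hden
  refine ⟨C₁ * ((c⁻¹) ^ (m - l.length)) ^ 2 + C₂ * (c⁻¹) ^ (2 * (m - l.length) - (d : ℤ)),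
    by positivity, fun e he hec φ hφ => ?_⟩
  set e' := e / c
  have he' : 0 < e' := div_pos he hc
  have he'1 : e' ≤ 1 := (div_le_one hc).2 hec
  set φ' := fun z => θ₂ z * φ z
  have hφ' : ContDiff ℝ 1 φ' := (hθ₂.of_le (by simp)).mul hφ
  have hφ'z : ∀ z, z ∉ K' → φ' z = 0 := fun z hz => by
    have : θ₂ z = 0 := image_eq_zero_of_notMem_tsupport fun h => hz (interior_subset (hθ₂K' h))
    simp [φ', this]
  have hint : Integrable fun z => φ' z ^ 2 :=
    (hφ'.continuous.pow 2).integrable_of_hasCompactSupport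
      (HasCompactSupport.intro hK' fun z hz => by simp [hφ'z z hz])
  have hI : ∫ z, φ' z ^ 2 ≤ ∫ z in K', φ z ^ 2 := by
    rw [← setIntegral_eq_integral_of_forall_compl_eq_zero (s := K') fun z hz => by simp [hφ'z z hz]]
    refine setIntegral_mono_on (hint.integrableOn)
      ((hφ.continuous.pow 2).continuousOn.integrableOn_compact hK') hK'.measurableSet fun z _ => ?_
    simp only [φ', mul_pow]
    exact mul_le_of_le_one_left (sq_nonneg _)
      (pow_le_one₀ (hθ₂01 z).1 (hθ₂01 z).2)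
  have heq : ∀ x ∈ O, scaledAvg Φ ρ M e φ x = F.avg (scaled ρ' M' e') φ' x := by
    intro x hx
    have hx1 : θ₁ x = 1 := interior_subset (s := {x | θ₁ x = 1}) hx
    refine integral_congr_ae (Eventually.of_forall fun a => ?_)
    have hsimp : e'⁻¹ ^ N * ρ' (e'⁻¹ • a) = e⁻¹ ^ N * ρ (e⁻¹ • a) := by
      simp only [ρ', e', smul_smul, inv_div]
      rw [← mul_assoc, ← mul_pow, show c / e * c⁻¹ = e⁻¹ by field_simp,
        show c⁻¹ * (c / e) = e⁻¹ by field_simp]
    simp only [scaled, hFΦ, M', φ']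
    rw [hsimp]
    by_cases ha : ρ (e⁻¹ • a) = 0
    · simp [ha]
    have hb : ρ' (e'⁻¹ • a) ≠ 0 := by
      intro h
      rw [h, mul_zero] at hsimp
      exact ha ((mul_eq_zero.1 hsimp.symm).resolve_left (pow_ne_zero _ (inv_ne_zero he.ne')))
    have hna := hρ'r _ hb
    rw [norm_smul, norm_inv, Real.norm_eq_abs, abs_of_pos he', inv_mul_le_iff₀ he'] at hna
    have hna' : ‖a‖ ≤ min r₀ (δ / 2) := hna.trans (mul_le_of_le_one_left (by positivity) he'1)
    have hxK1 : x ∈ K1 := subset_tsupport θ₁ (by simp [hx1])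
    rw [hη1.self_of_nhdsSet a (mem_closedBall_zero_iff.2 (hna'.trans (min_le_left _ _))), hx1,
      hδθ (y := a) (by rw [dist_zero_right]; linarith [min_le_right r₀ (δ / 2)]) x hxK1]
    ring
  have hd : ∀ x ∈ K, dirs l (scaledAvg Φ ρ M e φ) x = dirs l (F.avg (scaled ρ' M' e') φ') x :=
    fun x hx => dirs_congr_on isOpen_interior heq l x (hKO hx)
  have h1 := hC₁' e' he' he'1 φ' hφ' hint
  have hzp : ∀ k : ℤ, e' ^ k = (c⁻¹) ^ k * e ^ k := fun k => by
    rw [← mul_zpow]; congr 1; simp [e', div_eq_inv_mul]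
  have hI0 : 0 ≤ ∫ z in K', φ z ^ 2 := integral_nonneg fun z => sq_nonneg _
  refine ⟨?_, fun x hx => ?_⟩
  · calc ∫ x in K, dirs l (scaledAvg Φ ρ M e φ) x ^ 2
        = ∫ x in K, dirs l (F.avg (scaled ρ' M' e') φ') x ^ 2 :=
          setIntegral_congr_fun hK.measurableSet fun x hx => by simp only [hd x hx]
      _ ≤ ∫ x, dirs l (F.avg (scaled ρ' M' e') φ') x ^ 2 := by
          refine setIntegral_le_integral ?_ (Eventually.of_forall fun x => sq_nonneg _)
          rw [Fam.dirs_avg (hsc.adm e' he' he'1) hφ' l]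
          have hA := (hsc.adm e' he' he'1).steps l
          refine Continuous.integrable_of_hasCompactSupport ?_ (HasCompactSupport.intro
            (F.compact.image continuous_snd) fun x hx => ?_)
          · exact (continuous_iff_continuousAt.2 fun x =>
              (Fam.hasFDerivAt_avg hA hφ' x).continuousAt).pow 2
          · have : ∀ a, F.steps l (scaled ρ' M' e') (a, x) = 0 := fun a =>
              hA.zero_of_notMem fun h => hx ⟨_, h, rfl⟩
            simp [Fam.avg, this]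
      _ ≤ C₁ * (e' ^ (m - l.length)) ^ 2 * ∫ z, φ' z ^ 2 := h1
      _ ≤ C₁ * (e' ^ (m - l.length)) ^ 2 * ∫ z in K', φ z ^ 2 :=
          mul_le_mul_of_nonneg_left hI (by positivity)
      _ ≤ _ := by
          refine mul_le_mul_of_nonneg_right ?_ hI0
          rw [hzp, mul_pow, ← mul_assoc]
          exact mul_le_mul_of_nonneg_right (le_add_of_nonneg_right (by positivity)) (sq_nonneg _)
  · rw [hd x hx, Fam.dirs_avg (hsc.adm e' he' he'1) hφ' l]
    calc F.avg (F.steps l (scaled ρ' M' e')) φ' x ^ 2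
        ≤ C₂ * e' ^ (2 * (m - l.length) - (d : ℤ)) * ∫ z, φ' z ^ 2 :=
          hC₂' e' he' he'1 φ' hφ'.continuous hint x
      _ ≤ C₂ * e' ^ (2 * (m - l.length) - (d : ℤ)) * ∫ z in K', φ z ^ 2 :=
          mul_le_mul_of_nonneg_left hI (by positivity)
      _ ≤ _ := by
          refine mul_le_mul_of_nonneg_right ?_ hI0
          rw [hzp, ← mul_assoc]
          exact mul_le_mul_of_nonneg_right (le_add_of_nonneg_left (by positivity))
            (zpow_nonneg he.le _)

/-- The commutator with a smooth function gains one power of `e`. -/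
theorem exists_comm_bound {Φ : Joint N d → (Fin d → ℝ)} (hΦ : ContDiff ℝ ∞ Φ)
    {K K' U : Set (Fin d → ℝ)} (hK : IsCompact K) (hK' : IsCompact K') (hKK' : K ⊆ interior K')
    (hU : IsOpen U) (hK'U : K' ⊆ U) (h0 : ∀ x ∈ U, Φ (0, x) = x)
    (honto : ∀ x ∈ K', Function.Surjective (dPar Φ (0, x)))
    {ρ : (Fin N → ℝ) → ℝ} (hρ : ContDiff ℝ ∞ ρ) (hρc : HasCompactSupport ρ)
    {M : Joint N d → ℝ} (hM : ContDiff ℝ ∞ M) {f : (Fin d → ℝ) → ℝ} (hf : ContDiff ℝ ∞ f) :
    ∃ e₀, 0 < e₀ ∧ ∀ l : List (Fin d), ∃ C, 0 ≤ C ∧ ∀ e, 0 < e → e ≤ e₀ →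
      ∀ φ : (Fin d → ℝ) → ℝ, ContDiff ℝ 1 φ →
        (∫ x in K, dirs l (scaledAvg Φ ρ (fun p => (f p.2 - f (Φ p)) * M p) e φ) x ^ 2 ≤
            C * (e ^ ((1 : ℤ) - l.length)) ^ 2 * ∫ z in K', φ z ^ 2) ∧
          ∀ x ∈ K, dirs l (scaledAvg Φ ρ (fun p => (f p.2 - f (Φ p)) * M p) e φ) x ^ 2 ≤
            C * e ^ (2 * ((1 : ℤ) - l.length) - d) * ∫ z in K', φ z ^ 2 :=
  exists_avg_bound hΦ hK hK' hKK' hU hK'U h0 honto hρ hρc
    (((hf.comp contDiff_snd).sub (hf.comp hΦ)).mul hM)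
    (Or.inr ⟨rfl, fun x hx => by simp [h0 x hx]⟩)

end Vale.Agent.P204.Gen.Param
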