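import Mathlib

/-!
P204 on a closed four-manifold: almost complex structures and two-forms on the tangent spaces of a
manifold of Mathlib, and the tamed-to-compatible statement.

A field is smooth, and a form is closed, when this holds for its expression in every chart
`chartAt`. A compact Hausdorff manifold without boundary is closed; connectedness is not assumed.
-/

open scoped Manifold

namespace Vale.Agent.P204.Gen

universe u v

section

variable {E : Type v} [NormedAddCommGroup E] [NormedSpace ℝ E]
variable {X : Type u} [TopologicalSpace X] [ChartedSpace E X]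

/-- The tangent space of a manifold without boundary modelled on `E`. -/
abbrev Tan (E : Type v) [NormedAddCommGroup E] [NormedSpace ℝ E] {X : Type u} [TopologicalSpace X]
    [ChartedSpace E X] (p : X) : Type v :=
  TangentSpace (modelWithCornersSelf ℝ E) p

/-- The coordinate vector `v` at `y`, sent to the manifold by the inverse of the chart at `x`. -/
noncomputable def chartPush (x : X) (y v : E) : Tan E ((chartAt E x).symm y) :=
  mfderiv (modelWithCornersSelf ℝ E) (modelWithCornersSelf ℝ E) (chartAt E x).symm y v

/-- A tangent vector at `p` in the chart at `x`. -/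
noncomputable def chartPull (x p : X) (w : Tan E p) : E :=
  mfderiv (modelWithCornersSelf ℝ E) (modelWithCornersSelf ℝ E) (chartAt E x) p w

/-- A two-form in the chart at `x`: its pullback by the inverse of the chart. -/
noncomputable def coordForm (ω : (p : X) → Tan E p → Tan E p → ℝ) (x : X) (y v w : E) : ℝ :=
  ω ((chartAt E x).symm y) (chartPush x y v) (chartPush x y w)

/-- A field of endomorphisms in the chart at `x`: its conjugate by the chart. -/
noncomputable def coordEnd (J : (p : X) → Tan E p → Tan E p) (x : X) (y v : E) : E :=
  chartPull x ((chartAt E x).symm y) (J ((chartAt E x).symm y) (chartPush x y v))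

/-- Smoothness on the image of the chart at `x`. -/
def SmoothInChart {F : Type*} [NormedAddCommGroup F] [NormedSpace ℝ F] (x : X) (f : E → F) :
    Prop :=
  ContDiffOn ℝ (⊤ : ℕ∞) f (chartAt E x).target

/-- The exterior derivative of a two-form field on `E`, in three vectors. -/
noncomputable def extDeriv₂ (f : E → E → E → ℝ) (y a b c : E) : ℝ :=
  fderiv ℝ (fun z => f z b c) y a + fderiv ℝ (fun z => f z c a) y b
    + fderiv ℝ (fun z => f z a b) y c

/-- A smooth almost complex structure on the manifold. -/
structure ManifoldACS (J : (p : X) → Tan E p → Tan E p) : Prop where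
  linear : ∀ p, IsLinearMap ℝ (J p)
  sq : ∀ p v, J p (J p v) = -v
  smooth : ∀ x v, SmoothInChart x (fun y => coordEnd J x y v)

/-- A smooth closed two-form on the manifold. -/
structure ManifoldClosedForm (ω : (p : X) → Tan E p → Tan E p → ℝ) : Prop where
  linear : ∀ p w, IsLinearMap ℝ fun v => ω p v w
  skew : ∀ p v w, ω p v w = -ω p w v
  smooth : ∀ x v w, SmoothInChart x (fun y => coordForm ω x y v w)
  closed : ∀ x, ∀ y ∈ (chartAt E x).target, ∀ a b c, extDeriv₂ (coordForm ω x) y a b c = 0

/-- `ω` is positive on every complex line of `J`; it is then nondegenerate, hence symplectic when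
closed. -/
def ManifoldTames (J : (p : X) → Tan E p → Tan E p) (ω : (p : X) → Tan E p → Tan E p → ℝ) : Prop :=
  ∀ p v, v ≠ 0 → 0 < ω p v (J p v)

/-- `ω` is invariant under `J`. -/
def ManifoldInvariant (J : (p : X) → Tan E p → Tan E p) (ω : (p : X) → Tan E p → Tan E p → ℝ) :
    Prop :=
  ∀ p v w, ω p (J p v) (J p w) = ω p v w

variable (E X) in
/-- Every tamed almost complex structure on the manifold has a compatible symplectic form. -/
def HasCompatibleForms : Prop :=
  ∀ (J : (p : X) → Tan E p → Tan E p) (ω : (p : X) → Tan E p → Tan E p → ℝ),
    ManifoldACS J → ManifoldClosedForm ω → ManifoldTames J ω →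
      ∃ ω', ManifoldClosedForm ω' ∧ ManifoldTames J ω' ∧ ManifoldInvariant J ω'

end

/-- The model space of a four-manifold. -/
abbrev R4 := EuclideanSpace ℝ (Fin 4)

/-- Donaldson's statement: on every closed four-manifold a tamed almost complex structure has a
compatible symplectic form. -/
def TamedToCompatible : Prop :=
  ∀ (X : Type u) [TopologicalSpace X] [T2Space X] [CompactSpace X] [ChartedSpace R4 X]
    [IsManifold (modelWithCornersSelf ℝ R4) (⊤ : ℕ∞) X], HasCompatibleForms R4 X

end Vale.Agent.P204.Gen
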