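import Vale.Agent.P204.Gen.Atlas
import Vale.Agent.P204.Gen.GeoBasic
import Vale.Agent.P204.Gen.Statement

/-!
P204: from a tamed almost complex structure on a closed four-manifold to a `GSetup`, and from a
compatible form of the `GSetup` back to the manifold.
-/

noncomputable section

open scoped Manifold ContDiff Topology
open Filter Set

namespace Vale.Agent.P204.Four

open Vale.Agent.P204.Torus Vale.Agent.P204.Gen

variable {X : Type*} [TopologicalSpace X] [ChartedSpace E4 X]

lemma isLinearMap_right {σ : (p : X) → Tan R4 p → Tan R4 p → ℝ}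
    (h : ∀ p w, IsLinearMap ℝ fun v => σ p v w) (hs : ∀ p v w, σ p v w = -σ p w v) (p : X)
    (v : Tan R4 p) : IsLinearMap ℝ fun w => σ p v w :=
  ⟨fun a b => by rw [hs, hs p v a, hs p v b, (h p v).map_add]; ring,
    fun c a => by rw [hs, hs p v a, (h p v).map_smul, smul_neg]⟩

/-- A closed two-form from the literal fields. -/
def bilinOf (σ : (p : X) → Tan R4 p → Tan R4 p → ℝ) (h : ∀ p w, IsLinearMap ℝ fun v => σ p v w)
    (hs : ∀ p v w, σ p v w = -σ p w v) : Bilin X := fun p =>
  show E4 →L[ℝ] E4 →L[ℝ] ℝ from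
  LinearMap.toContinuousLinearMap
    { toFun := fun v : E4 => LinearMap.toContinuousLinearMap
        (show E4 →ₗ[ℝ] ℝ from IsLinearMap.mk' (fun w => σ p v w) (isLinearMap_right h hs p v))
      map_add' := fun a b => ContinuousLinearMap.ext fun w => (h p w).map_add a b
      map_smul' := fun c a => ContinuousLinearMap.ext fun w => (h p w).map_smul c a }

/-- An endomorphism field from the literal field. -/
def endoOf (J : (p : X) → Tan R4 p → Tan R4 p) (h : ∀ p, IsLinearMap ℝ (J p)) : Endo X := fun p =>
  show E4 →L[ℝ] E4 from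
  LinearMap.toContinuousLinearMap (show E4 →ₗ[ℝ] E4 from IsLinearMap.mk' (J p) (h p))

lemma pull_J_of_piM {A : V →L[ℝ] V} {α : Form} (h : piM A α = 0) : pull A α = α := by
  have h2 := congrArg (fun β : Form => (2 : ℝ) • β) h
  simp only [piM, smul_smul, smul_zero] at h2
  norm_num at h2
  exact (sub_eq_zero.1 h2).symm

lemma evCLM_exists (A : E4 →L[ℝ] V) (α : Form) :
    ∃ B : E4 →L[ℝ] E4 →L[ℝ] ℝ, ∀ v w, B v w = ev α (A v) (A w) :=
  ⟨LinearMap.toContinuousLinearMap
    { toFun := fun v => LinearMap.toContinuousLinearMap (IsLinearMap.mk' (fun w => ev α (A v) (A w))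
        ⟨fun a b => by simp [ev_add_right], fun c a => by simp [ev_smul_right]⟩)
      map_add' := fun a b => ContinuousLinearMap.ext fun w => by simp [ev_add_left]
      map_smul' := fun c a => ContinuousLinearMap.ext fun w => by simp [ev_smul_left] },
    fun _ _ => rfl⟩

variable [IsManifold (𝓡 4) ∞ X]

/-- Fields which are smooth and closed in the charts of a covering family are closed two-forms. -/
lemma closedTwoForm_of_cover {om : Bilin X} (hskew : ∀ x u v, om x u v = -om x v u) {ι : Type*}
    (φ : ι → OpenPartialHomeomorph X V) (hφ : ∀ i, IsChart (φ i))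
    (hcov : ∀ x, ∃ i, x ∈ (φ i).source)
    (hs : ∀ i, ContDiffOn ℝ ∞ (formRep (φ i) om) (φ i).target)
    (hc : ∀ i, ∀ u ∈ (φ i).target, ClosedAt (formRep (φ i) om) u) : ClosedTwoForm om := by
  have key : ∀ p : X, ∀ u ∈ (stdChart p).target,
      ContDiffAt ℝ ∞ (formRep (stdChart p) om) u ∧ ClosedAt (formRep (stdChart p) om) u := by
    intro p u hu
    obtain ⟨i, hi⟩ := hcov ((stdChart p).symm u)
    have hp := isChart_stdChart p
    have hy : change (stdChart p) (φ i) u ∈ (φ i).target := (φ i).map_source hi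
    have hT := hp.contDiffAt_change (hφ i) hu hi
    have hf := (hs i).contDiffAt ((φ i).open_target.mem_nhds hy)
    have hn := (isOpen_change (stdChart p) (φ i)).mem_nhds ⟨hu, hi⟩
    have he : formRep (stdChart p) om =ᶠ[𝓝 u] fun v =>
        pull (fderiv ℝ (change (stdChart p) (φ i)) v)
          (formRep (φ i) om (change (stdChart p) (φ i) v)) :=
      eventually_of_mem hn fun v hv => formRep_change hp (hφ i) hskew hv.1 hv.2
    refine ⟨?_, (closedAt_pull hT (hf.differentiableAt (by simp)) (hc i _ hy)).congr he⟩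
    refine ((contDiffOn_pull ((hs i).comp (hp.contDiffOn_change (hφ i))
      fun v hv => (φ i).map_source hv.2) ((hp.contDiffOn_change (hφ i)).fderiv_of_isOpen
        (isOpen_change _ _) (by simp))).contDiffAt hn).congr_of_eventuallyEq he
  have hat : ∀ p : X, ∀ u ∈ (chartAt E4 p).target, ∀ a b : E4, formInChart om p a b =ᶠ[𝓝 u]
      fun v => ev (formRep (stdChart p) om (toV v)) (toV a) (toV b) := fun p u hu a b =>
    eventually_of_mem ((chartAt E4 p).open_target.mem_nhds hu) fun v hv =>
      (ev_formRep_stdChart hskew p hv a b).symm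
  refine ⟨hskew, fun p a b u hu => ?_, fun p u hu a b c => ?_⟩
  · have h1 := (key p _ (mem_stdChart_target hu)).1.comp u toV.contDiff.contDiffAt
    refine (ContDiffAt.congr_of_eventuallyEq ?_ (hat p u hu a b)).contDiffWithinAt
    have h2 := contDiffAt_piLp 2 |>.1 h1
    simp only [Function.comp_apply] at h2
    unfold ev
    exact ContDiffAt.sum fun k _ => (h2 k).mul contDiffAt_const
  · have hd := (key p _ (mem_stdChart_target hu)).1.differentiableAt (by simp)
    have hk : ∀ a b c : E4, fderiv ℝ (formInChart om p b c) u a =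
        ev (fderiv ℝ (formRep (stdChart p) om) (toV u) (toV a)) (toV b) (toV c) := by
      intro a b c
      rw [(hat p u hu b c).fderiv_eq]
      have h1 := fderiv_ev (f := formRep (stdChart p) om) hd (differentiableAt_const (toV b))
        (differentiableAt_const (toV c)) (toV a)
      have h2 := toV.comp_right_fderiv (f := fun w => ev (formRep (stdChart p) om w) (toV b) (toV c))
        (x := u)
      rw [show (fun v => ev (formRep (stdChart p) om (toV v)) (toV b) (toV c)) =
        (fun w => ev (formRep (stdChart p) om w) (toV b) (toV c)) ∘ toV from rfl, h2]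
      simpa [ev_def] using h1
    rw [hk, hk, hk]
    exact (key p _ (mem_stdChart_target hu)).2 _ _ _

variable [T2Space X] [CompactSpace X] [MeasurableSpace X] [BorelSpace X]

/-- Closedness in the charts. -/
def ChartClosed (G : Geo X) (α : X → Form) : Prop :=
  ∀ i, ∀ u ∈ (G.φ i).target, ClosedAt (G.rep2 i α) u

/-- The literal statement on `X` from the statement for a `GSetup`. -/
theorem hasCompatibleForms_of_gsetup
    (hWC : ∀ (G : Geo X) (α : X → Form), G.Smooth2 α → (G.WeakClosed α ↔ ChartClosed G α))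
    (main : ∀ S : GSetup X, ∃ α, S.Compatible α) : HasCompatibleForms R4 X := by
  intro J₀ ω₀ hJ₀ hω₀ hT₀
  set J : Endo X := endoOf J₀ hJ₀.linear with hJdef
  set om : Bilin X := bilinOf ω₀ hω₀.linear hω₀.skew with homdef
  have hJ : AlmostComplex J := ⟨hJ₀.sq, fun p a => hJ₀.smooth p a⟩
  have hω : ClosedTwoForm om :=
    ⟨hω₀.skew, fun p a b => hω₀.smooth p a b, fun p u hu a b c => hω₀.closed p u hu a b c⟩
  have hT : ∀ x v, v ≠ 0 → 0 < Bm om x v (Jm J x v) := fun x v hv => hT₀ x v hv
  obtain ⟨G, hG, hpos⟩ := exists_geo hω hT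
  have hmem : ∀ x, x ∈ (G.φ (G.tr x)).source := fun x => G.mem_ch x
  have hdT : ∀ i, ∀ u ∈ (G.φ i).target, G.dT i ((G.φ i).symm u) =
      fderiv ℝ (change (G.φ i) (G.φ (G.tr ((G.φ i).symm u)))) u := fun i u hu => by
    show fderiv ℝ _ (G.φ i ((G.φ i).symm u)) = _
    rw [(G.φ i).right_inv hu]; rfl
  have hrep2 : ∀ i, ∀ u ∈ (G.φ i).target,
      G.rep2 i (fun x => formRep (G.ch x) om (G.ch x x)) u = formRep (G.φ i) om u := by
    intro i u hu
    rw [Geo.rep2, if_pos hu, hdT i u hu]
    exact (formRep_change (hG i) (hG _) hω.skew hu (hmem _)).symm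
  have hrepE : ∀ i, ∀ u ∈ (G.φ i).target,
      G.repE i (fun x => endoRep (G.ch x) J (G.ch x x)) u = endoRep (G.φ i) J u := by
    intro i u hu
    rw [Geo.repE, if_pos hu, hdT i u hu]
    dsimp only [Geo.ch]
    set φ := G.φ i with hφeq
    set χ := G.φ (G.tr (φ.symm u)) with hχeq
    have hφ : IsChart φ := hG _
    have hχ : IsChart χ := hG _
    have hx : φ.symm u ∈ χ.source := hmem _
    have hs : φ.symm u ∈ φ.source := φ.map_target hu
    set v := change φ χ u with hv
    have hvt : v ∈ χ.target := χ.map_source hx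
    have hvs : χ.symm v = φ.symm u := χ.left_inv hx
    have h1 := hφ.fderiv_change hχ hu hx
    have h2 := hχ.fderiv_change hφ hvt (hvs ▸ hs)
    rw [hvs] at h2
    have hv' : v = χ (φ.symm u) := rfl
    have e1 : ∀ a, fderiv ℝ (change χ φ) v (fderiv ℝ (change φ χ) u a) = a := fun a => by
      rw [h1, h2, ContinuousLinearMap.comp_apply, ContinuousLinearMap.comp_apply, hv', hχ.P_D hx]
      have h3 := hφ.D_P hs a
      rwa [φ.right_inv hu] at h3
    have e2 : ∀ a, fderiv ℝ (change φ χ) u (fderiv ℝ (change χ φ) v a) = a := fun a => by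
      rw [h1, h2, ContinuousLinearMap.comp_apply, ContinuousLinearMap.comp_apply]
      have h3 : P φ u (D φ (φ.symm u) (P χ v a)) = P χ v a := by
        have h4 := hφ.P_D hs (P χ v a)
        rwa [φ.right_inv hu] at h4
      rw [h3, hv']
      exact hχ.D_P hx a
    rw [show fderiv ℝ (change φ χ) u = ((ContinuousLinearEquiv.equivOfInverse
      (fderiv ℝ (change φ χ) u) (fderiv ℝ (change χ φ) v) e1 e2 : V ≃L[ℝ] V) : V →L[ℝ] V) from rfl,
      ContinuousLinearMap.inverse_equiv, endoRep_change hφ hχ J hu hx]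
    rfl
  set S : GSetup X := {
    toGeo := G
    J := fun x => endoRep (G.ch x) J (G.ch x x)
    om := fun x => formRep (G.ch x) om (G.ch x x)
    J_smooth := fun i => (hJ.contDiffOn_endoRep (hG i)).congr (hrepE i)
    J_sq := fun x u => by
      show endoRep (G.ch x) J (G.ch x x) (endoRep (G.ch x) J (G.ch x x) u) = -u
      simp only [endoRep, ContinuousLinearMap.comp_apply]
      rw [(G.ch x).left_inv (hmem x)]
      simp only [Geo.ch, (hG _).P_D (hmem x)]
      rw [show Jm J x (Jm J x (P (G.φ (G.tr x)) (G.φ (G.tr x) x) u))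
        = -P (G.φ (G.tr x)) (G.φ (G.tr x) x) u from hJ.sq _ _, map_neg, (hG _).D_P (hmem x)]
    om_smooth := fun i => (hω.contDiffOn_formRep (hG i)).congr (hrep2 i)
    om_closed := (hWC G _ fun i => (hω.contDiffOn_formRep (hG i)).congr (hrep2 i)).2
      fun i u hu => (hω.closedAt_formRep (hG i) hu).congr
        (eventually_of_mem ((G.φ i).open_target.mem_nhds hu) (hrep2 i))
    tames := fun x u hu => by
      show 0 < ev (formRep (G.ch x) om (G.ch x x)) u (endoRep (G.ch x) J (G.ch x x) u)
      rw [ev_formRep hω.skew]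
      simp only [endoRep, ContinuousLinearMap.comp_apply]
      rw [(G.ch x).left_inv (hmem x)]
      simp only [Geo.ch, (hG _).P_D (hmem x)]
      refine hT x _ fun h0 => hu ?_
      rw [← (hG _).D_P (hmem x) u, h0, map_zero]
    orient := fun x => hpos (G.tr x) _ ((G.φ (G.tr x)).map_source (hmem x)) } with hS
  obtain ⟨α, ⟨hαs, hαc, hαi⟩, hαp⟩ := main S
  choose B hB using fun x : X => evCLM_exists (D (G.ch x) x) (α x)
  set om' : Bilin X := fun x => B x
  have hskew : ∀ x u v, om' x u v = -om' x v u := fun x u v => by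
    exact (hB x u v).trans ((ev_skew _ _ _).trans (congrArg Neg.neg (hB x v u).symm))
  have hrep : ∀ i, ∀ u ∈ (G.φ i).target, formRep (G.φ i) om' u = G.rep2 i α u := by
    intro i u hu
    refine form_ext fun a b => ?_
    rw [ev_formRep hskew, Geo.rep2, if_pos hu, hdT i u hu,
      (hG i).fderiv_change (hG _) hu (hmem _), ev_pull]
    exact hB _ _ _
  have hct : ClosedTwoForm om' := closedTwoForm_of_cover hskew G.φ hG (fun x => ⟨_, hmem x⟩)
    (fun i => (hαs i).congr (hrep i)) fun i u hu => (((hWC G α hαs).1 hαc) i u hu).congr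
      (eventually_of_mem ((G.φ i).open_target.mem_nhds hu) (hrep i))
  have hJα : ∀ x v, S.J x (D (G.ch x) x v) = D (G.ch x) x (Jm J x v) := fun x v => by
    show endoRep (G.ch x) J (G.ch x x) (D (G.ch x) x v) = _
    simp only [endoRep, ContinuousLinearMap.comp_apply]
    rw [(G.ch x).left_inv (hmem x)]
    simp only [Geo.ch, (hG _).P_D (hmem x)]
  have hlin : ∀ p (c : ℝ) (a b w : E4),
      B p (a + b) w = B p a w + B p b w ∧ B p (c • a) w = c * B p a w := fun p c a b w =>
    ⟨by simp, by simp⟩
  have htame : ∀ p (v : E4), v ≠ 0 → 0 < B p v (Jm J p v) := fun p v hv => by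
    rw [hB, ← hJα]
    refine hαp p _ fun h0 => hv ?_
    have := (hG (G.tr p)).P_D (hmem p) v
    simp only [Geo.ch] at h0
    rw [h0, map_zero] at this
    exact this.symm
  have hinv : ∀ p (v w : E4), B p (Jm J p v) (Jm J p w) = B p v w := fun p v w => by
    rw [hB, hB, ← hJα, ← hJα, ← ev_pull, pull_J_of_piM (hαi p)]
  exact ⟨fun p v w => om' p v w, ⟨fun p w => ⟨fun a b => (hlin p 0 a b w).1,
    fun c a => (hlin p c a a w).2⟩, hskew, fun p a b => hct.smooth p a b,
    fun p u hu a b c => hct.closed p u hu a b c⟩, fun p v hv => htame p v hv,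
    fun p v w => hinv p v w⟩

end Vale.Agent.P204.Four

namespace Vale.Agent.P204.Four

open Vale.Agent.P204.Torus Vale.Agent.P204.Gen

universe u

/-- The literal statement from the statement for every `GSetup`. -/
theorem tamedToCompatible_of_gsetup
    (hWC : ∀ (X : Type u) [TopologicalSpace X] [T2Space X] [CompactSpace X] [MeasurableSpace X]
      [BorelSpace X] (G : Geo X) (α : X → Form),
      G.Smooth2 α → (G.WeakClosed α ↔ ChartClosed G α))
    (main : ∀ (X : Type u) [TopologicalSpace X] [T2Space X] [CompactSpace X] [MeasurableSpace X]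
      [BorelSpace X] (S : GSetup X), ∃ α, S.Compatible α) :
    TamedToCompatible.{u} := by
  intro X i₁ i₂ i₃ i₄ i₅
  let M : MeasurableSpace X := borel X
  have : BorelSpace X := ⟨rfl⟩
  exact hasCompatibleForms_of_gsetup (hWC X) (main X)

end Vale.Agent.P204.Four
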