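import Vale.Agent.P204.Gen.LocalChart
import Vale.Agent.P204.Gen.GeoSmooth
import Vale.Agent.P204.Torus.Phase1Aux
import Vale.Agent.P204.Torus.TestForm

/-!
P204 on a closed four-manifold: the test form of a chart read on the manifold, and its bounds
(module 13).
-/

open MeasureTheory Filter Topology
open scoped ContDiff

namespace Vale.Agent.P204.Gen

open Vale.Agent.P204.Torus

variable {X : Type*} [TopologicalSpace X] [MeasurableSpace X] {S : GSetup X} {i : Fin S.n}

namespace LocalChart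

variable (L : LocalChart S i)

lemma smooth1_primX [T2Space X] {r : ℝ} (hr : 0 < r) (y : V) :
    S.Smooth1 (S.fromChart1 i (L.loc.prim r y)) :=
  S.toGeo.smooth1_fromChart1 (L.loc.smooth_prim hr y).smooth.contDiffOn

/-- The test form is smooth. -/
lemma smooth_alX [T2Space X] {r : ℝ} (hr : 0 < r) (y : V) : S.Smooth2 (L.alX r y) :=
  S.toGeo.smooth2_d (L.smooth1_primX hr y)

/-- The test form is weakly closed. -/
lemma weakClosed_alX [T2Space X] (hB : Basic S.toGeo) {r : ℝ} (hr : 0 < r) (y : V) :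
    S.WeakClosed (L.alX r y) :=
  fun η hη => hB.stokes _ η (L.smooth1_primX hr y) hη

/-- The test form in its chart. -/
lemma rep2_alX [T2Space X] {r : ℝ} (hr : 0 < r) (y : V) {u : V} (hu : u ∈ (S.φ i).target) :
    S.rep2 i (L.alX r y) u =
      S.χ i u • L.loc.al r y u + wedge (grad (S.χ i) u) (L.loc.prim r y u) := by
  have hsm := L.loc.smooth_prim hr y
  have he : S.rep1 i (S.fromChart1 i (L.loc.prim r y)) =ᶠ[𝓝 u]
      fun v => S.χ i v • L.loc.prim r y v := by
    filter_upwards [(S.φ i).open_target.mem_nhds hu] with v hv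
    exact S.toGeo.rep1_fromChart1 _ hv
  rw [alX, S.toGeo.rep2_d (L.smooth1_primX hr y) hu,
    show d1 (S.rep1 i (S.fromChart1 i (L.loc.prim r y))) u =
      d1 (fun v => S.χ i v • L.loc.prim r y v) u by simp only [d1, he.fderiv_eq],
    d1_smul (((S.χ_smooth i).differentiable (by simp)) u)
      ((hsm.smooth.differentiable (by simp)) u)]
  rfl

/-- Where the cut-off is one, the test form is the torus form. -/
lemma rep2_alX_of_one [T2Space X] {r : ℝ} (hr : 0 < r) (y : V) {u : V}
    (h1 : ∀ᶠ v in 𝓝 u, S.χ i v = 1) (hu : u ∈ (S.φ i).target) :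
    S.rep2 i (L.alX r y) u = L.loc.al r y u := by
  have hg : grad (S.χ i) u = 0 := by
    funext k
    have h := (show S.χ i =ᶠ[𝓝 u] fun _ => (1 : ℝ) from h1).fderiv_eq (𝕜 := ℝ)
    simp only [grad, h, fderiv_const_apply, Pi.zero_apply, zero_apply]
  rw [L.rep2_alX hr y hu, hg, h1.self_of_nhds, one_smul]
  ext k
  simp [wedge, ofSkew_apply, pair]

/-- The test form vanishes outside the support of the cut-off. -/
lemma alX_eq_zero [T2Space X] {r : ℝ} (y : V) {x : X}
    (hx : x ∉ (S.φ i).symm '' tsupport (S.χ i)) : L.alX r y x = 0 := by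
  have hK : IsClosed ((S.φ i).symm '' tsupport (S.χ i)) :=
    ((S.χ_cpt i).isCompact.image_of_continuousOn
      ((S.φ i).continuousOn_symm.mono (S.χ_supp i))).isClosed
  have hb : ∀ᶠ z in 𝓝 x, S.fromChart1 i (L.loc.prim r y) z = 0 := by
    filter_upwards [hK.isOpen_compl.mem_nhds hx] with z hz
    unfold Geo.fromChart1
    split_ifs with hs
    · rw [image_eq_zero_of_notMem_tsupport fun h => hz ⟨_, h, (S.φ i).left_inv hs⟩, zero_smul,
        pullV_zero]
    · rfl
  have hm := S.toGeo.mem_ch x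
  have hc : Tendsto (S.φ (S.tr x)).symm (𝓝 (S.φ (S.tr x) x)) (𝓝 x) := by
    have := (S.φ (S.tr x)).continuousAt_symm ((S.φ (S.tr x)).map_source hm)
    rwa [ContinuousAt, (S.φ (S.tr x)).left_inv hm] at this
  have he : S.rep1 (S.tr x) (S.fromChart1 i (L.loc.prim r y)) =ᶠ[𝓝 (S.φ (S.tr x) x)]
      fun _ => (0 : V) := by
    filter_upwards [hc.eventually hb] with u hu
    simp [Geo.rep1, hu, pullV_zero]
  show d1 _ (S.φ (S.tr x) x) = 0
  ext k
  simp [d1, ofSkew_apply, he.fderiv_eq, pair]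

/-- The bounds of the test form in its chart. -/
lemma exists_alX_bounds [T2Space X] :
    ∃ C, 0 < C ∧ ∀ r, 0 < r → r ≤ 1 → ∀ y, ∀ u ∈ (S.φ i).target,
      ‖S.rep2 i (L.alX r y) u‖ ≤ C / (r ^ 2 + dist0 (u - y) ^ 2) ∧
      ‖piM (S.repE i S.J u) (S.rep2 i (L.alX r y) u)‖ ≤ C / (r + dist0 (u - y)) := by
  obtain ⟨Ca, hCa, hal⟩ := L.loc.exists_al_bounds
  obtain ⟨Lm, hLm, hpm⟩ := L.loc.exists_piM_bound
  obtain ⟨c', Cr, hc', -, hρ⟩ := L.loc.exists_rho2_bounds
  obtain ⟨M, hM0, hM⟩ := Torus.exists_bound L.loc.smooth_Om.smooth.continuous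
    L.loc.smooth_Om.periodic
  obtain ⟨G, hG⟩ := ((S.χ_smooth i).continuous_fderiv (by simp)).bounded_above_of_compact_support
    ((S.χ_cpt i).fderiv ℝ)
  have hG0 : 0 ≤ G := (norm_nonneg _).trans (hG 0)
  set c := min c' 1
  have hc : 0 < c := lt_min hc' one_pos
  set W := 12 * (G * (2 * (12 * M) * (4 / c ^ 2)))
  have hW : 0 ≤ W := by positivity
  refine ⟨(1 + Lm) * (Ca + 4 * W) + 1, by positivity, fun r hr hr1 y u hu => ?_⟩
  set d := dist0 (u - y) with hd
  have hd0 : 0 ≤ d := dist0_nonneg _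
  have hd1 : d ≤ 1 := dist0_le_one _
  have hP : 0 < r ^ 2 + d ^ 2 := by positivity
  obtain ⟨h1, h2, -⟩ := hal r hr hr1 y u
  have hχ := S.χ_range i u
  have hgrad : ‖grad (S.χ i) u‖ ≤ G := by
    refine (pi_norm_le_iff_of_nonneg hG0).2 fun k => ?_
    exact ((fderiv ℝ (S.χ i) u).le_opNorm _).trans
      ((mul_le_of_le_one_right (norm_nonneg _) (e_norm_le k)).trans (hG u))
  have hprim : ‖L.loc.prim r y u‖ ≤ 2 * (12 * M) * (4 / c ^ 2) / (r + d) := by
    have hcd : c * d ^ 2 ≤ L.loc.rho2 u (u - y) :=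
      (mul_le_mul_of_nonneg_right (min_le_left _ _) (sq_nonneg _)).trans (hρ u (u - y)).1
    have hρ0 := L.loc.rho2_nonneg u (u - y)
    have hden : 0 < r ^ 2 + L.loc.rho2 u (u - y) := by positivity
    have hi : ‖iota (sv (u - y)) (L.loc.Om u)‖ ≤ 12 * M * d := by
      refine (pi_norm_le_iff_of_nonneg (by positivity)).2 fun j => ?_
      rw [Real.norm_eq_abs]
      refine (abs_ev_le _ _ _).trans ?_
      calc 12 * (‖L.loc.Om u‖ * (‖sv (u - y)‖ * ‖e j‖)) ≤ 12 * (M * (d * 1)) := by
            gcongr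
            · exact hM u
            · exact norm_sv_le _
            · exact e_norm_le j
        _ = _ := by ring
    have hw := weight_le hc (min_le_right _ _) hr hd0 hcd
    have h3 : d / (r ^ 2 + L.loc.rho2 u (u - y)) ≤ 4 / c ^ 2 / (r + d) :=
      le_trans (le_add_of_nonneg_right (by positivity)) hw
    rw [Setup.prim, norm_smul, Real.norm_eq_abs, abs_div, abs_two, abs_of_pos hden]
    calc 2 / (r ^ 2 + L.loc.rho2 u (u - y)) * ‖iota (sv (u - y)) (L.loc.Om u)‖
        ≤ 2 / (r ^ 2 + L.loc.rho2 u (u - y)) * (12 * M * d) := by gcongr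
      _ = 2 * (12 * M) * (d / (r ^ 2 + L.loc.rho2 u (u - y))) := by ring
      _ ≤ 2 * (12 * M) * (4 / c ^ 2 / (r + d)) := mul_le_mul_of_nonneg_left h3 (by positivity)
      _ = _ := by ring
  have hwedge : ‖wedge (grad (S.χ i) u) (L.loc.prim r y u)‖ ≤ W / (r + d) := by
    refine (norm_wedge_le _ _).trans ?_
    calc 12 * (‖grad (S.χ i) u‖ * ‖L.loc.prim r y u‖)
        ≤ 12 * (G * (2 * (12 * M) * (4 / c ^ 2) / (r + d))) := by gcongr
      _ = W / (r + d) := by simp only [W]; ring
  have hconv : 1 / (r + d) ≤ 4 / (r ^ 2 + d ^ 2) := by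
    rw [div_le_div_iff₀ (by positivity) hP]
    nlinarith
  rw [L.rep2_alX hr y hu]
  constructor
  · calc _ ≤ ‖S.χ i u • L.loc.al r y u‖ + ‖wedge (grad (S.χ i) u) (L.loc.prim r y u)‖ :=
          norm_add_le _ _
      _ ≤ Ca / (r ^ 2 + d ^ 2) + W / (r + d) := by
          gcongr
          rw [norm_smul, Real.norm_eq_abs, abs_of_nonneg hχ.1]
          exact (mul_le_of_le_one_left (norm_nonneg _) hχ.2).trans h1
      _ ≤ Ca / (r ^ 2 + d ^ 2) + W * (4 / (r ^ 2 + d ^ 2)) := by
          gcongr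
          rw [div_eq_mul_one_div]
          exact mul_le_mul_of_nonneg_left hconv hW
      _ = (Ca + 4 * W) / (r ^ 2 + d ^ 2) := by ring
      _ ≤ _ := div_le_div_of_nonneg_right (by nlinarith) hP.le
  · by_cases hs : u ∈ tsupport (S.χ i)
    · rw [← LC.loc_J L hs, piM_add, piM_smul]
      calc _ ≤ ‖S.χ i u • piM (L.loc.J u) (L.loc.al r y u)‖ +
              ‖piM (L.loc.J u) (wedge (grad (S.χ i) u) (L.loc.prim r y u))‖ := norm_add_le _ _
        _ ≤ Ca / (r + d) + Lm * (W / (r + d)) := by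
            gcongr
            · rw [norm_smul, Real.norm_eq_abs, abs_of_nonneg hχ.1]
              exact (mul_le_of_le_one_left (norm_nonneg _) hχ.2).trans h2
            · exact (hpm u _).trans (mul_le_mul_of_nonneg_left hwedge hLm.le)
        _ = (Ca + Lm * W) / (r + d) := by ring
        _ ≤ _ := div_le_div_of_nonneg_right (by nlinarith) (by positivity)
    · have hχ0 : S.χ i u = 0 := image_eq_zero_of_notMem_tsupport hs
      have hg : grad (S.χ i) u = 0 := by
        funext k
        simp only [grad, (notMem_tsupport_iff_eventuallyEq.1 hs).fderiv_eq (𝕜 := ℝ)]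
        simp
      have h0 : S.χ i u • L.loc.al r y u + wedge (grad (S.χ i) u) (L.loc.prim r y u) = 0 := by
        rw [hχ0, hg]
        ext k
        simp [wedge, ofSkew_apply, pair]
      rw [h0, piM, pull_zero, sub_zero, smul_zero, norm_zero]
      positivity

end LocalChart

end Vale.Agent.P204.Gen
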