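import Vale.Agent.P204.Torus.Calculus
import Vale.Agent.P204.Torus.Frame

/-!
P204, general four-manifold: every small chart of a tamed almost complex structure extends to a
setup on the torus, close to the standard one.

Let `Ψ = z₀ + L ∘ (τ - ctr)`, where `L` is a small multiple of an adapted frame at `z₀` and `τ` is
periodic, is the identity near the centre and has bounded derivative. Then `L⁻¹ ∘ J (Ψ) ∘ L` and
`L^* (om z₀) + Ψ^* (om - om z₀)` form a setup which agrees with the chart near the centre; the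
second form is closed, being a pull-back. So the local lemmas of the torus apply in every small
chart.
-/

open Filter Topology Set
open scoped BigOperators

namespace Vale.Agent.P204.Gen

open Torus

/-- The centre of the fundamental cube. -/
noncomputable def ctr : V := fun _ => 1 / 2

/-- The standard complex structure, `e 0 ↦ e 1`, `e 2 ↦ e 3`. -/
noncomputable def Jstd : V →L[ℝ] V :=
  LinearMap.toContinuousLinearMap
    { toFun := fun u => ![-u 1, u 0, -u 3, u 2]
      map_add' := fun u v => by funext i; fin_cases i <;> simp <;> ring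
      map_smul' := fun a u => by funext i; fin_cases i <;> simp }

/-- The standard symplectic form. -/
noncomputable def OmStd : Form := WithLp.toLp 2 ![1, 0, 0, 1, 0, 0]

lemma Jstd_apply (u : V) : Jstd u = ![-u 1, u 0, -u 3, u 2] := rfl

/-- A periodic map which is the identity near the centre, with bounded image and derivative. -/
lemma exists_retract : ∃ (τ : V → V) (C : ℝ), 0 < C ∧ ContDiff ℝ (⊤ : ℕ∞) τ ∧ Periodic τ ∧
    (∀ x, dist x ctr ≤ 9 / 32 → τ x = x) ∧ (∀ x, dist (τ x) ctr ≤ 1 / 2) ∧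
    ∀ x, ‖fderiv ℝ τ x‖ ≤ C := by
  obtain ⟨f, hin, hout⟩ : ∃ f : ContDiffBump (0 : ℝ), f.rIn = 9 / 32 ∧ f.rOut = 27 / 64 :=
    ⟨⟨9 / 32, 27 / 64, by norm_num, by norm_num⟩, rfl, rfl⟩
  set ψ : ℝ → ℝ := fun t => t * f t with hψ
  have hψc : ContDiff ℝ (⊤ : ℕ∞) ψ := contDiff_id.mul f.contDiff
  have hs : HasCompactSupport ψ := f.hasCompactSupport.mul_left
  obtain ⟨C, hC⟩ := (hψc.continuous_deriv (by simp)).bounded_above_of_compact_support hs.deriv
  have hψ0 : ∀ t, 27 / 64 ≤ |t| → ψ t = 0 := fun t ht => by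
    simp only [hψ, f.zero_of_le_dist (show f.rOut ≤ dist t 0 by simpa [hout] using ht), mul_zero]
  have hψ1 : ∀ t, |t| ≤ 9 / 32 → ψ t = t := fun t ht => by
    simp only [hψ, f.one_of_mem_closedBall
      (show t ∈ Metric.closedBall (0 : ℝ) f.rIn by simpa [hin] using ht), mul_one]
  have hψb : ∀ t, |ψ t| ≤ 1 / 2 := fun t => by
    rcases le_or_gt (27 / 64) |t| with ht | ht
    · rw [hψ0 t ht, abs_zero]; norm_num
    · rw [hψ, abs_mul, abs_of_nonneg (f.nonneg' t)]
      nlinarith [abs_nonneg t, f.le_one (x := t), f.nonneg' t]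
  set φ : ℝ → ℝ := fun x => ψ (x - round x) with hφ
  have loc : ∀ x : ℝ, φ =ᶠ[𝓝 x] fun y => ψ (y - round x) := by
    intro x
    rcases lt_or_ge |x - round x| (15 / 32) with h | h
    · filter_upwards [Metric.ball_mem_nhds x (by norm_num : (0 : ℝ) < 1 / 32)] with y hy
      have hy' : |y - x| < 1 / 32 := by simpa [Real.dist_eq] using hy
      have : round y = round x := by
        rw [round_eq, Int.floor_eq_iff]
        obtain ⟨h1, h2⟩ := abs_lt.1 h
        obtain ⟨h3, h4⟩ := abs_lt.1 hy'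
        constructor <;> linarith
      simp only [hφ, this]
    · filter_upwards [Metric.ball_mem_nhds x (by norm_num : (0 : ℝ) < 1 / 32)] with y hy
      have hy' : |x - y| < 1 / 32 := by rw [abs_sub_comm]; simpa [Real.dist_eq] using hy
      have h2 : ∀ m : ℤ, 27 / 64 ≤ |y - m| := fun m => by
        linarith [abs_sub_le x y (m : ℝ), h.trans (round_le x m)]
      simp only [hφ, hψ0 _ (h2 _)]
  have hφc : ContDiff ℝ (⊤ : ℕ∞) φ := contDiff_iff_contDiffAt.2 fun x =>
    ((hψc.comp (contDiff_id.sub contDiff_const)).contDiffAt).congr_of_eventuallyEq (loc x)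
  have hφd : ∀ x, |deriv φ x| ≤ max C 1 := fun x => by
    rw [(loc x).deriv_eq, deriv_comp_sub_const]
    exact le_max_of_le_left (by simpa using hC _)
  refine ⟨fun x i => ctr i + φ (x i - ctr i), max C 1, by positivity, ?_, fun x n => ?_,
    fun x hx => ?_, fun x => ?_, fun x => ?_⟩
  · exact contDiff_pi.2 fun i =>
      contDiff_const.add (hφc.comp ((contDiff_apply ℝ ℝ i).sub contDiff_const))
  · funext i
    simp only [hφ, Pi.add_apply, intVec, add_sub_right_comm, round_add_intCast]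
    push_cast
    congr 2
    ring
  · funext i
    have hi : |x i - ctr i| ≤ 9 / 32 :=
      le_trans (le_of_eq (Real.dist_eq _ _).symm) ((dist_le_pi_dist x ctr i).trans hx)
    have h0 : round (x i - ctr i) = 0 := by
      rw [round_eq_zero_iff]
      obtain ⟨h1, h2⟩ := abs_le.1 hi
      constructor <;> linarith
    simp only [hφ, h0, Int.cast_zero, sub_zero, hψ1 _ hi]
    ring
  · refine (dist_pi_le_iff (by norm_num)).2 fun i => ?_
    simpa [hφ, Real.dist_eq] using hψb _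
  · refine ContinuousLinearMap.opNorm_le_bound _ (by positivity) fun u =>
      (pi_norm_le_iff_of_nonneg (by positivity)).2 fun i => ?_
    have hi : HasFDerivAt (fun y : V => ctr i + φ (y i - ctr i))
        (deriv φ (x i - ctr i) • ContinuousLinearMap.proj (R := ℝ) (φ := fun _ : Fin 4 => ℝ) i) x :=
      ((show HasDerivAt φ (deriv φ (x i - ctr i)) (x i - ctr i) from
          (hφc.differentiable (by simp) _).hasDerivAt).comp_hasFDerivAt x
        (f := fun y : V => y i - ctr i)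
        ((ContinuousLinearMap.proj (R := ℝ) (φ := fun _ : Fin 4 => ℝ) i).hasFDerivAt.sub_const
          (ctr i))).const_add (ctr i)
    have hd : DifferentiableAt ℝ (fun (y : V) (i : Fin 4) => ctr i + φ (y i - ctr i)) x :=
      differentiableAt_pi.2 fun j => ((hφc.differentiable (by simp) _).comp x
        ((differentiableAt_apply j x).sub_const (ctr j))).const_add (ctr j)
    rw [← fderiv_coord hd u i, hi.fderiv]
    simp only [smul_apply, ContinuousLinearMap.proj_apply, smul_eq_mul, norm_mul]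
    exact mul_le_mul (hφd _) (norm_le_pi_norm u i) (norm_nonneg _) (by positivity)

/-- Pullback of a two-form is bounded by the square of the norm of the map. -/
lemma norm_pull_le (A : V →L[ℝ] V) (α : Form) : ‖pull A α‖ ≤ 72 * ‖A‖ ^ 2 * ‖α‖ := by
  refine (norm_le_sum _).trans ((Finset.sum_le_sum fun k _ =>
    (?_ : _ ≤ 12 * ‖A‖ ^ 2 * ‖α‖)).trans (le_of_eq (by simp; ring)))
  rw [pull, ofSkew_apply]
  refine (abs_ev_le _ _ _).trans ?_
  have hj : ∀ i, ‖A (e i)‖ ≤ ‖A‖ := fun i =>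
    (A.le_opNorm _).trans (mul_le_of_le_one_right (norm_nonneg _) (e_norm_le i))
  calc 12 * (‖α‖ * (‖A (e (fi k))‖ * ‖A (e (se k))‖)) ≤ 12 * (‖α‖ * (‖A‖ * ‖A‖)) := by
        gcongr <;> exact hj _
    _ = _ := by ring

/-- Taming and the orientation are open conditions on the pair (form, structure). -/
lemma eventually_tames {α₀ : Form} {A₀ : V →L[ℝ] V}
    (ht : ∀ u, u ≠ 0 → 0 < ev α₀ u (A₀ u)) (ho : 0 < q α₀ α₀) :
    ∀ᶠ p : Form × (V →L[ℝ] V) in 𝓝 (α₀, A₀),
      (∀ u, u ≠ 0 → 0 < ev p.1 u (p.2 u)) ∧ 0 < q p.1 p.1 := by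
  have hc : ∀ k, Continuous fun p : Form × (V →L[ℝ] V) => p.1 k := fun k =>
    ((continuous_apply k).comp (PiLp.continuous_ofLp 2 fun _ : Fin 6 => ℝ)).comp continuous_fst
  refine Filter.Eventually.and ?_ ?_
  · have key : ∀ᶠ p : Form × (V →L[ℝ] V) in 𝓝 (α₀, A₀),
        ∀ u ∈ Metric.sphere (0 : V) 1, 0 < ev p.1 u (p.2 u) := by
      refine (isCompact_sphere (0 : V) 1).eventually_forall_of_forall_eventually fun u hu => ?_
      have hu0 : u ≠ 0 := by
        intro h; subst h; simp at hu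
      have hcont : Continuous fun z : (Form × (V →L[ℝ] V)) × V => ev z.1.1 z.2 (z.1.2 z.2) := by
        have h1 : ∀ k, Continuous fun z : (Form × (V →L[ℝ] V)) × V => z.1.1 k := fun k =>
          (hc k).comp continuous_fst
        have h2 : Continuous fun z : (Form × (V →L[ℝ] V)) × V => z.1.2 z.2 :=
          (continuous_snd.comp continuous_fst).clm_apply continuous_snd
        have h3 : ∀ i, Continuous fun z : (Form × (V →L[ℝ] V)) × V => z.1.2 z.2 i := fun i =>
          (continuous_apply i).comp h2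
        unfold ev
        fun_prop
      exact hcont.continuousAt.eventually_const_lt (ht u hu0)
    filter_upwards [key] with p hp u hu
    have hn : 0 < ‖u‖ := norm_pos_iff.2 hu
    have := hp (‖u‖⁻¹ • u) (by simp [norm_smul, hn.ne'])
    rw [map_smul, ev_smul_left, ev_smul_right] at this
    nlinarith [inv_pos.2 hn, mul_pos (inv_pos.2 hn) (inv_pos.2 hn)]
  · have h : Continuous fun p : Form × (V →L[ℝ] V) => q p.1 p.1 := by
      unfold q; fun_prop
    exact h.continuousAt.eventually_const_lt ho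

/-- A constant plus a pull-back of a closed form is closed. -/
lemma closed_shift {U : Set V} (hU : IsOpen U) {om : V → Form}
    (hom : ContDiffOn ℝ (⊤ : ℕ∞) om U)
    (hcl : ∀ x ∈ U, ∀ u v w, ev (fderiv ℝ om x u) v w + ev (fderiv ℝ om x v) w u
      + ev (fderiv ℝ om x w) u v = 0)
    {Ψ : V → V} (hΨc : ContDiff ℝ (⊤ : ℕ∞) Ψ) (hΨU : ∀ x, Ψ x ∈ U) (c c' : Form) :
    ContDiff ℝ (⊤ : ℕ∞) (fun x => c' + pull (fderiv ℝ Ψ x) (om (Ψ x) - c)) ∧
      Closed fun x => c' + pull (fderiv ℝ Ψ x) (om (Ψ x) - c) := by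
  have hβc : ContDiff ℝ (⊤ : ℕ∞) fun x => om (Ψ x) - c :=
    (hom.comp_contDiff hΨc hΨU).sub contDiff_const
  have hDΨ : ContDiff ℝ (⊤ : ℕ∞) (fderiv ℝ Ψ) := hΨc.fderiv_right (by simp)
  set ω : V → Form := fun x => c' + pull (fderiv ℝ Ψ x) (om (Ψ x) - c) with hω
  have hev : ∀ x u v, ev (ω x) u v
      = ev c' u v + ev (om (Ψ x) - c) (fderiv ℝ Ψ x u) (fderiv ℝ Ψ x v) := fun x u v => by
    simp only [hω, ev_add, ev_pull]
  have hωc : ContDiff ℝ (⊤ : ℕ∞) ω := by
    refine contDiff_const.add (contDiff_form.2 fun k => ?_)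
    simp only [pull, ofSkew_apply]
    exact contDiff_ev hβc (hDΨ.clm_apply contDiff_const) (hDΨ.clm_apply contDiff_const)
  refine ⟨hωc, ?_⟩
  intro x u v w
  have hD : DifferentiableAt ℝ (fderiv ℝ Ψ) x :=
    ((hΨc.fderiv_right (m := (1 : WithTop ℕ∞)) (WithTop.coe_le_coe.2 le_top)).differentiable
      one_ne_zero) x
  have hsym : IsSymmSndFDerivAt ℝ Ψ x := hΨc.contDiffAt.isSymmSndFDerivAt (by
    rw [minSmoothness_of_isRCLikeNormedField]; exact WithTop.coe_le_coe.2 le_top)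
  have hom' : DifferentiableAt ℝ om (Ψ x) :=
    (hom.differentiableOn (by simp)).differentiableAt (hU.mem_nhds (hΨU x))
  have key : ∀ p p' p'', ev (fderiv ℝ ω x p) p' p''
      = ev (fderiv ℝ om (Ψ x) (fderiv ℝ Ψ x p)) (fderiv ℝ Ψ x p') (fderiv ℝ Ψ x p'')
        + ev (om (Ψ x) - c) (fderiv ℝ (fderiv ℝ Ψ) x p p') (fderiv ℝ Ψ x p'')
        + ev (om (Ψ x) - c) (fderiv ℝ Ψ x p') (fderiv ℝ (fderiv ℝ Ψ) x p p'') := by
    intro p p' p''
    have e1 : ∀ (α : Form) (z : V), ev α 0 z = 0 := fun α z => by simp [ev_def]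
    have e2 : ∀ (α : Form) (z : V), ev α z 0 = 0 := fun α z => by simp [ev_def]
    have h1 := fderiv_ev (hωc.differentiable (by simp) x) (differentiableAt_const p')
      (differentiableAt_const p'') p
    simp only [fderiv_fun_const, Pi.zero_apply, zero_apply, e1, e2, add_zero, hev] at h1
    have hd : ∀ z, HasFDerivAt (fun y => fderiv ℝ Ψ y z)
        ((ContinuousLinearMap.apply ℝ V z).comp (fderiv ℝ (fderiv ℝ Ψ) x)) x := fun z =>
      (ContinuousLinearMap.apply ℝ V z).hasFDerivAt.comp x hD.hasFDerivAt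
    have h2 := fderiv_ev (f := fun y => om (Ψ y) - c) (hβc.differentiable (by simp) x)
      (hd p').differentiableAt (hd p'').differentiableAt p
    have hβd : HasFDerivAt (fun y => om (Ψ y) - c) ((fderiv ℝ om (Ψ x)).comp (fderiv ℝ Ψ x)) x :=
      (show HasFDerivAt (fun y => om (Ψ y)) ((fderiv ℝ om (Ψ x)).comp (fderiv ℝ Ψ x)) x from
        hom'.hasFDerivAt.comp x (hΨc.differentiable (by simp) x).hasFDerivAt).sub_const c
    rw [(hd p').fderiv, (hd p'').fderiv, hβd.fderiv] at h2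
    rw [← h1, fderiv_const_add, h2]
    rfl
  rw [key, key, key, hsym v u, hsym w u, hsym w v]
  have hs := fun α (a b : V) => ev_skew α a b
  rw [hs _ (fderiv ℝ Ψ x v) (fderiv ℝ (fderiv ℝ Ψ) x u w),
    hs _ (fderiv ℝ Ψ x w) (fderiv ℝ (fderiv ℝ Ψ) x u v),
    hs _ (fderiv ℝ Ψ x u) (fderiv ℝ (fderiv ℝ Ψ) x v w)]
  linarith [hcl (Ψ x) (hΨU x) (fderiv ℝ Ψ x u) (fderiv ℝ Ψ x v) (fderiv ℝ Ψ x w)]

/-- Pullback is homogeneous of degree two. -/
lemma pull_smul_left (a : ℝ) (A : V →L[ℝ] V) (α : Form) :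
    pull (a • A) α = a ^ 2 • pull A α :=
  form_ext fun u v => by
    simp only [ev_pull, ev_smul, smul_apply, ev_smul_left, ev_smul_right]; ring

lemma chartModel_pull_comp (A B : V →L[ℝ] V) (α : Form) : pull (A.comp B) α = pull B (pull A α) :=
  form_ext fun u v => by simp [ev_pull]

/-- A linear change making the structure at one point standard. -/
lemma exists_adapted {A : V →L[ℝ] V} {α : Form} (hsq : ∀ u, A (A u) = -u)
    (ht : ∀ u, u ≠ 0 → 0 < ev α u (A u)) (ho : 0 < q α α) :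
    ∃ L : V ≃L[ℝ] V, (∀ u, L.symm (A (L u)) = Jstd u) ∧
      piP Jstd (pull (L : V →L[ℝ] V) α) = OmStd := by
  let S : Setup :=
    { J := fun _ => A
      om := fun _ => α
      J_smooth := ⟨contDiff_const, fun _ _ => rfl⟩
      J_sq := fun _ => hsq
      om_smooth := ⟨contDiff_const, fun _ _ => rfl⟩
      tames := fun _ => ht
      orient := fun _ => ho }
  obtain ⟨F, -⟩ := S.exists_frame 0 (u := e 0) fun h => by simpa [e] using congrFun h 0
  have htsmul : ∀ (a : ℝ) u, F.t (a • u) = a • F.t u := fun a u => by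
    funext i; simp [Setup.Frame.t, S.g_smul_left]
  let L0 : V ≃ₗ[ℝ] V :=
    { toFun := fun u => ∑ i, u i • F.c i
      map_add' := fun u v => by simp [add_smul, Finset.sum_add_distrib]
      map_smul' := fun a u => by simp [Finset.smul_sum, smul_smul]
      invFun := F.t
      left_inv := fun u => funext fun j => F.g_sum u j
      right_inv := F.sum_t }
  refine ⟨L0.toContinuousLinearEquiv, fun u => ?_, ?_⟩
  · show F.t (A (∑ i, u i • F.c i)) = Jstd u
    have h := F.t_J (∑ i, u i • F.c i)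
    rw [show F.t (∑ i, u i • F.c i) = u from funext fun j => F.g_sum u j] at h
    exact h
  · have hco : Torus.co F.c (S.Om 0) = OmStd := F.co_Om
    have hJ : ∀ u, L0 (Jstd u) = A (L0 u) := fun u => by
      have h := F.t_J (L0 u)
      rw [show F.t (L0 u) = u from L0.left_inv u] at h
      show L0 (Jstd u) = S.J 0 (L0 u)
      rw [Jstd_apply, ← h]
      exact L0.right_inv _
    rw [← hco]
    refine form_ext fun u v => ?_
    rw [ev_piP, ev_pull, ev_pull]
    show (ev α (L0 u) (L0 v) + ev α (L0 (Jstd u)) (L0 (Jstd v))) / 2 = _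
    rw [hJ, hJ]
    have h2 := Torus.ev_co F.c (S.Om 0) u v
    show _ = ev (Torus.co F.c (S.Om 0)) u v
    rw [← h2, Setup.Om, ev_piP]
    rfl

/-- The standard invariant part forces the orientation. -/
lemma q_pos_of_piP {β : Form} (h : piP Jstd β = OmStd) : 0 < q β β := by
  have h' : ∀ k, piP Jstd β k = OmStd k := fun k => by rw [h]
  have a := h' 0
  have b := h' 1
  have c := h' 2
  have d := h' 3
  simp only [piP, pull, PiLp.smul_apply, PiLp.add_apply, ofSkew_apply, smul_eq_mul, OmStd] at a b c d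
  simp [Jstd, ev_def, fi, se, e] at a b c d
  have e0 : β 0 = 1 := by linarith
  have e3 : β 3 = 1 := by linarith
  have e4 : β 4 = β 1 := by linarith
  have e5 : β 5 = β 2 := by linarith
  simp only [q, e0, e3, e4, e5]
  nlinarith [sq_nonneg (β 1), sq_nonneg (β 2)]

lemma continuous_piP_pair : Continuous fun p : Form × (V →L[ℝ] V) => piP p.2 p.1 := by
  have hf : ∀ k, Continuous fun p : Form × (V →L[ℝ] V) => p.1 k := fun k =>
    ((continuous_apply k).comp (PiLp.continuous_ofLp 2 fun _ : Fin 6 => ℝ)).comp continuous_fst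
  have hA : ∀ (j : Fin 4) (i : Fin 4), Continuous fun p : Form × (V →L[ℝ] V) => p.2 (e j) i :=
    fun j i => (continuous_apply i).comp (continuous_snd.clm_apply continuous_const)
  have hp : Continuous fun p : Form × (V →L[ℝ] V) => pull p.2 p.1 := by
    refine (PiLp.continuous_toLp 2 fun _ : Fin 6 => ℝ).comp (continuous_pi fun k => ?_)
    unfold ev
    fun_prop
  exact (continuous_fst.add hp).const_smul (1 / 2 : ℝ)

/-- The conditions on a scaled chart hold near the standard point. -/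
lemma exists_good {ω0 : Form} (ht : ∀ u, u ≠ 0 → 0 < ev ω0 u (Jstd u))
    (hP : piP Jstd ω0 = OmStd) {dlt : ℝ} (hdlt : 0 < dlt) :
    ∃ a, 0 < a ∧ ∀ ⦃y : Form × (V →L[ℝ] V)⦄, dist y (ω0, Jstd) < a →
      ((∀ u, u ≠ 0 → 0 < ev y.1 u (y.2 u)) ∧ 0 < q y.1 y.1) ∧
        dist y.2 Jstd < dlt ∧ dist (piP y.2 y.1) OmStd < dlt := by
  have c1 : Continuous fun p : Form × (V →L[ℝ] V) => dist (piP p.2 p.1) OmStd :=
    continuous_piP_pair.dist continuous_const
  have c2 : Continuous fun p : Form × (V →L[ℝ] V) => dist p.2 Jstd :=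
    continuous_snd.dist continuous_const
  have h1 : ∀ᶠ p : Form × (V →L[ℝ] V) in 𝓝 (ω0, Jstd), dist (piP p.2 p.1) OmStd < dlt :=
    (c1.tendsto (ω0, Jstd)).eventually_lt_const (by rw [hP, dist_self]; exact hdlt)
  have h2 : ∀ᶠ p : Form × (V →L[ℝ] V) in 𝓝 (ω0, Jstd), dist p.2 Jstd < dlt :=
    (c2.tendsto (ω0, Jstd)).eventually_lt_const (by rw [dist_self]; exact hdlt)
  exact Metric.eventually_nhds_iff.1 ((eventually_tames ht (q_pos_of_piP hP)).and (h2.and h1))

/-- The dilation of a linear change. -/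
lemma exists_dilation (L0 : V ≃L[ℝ] V) {ε : ℝ} (hε : 0 < ε) :
    ∃ L : V ≃L[ℝ] V, (L : V →L[ℝ] V) = ε • (L0 : V →L[ℝ] V) ∧
      (∀ u, L u = ε • L0 u) ∧ ∀ u, L.symm u = ε⁻¹ • L0.symm u := by
  let Ll : V ≃ₗ[ℝ] V :=
    { toFun := fun u => ε • L0 u
      map_add' := fun u v => by simp
      map_smul' := fun c u => by simp [smul_comm ε c]
      invFun := fun u => ε⁻¹ • L0.symm u
      left_inv := fun u => by simp [smul_smul, inv_mul_cancel₀ hε.ne']
      right_inv := fun u => by simp [smul_smul, mul_inv_cancel₀ hε.ne'] }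
  let L : V ≃L[ℝ] V := Ll.toContinuousLinearEquiv
  have hLapp : ∀ u, L u = ε • L0 u := fun u => rfl
  have hL : (L : V →L[ℝ] V) = ε • (L0 : V →L[ℝ] V) := ContinuousLinearMap.ext hLapp
  have hLsym : ∀ u, L.symm u = ε⁻¹ • L0.symm u := fun u => rfl
  exact ⟨L, hL, hLapp, hLsym⟩

/-- The setup of a scaled chart, given its bounds. -/
lemma scaled_setup {U : Set V} (hU : IsOpen U) {J : V → V →L[ℝ] V} {om : V → Form}
    (hJ : ContDiffOn ℝ (⊤ : ℕ∞) J U) (hom : ContDiffOn ℝ (⊤ : ℕ∞) om U)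
    (hsq : ∀ x ∈ U, ∀ u, J x (J x u) = -u)
    (hcl : ∀ x ∈ U, ∀ u v w, ev (fderiv ℝ om x u) v w + ev (fderiv ℝ om x v) w u
      + ev (fderiv ℝ om x w) u v = 0)
    {z₀ : V} {dlt ε : ℝ} (hε : 0 < ε) {τ : V → V} (hτc : ContDiff ℝ (⊤ : ℕ∞) τ)
    (hτp : Periodic τ) (hτid : ∀ x, dist x ctr ≤ 9 / 32 → τ x = x) (L0 L : V ≃L[ℝ] V)
    (hL : (L : V →L[ℝ] V) = ε • (L0 : V →L[ℝ] V)) (hLapp : ∀ u, L u = ε • L0 u)
    (hLsym : ∀ u, L.symm u = ε⁻¹ • L0.symm u) (hΨU : ∀ x, z₀ + L (τ x - ctr) ∈ U)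
    (hgood : ∀ x z, z = z₀ + L (τ x - ctr) →
      ∀ A : V →L[ℝ] V, A = (L0.symm : V →L[ℝ] V).comp ((J z).comp (L0 : V →L[ℝ] V)) →
      ∀ β : Form, β = pull (L0 : V →L[ℝ] V) (om z₀)
        + pull (fderiv ℝ τ x) (pull (L0 : V →L[ℝ] V) (om z - om z₀)) →
      ((∀ u, u ≠ 0 → 0 < ev β u (A u)) ∧ 0 < q β β) ∧
        dist A Jstd < dlt ∧ dist (piP A β) OmStd < dlt) :
    ∃ T : Setup, (∀ x ∈ Metric.closedBall ctr (9 / 32),
        T.J x = (L.symm : V →L[ℝ] V).comp ((J (z₀ + L (x - ctr))).comp (L : V →L[ℝ] V)) ∧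
        T.om x = pull (L : V →L[ℝ] V) (om (z₀ + L (x - ctr)))) ∧
      ∀ x, ‖T.J x - Jstd‖ ≤ dlt ∧ ‖T.Om x - ε ^ 2 • OmStd‖ ≤ dlt * ε ^ 2 := by
  set L0c : V →L[ℝ] V := (L0 : V →L[ℝ] V) with hL0c
  set ω0 := pull L0c (om z₀) with hω0
  set Jc : V → V →L[ℝ] V := fun z => (L0.symm : V →L[ℝ] V).comp ((J z).comp L0c) with hJc
  set Ψ : V → V := fun x => z₀ + L (τ x - ctr) with hΨ
  have hΨc : ContDiff ℝ (⊤ : ℕ∞) Ψ :=
    contDiff_const.add ((L : V →L[ℝ] V).contDiff.comp (hτc.sub contDiff_const))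
  have hΨd : ∀ x, fderiv ℝ Ψ x = (ε • L0c).comp (fderiv ℝ τ x) := fun x => by
    rw [← hL]
    exact (((L : V →L[ℝ] V).hasFDerivAt.comp x
      ((hτc.differentiable (by simp) x).hasFDerivAt.sub_const ctr)).const_add z₀).fderiv
  obtain ⟨homTc, hclosed⟩ := closed_shift hU hom hcl hΨc hΨU (om z₀) (ε ^ 2 • ω0)
  set omT := fun x => ε ^ 2 • ω0 + pull (fderiv ℝ Ψ x) (om (Ψ x) - om z₀) with homT
  set μ := fun x => ω0 + pull (fderiv ℝ τ x) (pull L0c (om (Ψ x) - om z₀)) with hμ
  have hscale : ∀ x, omT x = ε ^ 2 • μ x := fun x => by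
    simp only [homT, hμ, hΨd, chartModel_pull_comp, pull_smul_left, pull_smul, smul_add]
  have hgood' := fun x => hgood x _ rfl (Jc (Ψ x)) rfl (μ x) rfl
  let T : Setup :=
    { J := fun x => Jc (Ψ x)
      om := omT
      J_smooth := ⟨contDiff_const.clm_comp ((hJ.comp_contDiff hΨc hΨU).clm_comp contDiff_const),
        fun x n => by simp only [hΨ, hτp x n]⟩
      J_sq := fun x u => by
        simp [hJc, hL0c, hsq (Ψ x) (hΨU x), map_neg]
      om_smooth := ⟨homTc, fun x n => by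
        simp only [homT, hΨd]; simp only [hΨ, hτp x n, periodic_fderiv hτp x n]⟩
      tames := fun x u hu => by
        rw [hscale, ev_smul]
        exact mul_pos (by positivity) ((hgood' x).1.1 u hu)
      orient := fun x => by
        rw [hscale]
        simp only [q, PiLp.smul_apply, smul_eq_mul]
        have h1 := mul_pos (pow_pos hε 4) (hgood' x).1.2
        simp only [q] at h1
        linarith }
  refine ⟨T, fun x hx => ?_, fun x => ⟨?_, ?_⟩⟩
  · have hτx := hτid x (Metric.mem_closedBall.1 hx)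
    have hev : τ =ᶠ[𝓝[Metric.closedBall ctr (9 / 32)] x] id :=
      eventually_nhdsWithin_of_forall fun z hz => hτid z (Metric.mem_closedBall.1 hz)
    refine ⟨?_, ?_⟩
    · ext u i
      simp [T, hJc, hΨ, hτx, hLsym, hLapp, hL0c]
      field_simp
    · have hu : UniqueDiffWithinAt ℝ (Metric.closedBall ctr (9 / 32)) x :=
        uniqueDiffWithinAt_convex (convex_closedBall _ _)
          ⟨ctr, interior_mono (Subset.refl _) (mem_interior.2 ⟨Metric.ball ctr (9 / 32),
            Metric.ball_subset_closedBall, Metric.isOpen_ball, Metric.mem_ball_self (by norm_num)⟩)⟩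
          (subset_closure hx)
      have hD1 : fderiv ℝ τ x = ContinuousLinearMap.id ℝ V := by
        rw [← (hτc.differentiable (by simp) x).fderivWithin hu,
          hev.fderivWithin_eq (by simp [hτx]), fderivWithin_id hu]
      show omT x = _
      refine form_ext fun u v => ?_
      simp only [homT, hΨd, hD1]
      simp [hω0, hΨ, hτx, hL, ev_add, ev_smul, ev_pull, ev_sub, ev_smul_left,
        ev_smul_right]
      ring
  · rw [← dist_eq_norm]
    exact (hgood' x).2.1.le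
  · show ‖piP (Jc (Ψ x)) (omT x) - ε ^ 2 • OmStd‖ ≤ _
    rw [hscale, piP_smul, ← smul_sub, norm_smul, Real.norm_of_nonneg (by positivity), mul_comm dlt]
    exact mul_le_mul_of_nonneg_left (by rw [← dist_eq_norm]; exact (hgood' x).2.2.le) (by positivity)

/-- A small chart of a tamed almost complex structure extends to a setup on the torus which is
close to the standard one. -/
theorem exists_torus_model {U : Set V} (hU : IsOpen U) {J : V → V →L[ℝ] V} {om : V → Form}
    (hJ : ContDiffOn ℝ (⊤ : ℕ∞) J U) (hom : ContDiffOn ℝ (⊤ : ℕ∞) om U)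
    (hsq : ∀ x ∈ U, ∀ u, J x (J x u) = -u)
    (hcl : ∀ x ∈ U, ∀ u v w, ev (fderiv ℝ om x u) v w + ev (fderiv ℝ om x v) w u
      + ev (fderiv ℝ om x w) u v = 0)
    (htame : ∀ x ∈ U, ∀ u, u ≠ 0 → 0 < ev (om x) u (J x u))
    (hor : ∀ x ∈ U, 0 < q (om x) (om x))
    {z₀ : V} (hz₀ : z₀ ∈ U) {dlt : ℝ} (hdlt : 0 < dlt) :
    ∃ (L : V ≃L[ℝ] V) (lam : ℝ) (T : Setup), 0 < lam ∧
      (fun x => z₀ + L (x - ctr)) '' Metric.closedBall ctr (1 / 2) ⊆ U ∧
      (∀ x ∈ Metric.closedBall ctr (9 / 32),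
        T.J x = (L.symm : V →L[ℝ] V).comp ((J (z₀ + L (x - ctr))).comp (L : V →L[ℝ] V)) ∧
        T.om x = pull (L : V →L[ℝ] V) (om (z₀ + L (x - ctr)))) ∧
      ∀ x, ‖T.J x - Jstd‖ ≤ dlt ∧ ‖T.Om x - lam • OmStd‖ ≤ dlt * lam := by
  obtain ⟨τ, C, hC, hτc, hτp, hτid, hτb, hτd⟩ := exists_retract
  obtain ⟨L0, hL0, hP0⟩ := exists_adapted (hsq z₀ hz₀) (htame z₀ hz₀) (hor z₀ hz₀)
  set L0c : V →L[ℝ] V := (L0 : V →L[ℝ] V) with hL0c
  set ω0 := pull L0c (om z₀) with hω0
  have ht0 : ∀ u, u ≠ 0 → 0 < ev ω0 u (Jstd u) := fun u hu => by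
    have h := htame z₀ hz₀ (L0 u) (by simpa using hu)
    rw [hω0, ev_pull]
    have e' : L0c (Jstd u) = J z₀ (L0 u) := by simp [hL0c, ← hL0 u]
    rw [e']
    exact h
  obtain ⟨a, ha, hnear⟩ := exists_good ht0 hP0 hdlt
  set Jc : V → V →L[ℝ] V := fun z => (L0.symm : V →L[ℝ] V).comp ((J z).comp L0c) with hJc
  have hJc0 : Jc z₀ = Jstd := by
    ext u i
    simp [hJc, hL0c, hL0 u]
  have hJcont : ContinuousAt Jc z₀ := by
    have := hJ.continuousOn.continuousAt (hU.mem_nhds hz₀)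
    exact (continuousAt_const.clm_comp (this.clm_comp continuousAt_const))
  have hoc := hom.continuousOn.continuousAt (hU.mem_nhds hz₀)
  set M := 72 * C ^ 2 * (72 * ‖L0c‖ ^ 2) with hM
  have e1 : ∀ᶠ z in 𝓝 z₀, z ∈ U ∧ dist (Jc z) Jstd < a ∧ M * ‖om z - om z₀‖ < a := by
    refine Filter.Eventually.and (hU.mem_nhds hz₀) ?_
    refine (hJcont.eventually (by rw [hJc0]; exact Metric.ball_mem_nhds _ ha)).and ?_
    have : Tendsto (fun z => M * ‖om z - om z₀‖) (𝓝 z₀) (𝓝 0) := by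
      simpa using ((hoc.tendsto.sub_const (om z₀)).norm.const_mul M)
    exact this.eventually_lt_const ha
  obtain ⟨b, hb, hball⟩ := Metric.eventually_nhds_iff.1 e1
  obtain ⟨ε, hε, hεb⟩ : ∃ ε, 0 < ε ∧ ε * ‖L0c‖ < b :=
    ⟨b / (‖L0c‖ + 1), by positivity, by
      rw [div_mul_eq_mul_div, div_lt_iff₀ (by positivity)]; nlinarith [norm_nonneg L0c]⟩
  obtain ⟨L, hL, hLapp, hLsym⟩ := exists_dilation L0 hε
  have hin : ∀ y, dist y ctr ≤ 1 / 2 → dist (z₀ + L (y - ctr)) z₀ < b := fun y hy => by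
    rw [dist_eq_norm, add_sub_cancel_left, hLapp, show L0 (y - ctr) = L0c (y - ctr) from rfl, norm_smul, Real.norm_of_nonneg hε.le]
    refine lt_of_le_of_lt (mul_le_mul_of_nonneg_left ((L0c.le_opNorm _).trans
      (mul_le_of_le_one_right (norm_nonneg _) ?_)) hε.le) hεb
    rw [← dist_eq_norm]
    linarith
  have hΨb : ∀ x, dist (z₀ + L (τ x - ctr)) z₀ < b := fun x => hin _ (hτb x)
  obtain ⟨T, hag, hbd⟩ := scaled_setup (dlt := dlt) hU hJ hom hsq hcl hε hτc hτp hτid L0 L hL hLapp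
    hLsym (fun x => (hball (hΨb x)).1) fun x z hz A hA β hβ => by
      have hzb : dist z z₀ < b := hz ▸ hΨb x
      have hd : dist (β, A) (ω0, Jstd) < a := by
        rw [Prod.dist_eq]
        refine max_lt ?_ (hA ▸ (hball hzb).2.1)
        rw [hβ, dist_eq_norm, add_sub_cancel_left]
        refine lt_of_le_of_lt ((norm_pull_le _ _).trans ?_) (hball hzb).2.2
        have h1 := pow_le_pow_left₀ (norm_nonneg _) (hτd x) 2
        rw [hM, mul_assoc _ (72 * ‖L0c‖ ^ 2)]
        gcongr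
        exact norm_pull_le _ _
      exact hnear hd
  exact ⟨L, ε ^ 2, T, by positivity,
    fun _ ⟨y, hy, e⟩ => e ▸ (hball (hin y (Metric.mem_closedBall.1 hy))).1, hag, hbd⟩

end Vale.Agent.P204.Gen
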