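import Vale.Agent.P204.Gen.Interface

/-!
P204, general four-manifold: the pointwise representation of a regularised current, shared by
`RegBounds` and `GPairMass` (helper51). It is a definition; `PointRep.lean` proves it.
-/

open MeasureTheory Filter Topology Set
open scoped BigOperators

namespace Vale.Agent.P204.Gen

open Vale.Agent.P204.Torus

variable {X : Type*} [TopologicalSpace X] [MeasurableSpace X]

/-- The part of `X` where the `i`th function of the partition is not small. -/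
def Geo.coreSet (G : Geo X) (i : Fin G.n) : Set X := {x | 1 / (2 * (G.n : ℝ)) ≤ G.ψ i x}

/-- In the chart `i`, almost every value of a regularised weighted current is a limit of averages of
the congruent forms `pull L (h z)`, `z` near the point and `L` near the identity. -/
def PointRep {S : GSetup X} (T : Positive S) : Prop :=
  ∀ i, ∃ C c ε₁ : ℝ, 0 < C ∧ 0 < c ∧ 0 < ε₁ ∧ ∀ ε, 0 < ε → ε ≤ ε₁ → ∀ w : X → ℝ,
    Measurable w → (∀ y, |w y| ≤ 1) → ∀ f, T.RegRep w ε f →
    ∀ᵐ u ∂volume.restrict (S.φ i '' S.coreSet i), ∃ g : ℕ → X → Form,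
      (∀ k, Measurable (g k) ∧ ∀ z, ‖g k z‖ ≤ C / ε ^ 4) ∧
      Tendsto (fun k => ∫ z, w z • g k z ∂T.ν) atTop (𝓝 (S.rep2 i f u)) ∧
      ∀ k z, ∃ M : Measure (V →L[ℝ] V), IsFiniteMeasure M ∧ M.real univ ≤ C / ε ^ 4 ∧
        (M ≠ 0 → z ∈ (S.φ i).source ∧ z ∈ tsupport (S.ψ i) ∧ ‖S.φ i z - u‖ ≤ C * ε ∧
          S.dX z ((S.φ i).symm u) ≤ C * ε) ∧
        (z ∈ (S.φ i).source → ‖S.φ i z - u‖ ≤ c * ε → c / ε ^ 4 ≤ M.real univ) ∧
        (∀ᵐ L ∂M, ‖L - 1‖ ≤ C * ε) ∧
        g k z = ∫ L, pull L (S.formIn i z (T.h z)) ∂M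

end Vale.Agent.P204.Gen
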