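import Vale.Agent.P204.Gen.GeoDist
import Vale.Agent.P204.Gen.PointRepDef

/-!
P204 on a closed four-manifold: the measure of `X` and the changes of coordinates over the cores of
the charts (module 12).
-/

open MeasureTheory Set Filter Topology
open scoped ContDiff ENNReal

namespace Vale.Agent.P204.Gen

open Vale.Agent.P204.Torus

namespace Geo

variable {X : Type*} [TopologicalSpace X] [MeasurableSpace X] (G : Geo X)

lemma isClosed_coreSet (i : Fin G.n) : IsClosed (G.coreSet i) :=
  isClosed_le continuous_const (G.ψ_cont i)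

lemma coreSet_subset (i : Fin G.n) : G.coreSet i ⊆ tsupport (G.ψ i) := fun x hx => by
  have hn : (0 : ℝ) < G.n := Nat.cast_pos.2 i.pos
  refine subset_tsupport _ (ne_of_gt ?_)
  exact lt_of_lt_of_le (show (0 : ℝ) < 1 / (2 * (G.n : ℝ)) by positivity) hx

lemma coreSet_source (i : Fin G.n) : G.coreSet i ⊆ (G.φ i).source :=
  (G.coreSet_subset i).trans (G.ψ_supp i)

lemma exists_psi_ge (x : X) : ∃ j, 1 / (G.n : ℝ) ≤ G.ψ j x := by
  have hne : (Finset.univ : Finset (Fin G.n)).Nonempty := ⟨G.tr x, Finset.mem_univ _⟩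
  have hn : (0 : ℝ) < G.n := Nat.cast_pos.2 (G.tr x).pos
  obtain ⟨j, -, hj⟩ := Finset.exists_le_of_sum_le hne
    (f := fun _ : Fin G.n => 1 / (G.n : ℝ)) (g := fun i => G.ψ i x) (by
      rw [Finset.sum_const, Finset.card_univ, Fintype.card_fin, nsmul_eq_mul, G.ψ_sum,
        mul_one_div_cancel hn.ne'])
  exact ⟨j, hj⟩

lemma mem_coreSet_of_ge {i : Fin G.n} {x : X} (h : 1 / (G.n : ℝ) ≤ G.ψ i x) : x ∈ G.coreSet i := by
  have hn : (0 : ℝ) < G.n := Nat.cast_pos.2 i.pos
  refine le_trans ?_ h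
  rw [div_le_div_iff₀ (by positivity) hn]
  linarith

/-- Points near a point of the inner core lie in the core. -/
lemma mem_coreSet_of_near {i : Fin G.n} {x y : X} (h : 1 / (G.n : ℝ) ≤ G.ψ i x)
    (hd : G.dX x y ≤ 1 / (2 * (G.n : ℝ))) : y ∈ G.coreSet i := by
  have h1 : |G.ψ i x - G.ψ i y| ≤ G.dX x y :=
    le_trans (le_add_of_nonneg_right (norm_nonneg (G.ψ i x • G.φ i x - G.ψ i y • G.φ i y)))
      (Finset.single_le_sum
        (f := fun j => |G.ψ j x - G.ψ j y| + ‖G.ψ j x • G.φ j x - G.ψ j y • G.φ j y‖)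
        (fun _ _ => add_nonneg (abs_nonneg _) (norm_nonneg _)) (Finset.mem_univ i))
  have h2 : 1 / (G.n : ℝ) = 1 / (2 * (G.n : ℝ)) + 1 / (2 * (G.n : ℝ)) := by ring
  show 1 / (2 * (G.n : ℝ)) ≤ G.ψ i y
  linarith [(abs_le.1 h1).2]

lemma continuousOn_trD_inter (i j : Fin G.n) :
    ContinuousOn (G.trD i j) (tsupport (G.ψ i) ∩ tsupport (G.ψ j)) := by
  intro x hx
  have hi := G.ψ_supp i hx.1
  have h := ((G.contDiffAt_tc (G.chart_mem_tdom hi (G.ψ_supp j hx.2))).fderiv_right
    (m := ∞) le_rfl).continuousAt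
  exact (h.comp ((G.φ i).continuousAt hi)).continuousWithinAt

/-- The changes to the coordinates in use have bounded inverses on the supports. -/
lemma exists_dT_inv_bound [CompactSpace X] (j : Fin G.n) : ∃ C, 0 ≤ C ∧ ∀ x ∈ tsupport (G.ψ j),
    ‖(G.dT j x).inverse‖ ≤ C := by
  choose B hB using fun i => ((isClosed_tsupport (G.ψ i)).inter
    (isClosed_tsupport (G.ψ j))).isCompact.exists_bound_of_continuousOn (G.continuousOn_trD_inter i j)
  refine ⟨∑ i, |B i|, Finset.sum_nonneg fun i _ => abs_nonneg _, fun x hx => ?_⟩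
  have hs := G.ψ_supp j hx
  have he : (G.dT j x).inverse = G.trD (G.tr x) j x := by
    calc (G.dT j x).inverse
        = ((G.trD j (G.tr x) x).inverse).comp
            ((G.trD j (G.tr x) x).comp (G.trD (G.tr x) j x)) := by
          rw [G.trD_symm hs (G.mem_ch x), G.dT_eq]; rfl
      _ = _ := by
          rw [← ContinuousLinearMap.comp_assoc, inverse_comp_self
            (G.trD_det_pos hs (G.mem_ch x)).ne']
          rfl
  rw [he]
  exact (((hB (G.tr x)) x ⟨subset_tsupport _ (G.tr_pos x).ne', hx⟩).trans (le_abs_self _)).trans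
    (Finset.single_le_sum (f := fun i => |B i|) (fun i _ => abs_nonneg _) (Finset.mem_univ _))

/-- On the core of a chart, the measure of `X` is at most a multiple of the volume. -/
lemma exists_core_le [T2Space X] [CompactSpace X] [BorelSpace X] (j : Fin G.n) :
    ∃ C : ℝ, 0 ≤ C ∧ ∀ B : Set V, MeasurableSet B →
      G.μ (G.coreSet j ∩ G.φ j ⁻¹' B) ≤ ENNReal.ofReal C * volume B := by
  classical
  set Q : Fin G.n → Set V := fun i => G.φ j '' (G.coreSet j ∩ tsupport (G.ψ i)) with hQ
  have hQc : ∀ i, IsCompact (Q i) := fun i =>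
    ((G.isClosed_coreSet j).inter (isClosed_tsupport _)).isCompact.image_of_continuousOn
      ((G.φ j).continuousOn.mono (inter_subset_left.trans (G.coreSet_source j)))
  have hQt : ∀ i, Q i ⊆ G.tdom j i := by
    rintro i _ ⟨x, ⟨hx, hxi⟩, rfl⟩
    exact G.chart_mem_tdom (G.coreSet_source j hx) (G.ψ_supp i hxi)
  have hdet : ∀ i, ∃ C, ∀ u ∈ Q i, |(fderiv ℝ (G.tc j i) u).det| ≤ C := fun i => by
    obtain ⟨C, hC⟩ := (hQc i).exists_bound_of_continuousOn
      (f := fun u => (fderiv ℝ (G.tc j i) u).det) (fun u hu =>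
        (ContinuousLinearMap.continuous_det.continuousAt.comp
          (((G.contDiffAt_tc (hQt i hu)).fderiv_right (m := ∞) le_rfl).continuousAt)
            ).continuousWithinAt)
    exact ⟨C, fun u hu => by simpa using hC u hu⟩
  choose C hC using hdet
  refine ⟨∑ i, |C i|, Finset.sum_nonneg fun i _ => abs_nonneg _, fun B hB => ?_⟩
  set s := G.coreSet j ∩ G.φ j ⁻¹' B
  have hs : MeasurableSet s := by
    have h : Measurable ((G.coreSet j).domRestrict (G.φ j)) :=
      ((G.φ j).continuousOn.mono (G.coreSet_source j)).domRestrict.measurable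
    have e : s = Subtype.val '' ((G.coreSet j).domRestrict (G.φ j) ⁻¹' B) := by
      ext x; simp [s, Set.domRestrict, and_comm]
    rw [e]
    exact (MeasurableEmbedding.subtype_coe (G.isClosed_coreSet j).measurableSet).measurableSet_image.2
      (h hB)
  have htr : ∀ i, MeasurableSet {x | G.tr x = i} := fun i => G.tr_meas (measurableSet_singleton i)
  rw [μ, Measure.sum_fintype, Measure.coe_finsetSum, Finset.sum_apply,
    ENNReal.ofReal_sum_of_nonneg (fun i _ => abs_nonneg _), Finset.sum_mul]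
  refine Finset.sum_le_sum fun i _ => ?_
  rw [Measure.restrict_apply hs, Measure.map_apply_of_aemeasurable
    ((G.φ i).continuousOn_symm.aemeasurable (G.φ i).open_target.measurableSet)
    (hs.inter (htr i)), Measure.restrict_apply' (G.φ i).open_target.measurableSet]
  have hsub : (G.φ i).symm ⁻¹' (s ∩ {x | G.tr x = i}) ∩ (G.φ i).target ⊆
      G.tc j i '' (B ∩ Q i) := by
    rintro u ⟨⟨⟨hx, hxB⟩, hxi⟩, hu⟩
    refine ⟨G.φ j ((G.φ i).symm u), ⟨hxB, _, ⟨hx, ?_⟩, rfl⟩, ?_⟩
    · have h := G.tr_pos ((G.φ i).symm u)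
      rw [show G.tr ((G.φ i).symm u) = i from hxi] at h
      exact subset_tsupport _ h.ne'
    · rw [G.tc_chart i (G.coreSet_source j hx), (G.φ i).right_inv hu]
  refine (measure_mono hsub).trans ?_
  refine (addHaar_image_le_lintegral_abs_det_fderiv volume (hB.inter (hQc i).measurableSet)
    (fun u hu => ((G.contDiffAt_tc (hQt i hu.2)).differentiableAt
      (by simp)).hasFDerivAt.hasFDerivWithinAt)).trans ?_
  refine (setLIntegral_mono measurable_const fun u hu => ENNReal.ofReal_le_ofReal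
    ((hC i u hu.2).trans (le_abs_self _))).trans ?_
  rw [setLIntegral_const]
  gcongr
  exact inter_subset_left

end Geo

end Vale.Agent.P204.Gen
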