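import Vale.Agent.P204.Torus.Facts

/-!
P204 on a closed four-manifold: the definitions shared by all modules (owner helper17).

`Geo X` is a finite oriented atlas of `X` with a partition of unity. A field of two-forms is a
function `X → Form`: its value at `x` is the coordinate two-form in the chart `tr x`. Likewise a
one-form is a function `X → V` and an endomorphism field a function `X → V →L[ℝ] V`. Everything
local happens in the charts, whose targets lie in the open unit cube, so that a compactly supported
field becomes a periodic field on the torus by `pext`.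
-/

open MeasureTheory
open scoped BigOperators ContDiff

namespace Vale.Agent.P204.Gen

open Vale.Agent.P204.Torus

/-- The open unit cube. -/
def Q0 : Set V := Set.pi Set.univ fun _ => Set.Ioo (0 : ℝ) 1

/-- The representative in the fundamental cube. -/
noncomputable def fred (u : V) : V := fun i => Int.fract (u i)

/-- The periodic extension from the fundamental cube. -/
noncomputable def pext {F : Type*} (f : V → F) (u : V) : F := f (fred u)

/-- A covector pulled back by a linear map. -/
noncomputable def pullV (A : V →L[ℝ] V) (a : V) : V := fun i => pair a (A (e i))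

/-- A finite oriented atlas with a partition of unity. -/
structure Geo (X : Type*) [TopologicalSpace X] [MeasurableSpace X] where
  /-- The number of charts. -/
  n : ℕ
  /-- The charts. -/
  φ : Fin n → OpenPartialHomeomorph X V
  target_sub : ∀ i, (φ i).target ⊆ Q0
  target_convex : ∀ i, Convex ℝ (φ i).target
  trans_smooth : ∀ i j, ContDiffOn ℝ ∞ (fun u => φ j ((φ i).symm u))
    ((φ i).symm.trans (φ j)).source
  trans_pos : ∀ i j, ∀ u ∈ ((φ i).symm.trans (φ j)).source,
    0 < (fderiv ℝ (fun u => φ j ((φ i).symm u)) u).det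
  /-- The partition of unity. -/
  ψ : Fin n → X → ℝ
  ψ_nonneg : ∀ i x, 0 ≤ ψ i x
  ψ_sum : ∀ x, ∑ i, ψ i x = 1
  ψ_cont : ∀ i, Continuous (ψ i)
  ψ_supp : ∀ i, tsupport (ψ i) ⊆ (φ i).source
  ψ_smooth : ∀ i j, ContDiffOn ℝ ∞ (fun u => ψ i ((φ j).symm u)) (φ j).target
  /-- The cut-offs of the charts. -/
  χ : Fin n → V → ℝ
  χ_smooth : ∀ i, ContDiff ℝ ∞ (χ i)
  χ_range : ∀ i u, χ i u ∈ Set.Icc (0 : ℝ) 1
  χ_cpt : ∀ i, HasCompactSupport (χ i)
  χ_supp : ∀ i, tsupport (χ i) ⊆ (φ i).target
  χ_one : ∀ i, ∀ x ∈ tsupport (ψ i), ∀ᶠ u in nhds (φ i x), χ i u = 1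
  /-- The chart whose coordinates are used at a point. -/
  tr : X → Fin n
  tr_pos : ∀ x, 0 < ψ (tr x) x
  tr_meas : Measurable tr

namespace Geo

variable {X : Type*} [TopologicalSpace X] [MeasurableSpace X] (G : Geo X)

/-- The chart used at `x`. -/
noncomputable def ch (x : X) : OpenPartialHomeomorph X V := G.φ (G.tr x)

/-- The derivative at `x` of the change from the chart `i` to the chart used at `x`. -/
noncomputable def dT (i : Fin G.n) (x : X) : V →L[ℝ] V :=
  fderiv ℝ (fun u => G.ch x ((G.φ i).symm u)) (G.φ i x)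

open Classical in
/-- A function in the chart `i`, zero outside the target. -/
noncomputable def rep0 {F : Type*} [Zero F] (i : Fin G.n) (f : X → F) (u : V) : F :=
  if u ∈ (G.φ i).target then f ((G.φ i).symm u) else 0

open Classical in
/-- A two-form in the chart `i`, zero outside the target. -/
noncomputable def rep2 (i : Fin G.n) (α : X → Form) (u : V) : Form :=
  if u ∈ (G.φ i).target then pull (G.dT i ((G.φ i).symm u)) (α ((G.φ i).symm u)) else 0

open Classical in
/-- A one-form in the chart `i`, zero outside the target. -/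
noncomputable def rep1 (i : Fin G.n) (a : X → V) (u : V) : V :=
  if u ∈ (G.φ i).target then pullV (G.dT i ((G.φ i).symm u)) (a ((G.φ i).symm u)) else 0

open Classical in
/-- An endomorphism field in the chart `i`, zero outside the target. -/
noncomputable def repE (i : Fin G.n) (A : X → V →L[ℝ] V) (u : V) : V →L[ℝ] V :=
  if u ∈ (G.φ i).target then
    (G.dT i ((G.φ i).symm u)).inverse.comp
      ((A ((G.φ i).symm u)).comp (G.dT i ((G.φ i).symm u)))
  else 0

/-- A smooth function. -/
def Smooth0 {F : Type*} [NormedAddCommGroup F] [NormedSpace ℝ F] (f : X → F) : Prop :=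
  ∀ i, ContDiffOn ℝ ∞ (G.rep0 i f) (G.φ i).target

/-- A smooth two-form. -/
def Smooth2 (α : X → Form) : Prop := ∀ i, ContDiffOn ℝ ∞ (G.rep2 i α) (G.φ i).target

/-- A smooth one-form. -/
def Smooth1 (a : X → V) : Prop := ∀ i, ContDiffOn ℝ ∞ (G.rep1 i a) (G.φ i).target

/-- A smooth field of endomorphisms of the tangent spaces. -/
def SmoothE (A : X → V →L[ℝ] V) : Prop := ∀ i, ContDiffOn ℝ ∞ (G.repE i A) (G.φ i).target

/-- A field of endomorphisms of two-forms in the chart `i`. -/
noncomputable def repOp (i : Fin G.n) (F : X → Form →L[ℝ] Form) (u : V) (β : Form) : Form :=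
  let x := (G.φ i).symm u
  pull (G.dT i x) (F x (pull (G.dT i x).inverse β))

/-- A smooth field of endomorphisms of two-forms. -/
def SmoothOp (F : X → Form →L[ℝ] Form) : Prop :=
  ∀ i β, ContDiffOn ℝ ∞ (fun u => G.repOp i F u β) (G.φ i).target

/-- The exterior derivative of a one-form. -/
noncomputable def d (a : X → V) (x : X) : Form := d1 (G.rep1 (G.tr x) a) (G.ch x x)

open Classical in
/-- A positive form at `x` read in the chart `i`, so that wedge pairings are unchanged. -/
noncomputable def formIn (i : Fin G.n) (x : X) (h : Form) : Form :=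
  ((G.dT i x).det)⁻¹ • pull (G.dT i x) h

/-- The volume of the coordinates in use. -/
noncomputable def μ : Measure X :=
  Measure.sum fun i : Fin G.n =>
    ((volume.restrict (G.φ i).target).map (G.φ i).symm).restrict {x | G.tr x = i}

/-- The wedge pairing of two fields. -/
noncomputable def pairing (α β : X → Form) : ℝ := ∫ x, q (α x) (β x) ∂G.μ

/-- The square norm. -/
noncomputable def n2 (α : X → Form) : ℝ := Real.sqrt (∫ x, ‖α x‖ ^ 2 ∂G.μ)

/-- The absolute norm. -/
noncomputable def n1 (α : X → Form) : ℝ := ∫ x, ‖α x‖ ∂G.μ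

/-- Weakly closed two-forms. -/
def WeakClosed (α : X → Form) : Prop := ∀ η, G.Smooth1 η → G.pairing α (G.d η) = 0

/-- A distance on `X`, comparable with the coordinate distances. -/
noncomputable def dX (x y : X) : ℝ :=
  ∑ i, (|G.ψ i x - G.ψ i y| + ‖G.ψ i x • G.φ i x - G.ψ i y • G.φ i y‖)

end Geo

/-! ## Sobolev norms -/

/-- The semiclassical Sobolev square norm of order `k` of a periodic field. -/
noncomputable def hsq : ℕ → ℝ → (V → Form) → ℝ
  | 0, _, f => ∫ u in cube, ‖f u‖ ^ 2
  | k + 1, ε, f => hsq k ε f + ε ^ 2 * ∑ l : Fin 4, hsq k ε fun u => fderiv ℝ f u (e l)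

namespace Geo

variable {X : Type*} [TopologicalSpace X] [MeasurableSpace X] (G : Geo X)

/-- A two-form cut off by the partition of unity, on the torus. -/
noncomputable def locF (i : Fin G.n) (α : X → Form) : V → Form :=
  pext (G.rep2 i fun x => G.ψ i x • α x)

/-- The semiclassical Sobolev norm on `X`. -/
noncomputable def sob (k : ℕ) (ε : ℝ) (α : X → Form) : ℝ :=
  Real.sqrt (∑ i, hsq k ε (G.locF i α))

/-! ## Pull-backs and the regulariser -/

/-- The derivative of a map in the coordinates in use. -/
noncomputable def mder (F : X → X) (x : X) : V →L[ℝ] V :=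
  fderiv ℝ (fun u => G.ch (F x) (F ((G.ch x).symm u))) (G.ch x x)

/-- The pull-back of a two-form. -/
noncomputable def pb (F : X → X) (α : X → Form) (x : X) : Form := pull (G.mder F x) (α (F x))

/-- The pull-back of a one-form. -/
noncomputable def pb1 (F : X → X) (a : X → V) (x : X) : V := pullV (G.mder F x) (a (F x))

open Classical in
/-- The cut-off translation in the chart `i`. -/
noncomputable def shift (i : Fin G.n) (t : V) (x : X) : X :=
  if x ∈ (G.φ i).source then (G.φ i).symm (G.φ i x + G.χ i (G.φ i x) • t) else x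

end Geo

/-- The bump. -/
noncomputable def bump : ContDiffBump (0 : V) := ⟨1 / 2, 1, by norm_num, by norm_num⟩

/-- The mollifier of mass one at scale `ε`. -/
noncomputable def rho (ε : ℝ) (t : V) : ℝ := (ε ^ 4)⁻¹ * bump.normed volume (ε⁻¹ • t)

namespace Geo

variable {X : Type*} [TopologicalSpace X] [MeasurableSpace X] (G : Geo X)

/-- The average over the translations of the chart `i`. -/
noncomputable def avg (i : Fin G.n) (ε : ℝ) (α : X → Form) (x : X) : Form :=
  ∫ t, rho ε t • G.pb (G.shift i t) α x

/-- The average of one-forms over the translations of the chart `i`. -/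
noncomputable def avg1 (i : Fin G.n) (ε : ℝ) (a : X → V) (x : X) : V :=
  ∫ t, rho ε t • G.pb1 (G.shift i t) a x

/-- The regulariser on test forms: the composition of all the averages. -/
noncomputable def reg (ε : ℝ) (α : X → Form) : X → Form :=
  (List.finRange G.n).foldr (fun i β => G.avg i ε β) α

/-- The transpose of `avg`: the average over the inverse translations. -/
noncomputable def avgT (i : Fin G.n) (ε : ℝ) (α : X → Form) (x : X) : Form :=
  haveI : Nonempty X := ⟨x⟩
  ∫ t, rho ε t • G.pb (Function.invFun (G.shift i t)) α x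

/-- The transpose of `avg1`. -/
noncomputable def avgT1 (i : Fin G.n) (ε : ℝ) (a : X → V) (x : X) : V :=
  haveI : Nonempty X := ⟨x⟩
  ∫ t, rho ε t • G.pb1 (Function.invFun (G.shift i t)) a x

/-- The transpose of `reg`: the averages of the inverse translations in the opposite order. -/
noncomputable def regT (ε : ℝ) (α : X → Form) : X → Form :=
  (List.finRange G.n).reverse.foldr (fun i β => G.avgT i ε β) α

/-- The transpose of `reg1`. -/
noncomputable def regT1 (ε : ℝ) (a : X → V) : X → V :=
  (List.finRange G.n).reverse.foldr (fun i b => G.avgT1 i ε b) a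

/-- The regulariser on test one-forms. -/
noncomputable def reg1 (ε : ℝ) (a : X → V) : X → V :=
  (List.finRange G.n).foldr (fun i b => G.avg1 i ε b) a

end Geo

/-! ## The almost complex structure -/

/-- An almost complex structure tamed by a closed form, in the orientation of the atlas. -/
structure GSetup (X : Type*) [TopologicalSpace X] [MeasurableSpace X] extends Geo X where
  /-- The almost complex structure. -/
  J : X → V →L[ℝ] V
  /-- The taming form. -/
  om : X → Form
  J_smooth : toGeo.SmoothE J
  J_sq : ∀ x u, J x (J x u) = -u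
  om_smooth : toGeo.Smooth2 om
  om_closed : toGeo.WeakClosed om
  tames : ∀ x u, u ≠ 0 → 0 < ev (om x) u (J x u)
  orient : ∀ x, 0 < q (om x) (om x)

namespace GSetup

variable {X : Type*} [TopologicalSpace X] [MeasurableSpace X] (S : GSetup X)

/-- The data at one point, as a constant structure on the torus: all pointwise algebra applies. -/
noncomputable def pt (x : X) : Setup where
  J _ := S.J x
  om _ := S.om x
  J_smooth := ⟨contDiff_const, fun _ _ => rfl⟩
  J_sq _ u := S.J_sq x u
  om_smooth := ⟨contDiff_const, fun _ _ => rfl⟩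
  tames _ u hu := S.tames x u hu
  orient _ := S.orient x

/-- The invariant part of the taming form. -/
noncomputable def Om (x : X) : Form := piP (S.J x) (S.om x)

/-- A positive invariant two-form at `x`. -/
def Psd (x : X) (h : Form) : Prop := piM (S.J x) h = 0 ∧ ∀ u, 0 ≤ ev h u (S.J x u)

/-- The smooth closed invariant forms. -/
def ClosedInv (α : X → Form) : Prop :=
  S.Smooth2 α ∧ S.WeakClosed α ∧ ∀ x, piM (S.J x) (α x) = 0

/-- A compatible form. -/
def Compatible (α : X → Form) : Prop :=
  S.ClosedInv α ∧ ∀ x u, u ≠ 0 → 0 < ev (α x) u (S.J x u)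

end GSetup

/-- A measure with a density in normalised positive invariant forms. -/
structure Positive {X : Type*} [TopologicalSpace X] [MeasurableSpace X] (S : GSetup X) where
  /-- The trace measure. -/
  ν : Measure X
  /-- The density. -/
  h : X → Form
  finite : IsFiniteMeasure ν
  meas : Measurable h
  psd : ∀ x, S.Psd x (h x)
  trace : ∀ x, q (h x) (S.Om x) = 1

namespace Positive

variable {X : Type*} [TopologicalSpace X] [MeasurableSpace X] {S : GSetup X} (T : Positive S)

/-- The current as a functional. -/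
noncomputable def app (α : X → Form) : ℝ := ∫ x, q (T.h x) (α x) ∂T.ν

/-- The density at scale `r`. -/
noncomputable def dens (r : ℝ) (y : X) : ℝ :=
  ∫ z, r ^ 2 / (r ^ 2 + S.dX z y ^ 2) ^ 2 ∂T.ν

/-- The mass of the ball of radius `r`, divided by `r⁴`. -/
noncomputable def ball4 (r : ℝ) (x : X) : ℝ := T.ν.real {z | S.dX z x ≤ r} / r ^ 4

/-- The mass of the ball of radius `r` for the weight `|w|`, divided by `r⁴`. -/
noncomputable def ball4W (w : X → ℝ) (r : ℝ) (x : X) : ℝ :=
  (∫ z in {z | S.dX z x ≤ r}, |w z| ∂T.ν) / r ^ 4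

/-- A bound on the density at all small scales. -/
def DensBound : Prop := ∃ C, ∀ r, 0 < r → r ≤ 1 → ∀ y, T.dens r y ≤ C

/-- `f` represents the regularisation of the weighted current `w T`. -/
def RegRep (w : X → ℝ) (ε : ℝ) (f : X → Form) : Prop :=
  MemLp f 2 S.μ ∧
    ∀ α, S.Smooth2 α → S.pairing f α = T.app fun z => w z • S.reg ε α z

end Positive

/-- A chart read as an almost complex structure on the torus. -/
structure LocalChart {X : Type*} [TopologicalSpace X] [MeasurableSpace X] (S : GSetup X)
    (i : Fin S.n) where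
  /-- The periodic extension. -/
  loc : Setup
  agree : ∀ u ∈ tsupport (S.χ i), ∀ᶠ v in nhds u,
    loc.J v = S.repE i S.J v ∧ loc.om v = S.rep2 i S.om v

namespace Positive

variable {X : Type*} [TopologicalSpace X] [MeasurableSpace X] {S : GSetup X} (T : Positive S)

open Classical in
/-- The trace measure cut off in the chart `i`. -/
noncomputable def locMeasure (i : Fin S.n) : Measure V :=
  (T.ν.withDensity fun x =>
    if x ∈ (S.φ i).source then ENNReal.ofReal (S.χ i (S.φ i x)) else 0).map (S.φ i)

/-- The density in the chart `i`. -/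
noncomputable def locH (i : Fin S.n) (u : V) : Form :=
  S.formIn i ((S.φ i).symm u) (T.h ((S.φ i).symm u))

end Positive

/-- A separating positive current. -/
structure GCurrent {X : Type*} [TopologicalSpace X] [MeasurableSpace X] (S : GSetup X)
    extends Positive S where
  ne_zero : ν ≠ 0
  annihilates : ∀ α, S.ClosedInv α → toPositive.app α = 0

/-- The order of the functional `U`. -/
def pU : ℕ := 8

/-- The order of the test norms. -/
def kS : ℕ := 10

/-- The current killing closed forms which extends a separating current, and its regularisations. -/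
structure GUData {X : Type*} [TopologicalSpace X] [MeasurableSpace X] {S : GSetup X}
    (T : GCurrent S) where
  /-- The functional on smooth two-forms. -/
  U : (X → Form) → ℝ
  /-- The regularisation of the current `U`. -/
  Ue : ℝ → X → Form
  /-- The regularisation of the current `T`. -/
  Te : ℝ → X → Form
  /-- The scale below which everything holds. -/
  ε₀ : ℝ
  ε₀_pos : 0 < ε₀
  ε₀_le : ε₀ ≤ 1
  add : ∀ α β, S.Smooth2 α → S.Smooth2 β → U (α + β) = U α + U β
  smul : ∀ (a : ℝ) α, S.Smooth2 α → U (a • α) = a * U α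
  inv : ∀ α, S.Smooth2 α → (∀ x, piM (S.J x) (α x) = 0) → U α = T.app α
  closed : ∀ α, S.Smooth2 α → S.WeakClosed α → U α = 0
  bound : ∃ C, ∀ α, S.Smooth2 α → |U α| ≤ C * S.sob pU 1 α
  Ue_mem : ∀ ε, 0 < ε → ε ≤ ε₀ → MemLp (Ue ε) 2 S.μ
  Ue_rep : ∀ ε, 0 < ε → ε ≤ ε₀ → ∀ α, S.Smooth2 α → S.pairing (Ue ε) α = U (S.reg ε α)
  Ue_q : ∀ ε, 0 < ε → ε ≤ ε₀ → S.pairing (Ue ε) (Ue ε) = 0
  Ue_exact : ∀ ε, 0 < ε → ε ≤ ε₀ → ∀ δ > 0, ∃ η, S.Smooth1 η ∧
    S.n2 (fun x => Ue ε x - S.d η x) ≤ δ
  Te_rep : ∀ ε, 0 < ε → ε ≤ ε₀ → T.RegRep (fun _ => 1) ε (Te ε)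

namespace GUData

variable {X : Type*} [TopologicalSpace X] [MeasurableSpace X] {S : GSetup X} {T : GCurrent S}
  (D : GUData T)

/-- The anti-invariant part as a functional. -/
noncomputable def Sf (α : X → Form) : ℝ := D.U α - T.app α

/-- The regularised anti-invariant part. -/
noncomputable def Se (ε : ℝ) (x : X) : Form := D.Ue ε x - D.Te ε x

/-- The first norm. -/
noncomputable def Xn (ε : ℝ) : ℝ := S.n2 (D.Se ε)

/-- The dual norm. -/
noncomputable def Yn (ε : ℝ) : ℝ :=
  sSup {r | ∃ α, S.Smooth2 α ∧ S.sob kS ε α ≤ 1 ∧ r = |D.Sf α|}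

/-- The anti-invariant part has bounded regularisations. -/
def Bounded : Prop :=
  ∃ C ε₁, 0 < ε₁ ∧ ∀ ε, 0 < ε → ε ≤ ε₁ → D.Xn ε ≤ C ∧ D.Yn ε ≤ C

/-- The consequences of square integrability of the anti-invariant part. -/
structure SLimit where
  /-- The square of the anti-invariant part. -/
  σ : ℝ
  σ_nonneg : 0 ≤ σ
  σ_zero : σ = 0 → ∀ α, S.Smooth2 α → D.Sf α = 0
  σ_lim : Filter.Tendsto (fun ε => S.pairing (D.Se ε) (D.Se ε))
    (nhdsWithin 0 (Set.Ioi 0)) (nhds σ)
  piP_small : Filter.Tendsto (fun ε => S.n2 (fun x => piP (S.J x) (D.Se ε x)) / ε)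
    (nhdsWithin 0 (Set.Ioi 0)) (nhds 0)
  Sf_bound : ∃ C, ∀ α, S.Smooth2 α → |D.Sf α| ≤ C * S.n2 (fun x => piM (S.J x) (α x))
  Sf_small : ∀ C, ∀ δ > 0, ∃ η > 0, ∀ w, S.Smooth2 w → S.n2 w ≤ C → S.n1 w ≤ η → |D.Sf w| ≤ δ
  Se_small : ∀ C, ∀ δ > 0, ∃ η > 0, ∀ ε, 0 < ε → ε ≤ η → ∀ w : X → Form, MemLp w 2 S.μ →
    S.n2 w ≤ C → S.n1 w ≤ η → |S.pairing (D.Se ε) w| ≤ δ

end GUData

end Vale.Agent.P204.Gen
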