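import Vale.Agent.P204.Gen.EllSymbol
import Vale.Agent.P204.Gen.AvgBase
import Vale.Agent.P204.Gen.SobTorus

/-!
P204, general four-manifold: local regularity in an open set of the cube of weakly closed forms `u`
with `P u` prescribed, where `‖P a‖² + ‖Q a‖² + s q(a, a)` is positive definite and `Q` vanishes.
-/

open MeasureTheory Set Filter Topology
open scoped BigOperators ContDiff

namespace Vale.Agent.P204.Gen.Ell

open Vale.Agent.P204.Torus

/-- The four coordinates of a three-form, as a form. -/
noncomputable def packL : V →L[ℝ] Form :=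
  LinearMap.toContinuousLinearMap
    { toFun := fun v => WithLp.toLp 2 ![v 0, v 1, v 2, v 3, 0, 0]
      map_add' := fun a b => by ext k; fin_cases k <;> simp
      map_smul' := fun r a => by ext k; fin_cases k <;> simp }

lemma packL_apply (v : V) (j : Fin 4) : packL v (Fin.castLE (by norm_num) j) = v j := by
  fin_cases j <;> rfl

/-- The lower order term of a cut-off: `a ↦ -q(a, dχ ∧ e j)`. -/
noncomputable def cutL (χ : V → ℝ) (x : V) : Form →L[ℝ] Form :=
  packL.comp (LinearMap.toContinuousLinearMap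
    { toFun := fun a j => -q a (wedge (grad χ x) (e j))
      map_add' := fun a b => by funext j; simp only [Pi.add_apply, q_add_left]; ring
      map_smul' := fun r a => by funext j; simp [q_smul_left] })

lemma cutL_apply (χ : V → ℝ) (x : V) (a : Form) :
    cutL χ x a = packL fun j => -q a (wedge (grad χ x) (e j)) := rfl

lemma contDiff_cutL {χ : V → ℝ} (hχ : ContDiff ℝ ∞ χ) : ContDiff ℝ ∞ (cutL χ) := by
  rw [contDiff_clm_apply_iff]
  intro a
  simp only [cutL_apply]
  refine packL.contDiff.comp (contDiff_pi.2 fun j => ?_)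
  have h : ∀ i, ContDiff ℝ ∞ fun x => grad χ x i := fun i =>
    (hχ.fderiv_right (by simp)).clm_apply contDiff_const
  simp only [q, wedge_apply]
  fun_prop

lemma grad_eq_zero {χ : V → ℝ} {x : V} (hx : x ∉ tsupport χ) : grad χ x = 0 := by
  funext i
  simp [grad, (notMem_tsupport_iff_eventuallyEq.1 hx).fderiv_eq]

lemma cutL_eq_zero {χ : V → ℝ} {x : V} (hx : x ∉ tsupport χ) : cutL χ x = 0 := by
  refine ContinuousLinearMap.ext fun v => ?_
  rw [cutL_apply]
  simp [grad_eq_zero hx, q, wedge_apply, show (fun _ : Fin 4 => (0 : ℝ)) = 0 from rfl]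

lemma integral_cube_of_supp {g : V → ℝ} {O : Set V} (hO : O ⊆ Q0) (hg : ∀ x ∉ O, g x = 0) :
    ∫ x in cube, g x = ∫ x, g x :=
  setIntegral_eq_integral_of_forall_compl_eq_zero fun x hx =>
    hg x fun h => hx (Q0_subset_cube (hO h))

/-- The equations in the open set `O`. -/
structure Sys (O : Set V) (P : V → Form →L[ℝ] Form) (u h : V → Form) : Prop where
  memLp : MemLp u 2 volume
  smooth : Smooth h
  eq : ∀ᵐ x, x ∈ O → P x (u x) = h x
  weak : ∀ η : V → V, ContDiff ℝ ∞ η → HasCompactSupport η → tsupport η ⊆ O →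
    ∫ x, q (u x) (d1 η x) = 0

/-- The weak equation tested against a cut-off character. -/
lemma weak_coef {O : Set V} (hO : O ⊆ Q0) {P : V → Form →L[ℝ] Form} {χ : V → ℝ}
    (hχ : ContDiff ℝ ∞ χ) (hcs : HasCompactSupport χ) (hs : tsupport χ ⊆ O) {u h : V → Form}
    (hd : Sys O P u h) (ξ : Freq) (j : Fin 4) :
    ‖wv (intVec ξ) (coef (fun x => χ x • u x) ξ) j‖ ≤
      ‖coef (fun x => cutL χ x (u x)) ξ‖ := by
  have hu := hd.memLp
  set G := fun x => cutL χ x (u x)
  set w := wedge (intVec ξ) (e j)
  set K : V → ℝ := fun x => q (χ x • u x) w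
  set g : V → ℝ := fun x => -q (u x) (wedge (grad χ x) (e j))
  have hg : ∀ x, G x (Fin.castLE (by norm_num) j) = g x := fun x => by
    simp only [G, g, cutL_apply, packL_apply]
  have hd0 : ∀ x ∉ tsupport χ, grad χ x = 0 := fun x hx => grad_eq_zero hx
  have hg0 : ∀ x ∉ O, g x = 0 := fun x hx => by
    simp [g, hd0 x fun h => hx (hs h), q, wedge_apply]
  have hK0 : ∀ x ∉ O, K x = 0 := fun x hx => by
    simp [K, image_eq_zero_of_notMem_tsupport fun h => hx (hs h), q_zero_left]
  have hint : ∀ (a : Fin 6 → V → ℝ), (∀ k, Continuous (a k)) → (∀ k, HasCompactSupport (a k)) →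
      Integrable fun x => ∑ k, a k x * u x k := fun a ha hs => by
    refine integrable_finsetSum _ fun k _ => ?_
    have := ((EuclideanSpace.proj (𝕜 := ℝ) k).comp_memLp' hu).locallyIntegrable one_le_two
    simpa [mul_comm] using
      this.integrable_smul_left_of_hasCompactSupport (ha k) (hs k)
  have hqsum : ∀ a b : Form, q a b = ∑ k, b (sw k) * a k := fun a b => by
    simp [q, sw, Fin.sum_univ_six]; ring
  have hgradc : ∀ i, Continuous fun x => grad χ x i := fun i =>
    (hχ.continuous_fderiv (by simp)).clm_apply continuous_const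
  have hqu : ∀ s : V → ℝ, Continuous s → ∀ a : V → Form, Continuous a →
      HasCompactSupport a → Integrable fun x => s x * q (u x) (a x) := by
    intro s hs a ha has
    have := hint (fun k x => s x * a x (sw k)) (fun k => by fun_prop)
      (fun k => (has.comp_left (g := fun b : Form => b (sw k)) rfl).mul_left)
    refine this.congr (Filter.Eventually.of_forall fun x => ?_)
    simp only [hqsum, Finset.mul_sum]
    exact Finset.sum_congr rfl fun k _ => by ring
  have hKint : ∀ s : V → ℝ, Continuous s → Integrable fun x => s x * K x := fun s hs => by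
    refine (hqu s hs (fun x => χ x • w) (hχ.continuous.smul continuous_const)
      hcs.smul_right).congr (Filter.Eventually.of_forall fun x => ?_)
    simp [K, q_smul_left, q_smul_right]
  have hwc : Continuous fun x => wedge (grad χ x) (e j) := by
    refine (PiLp.continuous_toLp 2 _).comp (continuous_pi fun k => ?_)
    simp only [pair_e']
    fun_prop
  have hws : HasCompactSupport fun x => wedge (grad χ x) (e j) :=
    HasCompactSupport.intro hcs.isCompact fun x hx => by
      ext k; simp [hd0 x hx, wedge_apply]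
  have hgint : ∀ s : V → ℝ, Continuous s → Integrable fun x => s x * g x := fun s hs =>
    (hqu s hs _ hwc hws).neg.congr (Filter.Eventually.of_forall fun x => by simp [g])
  -- the test
  have key : ∀ (s : V → ℝ) (τ : V → ℝ), ContDiff ℝ ∞ s →
      (∀ x, grad s x = τ x • intVec ξ) → Continuous τ →
      ∫ x in cube, τ x * K x = ∫ x in cube, s x * g x := by
    intro s τ hs' hτ hτc
    have hη : ContDiff ℝ ∞ fun x => (χ x * s x) • e j := (hχ.mul hs').smul contDiff_const
    have hts : tsupport (fun x => (χ x * s x) • e j) ⊆ tsupport χ :=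
      (tsupport_smul_subset_left _ _).trans tsupport_mul_subset_left
    have h := hd.weak _ hη (hcs.of_isClosed_subset (isClosed_tsupport _) hts) (hts.trans hs)
    have hd : ∀ x, q (u x) (d1 (fun x => (χ x * s x) • e j) x) =
        s x * q (u x) (wedge (grad χ x) (e j)) + τ x * K x := by
      intro x
      have hdχ : DifferentiableAt ℝ χ x := (hχ.differentiable (by simp)) x
      have hds : DifferentiableAt ℝ s x := (hs'.differentiable (by simp)) x
      rw [d1_smul (f := fun x => χ x * s x) (hdχ.mul hds) (differentiableAt_const _)]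
      have hgr : grad (fun y => χ y * s y) x = s x • grad χ x + χ x • (τ x • intVec ξ) := by
        rw [← hτ x]
        funext i
        simp [grad, fderiv_fun_mul hdχ hds]
        ring
      have hz : d1 (fun _ : V => e j) x = 0 := by ext k; simp [d1_apply]
      rw [hz, smul_zero, zero_add]
      simp only [Pi.mul_def] at *
      rw [hgr]
      simp [K, w, q, wedge_apply]
      ring
    simp only [hd] at h
    rw [integral_add (hqu s hs'.continuous _ hwc hws) (hKint τ hτc)] at h
    rw [integral_cube_of_supp hO fun x hx => by simp [hK0 x hx],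
      integral_cube_of_supp hO fun x hx => by simp [hg0 x hx]]
    have : ∫ x, s x * g x = -∫ x, s x * q (u x) (wedge (grad χ x) (e j)) := by
      rw [← integral_neg]
      exact integral_congr_ae (Filter.Eventually.of_forall fun x => by simp [g])
    linarith
  have hder : ∀ x i, fderiv ℝ (chr (-ξ)) x (e i) =
      chr (-ξ) x * (Complex.I * (-(2 * Real.pi * (ξ i : ℝ)) : ℝ)) := fun x i => by
    rw [(hasFDerivAt_chr (-ξ) x).fderiv]
    simp [phase_e]
  have hcd : ∀ (P : ℂ →L[ℝ] ℝ) x i, grad (fun y => P (chr (-ξ) y)) x i =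
      P (chr (-ξ) x * (Complex.I * (-(2 * Real.pi * (ξ i : ℝ)) : ℝ))) := fun P x i => by
    rw [← hder]
    have := (P.hasFDerivAt.comp x (hasFDerivAt_chr (-ξ) x)).fderiv
    simp only [grad]
    rw [show (fun y => P (chr (-ξ) y)) = P ∘ chr (-ξ) from rfl, this,
      (hasFDerivAt_chr (-ξ) x).fderiv]
    rfl
  have hre := key (fun x => (chr (-ξ) x).re) (fun x => 2 * Real.pi * (chr (-ξ) x).im)
    (Complex.reCLM.contDiff.comp (contDiff_chr _)) (fun x => funext fun i => by
      have := hcd Complex.reCLM x i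
      simp at this
      simp [this, intVec]; ring) (by have := continuous_chr (-ξ); fun_prop)
  have him := key (fun x => (chr (-ξ) x).im) (fun x => -(2 * Real.pi) * (chr (-ξ) x).re)
    (Complex.imCLM.contDiff.comp (contDiff_chr _)) (fun x => funext fun i => by
      have := hcd Complex.imCLM x i
      simp at this
      simp [this, intVec]; ring) (by have := continuous_chr (-ξ); fun_prop)
  -- complex form
  have hcK : Integrable (fun x => chr (-ξ) x * (K x : ℂ)) (volume.restrict cube) :=
    integrable_chr_mul (Integrable.ofReal ((hKint (fun _ => 1) continuous_const).congr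
      (Filter.Eventually.of_forall fun x => one_mul (K x))).restrict) _
  have hcg : Integrable (fun x => chr (-ξ) x * (g x : ℂ)) (volume.restrict cube) :=
    integrable_chr_mul (Integrable.ofReal ((hgint (fun _ => 1) continuous_const).congr
      (Filter.Eventually.of_forall fun x => one_mul (g x))).restrict) _
  have hmain : coefS (fun x => (g x : ℂ)) ξ =
      -(2 * Real.pi * Complex.I) * coefS (fun x => (K x : ℂ)) ξ := by
    simp only [neg_mul, integral_neg] at him
    simp only [mul_assoc, integral_neg, integral_const_mul] at hre him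
    have eim : ∀ (f : V → ℝ), Integrable (fun x => chr (-ξ) x * (f x : ℂ)) (volume.restrict cube) →
        (coefS (fun x => (f x : ℂ)) ξ).re = ∫ x in cube, (chr (-ξ) x).re * f x ∧
        (coefS (fun x => (f x : ℂ)) ξ).im = ∫ x in cube, (chr (-ξ) x).im * f x := fun f hf => by
      rw [coefS, ← Complex.reCLM_apply, ← Complex.imCLM_apply,
        ← ContinuousLinearMap.integral_comp_comm _ hf, ← ContinuousLinearMap.integral_comp_comm _ hf]
      simp
    obtain ⟨gr, gi⟩ := eim g hcg
    obtain ⟨Kr, Ki⟩ := eim K hcK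
    apply Complex.ext
    · simp only [Complex.mul_re, Complex.neg_re, Complex.neg_im, Complex.mul_im, gr, Kr, Ki]
      rw [← hre]
      simp
      ring
    · simp only [Complex.mul_re, Complex.neg_re, Complex.neg_im, Complex.mul_im, gi, Kr, Ki]
      rw [← him]
      simp
      ring
  have hwv : wv (intVec ξ) (coef (fun x => χ x • u x) ξ) j = coefS (fun x => (K x : ℂ)) ξ := by
    have hm : ∀ m, Integrable (fun x => ((χ x • u x) m : ℂ)) (volume.restrict cube) := fun m => by
      refine Integrable.ofReal (Integrable.restrict ?_)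
      refine (hint (fun k x => (if k = m then 1 else 0) * χ x)
        (fun k => continuous_const.mul hχ.continuous) (fun k => hcs.mul_left)).congr
        (Filter.Eventually.of_forall fun x => ?_)
      simp only [PiLp.smul_apply, smul_eq_mul]
      rw [Finset.sum_eq_single m (fun k _ hk => by simp [hk]) (by simp), if_pos rfl, one_mul]
      rfl
    have e1 : ∀ x, chr (-ξ) x * (K x : ℂ) =
        ∑ k, (w (sw k) : ℂ) * (chr (-ξ) x * ((χ x • u x) k : ℂ)) := fun x => by
      simp only [K, hqsum, Complex.ofReal_sum, Complex.ofReal_mul, Finset.mul_sum]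
      exact Finset.sum_congr rfl fun k _ => by ring
    rw [coefS]
    simp only [e1]
    rw [integral_finsetSum _ fun k _ => (integrable_chr_mul (hm k) _).const_mul _]
    simp only [integral_const_mul, wv, qC_eq_sum, coef_apply, cplx_apply, coefS]
    exact Finset.sum_congr rfl fun k _ => mul_comm _ _
  rw [hwv]
  refine le_trans ?_ (coord_le (coef G ξ) (Fin.castLE (by norm_num) j))
  rw [coef_apply]
  simp only [hg]
  rw [hmain, norm_mul]
  refine le_mul_of_one_le_left (norm_nonneg _) ?_
  simp [abs_of_pos Real.pi_pos]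
  linarith [Real.pi_gt_three]

/-- A smooth field on the cube, supported in it, as a periodic field of endomorphisms. -/
lemma smooth_pext_of {F : Type*} [NormedAddCommGroup F] [NormedSpace ℝ F] {O : Set V} (hO : O ⊆ Q0)
    {χ : V → ℝ} (hcs : HasCompactSupport χ) (hs : tsupport χ ⊆ O) {f : V → F}
    (hf : ContDiff ℝ ∞ f) (h0 : ∀ x ∉ tsupport χ, f x = 0) : Smooth (pext f) :=
  smooth_pext hf (HasCompactSupport.intro hcs.isCompact h0)
    ((closure_minimal (fun x (hx : f x ≠ 0) => by_contra fun h => hx (h0 x h))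
      (isClosed_tsupport χ)).trans
      (hs.trans hO))

lemma memLp_clm {B : V → Form →L[ℝ] Form} (hB : Continuous B) (hc : HasCompactSupport B)
    {μ : Measure V} {u : V → Form} (hu : MemLp u 2 μ) : MemLp (fun x => B x (u x)) 2 μ := by
  obtain ⟨M, hM⟩ := hc.exists_bound_of_continuous hB
  refine MemLp.of_le_mul (c := M) hu
    (isBoundedBilinearMap_apply.continuous.comp_aestronglyMeasurable
      (hB.aestronglyMeasurable.prodMk hu.1))
    (Filter.Eventually.of_forall fun x => ((B x).le_opNorm _).trans ?_)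
  exact mul_le_mul_of_nonneg_right (hM x) (norm_nonneg _)

lemma memLp_smul_bdd {χ : V → ℝ} (hχ : Continuous χ) (hcs : HasCompactSupport χ) {u : V → Form}
    {μ : Measure V} (hu : MemLp u 2 μ) : MemLp (fun x => χ x • u x) 2 μ := by
  obtain ⟨M, hM⟩ := hcs.exists_bound_of_continuous hχ
  exact MemLp.of_le_mul (c := M) hu (hχ.aestronglyMeasurable.smul hu.1)
    (Filter.Eventually.of_forall fun x => (norm_smul _ _).trans_le
      (mul_le_mul_of_nonneg_right (hM x) (norm_nonneg _)))

variable {O : Set V} {P Q : V → Form →L[ℝ] Form} {s c0 : ℝ}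

lemma memLp_cut {χ : V → ℝ} (hχ : Continuous χ) (hcs : HasCompactSupport χ) {u : V → Form}
    (hu : MemLp u 2 volume) : MemLp (fun x => χ x • u x) 2 (volume.restrict cube) :=
  MemLp.restrict cube (memLp_smul_bdd hχ hcs hu)

/-- Every cut-off of `u` has `k` derivatives in `L²`. -/
theorem cut_Hk (hO : IsOpen O) (hOQ : O ⊆ Q0) (hP : Smooth P) (hQ : Smooth Q) (hs : |s| ≤ 1)
    (hc0 : 0 < c0) (hcoer : ∀ x a, c0 * ‖a‖ ^ 2 ≤ ‖P x a‖ ^ 2 + ‖Q x a‖ ^ 2 + s * q a a)
    (hQ0 : ∀ x ∈ O, Q x = 0) (k : ℕ) :
    ∀ χ : V → ℝ, ContDiff ℝ ∞ χ → HasCompactSupport χ → tsupport χ ⊆ O →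
      ∃ C, 0 ≤ C ∧ ∀ u h, Sys O P u h →
        Hk k (coef fun x => χ x • u x) ∧ nk k (coef fun x => χ x • u x) ≤
          C * (Real.sqrt (∫ x, ‖u x‖ ^ 2) + nk k (coef h)) := by
  induction k with
  | zero =>
    intro χ hχ hcs _
    obtain ⟨M, hM⟩ := hcs.exists_bound_of_continuous hχ.continuous
    have hM0 : 0 ≤ M := (norm_nonneg _).trans (hM 0)
    refine ⟨M, hM0, fun u h hd => ?_⟩
    have hm := memLp_cut hχ.continuous hcs hd.memLp
    obtain ⟨h1, h2⟩ := hk_zero (parseval_norm hm).summable
    refine ⟨h1, h2.trans_le ?_⟩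
    rw [SQ_coef hm]
    refine le_trans ?_ (mul_le_mul_of_nonneg_left (le_add_of_nonneg_right (nrm2_nonneg _)) hM0)
    rw [← Real.sqrt_sq hM0, ← Real.sqrt_mul (sq_nonneg _), ← integral_const_mul]
    refine Real.sqrt_le_sqrt ((integral_mono hm.norm.integrable_sq
      ((hd.memLp.norm.integrable_sq.restrict).const_mul _) fun x => ?_).trans
      (setIntegral_le_integral (hd.memLp.norm.integrable_sq.const_mul _)
        (Filter.Eventually.of_forall fun x => by positivity)))
    rw [norm_smul, mul_pow]
    exact mul_le_mul_of_nonneg_right (pow_le_pow_left₀ (norm_nonneg _) (hM x) 2) (sq_nonneg _)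
  | succ k ih =>
    intro χ hχ hcs hsO
    obtain ⟨χ', hχ', hcs', hs'O, -, hone⟩ := Param.exists_cut hcs.isCompact hO hsO
    have hone' : ∀ x ∈ tsupport χ, χ' x = 1 := fun x hx => hone.self_of_nhdsSet x hx
    set Mχ : V → Form →L[ℝ] Form := pext fun x => χ x • ContinuousLinearMap.id ℝ Form
    set Mc : V → Form →L[ℝ] Form := pext (cutL χ)
    have hMχ : Smooth Mχ := smooth_pext_of hOQ hcs hsO (hχ.smul contDiff_const)
      fun x hx => by
        simp only [image_eq_zero_of_notMem_tsupport hx]
        exact zero_smul ℝ (ContinuousLinearMap.id ℝ Form)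
    have hMc : Smooth Mc := smooth_pext_of hOQ hcs hsO (contDiff_cutL hχ)
      fun x hx => cutL_eq_zero hx
    obtain ⟨Cg, hCg, hgain⟩ := gain hP hQ hs hc0 (K := 128) (by norm_num) hcoer k
    obtain ⟨Cχ, hCχ, hcχ⟩ := cmul_Hk hMχ k
    obtain ⟨Cc, hCc, hcc⟩ := cmul_Hk hMc k
    obtain ⟨Ch, hCh, hch⟩ := cmul_Hk hMχ (k + 1)
    obtain ⟨C', hC', hprev⟩ := ih χ' hχ' hcs' hs'O
    refine ⟨Cg * (Cχ * C' + Cc * C' + Ch), by positivity, fun u h hd => ?_⟩
    obtain ⟨hp, hnp⟩ := hprev u h hd
    set p := coef fun x => χ' x • u x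
    have hm' := memLp_cut hχ'.continuous hcs' hd.memLp
    have hmv := memLp_cut hχ.continuous hcs hd.memLp
    have hc : coef (fun x => χ x • u x) = cmul Mχ p := by
      rw [← coef_mul hMχ hm']
      refine coef_congr ?_
      filter_upwards [pext_ae fun x => χ x • ContinuousLinearMap.id ℝ Form] with x hx
      simp only [Mχ, hx, smul_apply, ContinuousLinearMap.id_apply]
      by_cases h : x ∈ tsupport χ
      · rw [hone' x h, one_smul]
      · simp [image_eq_zero_of_notMem_tsupport h]
    set G := coef fun x => cutL χ x (u x)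
    have hG : G = cmul Mc p := by
      rw [← coef_mul hMc hm']
      refine coef_congr ?_
      filter_upwards [pext_ae (cutL χ)] with x hx
      simp only [Mc, hx]
      by_cases h : x ∈ tsupport χ
      · rw [hone' x h, one_smul]
      · simp [cutL_eq_zero h]
    set H := cmul Mχ (coef h)
    set c := coef fun x => χ x • u x
    have hPc : cmul P c = H := by
      show _ = cmul Mχ (coef h)
      rw [← coef_mul hP hmv, ← coef_mul hMχ (hd.smooth.memLp 2)]
      refine coef_congr ?_
      filter_upwards [pext_ae fun x => χ x • ContinuousLinearMap.id ℝ Form,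
        ae_restrict_of_ae hd.eq] with x hx he
      simp only [Mχ, hx, smul_apply, ContinuousLinearMap.id_apply, map_smul]
      by_cases h : x ∈ tsupport χ
      · rw [he (hsO h)]
      · simp [image_eq_zero_of_notMem_tsupport h]
    have hQc : cmul Q c = 0 := by
      rw [← coef_mul hQ hmv]
      have : (fun x => Q x (χ x • u x)) = fun _ => 0 := funext fun x => by
        by_cases h : x ∈ tsupport χ
        · simp [hQ0 x (hsO h)]
        · simp [image_eq_zero_of_notMem_tsupport h]
      rw [this]
      funext ξ; ext k'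
      simp [coef_apply, coefS]
    obtain ⟨hGk, hGn⟩ := hcc p hp
    rw [← hG] at hGk hGn
    obtain ⟨hck, hcn⟩ := hcχ p hp
    rw [← hc] at hck hcn
    obtain ⟨hHk, hHn⟩ := hch (coef h) (hk_of_smooth hd.smooth (k + 1))
    obtain ⟨hk', hn'⟩ := hgain c G H (coef_herm _) hck hGk hHk hPc hQc fun ξ =>
      symbol_bound ξ (c ξ) fun j => weak_coef hOQ hχ hcs hsO hd ξ j
    refine ⟨hk', hn'.trans ?_⟩
    set U := Real.sqrt (∫ x, ‖u x‖ ^ 2)
    have hU : 0 ≤ U := Real.sqrt_nonneg _
    have hmono := ((hk_of_smooth hd.smooth (k + 1)).mono (Nat.le_succ k)).2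
    have hn0 : 0 ≤ nk (k + 1) (coef h) := nrm2_nonneg _
    have hX : nk k p ≤ C' * (U + nk (k + 1) (coef h)) :=
      hnp.trans (mul_le_mul_of_nonneg_left (by linarith) hC')
    rw [mul_assoc]
    refine mul_le_mul_of_nonneg_left ?_ hCg
    calc nk k c + nk k G + nk (k + 1) H
        ≤ Cχ * (C' * (U + nk (k + 1) (coef h))) + Cc * (C' * (U + nk (k + 1) (coef h))) +
            Ch * (U + nk (k + 1) (coef h)) := by
          refine add_le_add (add_le_add (hcn.trans (mul_le_mul_of_nonneg_left hX hCχ))
            (hGn.trans (mul_le_mul_of_nonneg_left hX hCc))) (hHn.trans ?_)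
          exact mul_le_mul_of_nonneg_left (by linarith) hCh
      _ = _ := by ring

/-- The cut-off of `u` is smooth. -/
theorem cut_smooth (hO : IsOpen O) (hOQ : O ⊆ Q0) (hP : Smooth P) (hQ : Smooth Q) (hs : |s| ≤ 1)
    (hc0 : 0 < c0) (hcoer : ∀ x a, c0 * ‖a‖ ^ 2 ≤ ‖P x a‖ ^ 2 + ‖Q x a‖ ^ 2 + s * q a a)
    (hQ0 : ∀ x ∈ O, Q x = 0) {χ : V → ℝ} (hχ : ContDiff ℝ ∞ χ) (hcs : HasCompactSupport χ)
    (hsO : tsupport χ ⊆ O) {u h : V → Form} (hd : Sys O P u h) :
    ∃ w : V → Form, Smooth w ∧ (fun x => χ x • u x) =ᵐ[volume.restrict cube] w := by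
  set c := coef fun x => χ x • u x
  have hmv := memLp_cut hχ.continuous hcs hd.memLp
  have hw2 : Summable fun ξ => (wt ξ)⁻¹ ^ 2 := by
    simpa [inv_pow] using summable_wt_pow_inv (j := 2) one_le_two
  have hrap : Rapid c := fun j => by
    obtain ⟨C, -, hC⟩ := cut_Hk hO hOQ hP hQ hs hc0 hcoer hQ0 (8 * (j + 1)) χ hχ hcs hsO
    have hle : ∀ ξ, |wt ξ ^ (j + 1) * ‖c ξ‖| ≤ |lam ξ ^ (8 * (j + 1)) * ‖c ξ‖| := fun ξ => by
      have := wt_pos ξ; have := lam_pos ξ
      rw [abs_of_nonneg (by positivity), abs_of_nonneg (by positivity), pow_mul]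
      exact mul_le_mul_of_nonneg_right (pow_le_pow_left₀ (by positivity) (wt_le_lam_pow ξ) _)
        (norm_nonneg _)
    obtain ⟨hs', -⟩ := nrm2_mono (hC u h hd).1 hle
    obtain ⟨h1, -⟩ := cs_tsum (fun ξ => inv_nonneg.2 (wt_pos ξ).le)
      (fun ξ => mul_nonneg (pow_nonneg (wt_pos ξ).le (j + 1)) (norm_nonneg (c ξ))) hw2 hs'
    refine h1.congr fun ξ => ?_
    rw [pow_succ', ← mul_assoc, ← mul_assoc, inv_mul_cancel₀ (wt_pos ξ).ne', one_mul]
  have hws := smooth_synth hrap
  exact ⟨synth c, hws, ae_eq_of_coef_eq hmv (hws.memLp 2)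
    (coef_synth hrap.summable (coef_herm _)).symm⟩

end Vale.Agent.P204.Gen.Ell
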