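import Vale.Agent.P204.Torus.GSolve
import Vale.Agent.P204.Torus.Facts

/-!
P204, general four-manifold: the weights `(1 + |ξ|₁) ^ k` on Fourier coefficients, and the gain of
one derivative from an inequality which is elliptic at every frequency.
-/

open MeasureTheory
open scoped BigOperators

namespace Vale.Agent.P204.Gen.Ell

open Vale.Agent.P204.Torus

/-! ### Square summable sequences -/

/-- The `ℓ²` norm of a sequence. -/
noncomputable def nrm2 (a : Freq → ℝ) : ℝ := Real.sqrt (∑' ξ, a ξ ^ 2)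

lemma nrm2_nonneg (a : Freq → ℝ) : 0 ≤ nrm2 a := Real.sqrt_nonneg _

lemma nrm2_mono {a b : Freq → ℝ} (hb : Summable fun ξ => b ξ ^ 2) (h : ∀ ξ, |a ξ| ≤ |b ξ|) :
    (Summable fun ξ => a ξ ^ 2) ∧ nrm2 a ≤ nrm2 b := by
  have hs : Summable fun ξ => a ξ ^ 2 :=
    hb.of_nonneg_of_le (fun ξ => sq_nonneg _) fun ξ => sq_le_sq.2 (h ξ)
  exact ⟨hs, Real.sqrt_le_sqrt (hs.tsum_le_tsum (fun ξ => sq_le_sq.2 (h ξ)) hb)⟩

lemma nrm2_mul (r : ℝ) (hr : 0 ≤ r) {a : Freq → ℝ} (ha : Summable fun ξ => a ξ ^ 2) :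
    (Summable fun ξ => (r * a ξ) ^ 2) ∧ nrm2 (fun ξ => r * a ξ) = r * nrm2 a := by
  simp only [nrm2, mul_pow]
  refine ⟨ha.mul_left _, ?_⟩
  rw [tsum_mul_left, Real.sqrt_mul (sq_nonneg r), Real.sqrt_sq hr]

lemma nrm2_add {a b : Freq → ℝ} (ha : ∀ ξ, 0 ≤ a ξ) (hb : ∀ ξ, 0 ≤ b ξ)
    (hA : Summable fun ξ => a ξ ^ 2) (hB : Summable fun ξ => b ξ ^ 2) :
    (Summable fun ξ => (a ξ + b ξ) ^ 2) ∧
      nrm2 (fun ξ => a ξ + b ξ) ≤ nrm2 a + nrm2 b := by
  obtain ⟨hs, hle⟩ := cs_tsum ha hb hA hB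
  have e : (fun ξ => (a ξ + b ξ) ^ 2) = fun ξ => a ξ ^ 2 + 2 * (a ξ * b ξ) + b ξ ^ 2 := by
    funext ξ; ring
  have h12 := hA.add (hs.mul_left 2)
  refine ⟨by rw [e]; exact h12.add hB, ?_⟩
  rw [nrm2, Real.sqrt_le_iff, e, h12.tsum_add hB, hA.tsum_add (hs.mul_left 2), tsum_mul_left]
  refine ⟨add_nonneg (nrm2_nonneg a) (nrm2_nonneg b), ?_⟩
  have h1 : nrm2 a ^ 2 = ∑' ξ, a ξ ^ 2 := Real.sq_sqrt (tsum_nonneg fun ξ => sq_nonneg _)
  have h2 : nrm2 b ^ 2 = ∑' ξ, b ξ ^ 2 := Real.sq_sqrt (tsum_nonneg fun ξ => sq_nonneg _)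
  have h3 : Real.sqrt (∑' ξ, a ξ ^ 2) * Real.sqrt (∑' ξ, b ξ ^ 2) = nrm2 a * nrm2 b := rfl
  nlinarith

/-! ### The weights -/

/-- The weight `1 + |ξ|₁`. -/
def lam (ξ : Freq) : ℝ := 1 + ∑ i, |(ξ i : ℝ)|

lemma one_le_lam (ξ : Freq) : 1 ≤ lam ξ :=
  le_add_of_nonneg_right (Finset.sum_nonneg fun _ _ => abs_nonneg _)

lemma lam_pos (ξ : Freq) : 0 < lam ξ := zero_lt_one.trans_le (one_le_lam ξ)

lemma lam_neg (ξ : Freq) : lam (-ξ) = lam ξ := by simp [lam]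

lemma abs_lam_add_sub_le (η l : Freq) : |lam (η + l) - lam η| ≤ ∑ i, |(l i : ℝ)| := by
  simp only [lam, Pi.add_apply, Int.cast_add, add_sub_add_left_eq_sub, ← Finset.sum_sub_distrib]
  refine (Finset.abs_sum_le_sum_abs _ _).trans (Finset.sum_le_sum fun i _ => ?_)
  refine (abs_abs_sub_abs_le_abs_sub _ _).trans ?_
  rw [add_sub_cancel_left]

lemma lam_le_five_wt (ξ : Freq) : lam ξ ≤ 5 * wt ξ := by
  have := one_le_wt ξ
  have h : ∑ i, |(ξ i : ℝ)| ≤ 4 * wt ξ :=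
    (Finset.sum_le_card_nsmul _ _ (wt ξ) fun i _ => abs_le_wt ξ i).trans_eq (by simp)
  rw [lam]
  linarith

lemma wt_le_lam_pow (ξ : Freq) : wt ξ ≤ lam ξ ^ 8 := by
  have h : ∀ i, 1 + (ξ i : ℝ) ^ 2 ≤ lam ξ ^ 2 := fun i => by
    have h1 : |(ξ i : ℝ)| ≤ ∑ j, |(ξ j : ℝ)| :=
      Finset.single_le_sum (f := fun j => |(ξ j : ℝ)|) (fun j _ => abs_nonneg _) (Finset.mem_univ i)
    have h2 : 0 ≤ |(ξ i : ℝ)| := abs_nonneg _
    rw [lam, ← sq_abs (ξ i : ℝ)]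
    nlinarith
  refine (Finset.prod_le_prod (fun i _ => by positivity) fun i _ => h i).trans_eq ?_
  simp [← pow_mul]

lemma abs_pow_sub_pow_le {a b M : ℝ} (ha : 0 ≤ a) (hb : 0 ≤ b) (haM : a ≤ M) (hbM : b ≤ M)
    (k : ℕ) : |a ^ (k + 1) - b ^ (k + 1)| ≤ (k + 1) * M ^ k * |a - b| := by
  induction k with
  | zero => simp
  | succ k ih =>
    have e : a ^ (k + 2) - b ^ (k + 2) = (a ^ (k + 1) - b ^ (k + 1)) * a + b ^ (k + 1) * (a - b) := by
      ring
    rw [e]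
    refine (abs_add_le _ _).trans ?_
    rw [abs_mul, abs_mul, abs_of_nonneg ha, abs_of_nonneg (pow_nonneg hb _)]
    have h1 := mul_le_mul ih haM ha (by have := ha.trans haM; positivity)
    have h2 := mul_le_mul_of_nonneg_right (pow_le_pow_left₀ hb hbM (k + 1)) (abs_nonneg (a - b))
    push_cast
    calc _ ≤ (k + 1) * M ^ k * |a - b| * M + M ^ (k + 1) * |a - b| := add_le_add h1 h2
      _ = _ := by ring

/-- The constant of the slowly varying weights. -/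
noncomputable def wC (k : ℕ) : ℝ := (k + 1) * 5 ^ (k + 1)

/-- A weight which moves by at most `wC k * wt l ^ (k + 1) * lam ^ k` under a shift by `l`. -/
def Slow (k : ℕ) (W : Freq → ℝ) : Prop :=
  ∀ η l, |W (η + l) - W η| ≤ wC k * wt l ^ (k + 1) * lam η ^ k

lemma slow_pow (k : ℕ) : Slow k fun ξ => lam ξ ^ k := by
  intro η l
  have hC : 0 ≤ wC k * wt l ^ (k + 1) * lam η ^ k := by
    have := wt_pos l; have := lam_pos η; unfold wC; positivity
  rcases k with _ | k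
  · simpa using hC
  set L := ∑ i, |(l i : ℝ)|
  have hL : 0 ≤ L := Finset.sum_nonneg fun _ _ => abs_nonneg _
  have h1 := abs_lam_add_sub_le η l
  have hM : lam (η + l) ≤ lam η * (1 + L) := by
    nlinarith [le_abs_self (lam (η + l) - lam η), one_le_lam η]
  have hM' : lam η ≤ lam η * (1 + L) := le_mul_of_one_le_right (lam_pos η).le (by linarith)
  refine (abs_pow_sub_pow_le (lam_pos _).le (lam_pos _).le hM hM' k).trans ?_
  have hwt : 1 + L ≤ 5 * wt l := lam_le_five_wt l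
  calc ((k : ℝ) + 1) * (lam η * (1 + L)) ^ k * |lam (η + l) - lam η|
      ≤ ((k : ℝ) + 1) * (lam η * (1 + L)) ^ k * (1 + L) := by
        refine mul_le_mul_of_nonneg_left (by linarith) ?_
        have := lam_pos η; positivity
    _ = ((k : ℝ) + 1) * (lam η ^ k * (1 + L) ^ (k + 1)) := by rw [mul_pow]; ring
    _ ≤ wC (k + 1) * wt l ^ (k + 2) * lam η ^ (k + 1) := by
        have h2 : (1 + L) ^ (k + 1) ≤ (5 * wt l) ^ (k + 2) :=
          (pow_le_pow_left₀ (by linarith) hwt _).trans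
            (pow_le_pow_right₀ (by linarith [one_le_wt l]) (by omega))
        have h3 : lam η ^ k ≤ lam η ^ (k + 1) := pow_le_pow_right₀ (one_le_lam η) (by omega)
        calc _ ≤ ((k : ℝ) + 1 + 1) * (lam η ^ (k + 1) * (5 * wt l) ^ (k + 2)) := by
              have := lam_pos η; have := wt_pos l
              gcongr; linarith
          _ = _ := by simp only [wC, mul_pow]; push_cast; ring

lemma slow_cut (k : ℕ) (N : ℝ) (hN : 0 ≤ N) : Slow k fun ξ => min (lam ξ) N * lam ξ ^ k := by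
  intro η l
  set L := ∑ i, |(l i : ℝ)|
  have hL : 0 ≤ L := Finset.sum_nonneg fun _ _ => abs_nonneg _
  have ha := lam_pos (η + l)
  have hb := lam_pos η
  have h1 := abs_lam_add_sub_le η l
  have hM : lam (η + l) ≤ lam η * (1 + L) := by
    nlinarith [le_abs_self (lam (η + l) - lam η), one_le_lam η]
  have hM' : lam η ≤ lam η * (1 + L) := le_mul_of_one_le_right hb.le (by linarith)
  have hmin : |min (lam (η + l)) N - min (lam η) N| ≤ L :=
    (abs_min_sub_min_le_max _ _ _ _).trans (by simpa using h1)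
  have e : min (lam (η + l)) N * lam (η + l) ^ k - min (lam η) N * lam η ^ k =
      (min (lam (η + l)) N - min (lam η) N) * lam (η + l) ^ k +
        min (lam η) N * (lam (η + l) ^ k - lam η ^ k) := by ring
  have hpow : |lam (η + l) ^ k - lam η ^ k| * lam η ≤ k * L * (lam η * (1 + L)) ^ k := by
    rcases k with _ | k
    · simp
    have := abs_pow_sub_pow_le ha.le hb.le hM hM' k
    calc _ ≤ ((k : ℝ) + 1) * (lam η * (1 + L)) ^ k * L * (lam η * (1 + L)) := by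
          refine mul_le_mul (this.trans (mul_le_mul_of_nonneg_left h1 (by positivity))) hM' hb.le ?_
          positivity
      _ = _ := by push_cast; ring
  rw [e]
  refine (abs_add_le _ _).trans ?_
  rw [abs_mul, abs_mul, abs_of_nonneg (pow_nonneg ha.le _),
    abs_of_nonneg (le_min hb.le hN)]
  have hwt : 1 + L ≤ 5 * wt l := lam_le_five_wt l
  calc _ ≤ L * (lam η * (1 + L)) ^ k + k * L * (lam η * (1 + L)) ^ k := by
        refine add_le_add (mul_le_mul hmin (pow_le_pow_left₀ ha.le hM k) (by positivity) hL) ?_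
        refine le_trans ?_ hpow
        rw [mul_comm _ (lam η)]
        exact mul_le_mul_of_nonneg_right (min_le_left _ _) (abs_nonneg _)
    _ = ((k : ℝ) + 1) * lam η ^ k * (L * (1 + L) ^ k) := by rw [mul_pow]; ring
    _ ≤ ((k : ℝ) + 1) * lam η ^ k * (5 * wt l) ^ (k + 1) := by
        refine mul_le_mul_of_nonneg_left ?_ (by positivity)
        rw [pow_succ']
        have hp : (1 + L) ^ k ≤ (5 * wt l) ^ k := pow_le_pow_left₀ (by linarith) hwt k
        exact mul_le_mul (by linarith) hp (by positivity) (by linarith)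
    _ = _ := by simp only [wC, mul_pow]; ring

/-- Coefficients with `k` derivatives in `ℓ²`. -/
def Hk (k : ℕ) (c : Freq → CForm) : Prop := Summable fun ξ => (lam ξ ^ k * ‖c ξ‖) ^ 2

/-- The norm of `k` derivatives. -/
noncomputable def nk (k : ℕ) (c : Freq → CForm) : ℝ := nrm2 fun ξ => lam ξ ^ k * ‖c ξ‖

lemma Hk.l2 {k : ℕ} {c : Freq → CForm} (h : Hk k c) : Summable fun ξ => ‖c ξ‖ ^ 2 :=
  h.of_nonneg_of_le (fun _ => sq_nonneg _) fun ξ => pow_le_pow_left₀ (norm_nonneg _)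
    (le_mul_of_one_le_left (norm_nonneg _) (one_le_pow₀ (one_le_lam ξ))) 2

lemma hk_zero {c : Freq → CForm} (h : Summable fun ξ => ‖c ξ‖ ^ 2) :
    Hk 0 c ∧ nk 0 c = Real.sqrt (SQ c) := by
  simp [Hk, nk, nrm2, SQ, h]

/-- The commutator with a slowly varying weight. -/
theorem comm_bound {B : V → Form →L[ℝ] Form} (hB : Smooth B) (k : ℕ) :
    ∃ C, 0 ≤ C ∧ ∀ (c : Freq → CForm) (W : Freq → ℝ), Hk k c → Slow k W →
      (Summable fun ξ => ‖(W ξ : ℂ) • c ξ‖ ^ 2) →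
      (Summable fun ξ => (|W ξ| * ‖cmul B c ξ‖) ^ 2) ∧
      nrm2 (fun ξ => |W ξ| * ‖cmul B c ξ‖) ≤
        nrm2 (fun ξ => ‖cmul B (fun η => (W η : ℂ) • c η) ξ‖) + C * nk k c ∧
      nrm2 (fun ξ => ‖cmul B (fun η => (W η : ℂ) • c η) ξ‖) ≤
        nrm2 (fun ξ => |W ξ| * ‖cmul B c ξ‖) + C * nk k c := by
  have hamp : ∀ l, 0 ≤ wC k * (amp B l * wt l ^ (k + 1)) := fun l => by
    have := amp_nonneg B l; have := wt_pos l; unfold wC; positivity
  refine ⟨∑' l, wC k * (amp B l * wt l ^ (k + 1)), tsum_nonneg hamp, fun c W hc hW hWc => ?_⟩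
  have h0 : Summable (amp B) := by simpa using summable_amp hB 0
  have hS : Summable fun l => wC k * (amp B l * wt l ^ (k + 1)) :=
    (summable_amp hB (k + 1)).mul_left _
  let b : Freq → ℝ := fun η => lam η ^ k * ‖c η‖
  let T : Freq → ℝ := fun ξ => ‖cmul B (fun η => (W η : ℂ) • c η) ξ - (W ξ : ℂ) • cmul B c ξ‖
  have h2 : ∀ ξ, Summable fun l => amp B l * ‖c (ξ - l)‖ := fun ξ => by
    simpa using summable_conv_l2 (b := fun η => ‖c η‖) (amp_nonneg B) h0 hc.l2 ξ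
  have h1 : ∀ ξ, Summable fun l => amp B l * ‖(W (ξ - l) : ℂ) • c (ξ - l)‖ := fun ξ => by
    simpa using summable_conv_l2 (b := fun η => ‖(W η : ℂ) • c η‖) (amp_nonneg B) h0 hWc ξ
  have hd : ∀ ξ l, amp B l * ‖((W (ξ - l) - W ξ : ℝ) : ℂ) • c (ξ - l)‖ ≤
      wC k * (amp B l * wt l ^ (k + 1)) * |b (ξ - l)| := fun ξ l => by
    have := hW (ξ - l) l
    rw [sub_add_cancel] at this
    rw [norm_smul, Complex.norm_real, Real.norm_eq_abs, abs_sub_comm,
      abs_of_nonneg (mul_nonneg (pow_nonneg (lam_pos _).le k) (norm_nonneg _))]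
    calc amp B l * (|W ξ - W (ξ - l)| * ‖c (ξ - l)‖)
        ≤ amp B l * (wC k * wt l ^ (k + 1) * lam (ξ - l) ^ k * ‖c (ξ - l)‖) :=
          mul_le_mul_of_nonneg_left (mul_le_mul_of_nonneg_right this (norm_nonneg _))
            (amp_nonneg B l)
      _ = _ := by ring
  have hsd : ∀ ξ, Summable fun l => amp B l * ‖((W (ξ - l) - W ξ : ℝ) : ℂ) • c (ξ - l)‖ :=
    fun ξ => (summable_conv_l2 (b := b) hamp hS hc ξ).of_nonneg_of_le
      (fun l => mul_nonneg (amp_nonneg B l) (norm_nonneg _)) (hd ξ)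
  obtain ⟨hTs, hTle⟩ := young (b := b) hamp hS hc (T := T) (fun _ => norm_nonneg _) fun ξ => by
    simp only [T]
    rw [commutator_eq W ξ (h1 ξ) (h2 ξ)]
    exact (norm_series_le (hsd ξ)).trans
      ((hsd ξ).tsum_le_tsum (hd ξ) (summable_conv_l2 hamp hS hc ξ))
  obtain ⟨hAs, -⟩ := cmul_l2 hB hWc
  obtain ⟨hsum, hadd⟩ := nrm2_add (fun ξ => norm_nonneg (cmul B (fun η => (W η : ℂ) • c η) ξ))
    (fun ξ => norm_nonneg _) hAs hTs
  have hle : ∀ ξ, |(|W ξ| * ‖cmul B c ξ‖)| ≤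
      |‖cmul B (fun η => (W η : ℂ) • c η) ξ‖ + T ξ| := fun ξ => by
    rw [abs_of_nonneg (by positivity), abs_of_nonneg (add_nonneg (norm_nonneg _) (norm_nonneg _))]
    have := norm_sub_norm_le ((W ξ : ℂ) • cmul B c ξ) (cmul B (fun η => (W η : ℂ) • c η) ξ)
    rw [norm_smul, Complex.norm_real, Real.norm_eq_abs, norm_sub_rev] at this
    linarith
  obtain ⟨hs, hmono⟩ := nrm2_mono hsum hle
  have hT : nrm2 T ≤ (∑' l, wC k * (amp B l * wt l ^ (k + 1))) * nk k c := by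
    refine (Real.sqrt_le_sqrt hTle).trans_eq ?_
    rw [Real.sqrt_mul (sq_nonneg _), Real.sqrt_sq (tsum_nonneg hamp)]
    rfl
  obtain ⟨hsum', hadd'⟩ := nrm2_add (fun ξ => mul_nonneg (abs_nonneg (W ξ)) (norm_nonneg _))
    (fun ξ => norm_nonneg _) hs hTs
  have hle' : ∀ ξ, |‖cmul B (fun η => (W η : ℂ) • c η) ξ‖| ≤
      |(|W ξ| * ‖cmul B c ξ‖ + T ξ)| := fun ξ => by
    rw [abs_norm, abs_of_nonneg (add_nonneg (by positivity) (norm_nonneg _))]
    have := norm_sub_norm_le (cmul B (fun η => (W η : ℂ) • c η) ξ) ((W ξ : ℂ) • cmul B c ξ)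
    rw [norm_smul, Complex.norm_real, Real.norm_eq_abs] at this
    linarith
  exact ⟨hs, hmono.trans (hadd.trans (add_le_add le_rfl hT)),
    (nrm2_mono hsum' hle').2.trans (hadd'.trans (add_le_add le_rfl hT))⟩

/-- Multiplication by a smooth field keeps `k` derivatives. -/
theorem cmul_Hk {B : V → Form →L[ℝ] Form} (hB : Smooth B) (k : ℕ) :
    ∃ C, 0 ≤ C ∧ ∀ c : Freq → CForm, Hk k c → Hk k (cmul B c) ∧ nk k (cmul B c) ≤ C * nk k c := by
  obtain ⟨C, hC, hb⟩ := comm_bound hB k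
  refine ⟨(∑' l, amp B l) + C, add_nonneg (tsum_nonneg (amp_nonneg B)) hC, fun c hc => ?_⟩
  have hW : ∀ ξ, ‖((lam ξ ^ k : ℝ) : ℂ) • c ξ‖ = lam ξ ^ k * ‖c ξ‖ := fun ξ => by
    rw [norm_smul, Complex.norm_real, Real.norm_of_nonneg (pow_nonneg (lam_pos ξ).le k)]
  have hWc : Summable fun ξ => ‖((lam ξ ^ k : ℝ) : ℂ) • c ξ‖ ^ 2 := by
    simp only [hW]; exact hc
  obtain ⟨hs, hle, -⟩ := hb c (fun ξ => lam ξ ^ k) hc (slow_pow k) hWc
  have he : ∀ ξ, |lam ξ ^ k| = lam ξ ^ k := fun ξ => abs_of_nonneg (pow_nonneg (lam_pos ξ).le k)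
  simp only [he] at hs hle
  refine ⟨hs, hle.trans ?_⟩
  rw [add_mul]
  refine add_le_add ((Real.sqrt_le_sqrt (cmul_l2 hB hWc).2).trans_eq ?_) le_rfl
  rw [Real.sqrt_mul (sq_nonneg _), Real.sqrt_sq (tsum_nonneg (amp_nonneg B))]
  simp only [hW, nk, nrm2]

lemma nk_add {a b : Freq → CForm} {k : ℕ} (ha : Hk k a) (hb : Hk k b) :
    Hk k (a + b) ∧ nk k (a + b) ≤ nk k a + nk k b := by
  obtain ⟨hs, hl⟩ := nrm2_add (fun ξ => mul_nonneg (pow_nonneg (lam_pos ξ).le k) (norm_nonneg (a ξ)))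
    (fun ξ => mul_nonneg (pow_nonneg (lam_pos ξ).le k) (norm_nonneg (b ξ))) ha hb
  obtain ⟨h1, h2⟩ := nrm2_mono (a := fun ξ => lam ξ ^ k * ‖(a + b) ξ‖) hs fun ξ => by
    have := lam_pos ξ
    rw [abs_of_nonneg (by positivity), abs_of_nonneg (by positivity), ← mul_add]
    exact mul_le_mul_of_nonneg_left (norm_add_le _ _) (by positivity)
  exact ⟨h1, h2.trans hl⟩

lemma Hk.mono {j k : ℕ} (hjk : j ≤ k) {c : Freq → CForm} (h : Hk k c) :
    Hk j c ∧ nk j c ≤ nk k c :=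
  nrm2_mono h fun ξ => by
    have := lam_pos ξ
    rw [abs_of_nonneg (by positivity), abs_of_nonneg (by positivity)]
    exact mul_le_mul_of_nonneg_right (pow_le_pow_right₀ (one_le_lam ξ) hjk) (norm_nonneg _)

/-- The coercivity on the side of the coefficients. -/
lemma coer_ineq {P Q : V → Form →L[ℝ] Form} (hP : Smooth P) (hQ : Smooth Q) {s c0 : ℝ}
    (hcoer : ∀ x a, c0 * ‖a‖ ^ 2 ≤ ‖P x a‖ ^ 2 + ‖Q x a‖ ^ 2 + s * q a a) {a : Freq → CForm}
    (ha : Good a) : c0 * SQ a ≤ SQ (cmul P a) + SQ (cmul Q a) + s * PQ a a := by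
  obtain ⟨f, -, -, hf, rfl⟩ := exists_L2 ha.2 ha.1
  have hmul : ∀ {B : V → Form →L[ℝ] Form}, Smooth B →
      MemLp (fun x => B x (f x)) 2 (volume.restrict cube) := fun {B} hB => by
    obtain ⟨M, -, hM⟩ := bdd_periodic hB.smooth.continuous hB.periodic
    refine MemLp.of_le_mul (c := M) hf
      (isBoundedBilinearMap_apply.continuous.comp_aestronglyMeasurable
        (hB.smooth.continuous.aestronglyMeasurable.prodMk hf.1))
      (Filter.Eventually.of_forall fun x => ((B x).le_opNorm _).trans ?_)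
    exact mul_le_mul_of_nonneg_right (hM x) (norm_nonneg _)
  have hqi : Integrable (fun x => q (f x) (f x)) (volume.restrict cube) := by
    refine Integrable.mono' (hf.norm.integrable_sq.const_mul 6)
      ((Setup.continuous_q continuous_id continuous_id).comp_aestronglyMeasurable hf.1)
      (Filter.Eventually.of_forall fun x => ?_)
    rw [Real.norm_eq_abs]
    exact (abs_q_le _ _).trans_eq (by ring)
  have h1 := (hmul hP).norm.integrable_sq
  have h2 := (hmul hQ).norm.integrable_sq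
  have hint := integral_mono (μ := volume.restrict cube) (hf.norm.integrable_sq.const_mul c0)
    ((h1.add h2).add (hqi.const_mul s)) fun x => hcoer x (f x)
  rw [integral_const_mul] at hint
  rw [SQ_coef hf, ← coef_mul hP hf, ← coef_mul hQ hf, SQ_coef (hmul hP), SQ_coef (hmul hQ),
    PQ_coef hf hf]
  refine hint.trans_eq ?_
  simp only [Pi.add_apply]
  have h12 : Integrable (fun x => ‖P x (f x)‖ ^ 2 + ‖Q x (f x)‖ ^ 2) (volume.restrict cube) :=
    h1.add h2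
  rw [integral_add h12 (hqi.const_mul s), integral_add h1 h2, integral_const_mul]

/-- The quadratic form in a weighted sequence. -/
lemma abs_PQ_weight {c G : Freq → CForm} {W : Freq → ℝ} {k : ℕ} {K : ℝ} (hK : 0 ≤ K)
    (hW0 : ∀ ξ, 0 ≤ W ξ) (hW1 : ∀ ξ, W ξ ≤ lam ξ * lam ξ ^ k)
    (hWc : Summable fun ξ => (W ξ * ‖c ξ‖) ^ 2) (hc : Hk k c) (hG : Hk k G)
    (hsym : ∀ ξ, lam ξ * |(qC (c ξ) (cconj (c ξ))).re| ≤ K * (‖c ξ‖ * (‖G ξ‖ + ‖c ξ‖))) :
    |PQ (fun η => (W η : ℂ) • c η) (fun η => (W η : ℂ) • c η)| ≤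
      K * (nrm2 (fun ξ => W ξ * ‖c ξ‖) * (nk k G + nk k c)) := by
  have hn : ∀ (b : Freq → CForm) ξ, 0 ≤ lam ξ ^ k * ‖b ξ‖ := fun b ξ =>
    mul_nonneg (pow_nonneg (lam_pos ξ).le k) (norm_nonneg _)
  obtain ⟨hGc, hGcle⟩ := nrm2_add (hn G) (hn c) hG hc
  obtain ⟨cs1, cs2⟩ := cs_tsum (fun ξ => mul_nonneg (hW0 ξ) (norm_nonneg (c ξ)))
    (fun ξ => add_nonneg (hn G ξ) (hn c ξ)) hWc hGc
  have hb : ∀ ξ, ‖(qC ((W ξ : ℂ) • c ξ) (cconj ((W ξ : ℂ) • c ξ))).re‖ ≤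
      K * (W ξ * ‖c ξ‖ * (lam ξ ^ k * ‖G ξ‖ + lam ξ ^ k * ‖c ξ‖)) := fun ξ => by
    rw [cconj_smul_real, qC_smul_left, qC_smul_right, Complex.re_ofReal_mul,
      Complex.re_ofReal_mul, ← mul_assoc, Real.norm_eq_abs, abs_mul,
      abs_of_nonneg (mul_nonneg (hW0 ξ) (hW0 ξ))]
    calc W ξ * W ξ * |(qC (c ξ) (cconj (c ξ))).re|
        ≤ W ξ * (lam ξ * lam ξ ^ k) * |(qC (c ξ) (cconj (c ξ))).re| :=
          mul_le_mul_of_nonneg_right (mul_le_mul_of_nonneg_left (hW1 ξ) (hW0 ξ)) (abs_nonneg _)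
      _ = W ξ * lam ξ ^ k * (lam ξ * |(qC (c ξ) (cconj (c ξ))).re|) := by ring
      _ ≤ W ξ * lam ξ ^ k * (K * (‖c ξ‖ * (‖G ξ‖ + ‖c ξ‖))) :=
          mul_le_mul_of_nonneg_left (hsym ξ) (mul_nonneg (hW0 ξ) (pow_nonneg (lam_pos ξ).le k))
      _ = _ := by ring
  rw [← Real.norm_eq_abs]
  refine (tsum_of_norm_bounded
    (f := fun ξ => (qC ((W ξ : ℂ) • c ξ) (cconj ((W ξ : ℂ) • c ξ))).re)
    (cs1.mul_left K).hasSum hb).trans ?_
  rw [tsum_mul_left]
  exact mul_le_mul_of_nonneg_left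
    (cs2.trans (mul_le_mul_of_nonneg_left hGcle (nrm2_nonneg _))) hK

/-- **One derivative is gained** where `‖P a‖² + ‖Q a‖² + s q(a, a)` is positive definite and the
symbol of `d` controls `q(c, c)`. -/
theorem gain {P Q : V → Form →L[ℝ] Form} (hP : Smooth P) (hQ : Smooth Q) {s c0 K : ℝ}
    (hs : |s| ≤ 1) (hc0 : 0 < c0) (hK : 0 ≤ K)
    (hcoer : ∀ x a, c0 * ‖a‖ ^ 2 ≤ ‖P x a‖ ^ 2 + ‖Q x a‖ ^ 2 + s * q a a) (k : ℕ) :
    ∃ C, 0 ≤ C ∧ ∀ (c G H : Freq → CForm), Herm c → Hk k c → Hk k G → Hk (k + 1) H →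
      cmul P c = H → cmul Q c = 0 →
      (∀ ξ, lam ξ * |(qC (c ξ) (cconj (c ξ))).re| ≤ K * (‖c ξ‖ * (‖G ξ‖ + ‖c ξ‖))) →
      Hk (k + 1) c ∧ nk (k + 1) c ≤ C * (nk k c + nk k G + nk (k + 1) H) := by
  obtain ⟨CP, hCP, hcP⟩ := comm_bound hP k
  obtain ⟨CQ, hCQ, hcQ⟩ := comm_bound hQ k
  set m := max 1 (1 / c0)
  have hm1 : 1 ≤ m := le_max_left _ _
  have hmc : 1 ≤ m * c0 := by
    have := mul_le_mul_of_nonneg_right (le_max_right 1 (1 / c0)) hc0.le
    rwa [one_div_mul_cancel hc0.ne'] at this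
  refine ⟨m * (CP + CQ + K + 1), by positivity, fun c G H hh hc hG hH hPc hQc hsym => ?_⟩
  set X := m * (CP + CQ + K + 1) * (nk k c + nk k G + nk (k + 1) H)
  have hn1 : 0 ≤ nk k c := nrm2_nonneg _
  have hn2 : 0 ≤ nk k G := nrm2_nonneg _
  have hn3 : 0 ≤ nk (k + 1) H := nrm2_nonneg _
  have hX0 : 0 ≤ X := by positivity
  have key : ∀ N : ℝ, 0 ≤ N →
      (Summable fun ξ => (min (lam ξ) N * lam ξ ^ k * ‖c ξ‖) ^ 2) ∧
        nrm2 (fun ξ => min (lam ξ) N * lam ξ ^ k * ‖c ξ‖) ≤ X := by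
    intro N hN
    set W : Freq → ℝ := fun ξ => min (lam ξ) N * lam ξ ^ k with hWdef
    have hW0 : ∀ ξ, 0 ≤ W ξ := fun ξ =>
      mul_nonneg (le_min (lam_pos ξ).le hN) (pow_nonneg (lam_pos ξ).le k)
    have hW1 : ∀ ξ, W ξ ≤ lam ξ * lam ξ ^ k := fun ξ =>
      mul_le_mul_of_nonneg_right (min_le_left _ _) (pow_nonneg (lam_pos ξ).le k)
    have hWn : ∀ ξ, ‖(W ξ : ℂ) • c ξ‖ = W ξ * ‖c ξ‖ := fun ξ => by
      rw [norm_smul, Complex.norm_real, Real.norm_of_nonneg (hW0 ξ)]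
    have hWsum : Summable fun ξ => (W ξ * ‖c ξ‖) ^ 2 :=
      (hc.mul_left (N ^ 2)).of_nonneg_of_le (fun ξ => sq_nonneg _) fun ξ => by
        rw [hWdef, mul_assoc (min _ _), mul_pow]
        exact mul_le_mul_of_nonneg_right
          (pow_le_pow_left₀ (le_min (lam_pos ξ).le hN) (min_le_right _ _) 2) (sq_nonneg _)
    have hWc : Summable fun ξ => ‖(W ξ : ℂ) • c ξ‖ ^ 2 := by simp only [hWn]; exact hWsum
    refine ⟨hWsum, ?_⟩
    set a := fun η => (W η : ℂ) • c η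
    have hherm : Herm a := fun ξ => by
      simp only [a]
      rw [cconj_smul_real, ← hh ξ]
      simp [hWdef, lam_neg]
    obtain ⟨sP, -, lP⟩ := hcP c W hc (slow_cut k N hN) hWc
    obtain ⟨sQ, -, lQ⟩ := hcQ c W hc (slow_cut k N hN) hWc
    simp only [abs_of_nonneg (hW0 _)] at sP lP sQ lQ
    have hQ0 : nrm2 (fun ξ => W ξ * ‖cmul Q c ξ‖) = 0 := by simp [hQc, nrm2]
    have hP0 : nrm2 (fun ξ => W ξ * ‖cmul P c ξ‖) ≤ nk (k + 1) H := by
      refine (nrm2_mono hH fun ξ => ?_).2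
      have := lam_pos ξ
      rw [hPc, abs_of_nonneg (mul_nonneg (hW0 ξ) (norm_nonneg _)), abs_of_nonneg (by positivity),
        pow_succ']
      exact mul_le_mul_of_nonneg_right (hW1 ξ) (norm_nonneg _)
    have hint := coer_ineq hP hQ hcoer (a := a) ⟨hherm, hWc⟩
    set Y := nrm2 fun ξ => W ξ * ‖c ξ‖
    have hY : 0 ≤ Y := nrm2_nonneg _
    have e1 : SQ a = Y ^ 2 := by
      simp only [Y, nrm2, SQ, a, hWn]
      exact (Real.sq_sqrt (tsum_nonneg fun ξ => sq_nonneg _)).symm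
    have e2 : ∀ {B : V → Form →L[ℝ] Form} {r : ℝ},
        nrm2 (fun ξ => ‖cmul B a ξ‖) ≤ r → SQ (cmul B a) ≤ r ^ 2 := fun {B r} h =>
      (Real.sq_sqrt (tsum_nonneg fun ξ => sq_nonneg ‖cmul B a ξ‖)).symm.le.trans
        (pow_le_pow_left₀ (nrm2_nonneg _) h 2)
    have e3 : s * PQ a a ≤ K * Y * (nk k G + nk k c) := by
      refine (le_abs_self _).trans ((abs_mul s _).trans_le ?_)
      rw [mul_assoc]
      exact (mul_le_of_le_one_left (abs_nonneg _) hs).trans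
        (abs_PQ_weight hK hW0 hW1 hWsum hc hG hsym)
    rw [e1] at hint
    have hA1 : SQ (cmul P a) ≤ (nk (k + 1) H + CP * nk k c) ^ 2 :=
      e2 (lP.trans (add_le_add hP0 le_rfl))
    have hA2 : SQ (cmul Q a) ≤ (CQ * nk k c) ^ 2 := e2 (lQ.trans (by rw [hQ0, zero_add]))
    set A := nk (k + 1) H + CP * nk k c + CQ * nk k c
    set B := K * (nk k G + nk k c)
    have hA0 : 0 ≤ A := by positivity
    have hB0 : 0 ≤ B := by positivity
    have hmain : c0 * Y ^ 2 ≤ A ^ 2 + B * Y := by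
      have : 0 ≤ (nk (k + 1) H + CP * nk k c) * (CQ * nk k c) := by positivity
      simp only [A, B]
      nlinarith
    have hYle : Y ≤ m * (A + B) := by
      by_contra hlt
      have h1 : m * (A + B) < Y := not_le.1 hlt
      have h2 : A + B ≤ m * (A + B) := le_mul_of_one_le_left (by linarith) hm1
      have h3 : A + B ≤ c0 * (m * (A + B)) := by
        rw [← mul_assoc, mul_comm c0 m]; exact le_mul_of_one_le_left (by linarith) hmc
      have h4 : c0 * (m * (A + B)) < c0 * Y := mul_lt_mul_of_pos_left h1 hc0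
      have h5 : A * A ≤ A * Y := mul_le_mul_of_nonneg_left (by linarith) hA0
      have h6 : c0 * Y * Y ≤ (A + B) * Y := by
        calc c0 * Y * Y = c0 * Y ^ 2 := by ring
          _ ≤ A * A + B * Y := by linarith [sq A]
          _ ≤ (A + B) * Y := by linarith [add_mul A B Y]
      linarith [le_of_mul_le_mul_right h6 (by linarith)]
    refine hYle.trans ?_
    simp only [X]
    rw [mul_assoc m]
    refine mul_le_mul_of_nonneg_left ?_ (by positivity)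
    simp only [A, B]
    have t1 : 0 ≤ CP * (nk k G + nk (k + 1) H) := by positivity
    have t2 : 0 ≤ CQ * (nk k G + nk (k + 1) H) := by positivity
    have t3 : 0 ≤ K * nk (k + 1) H := by positivity
    nlinarith
  have hfin : ∀ s : Finset Freq, ∑ ξ ∈ s, (lam ξ ^ (k + 1) * ‖c ξ‖) ^ 2 ≤ X ^ 2 := by
    intro s
    obtain ⟨hsum, hle⟩ := key (∑ ξ ∈ s, lam ξ) (Finset.sum_nonneg fun ξ _ => (lam_pos ξ).le)
    calc ∑ ξ ∈ s, (lam ξ ^ (k + 1) * ‖c ξ‖) ^ 2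
        = ∑ ξ ∈ s, (min (lam ξ) (∑ η ∈ s, lam η) * lam ξ ^ k * ‖c ξ‖) ^ 2 := by
          refine Finset.sum_congr rfl fun ξ hξ => ?_
          rw [min_eq_left (Finset.single_le_sum (f := lam) (fun η _ => (lam_pos η).le) hξ),
            pow_succ' (lam ξ)]
      _ ≤ ∑' ξ, (min (lam ξ) (∑ η ∈ s, lam η) * lam ξ ^ k * ‖c ξ‖) ^ 2 :=
          hsum.sum_le_tsum s fun ξ _ => sq_nonneg _
      _ = nrm2 (fun ξ => min (lam ξ) (∑ η ∈ s, lam η) * lam ξ ^ k * ‖c ξ‖) ^ 2 :=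
          (Real.sq_sqrt (tsum_nonneg fun ξ => sq_nonneg _)).symm
      _ ≤ X ^ 2 := pow_le_pow_left₀ (nrm2_nonneg _) hle 2
  refine ⟨summable_of_sum_le (fun ξ => sq_nonneg _) hfin, ?_⟩
  refine (Real.sqrt_le_sqrt (Real.tsum_le_of_sum_le (fun ξ => sq_nonneg _) hfin)).trans_eq ?_
  exact Real.sqrt_sq hX0

end Vale.Agent.P204.Gen.Ell
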