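import Vale.Agent.P204.Gen.Interface
import Vale.Agent.P204.Torus.Alg
import Vale.Agent.P204.Gen.HBound
import Vale.Agent.P204.Gen.GeoDist

/-!
P204 on a closed four-manifold: the second estimate from its ingredients, and the contradiction.

`Modules S` lists the statements proved by the other modules; the hand-in supplies all of them.
-/

open MeasureTheory Filter Topology
open scoped BigOperators ContDiff

namespace Vale.Agent.P204.Gen

open Vale.Agent.P204.Torus

lemma tendsto_scale_zero : Tendsto scale atTop (𝓝[>] 0) := by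
  have h : scale = fun k => ((1 : ℝ) / 2) ^ k := funext fun k => by simp [scale]
  rw [h]
  exact tendsto_nhdsWithin_iff.2 ⟨tendsto_pow_atTop_nhds_zero_of_lt_one (by norm_num) (by norm_num),
    Eventually.of_forall fun k => Set.mem_Ioi.2 (by positivity)⟩

variable {X : Type*} [TopologicalSpace X] [MeasurableSpace X]

namespace Geo

variable (G : Geo X)

/-- The chart coordinates used by the distance. -/
noncomputable def coords (x : X) : Fin G.n → ℝ × V := fun i => (G.ψ i x, G.ψ i x • G.φ i x)

lemma continuous_coords : Continuous G.coords :=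
  continuous_pi fun i => (G.ψ_cont i).prodMk (G.continuous_psi_smul i)

/-- The pairing against a field orthogonal to the smooth forms vanishes. -/
lemma pairing_eq_zero (hB : Basic G) {f w : X → Form} (hf : MemLp f 2 G.μ) (hw : MemLp w 2 G.μ)
    (h : ∀ α, G.Smooth2 α → G.pairing f α = 0) : G.pairing f w = 0 := by
  have := hB.finite_μ
  have hq : Continuous fun p : Form × Form => q p.1 p.2 := by unfold q; fun_prop
  have hi : ∀ {a b : X → Form}, MemLp a 2 G.μ → MemLp b 2 G.μ →
      Integrable (fun x => q (a x) (b x)) G.μ := fun {a b} ha hb => by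
    refine Integrable.mono' ((ha.norm.integrable_sq.add hb.norm.integrable_sq).const_mul 3)
      (hq.comp_aestronglyMeasurable (ha.aestronglyMeasurable.prodMk hb.aestronglyMeasurable))
      (Eventually.of_forall fun x => ?_)
    rw [Real.norm_eq_abs, Pi.add_apply]
    exact (abs_q_le _ _).trans (by nlinarith [sq_nonneg (‖a x‖ - ‖b x‖)])
  refine abs_eq_zero.1 (le_antisymm (le_of_forall_pos_le_add fun η hη => ?_) (abs_nonneg _))
  rw [zero_add]
  set A := ∫ x, ‖f x‖ ^ 2 ∂G.μ with hA
  have hA0 : 0 ≤ A := integral_nonneg fun x => sq_nonneg _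
  set t : ℝ := η / (3 * (A + 1)) with ht
  have ht0 : 0 < t := by positivity
  obtain ⟨α, hα, hαd⟩ := hB.dense w hw t ht0
  have hd : MemLp (fun x => w x - α x) 2 G.μ := hw.sub (hB.smooth_mem α hα)
  have e : G.pairing f w = ∫ x, q (f x) (w x - α x) ∂G.μ := by
    simp only [q_sub_right]
    rw [integral_sub (hi hf hw) (hi hf (hB.smooth_mem α hα))]
    have h0 := h α hα
    simp only [Geo.pairing] at h0 ⊢
    rw [h0, sub_zero]
  have hB2 : ∫ x, ‖w x - α x‖ ^ 2 ∂G.μ ≤ t ^ 2 := by
    have h0 : 0 ≤ ∫ x, ‖w x - α x‖ ^ 2 ∂G.μ := integral_nonneg fun x => sq_nonneg _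
    have := (Real.sqrt_le_left ht0.le).1 hαd
    linarith
  calc |G.pairing f w|
      ≤ ∫ x, |q (f x) (w x - α x)| ∂G.μ := by rw [e]; exact abs_integral_le_integral_abs
    _ ≤ ∫ x, (3 * t * ‖f x‖ ^ 2 + 3 / t * ‖w x - α x‖ ^ 2) ∂G.μ := by
        refine integral_mono_of_nonneg (Eventually.of_forall fun x => abs_nonneg _)
          ((hf.norm.integrable_sq.const_mul _).add (hd.norm.integrable_sq.const_mul _))
          (Eventually.of_forall fun x => (abs_q_le _ _).trans ?_)
        have h1 := sq_nonneg (t * ‖f x‖ - ‖w x - α x‖)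
        simp only
        rw [← sub_nonneg]
        field_simp
        nlinarith
    _ = 3 * t * A + 3 / t * ∫ x, ‖w x - α x‖ ^ 2 ∂G.μ := by
        rw [integral_add (hf.norm.integrable_sq.const_mul _) (hd.norm.integrable_sq.const_mul _),
          integral_const_mul, integral_const_mul]
    _ ≤ 3 * t * A + 3 / t * t ^ 2 := by gcongr
    _ = η := by rw [ht]; field_simp

end Geo

namespace Positive

variable {S : GSetup X} (T : Positive S)

lemma continuous_dens [BorelSpace X] {r : ℝ} (hr : 0 < r) : Continuous (T.dens r) := by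
  have := T.finite
  set F : (Fin S.n → ℝ × V) → ℝ := fun p => ∫ z,
    r ^ 2 / (r ^ 2 + (∑ i, (|(S.coords z i).1 - (p i).1| + ‖(S.coords z i).2 - (p i).2‖)) ^ 2) ^ 2
      ∂T.ν with hF
  suffices hc : Continuous F by
    have e : T.dens r = fun y => F (S.coords y) := rfl
    rw [e]
    exact hc.comp S.continuous_coords
  refine continuous_of_dominated (bound := fun _ => 1 / r ^ 2) (fun p => ?_) (fun p =>
    Eventually.of_forall fun z => ?_) (integrable_const _) (Eventually.of_forall fun z => ?_)
  · refine (Continuous.div continuous_const ?_ fun z => by positivity).aestronglyMeasurable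
    exact (by fun_prop : Continuous fun c : Fin S.n → ℝ × V =>
      (r ^ 2 + (∑ i, (|(c i).1 - (p i).1| + ‖(c i).2 - (p i).2‖)) ^ 2) ^ 2).comp S.continuous_coords
  · rw [Real.norm_eq_abs, abs_of_nonneg (by positivity)]
    calc r ^ 2 / _ ≤ r ^ 2 / (r ^ 2) ^ 2 := by
          gcongr
          exact le_add_of_nonneg_right (sq_nonneg _)
      _ = 1 / r ^ 2 := by field_simp
  · exact Continuous.div continuous_const (by fun_prop) fun p => by positivity

end Positive

/-- The statements proved by the modules. -/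
structure Modules (S : GSetup X) : Prop where
  basic : Basic S.toGeo
  reg : RegFacts S.toGeo
  sep : (¬ ∃ α, S.Compatible α) → Nonempty (GCurrent S)
  udata : ∀ T : GCurrent S, Nonempty (GUData T)
  regRep : ∀ T : GCurrent S, RegRepExists T.toPositive
  phase1 : ∀ (T : GCurrent S) (D : GUData T), Phase1Done D
  slimit : ∀ (T : GCurrent S) (D : GUData T), D.Bounded → Nonempty D.SLimit
  energy : ∀ (T : GCurrent S) (D : GUData T), Phase1Done D → ∀ L : D.SLimit, EnergyFacts D L
  cut : ∀ (T : GCurrent S) (D : GUData T), Phase1Done D → D.SLimit → CutFamily T.toPositive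

namespace GUData

variable {S : GSetup X} {T : GCurrent S} (D : GUData T)

lemma sigma_eq_zero [BorelSpace X] [T2Space X] [CompactSpace X] (hM : Modules S) (hd : Phase1Done D)
    (L : D.SLimit) :
    L.σ = 0 := by
  have := T.finite
  have := hM.basic.finite_μ
  refine le_antisymm ?_ L.σ_nonneg
  have hE := hM.energy T D hd L
  obtain ⟨C, ε₁, hC, hε₁, hlow⟩ := hE.lower
  obtain ⟨ε₂, hε₂, hrep⟩ := hM.regRep T
  obtain ⟨ε₃, hε₃, -, hreg⟩ := hM.reg.exists_scale
  obtain ⟨Cd, hCd⟩ := hd.1
  obtain ⟨N, hN⟩ := T.toPositive.exists_h_bound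
  obtain ⟨Cv, hCv, hcut⟩ := hM.cut T D hd L
  have hq : Continuous fun p : Form × Form => q p.1 p.2 := by unfold q; fun_prop
  have happ : ∀ {w : X → ℝ} {a : X → Form}, Measurable w → (∀ y, |w y| ≤ 1) → Measurable a →
      (∃ K, ∀ y, ‖a y‖ ≤ K) → Integrable (fun y => q (T.h y) (w y • a y)) T.ν := by
    intro w a hw hw1 ha hK
    obtain ⟨K, hK⟩ := hK
    refine Integrable.of_bound (hq.measurable.comp
      (T.meas.prodMk (hw.smul ha))).aestronglyMeasurable (6 * (N * K))
      (Eventually.of_forall fun y => ?_)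
    rw [Real.norm_eq_abs]
    refine (abs_q_le _ _).trans ?_
    have hN0 : 0 ≤ N := (norm_nonneg _).trans (hN y)
    gcongr
    · exact hN y
    · rw [norm_smul, Real.norm_eq_abs]
      exact (mul_le_of_le_one_left (norm_nonneg _) (hw1 y)).trans (hK y)
  have key : ∀ τ, 0 < τ → ∀ δ, 0 < δ → L.σ ≤ C * Cv * τ + (C + 1) * δ := by
    intro τ hτ δ hδ
    obtain ⟨g, v, hg, ⟨hvm, hv⟩, hgd, hvd⟩ := hcut τ hτ
    obtain ⟨ε₄, hε₄, hnear⟩ := hE.near_exact δ hδ
    have hev : ∀ᶠ j in atTop, 0 < scale j ∧ scale j ≤ 1 ∧ scale j ≤ ε₁ ∧ scale j ≤ ε₂ ∧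
        scale j ≤ ε₃ ∧ scale j ≤ ε₄ ∧ scale j ≤ D.ε₀ := by
      have h := fun {c : ℝ} (hc : 0 < c) =>
        tendsto_scale_zero.eventually (nhdsWithin_le_nhds (eventually_le_nhds hc))
      filter_upwards [tendsto_scale_zero.eventually self_mem_nhdsWithin, h one_pos, h hε₁, h hε₂,
        h hε₃, h hε₄, h D.ε₀_pos] with j a b c d e f k using ⟨a, b, c, d, e, f, k⟩
    refine neg_le_neg_iff.1 (ge_of_tendsto (hE.limit.comp tendsto_scale_zero) ?_)
    filter_upwards [hev, hvd δ hδ] with j ⟨hj0, hj1, hjl, hjr, hje, hjn, hjD⟩ hvj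
    set ε := scale j
    obtain ⟨η, hη, hηn⟩ := hnear ε hj0 hjn
    have hdc : Continuous (T.dens ε) := T.toPositive.continuous_dens hj0
    have hd0 : ∀ y, 0 ≤ T.dens ε y := fun y => integral_nonneg fun z => by positivity
    have hg1 : ∀ k y, |g k y| ≤ 1 ∧ 0 ≤ 1 - g k y ∧ 1 - g k y ≤ 1 := fun k y => by
      obtain ⟨a, b⟩ := (hg k).2.2 y
      exact ⟨by rw [abs_of_nonneg a]; exact b, by linarith, by linarith⟩
    have hlimv : Tendsto (fun k => ∫ y, (1 - g k y) * T.dens ε y ∂T.ν) atTop
        (𝓝 (∫ y, v y * T.dens ε y ∂T.ν)) := by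
      refine tendsto_integral_of_dominated_convergence (fun _ => Cd)
        (fun k => ((measurable_const.sub (hg k).2.1).mul hdc.measurable).aestronglyMeasurable)
        (integrable_const Cd) (fun k => Eventually.of_forall fun y => ?_)
        (Eventually.of_forall fun y => (hv y).mul_const _)
      rw [norm_mul, Real.norm_eq_abs, Real.norm_eq_abs, abs_of_nonneg (hg1 k y).2.1,
        abs_of_nonneg (hd0 y)]
      exact (mul_le_of_le_one_left (hd0 y) (hg1 k y).2.2).trans (hCd ε hj0 hj1 y)
    have hk : ∀ᶠ k in atTop, T.app (fun z => g k z • S.d η z) -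
        C * ∫ y, (1 - g k y) * T.dens ε y ∂T.ν ≤ S.pairing (D.Te ε) (D.Te ε) + δ := by
      refine Eventually.of_forall fun k => ?_
      obtain ⟨f, hf⟩ := hrep ε hj0 hjr (g k) (hg k).2.1 fun y => (hg1 k y).1
      obtain ⟨f', hf'⟩ := hrep ε hj0 hjr (fun y => 1 - g k y)
        (measurable_const.sub (hg k).2.1)
        fun y => by rw [abs_of_nonneg (hg1 k y).2.1]; exact (hg1 k y).2.2
      have hT := D.Te_rep ε hj0 hjD
      have hsum : S.pairing (D.Te ε) (D.Te ε) =
          S.pairing f (D.Te ε) + S.pairing f' (D.Te ε) := by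
        have hi : ∀ {a b : X → Form}, MemLp a 2 S.μ → MemLp b 2 S.μ →
            Integrable (fun x => q (a x) (b x)) S.μ := fun {a b} ha hb => by
          refine Integrable.mono' ((ha.norm.integrable_sq.add hb.norm.integrable_sq).const_mul 3)
            (hq.comp_aestronglyMeasurable (ha.aestronglyMeasurable.prodMk hb.aestronglyMeasurable))
            (Eventually.of_forall fun x => ?_)
          rw [Real.norm_eq_abs, Pi.add_apply]
          exact (abs_q_le _ _).trans (by nlinarith [sq_nonneg (‖a x‖ - ‖b x‖)])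
        have hsplit : ∀ w, MemLp w 2 S.μ →
            S.pairing (fun x => D.Te ε x - (f x + f' x)) w =
              S.pairing (D.Te ε) w - (S.pairing f w + S.pairing f' w) := fun w hw => by
          simp only [Geo.pairing, q_sub_left, q_add_left]
          have hfi : Integrable (fun x => q (f x) (w x) + q (f' x) (w x)) S.μ :=
            (hi hf.1 hw).add (hi hf'.1 hw)
          rw [integral_sub (hi hT.1 hw) hfi,
            integral_add (hi hf.1 hw) (hi hf'.1 hw)]
        refine sub_eq_zero.1 ((hsplit _ hT.1).symm.trans ?_)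
        refine S.toGeo.pairing_eq_zero hM.basic (hT.1.sub (hf.1.add hf'.1)) hT.1 fun α hα => ?_
        rw [hsplit α (hM.basic.smooth_mem α hα), hT.2 α hα, hf.2 α hα, hf'.2 α hα]
        have ha := ((hreg ε hj0 hje).1 α hα).1
        have hm := hM.basic.smooth_meas _ ha
        have hb := hM.basic.smooth_bound _ ha
        simp only [Positive.app]
        have i1 := happ (hg k).2.1 (fun y => (hg1 k y).1) hm hb
        have i2 : Integrable (fun y => q (T.h y) ((1 - g k y) • S.reg ε α y)) T.ν :=
          happ (measurable_const.sub (hg k).2.1)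
            (fun y => by rw [abs_of_nonneg (hg1 k y).2.1]; exact (hg1 k y).2.2) hm hb
        rw [← integral_add i1 i2, sub_eq_zero]
        refine integral_congr_ae (Eventually.of_forall fun y => ?_)
        simp only [one_smul, q_smul_right]
        ring
      have h1 := (abs_le.1 (hηn (g k) (hg k).2.1 (fun y => (hg1 k y).1) f hf)).1
      have h2 := hlow ε hj0 hjl (fun y => 1 - g k y) (measurable_const.sub (hg k).2.1)
        (fun y => (hg1 k y).2.1) (fun y => (hg1 k y).2.2) f' hf'
      linarith
    have hlim := le_of_tendsto ((hgd η hη).sub (hlimv.const_mul C)) hk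
    have h3 := mul_le_mul_of_nonneg_left hvj hC
    simp only [Function.comp_apply]
    linarith
  refine le_of_forall_pos_le_add fun e he => ?_
  rw [zero_add]
  set K := C * Cv + (C + 1)
  have hK : 0 < K := by positivity
  refine (key (e / K) (by positivity) (e / K) (by positivity)).trans (le_of_eq ?_)
  simp only [K]
  field_simp

end GUData

/-- A tamed structure on a closed four-manifold has a compatible form. -/
theorem exists_compatible_of_modules [BorelSpace X] [T2Space X] [CompactSpace X] (S : GSetup X)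
    (hM : Modules S) :
    ∃ α, S.Compatible α := by
  by_contra hno
  obtain ⟨T⟩ := hM.sep hno
  obtain ⟨D⟩ := hM.udata T
  have hd := hM.phase1 T D
  obtain ⟨L⟩ := hM.slimit T D hd.2
  have h0 := L.σ_zero (D.sigma_eq_zero hM hd L) S.om S.om_smooth
  rw [GUData.Sf, D.closed S.om S.om_smooth S.om_closed, zero_sub, neg_eq_zero] at h0
  have h1 : ∀ x, q (T.h x) (S.om x) = 1 := fun x => by
    rw [(S.pt x).q_inv_piP (x := 0) (h := T.h x) (T.psd x).1]
    exact T.trace x
  have := T.finite
  simp only [Positive.app, h1, integral_const, smul_eq_mul, mul_one] at h0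
  exact (measureReal_ne_zero_iff (measure_ne_top _ _)).2
    (Measure.measure_univ_ne_zero.2 T.ne_zero) h0

end Vale.Agent.P204.Gen
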