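import Vale.Agent.P204.Gen.LocalPoint
import Vale.Agent.P204.Gen.Interface
import Vale.Agent.P204.Torus.Separation
import Vale.Agent.P204.Torus.Cube

/-!
P204 on a closed four-manifold: a chart with convex target, read as an almost complex structure
on the torus, and the current of a positive measure in such a chart.
-/

open MeasureTheory Filter Topology
open scoped ContDiff Pointwise

set_option linter.unusedSectionVars false

namespace Vale.Agent.P204.Gen.LC

open Vale.Agent.P204.Torus

lemma isClosed_lattice : IsClosed (Set.range intVec) := by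
  have h : Set.range intVec = ⋂ i : Fin 4, {u : V | u i ∈ Set.range ((↑) : ℤ → ℝ)} := by
    ext u
    simp only [Set.mem_range, Set.mem_iInter, Set.mem_ofPred_eq]
    refine ⟨fun ⟨n, hn⟩ i => ⟨n i, congrFun hn i⟩, fun h => ?_⟩
    choose n hn using h
    exact ⟨n, funext hn⟩
  rw [h]
  exact isClosed_iInter fun i =>
    Int.isClosedEmbedding_coe_real.isClosed_range.preimage (continuous_apply i)

lemma fred_add (u : V) (n : Fin 4 → ℤ) : fred (u + intVec n) = fred u :=
  funext fun i => Int.fract_add_intCast _ _

lemma pext_periodic {F : Type*} (f : V → F) : Periodic (pext f) := fun u n => by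
  rw [pext, pext, fred_add]

lemma fred_eq_self {u : V} (hu : u ∈ Q0) : fred u = u :=
  funext fun i => Int.fract_eq_self.2 ⟨(hu i trivial).1.le, (hu i trivial).2⟩

lemma fred_add_floor (u : V) : fred u + intVec (fun i => ⌊u i⌋) = u :=
  funext fun i => Int.fract_add_floor (u i)

lemma isOpen_Q0 : IsOpen Q0 := isOpen_set_pi Set.finite_univ fun _ _ => isOpen_Ioo

lemma smooth_pext {F : Type*} [NormedAddCommGroup F] [NormedSpace ℝ F] {f : V → F}
    (hf : ContDiff ℝ ∞ f) (hc : HasCompactSupport f) (hs : tsupport f ⊆ Q0) :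
    Smooth (pext f) := by
  refine ⟨contDiff_iff_contDiffAt.2 fun u => ?_, pext_periodic f⟩
  by_cases hu : fred u ∈ Q0
  · have he : (fun v => f (v - intVec fun i => ⌊u i⌋)) =ᶠ[𝓝 u] pext f := by
      have hu' : u - intVec (fun i => ⌊u i⌋) ∈ Q0 := by
        rwa [← sub_eq_of_eq_add' ((add_comm _ _).trans (fred_add_floor u)).symm] at hu
      filter_upwards [(continuous_sub_right (intVec fun i => ⌊u i⌋)).continuousAt.preimage_mem_nhds
        (isOpen_Q0.mem_nhds hu')] with v hv
      rw [pext]
      conv_rhs => rw [← sub_add_cancel v (intVec fun i => ⌊u i⌋), fred_add, fred_eq_self hv]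
    exact ((hf.comp (contDiff_id.sub contDiff_const)).contDiffAt).congr_of_eventuallyEq he.symm
  · have hK : IsClosed (tsupport f + Set.range intVec) :=
      isClosed_lattice.add_left_of_isCompact hc
    have hn : u ∉ tsupport f + Set.range intVec := by
      rintro ⟨a, ha, b, ⟨n, rfl⟩, rfl⟩
      refine hu ?_
      show fred (a + intVec n) ∈ Q0
      rw [fred_add, fred_eq_self (hs ha)]
      exact hs ha
    have he : (fun _ => (0 : F)) =ᶠ[𝓝 u] pext f := by
      filter_upwards [hK.isOpen_compl.mem_nhds hn] with v hv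
      by_contra h
      exact hv ⟨fred v, subset_closure (Ne.symm h), _, ⟨_, rfl⟩, fred_add_floor v⟩
    exact contDiffAt_const.congr_of_eventuallyEq he.symm

lemma exists_cutoff {O K : Set V} (hO : IsOpen O) (hK : IsCompact K) (hKO : K ⊆ O) :
    ∃ θ : V → ℝ, ContDiff ℝ ∞ θ ∧ HasCompactSupport θ ∧ tsupport θ ⊆ O ∧
      (∀ u, θ u ∈ Set.Icc (0 : ℝ) 1) ∧ ∀ u ∈ K, ∀ᶠ v in 𝓝 u, θ v = 1 := by
  obtain ⟨K1, hK1, hK11, hK12⟩ := exists_compact_between hK hO hKO
  obtain ⟨K2, hK2, hK21, hK22⟩ := exists_compact_between hK1 hO hK12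
  obtain ⟨f, hfs, hf, hfr⟩ := isOpen_interior.exists_contDiff_support_eq (s := interior K2) (n := ⊤)
  obtain ⟨g, hgs, hg, hgr⟩ := hK1.isClosed.isOpen_compl.exists_contDiff_support_eq (n := ⊤)
  have hpos : ∀ u, 0 < f u + g u := fun u => by
    have hf0 := (hfr (Set.mem_range_self u)).1
    have hg0 := (hgr (Set.mem_range_self u)).1
    by_cases hu : u ∈ K1
    · have : f u ≠ 0 := by
        have := hK21 hu
        rw [← hfs] at this
        exact this
      have := lt_of_le_of_ne hf0 (Ne.symm this)
      linarith
    · have : g u ≠ 0 := by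
        have h' : u ∈ K1ᶜ := hu
        rw [← hgs] at h'
        exact h'
      have := lt_of_le_of_ne hg0 (Ne.symm this)
      linarith
  have hs : Function.support (fun u => f u / (f u + g u)) ⊆ interior K2 := fun u hu => by
    rw [← hfs]
    intro h0
    exact hu (by simp [h0])
  have ht : tsupport (fun u => f u / (f u + g u)) ⊆ K2 :=
    (closure_mono hs).trans (closure_minimal interior_subset hK2.isClosed)
  refine ⟨fun u => f u / (f u + g u), hf.div (hf.add hg) fun u => (hpos u).ne',
    hK2.of_isClosed_subset isClosed_closure ht, ht.trans hK22, fun u => ⟨?_, ?_⟩, fun u hu => ?_⟩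
  · exact div_nonneg (hfr (Set.mem_range_self u)).1 (hpos u).le
  · rw [div_le_one (hpos u)]
    linarith [(hgr (Set.mem_range_self u)).1]
  · filter_upwards [isOpen_interior.mem_nhds (hK11 hu)] with v hv
    have h0 : g v = 0 := by
      by_contra h
      have : v ∈ Function.support g := h
      rw [hgs] at this
      exact this (interior_subset hv)
    have := hpos v
    rw [h0, add_zero] at this
    simp [h0, this.ne']

lemma exists_clamp {O K : Set V} (hO : IsOpen O) (hOQ : O ⊆ Q0) (hconv : Convex ℝ O) {p : V}
    (hp : p ∈ O) (hK : IsCompact K) (hKO : K ⊆ O) :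
    ∃ c : V → V, Smooth c ∧ (∀ u, c u ∈ O) ∧ ∀ u ∈ K, ∀ᶠ v in 𝓝 u, c v = v := by
  obtain ⟨θ, hθ, hθc, hθs, hθr, h1⟩ := exists_cutoff hO hK hKO
  set f : V → V := fun u => θ u • (u - p) with hf
  have hfc : HasCompactSupport f := hθc.smul_right
  have hfs : tsupport f ⊆ Q0 := ((tsupport_smul_subset_left θ _).trans hθs).trans hOQ
  have hsm := smooth_pext (hθ.smul (contDiff_id.sub contDiff_const)) hfc hfs
  refine ⟨fun u => p + pext f u, ⟨contDiff_const.add hsm.smooth, fun u n =>
    congrArg (p + ·) (hsm.periodic u n)⟩, fun u => ?_, fun u hu => ?_⟩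
  · show p + θ (fred u) • (fred u - p) ∈ O
    by_cases hθu : fred u ∈ tsupport θ
    · exact hconv.add_smul_sub_mem hp (hθs hθu) (hθr _)
    · rw [image_eq_zero_of_notMem_tsupport hθu, zero_smul, add_zero]; exact hp
  · filter_upwards [h1 u hu, isOpen_Q0.mem_nhds (hOQ (hKO hu))] with v hv hv2
    show p + θ (fred v) • (fred v - p) = v
    rw [fred_eq_self hv2, hv, one_smul, add_sub_cancel]

/-- The standard structure. -/
noncomputable def stdJ : V →L[ℝ] V :=
  ContinuousLinearMap.pi ![-(ContinuousLinearMap.proj (R := ℝ) (φ := fun _ : Fin 4 => ℝ) 1),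
    ContinuousLinearMap.proj (R := ℝ) (φ := fun _ : Fin 4 => ℝ) 0,
    -(ContinuousLinearMap.proj (R := ℝ) (φ := fun _ : Fin 4 => ℝ) 3),
    ContinuousLinearMap.proj (R := ℝ) (φ := fun _ : Fin 4 => ℝ) 2]

/-- The standard structure on the torus. -/
noncomputable def stdSetup : Setup where
  J _ := stdJ
  om _ := WithLp.toLp 2 ![1, 0, 0, 1, 0, 0]
  J_smooth := ⟨contDiff_const, fun _ _ => rfl⟩
  J_sq _ u := by
    ext j
    fin_cases j <;> simp [stdJ]
  om_smooth := ⟨contDiff_const, fun _ _ => rfl⟩
  tames _ u hu := by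
    have h : ∀ i, u i = 0 → u i ^ 2 = 0 := fun i hi => by simp [hi]
    simp [ev_def, stdJ]
    by_contra hle
    push Not at hle
    refine hu (funext fun i => ?_)
    have h0 := mul_self_nonneg (u 0)
    have h1 := mul_self_nonneg (u 1)
    have h2 := mul_self_nonneg (u 2)
    have h3 := mul_self_nonneg (u 3)
    have hi : u i * u i = 0 := by fin_cases i <;> simp <;> nlinarith
    simpa using hi
  orient _ := by simp [q]

section Chart

variable {X : Type*} [TopologicalSpace X] [MeasurableSpace X] {S : GSetup X}

theorem exists_localChart (i : Fin S.n) :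
    Nonempty (LocalChart S i) := by
  rcases Set.eq_empty_or_nonempty (S.φ i).target with he | ⟨p, hp⟩
  · exact ⟨⟨stdSetup, fun u hu => absurd (S.χ_supp i hu) (by rw [he]; exact id)⟩⟩
  obtain ⟨c, hc, hct, hc1⟩ := exists_clamp (S.φ i).open_target (S.target_sub i) (S.target_convex i) hp
    (S.χ_cpt i).isCompact (S.χ_supp i)
  have hpt : ∀ v, ∃ x ∈ (S.φ i).source, c v = S.φ i x := fun v =>
    ⟨(S.φ i).symm (c v), (S.φ i).map_target (hct v), ((S.φ i).right_inv (hct v)).symm⟩
  let L : Setup :=
    { J := fun v => S.repE i S.J (c v)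
      om := fun v => S.rep2 i S.om (c v)
      J_smooth := ⟨(S.J_smooth i).comp_contDiff hc.smooth hct,
        fun v n => congrArg _ (hc.periodic v n)⟩
      J_sq := fun v u => by
        obtain ⟨x, hx, e⟩ := hpt v
        rw [e, repE_J hx]
        exact conjA_sq (dT_det_pos S.toGeo hx).ne' (S.J_sq x) u
      om_smooth := ⟨(S.om_smooth i).comp_contDiff hc.smooth hct,
        fun v n => congrArg _ (hc.periodic v n)⟩
      tames := fun v u hu => by
        obtain ⟨x, hx, e⟩ := hpt v
        rw [e]
        exact tames_rep hx hu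
      orient := fun v => by
        obtain ⟨x, hx, e⟩ := hpt v
        rw [e]
        exact orient_rep hx }
  exact ⟨⟨L, fun u hu => (hc1 u hu).mono fun v hv => ⟨by simp only [L, hv], by simp only [L, hv]⟩⟩⟩

variable {i : Fin S.n} (L : LocalChart S i)

lemma loc_J {u : V} (hu : u ∈ tsupport (S.χ i)) : L.loc.J u = S.repE i S.J u :=
  (L.agree u hu).self_of_nhds.1

lemma loc_om {u : V} (hu : u ∈ tsupport (S.χ i)) : L.loc.om u = S.rep2 i S.om u :=
  (L.agree u hu).self_of_nhds.2

lemma loc_Om {x : X} (hx : x ∈ (S.φ i).source) (hχ : S.φ i x ∈ tsupport (S.χ i)) :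
    L.loc.Om (S.φ i x) = pull (S.dT i x) (S.Om x) := by
  rw [Setup.Om, loc_J L hχ, loc_om L hχ, Om_rep hx]

lemma loc_psd {x : X} (hx : x ∈ (S.φ i).source) (hχ : S.φ i x ∈ tsupport (S.χ i)) {h : Form}
    (hh : S.Psd x h) (ht : q h (S.Om x) = 1) :
    L.loc.Psd (S.φ i x) (S.formIn i x h) ∧ q (S.formIn i x h) (L.loc.Om (S.φ i x)) = 1 := by
  refine ⟨⟨?_, fun u => ?_⟩, ?_⟩
  · rw [loc_J L hχ]; exact piM_formIn hx hh
  · rw [loc_J L hχ]; exact nonneg_formIn hx hh u
  · rw [loc_Om L hx hχ, q_formIn hx, ht]

end Chart

section Current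

variable {X : Type*} [TopologicalSpace X] [T2Space X] [MeasurableSpace X] [BorelSpace X]
  {S : GSetup X} (T : Positive S) {i : Fin S.n}

open Classical in
lemma measurable_symm_comp {β : Type*} [MeasurableSpace β] {f : X → β} (hf : Measurable f)
    (c : β) : Measurable fun u : V => if u ∈ (S.φ i).target then f ((S.φ i).symm u) else c := by
  have ht : MeasurableSet (S.φ i).target := (S.φ i).open_target.measurableSet
  refine measurable_of_restrict_of_restrict_compl ht ?_ ?_
  · have : Set.domRestrict (S.φ i).target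
        (fun u : V => if u ∈ (S.φ i).target then f ((S.φ i).symm u) else c) =
        fun u : (S.φ i).target => f ((S.φ i).symm u) := funext fun u => if_pos u.2
    rw [this]
    exact hf.comp
      ((continuousOn_iff_continuous_domRestrict.1 (S.φ i).continuousOn_symm).measurable)
  · have : Set.domRestrict (S.φ i).targetᶜ
        (fun u : V => if u ∈ (S.φ i).target then f ((S.φ i).symm u) else c) = fun _ => c :=
      funext fun u => if_neg u.2
    rw [this]
    exact measurable_const

open Classical in
lemma measurable_dT : Measurable fun u : V =>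
    if u ∈ (S.φ i).target then S.dT i ((S.φ i).symm u) else 0 := by
  set F : Fin S.n → V → (V →L[ℝ] V) := fun j u =>
    if u ∈ ((S.φ i).symm.trans (S.φ j)).source then
      fderiv ℝ (fun v => S.φ j ((S.φ i).symm v)) u else 0 with hF
  have hFm : ∀ j, Measurable (F j) := fun j => by
    refine Measurable.ite ((S.φ i).symm.trans (S.φ j)).open_source.measurableSet ?_ measurable_const
    exact measurable_fderiv ℝ _
  set T0 : V → Fin S.n := fun u =>
    if u ∈ (S.φ i).target then S.tr ((S.φ i).symm u) else i with hT0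
  have hTm : Measurable T0 := measurable_symm_comp S.tr_meas i
  have hsum : (fun u : V => if u ∈ (S.φ i).target then S.dT i ((S.φ i).symm u) else 0) =
      fun u => if u ∈ (S.φ i).target then F (T0 u) u else 0 := by
    funext u
    split_ifs with hu
    · have hT : T0 u = S.tr ((S.φ i).symm u) := by simp [hT0, hu]
      have hs : u ∈ ((S.φ i).symm.trans (S.φ (S.tr ((S.φ i).symm u)))).source :=
        ⟨hu, mem_source_tr S.toGeo _⟩
      rw [hT, hF]
      simp only [if_pos hs, Geo.dT, (S.φ i).right_inv hu]
      rfl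
    · rfl
  rw [hsum]
  exact Measurable.ite (S.φ i).open_target.measurableSet
    (show Measurable ((fun p : Fin S.n × V => F p.1 p.2) ∘ fun u => (T0 u, u)) from
      (measurable_from_prod_countable_right fun j => hFm j).comp (hTm.prodMk measurable_id))
    measurable_const

open Classical in
lemma measurable_locH : Measurable fun u : V =>
    if u ∈ (S.φ i).target then T.locH i u else 0 := by
  set A : V → (V →L[ℝ] V) := fun u =>
    if u ∈ (S.φ i).target then S.dT i ((S.φ i).symm u) else 0
  have hA : Measurable A := measurable_dT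
  set H : V → Form := fun u => if u ∈ (S.φ i).target then T.h ((S.φ i).symm u) else 0 with hH
  have hHm : Measurable H := measurable_symm_comp T.meas (0 : Form)
  have hpull : Continuous fun p : (V →L[ℝ] V) × Form => pull p.1 p.2 := by
    refine (PiLp.continuous_toLp 2 _).comp (continuous_pi fun k => ?_)
    exact continuous_ev_comp continuous_snd (continuous_fst.clm_apply continuous_const)
      (continuous_fst.clm_apply continuous_const)
  have hd : Continuous fun B : V →L[ℝ] V => B.det := ContinuousLinearMap.continuous_det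
  have hm : Measurable fun u => ((A u).det)⁻¹ • pull (A u) (H u) :=
    (hd.measurable.comp hA).inv.smul (hpull.measurable.comp (hA.prodMk hHm))
  have hfun : (fun u : V => if u ∈ (S.φ i).target then T.locH i u else 0) =
      fun u => if u ∈ (S.φ i).target then ((A u).det)⁻¹ • pull (A u) (H u) else 0 := by
    funext u
    split_ifs with hu
    · simp only [Positive.locH, Geo.formIn, A, hH, if_pos hu]
    · rfl
  rw [hfun]
  exact Measurable.ite (S.φ i).open_target.measurableSet hm measurable_const

lemma locMeasure_apply {s : Set V} (hs : MeasurableSet s)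
    (h : ∀ x, x ∈ (S.φ i).source → S.φ i x ∈ s → S.χ i (S.φ i x) = 0) :
    T.locMeasure i s = 0 := by
  classical
  have hsrc : MeasurableSet (S.φ i).source := (S.φ i).open_source.measurableSet
  set w : X → ENNReal := fun x =>
    if x ∈ (S.φ i).source then ENNReal.ofReal (S.χ i (S.φ i x)) else 0 with hw
  set μ := T.ν.withDensity w
  have hae : μ (S.φ i).sourceᶜ = 0 := by
    rw [withDensity_apply _ hsrc.compl]
    refine (setLIntegral_congr_fun (g := fun _ => 0) hsrc.compl fun x hx => ?_).trans (by simp)
    exact if_neg hx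
  have hres : μ.restrict (S.φ i).source = μ := Measure.restrict_eq_self_of_ae_mem hae
  have hφ : AEMeasurable (S.φ i) μ := by
    rw [← hres]; exact (S.φ i).continuousOn.aemeasurable hsrc
  show μ.map (S.φ i) s = 0
  rw [Measure.map_apply_of_aemeasurable hφ hs]
  refine measure_mono_null (t := ((S.φ i).source ∩ S.φ i ⁻¹' s) ∪ (S.φ i).sourceᶜ)
    (fun x hx => by by_cases h : x ∈ (S.φ i).source <;> simp [h, hx]) (measure_union_null ?_ hae)
  have hmeas : MeasurableSet ((S.φ i).source ∩ S.φ i ⁻¹' s) := by
    have hm := hsrc.inter ((S.φ i).continuousOn.measurable_piecewise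
      (g := fun _ => (0 : V)) continuousOn_const hsrc hs)
    convert hm using 1
    ext x
    simp only [Set.mem_inter_iff, Set.mem_preimage]
    exact and_congr_right fun hx => by rw [Set.piecewise_eq_of_mem _ _ _ hx]
  rw [withDensity_apply _ hmeas]
  refine (setLIntegral_congr_fun (g := fun _ => 0) hmeas fun x hx => ?_).trans (by simp)
  simp [hw, if_pos hx.1, h x hx.1 hx.2]

theorem exists_isLocal [CompactSpace X] (L : LocalChart S i) :
    ∃ Tc : Torus.Current L.loc, IsLocal T Tc := by
  classical
  have hK : MeasurableSet (tsupport (S.χ i)) := (isClosed_tsupport _).measurableSet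
  let h : V → Form := fun u => if u ∈ tsupport (S.χ i) then T.locH i u else L.loc.unitForm u
  have hm : Measurable h := by
    have hu : Continuous L.loc.unitForm := by
      have hq := Setup.continuous_q L.loc.continuous_Om L.loc.continuous_Om
      exact (hq.inv₀ fun y => (L.loc.q_Om_self_pos y).ne').smul L.loc.continuous_Om
    have e : h = fun u => if u ∈ tsupport (S.χ i) then
        (if u ∈ (S.φ i).target then T.locH i u else 0) else L.loc.unitForm u := by
      funext u
      by_cases hu : u ∈ tsupport (S.χ i)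
      · simp [h, hu, S.χ_supp i hu]
      · simp [h, hu]
    rw [e]
    exact Measurable.ite hK (measurable_locH T) hu.measurable
  have hν : ∀ᵐ u ∂T.locMeasure i, u ∈ tsupport (S.χ i) := by
    rw [ae_iff]
    refine locMeasure_apply T hK.compl fun x _ hx => ?_
    exact image_eq_zero_of_notMem_tsupport hx
  have hfin : IsFiniteMeasure (T.locMeasure i) := by
    have := T.finite
    unfold Positive.locMeasure
    have : IsFiniteMeasure (T.ν.withDensity fun x =>
        if x ∈ (S.φ i).source then ENNReal.ofReal (S.χ i (S.φ i x)) else 0) := by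
      refine isFiniteMeasure_withDensity (ne_top_of_le_ne_top (measure_ne_top T.ν Set.univ) ?_)
      refine (lintegral_mono fun x => (?_ : _ ≤ (1 : ENNReal))).trans (by simp)
      split_ifs
      · exact ENNReal.ofReal_le_one.2 (S.χ_range i _).2
      · exact zero_le
    infer_instance
  have hgood : ∀ u, L.loc.Psd u (h u) ∧ q (h u) (L.loc.Om u) = 1 := fun u => by
    by_cases hu : u ∈ tsupport (S.χ i)
    · have ht := S.χ_supp i hu
      have := loc_psd L ((S.φ i).map_target ht) (by rwa [(S.φ i).right_inv ht])
        (T.psd ((S.φ i).symm u)) (T.trace _)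
      rw [(S.φ i).right_inv ht] at this
      simpa [h, hu, Positive.locH] using this
    · simp only [h, if_neg hu]; exact L.loc.unitForm_mem u
  refine ⟨⟨T.locMeasure i, h, hfin, ?_, hm, fun u => (hgood u).1, fun u => (hgood u).2⟩,
    rfl, hν.mono fun u hu => by simp [h, hu]⟩
  refine locMeasure_apply T Torus.measurableSet_cube.compl fun x hx hc => absurd ?_ hc
  exact fun j hj => ⟨(S.target_sub i ((S.φ i).map_source hx) j hj).1.le,
    (S.target_sub i ((S.φ i).map_source hx) j hj).2⟩

end Current

end Vale.Agent.P204.Gen.LC
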