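import Vale.Agent.P204.Gen.GMonoScale
import Vale.Agent.P204.Gen.LocalChart
import Vale.Agent.P204.Gen.Integral

/-!
P204 on a closed four-manifold: the density in the charts has a limit independent of the chart, and
its transverse part tends to zero (module 18).
-/

open MeasureTheory Filter Topology
open scoped BigOperators ContDiff

namespace Vale.Agent.P204.Gen

open Vale.Agent.P204.Torus

/-- Continuous quadratic functions along a map tangent to a linear one. -/
lemma Mono.eventually_quad_sub_le {P : V × V → ℝ} (hP : Continuous P)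
    (hh : ∀ z (t : ℝ) v, P (z, t • v) = t ^ 2 * P (z, v)) {y z0 : V} {f s : V → V}
    {A : V →L[ℝ] V} (hf : Tendsto f (𝓝 y) (𝓝 z0)) (hs : HasFDerivAt s A y) (hs0 : s y = 0)
    {ε : ℝ} (hε : 0 < ε) :
    ∀ᶠ u in 𝓝 y, |P (f u, s u) - P (z0, A (u - y))| ≤ ε * ‖u - y‖ ^ 2 := by
  have h1 : ∀ᶠ w : V × V in 𝓝 (z0, 0), ∀ a ∈ Metric.sphere (0 : V) 1,
      |P (w.1, A a + w.2) - P (z0, A a)| < ε := by
    refine (isCompact_sphere (0 : V) 1).eventually_forall_of_forall_eventually fun a _ => ?_
    have hA := A.continuous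
    have hc : Continuous fun q : (V × V) × V => |P (q.1.1, A q.2 + q.1.2) - P (z0, A q.2)| := by
      fun_prop
    exact hc.continuousAt.eventually (gt_mem_nhds (by simpa using hε))
  obtain ⟨δ, hδ, hδ'⟩ := Metric.eventually_nhds_iff.1 h1
  filter_upwards [hf.eventually (Metric.ball_mem_nhds z0 hδ),
    hs.isLittleO.def (half_pos hδ)] with u h2 h3
  rw [hs0, sub_zero] at h3
  rcases eq_or_ne u y with rfl | hne
  · have h0 : ∀ z, P (z, 0) = 0 := fun z => by simpa using hh z 0 0
    simp [hs0, h0]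
  set t := ‖u - y‖
  have ht : 0 < t := norm_pos_iff.2 (sub_ne_zero.2 hne)
  set a := t⁻¹ • (u - y)
  set w := t⁻¹ • (s u - A (u - y))
  have ha : a ∈ Metric.sphere (0 : V) 1 := by
    rw [mem_sphere_zero_iff_norm, norm_smul, norm_inv, Real.norm_of_nonneg ht.le,
      inv_mul_cancel₀ ht.ne']
  have hw : ‖w‖ < δ := by
    rw [norm_smul, norm_inv, Real.norm_of_nonneg ht.le, inv_mul_lt_iff₀ ht]
    exact h3.trans_lt (by nlinarith)
  have h4 := hδ' (y := (f u, w))
    (by rw [Prod.dist_eq, dist_zero_right]; exact max_lt h2 hw) a ha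
  have ea : A a + w = t⁻¹ • s u := by simp [a, w, smul_sub]
  rw [ea, hh, show A a = t⁻¹ • A (u - y) from map_smul _ _ _, hh, ← mul_sub, abs_mul,
    abs_of_nonneg (sq_nonneg _), inv_pow, inv_mul_lt_iff₀ (by positivity)] at h4
  linarith

lemma Mono.hasFDerivAt_sv_zero : HasFDerivAt sv (ContinuousLinearMap.id ℝ V) 0 := by
  obtain ⟨hd, hD⟩ := hasFDerivAt_sv_sub 0 0
  have e : (fun z : V => sv (z - 0)) = sv := funext fun z => by rw [sub_zero]
  rw [e] at hd hD
  refine hd.hasFDerivAt.congr_fderiv (ContinuousLinearMap.ext fun a => ?_)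
  rw [hD, sub_zero]
  funext i
  simp [cs]

lemma Mono.sv_zero : sv 0 = 0 := by funext i; simp [sv]

lemma Mono.dist0_le_norm (a : V) : dist0 a ≤ 4 * ‖a‖ := by
  refine (dist0_le_sum a).trans ?_
  have h : ∀ i, |Real.sin (Real.pi * a i)| / Real.pi ≤ ‖a‖ := fun i => by
    refine le_trans ?_ (abs_coord_le' a i)
    rw [div_le_iff₀ Real.pi_pos]
    refine Real.abs_sin_le_abs.trans_eq ?_
    rw [abs_mul, abs_of_pos Real.pi_pos, mul_comm]
  refine (Finset.sum_le_sum fun i _ => h i).trans_eq ?_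
  simp

/-- The squared distance in a chart is the metric to second order. -/
lemma Mono.eventually_rho (S : Torus.Setup) {f : V → V} {A : V →L[ℝ] V} {y z0 : V}
    (hf : HasFDerivAt f A y) (hy : f y = z0) {ε : ℝ} (hε : 0 < ε) :
    ∀ᶠ u in 𝓝 y, |S.rho2 (f u) (f u - z0) - S.g z0 (A (u - y)) (A (u - y))| ≤
      ε * ‖u - y‖ ^ 2 := by
  have hs : HasFDerivAt (fun u => sv (f u - z0)) A y := by
    have h0 : HasFDerivAt sv (ContinuousLinearMap.id ℝ V) (f y - z0) := by
      rw [hy, sub_self]; exact Mono.hasFDerivAt_sv_zero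
    exact (h0.comp y (hf.sub_const z0)).congr_fderiv (ContinuousLinearMap.id_comp A)
  have hc : Tendsto f (𝓝 y) (𝓝 z0) := hy ▸ hf.continuousAt.tendsto
  have hq : ∀ z (t : ℝ) v, S.g z (t • v) (t • v) = t ^ 2 * S.g z v v := fun z t v => by
    rw [S.g_smul_left, S.g_symm, S.g_smul_left]; ring
  have h1 := Mono.eventually_quad_sub_le (P := fun p : V × V => S.g p.1 p.2 p.2) S.continuous_g hq hc hs
    (by simp [hy, Mono.sv_zero]) (half_pos hε)
  set K := 1600 * (4 * (‖A‖ + 1)) ^ 4
  have hsmall : ∀ᶠ u in 𝓝 y, ‖u - y‖ ^ 2 < ε / 2 / K := by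
    have ht : Tendsto (fun u : V => ‖u - y‖ ^ 2) (𝓝 y) (𝓝 0) := by
      have hc : Continuous fun u : V => ‖u - y‖ ^ 2 := by fun_prop
      simpa using hc.tendsto y
    exact ht.eventually (gt_mem_nhds (by positivity))
  filter_upwards [h1, hsmall, hf.isLittleO.def one_pos] with u h2 h3 h4
  rw [hy] at h4
  set t := ‖u - y‖
  have h5 : ‖f u - z0‖ ≤ (‖A‖ + 1) * t := by
    calc ‖f u - z0‖ = ‖(f u - z0 - A (u - y)) + A (u - y)‖ := by rw [sub_add_cancel]
      _ ≤ 1 * t + ‖A‖ * t := (norm_add_le _ _).trans (add_le_add h4 (A.le_opNorm _))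
      _ = _ := by ring
  set R := ∑ i, (1 - Real.cos (2 * Real.pi * (f u - z0) i)) ^ 2
  have hR0 : 0 ≤ R := Finset.sum_nonneg fun i _ => sq_nonneg _
  have hR : R ≤ ε / 2 * t ^ 2 := by
    have hi : ∀ i, (1 - Real.cos (2 * Real.pi * (f u - z0) i)) ^ 2 ≤
        400 * dist0 (f u - z0) ^ 4 := fun i => by
      obtain ⟨a0, a1⟩ := one_sub_cos_le (f u - z0) i
      calc _ ≤ (20 * dist0 (f u - z0) ^ 2) ^ 2 := pow_le_pow_left₀ a0 a1 2
        _ = _ := by ring
    calc R ≤ 1600 * dist0 (f u - z0) ^ 4 := by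
          refine (Finset.sum_le_sum fun i _ => hi i).trans_eq ?_
          simp; ring
      _ ≤ 1600 * (4 * ((‖A‖ + 1) * t)) ^ 4 := by
          have h6 := (Mono.dist0_le_norm (f u - z0)).trans (mul_le_mul_of_nonneg_left h5 zero_le_four)
          gcongr
          exact dist0_nonneg _
      _ = K * t ^ 2 * t ^ 2 := by simp only [K]; ring
      _ ≤ ε / 2 * t ^ 2 := by
          refine mul_le_mul_of_nonneg_right ?_ (sq_nonneg t)
          rw [lt_div_iff₀ (by positivity)] at h3
          linarith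
  rw [Torus.Setup.rho2]
  rw [abs_le] at h2 ⊢
  constructor <;> linarith

/-- Nearby weights. -/
lemma Mono.weight_close {r p p' κ : ℝ} (hp : 0 < p) (hκ0 : 0 ≤ κ) (hκ : κ ≤ 1 / 2)
    (h : |p' - p| ≤ κ * p) :
    |r ^ 2 / p ^ 2 - r ^ 2 / p' ^ 2| ≤ 12 * κ * (r ^ 2 / p ^ 2) := by
  rw [abs_le] at h
  have hp' : p / 2 ≤ p' := by nlinarith
  have hp'0 : 0 < p' := by linarith
  have h1 : |p' ^ 2 - p ^ 2| ≤ 3 * κ * p ^ 2 := by
    rw [show p' ^ 2 - p ^ 2 = (p' - p) * (p' + p) by ring, abs_mul,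
      abs_of_pos (add_pos hp'0 hp)]
    calc |p' - p| * (p' + p) ≤ κ * p * (3 * p) :=
          mul_le_mul (abs_le.2 h) (by nlinarith) (by positivity) (by positivity)
      _ = _ := by ring
  rw [show r ^ 2 / p ^ 2 - r ^ 2 / p' ^ 2 = r ^ 2 / p ^ 2 * ((p' ^ 2 - p ^ 2) / p' ^ 2) by
    field_simp, abs_mul, abs_of_nonneg (by positivity : 0 ≤ r ^ 2 / p ^ 2), mul_comm]
  refine mul_le_mul_of_nonneg_right ?_ (by positivity)
  rw [abs_div, abs_of_pos (pow_pos hp'0 2), div_le_iff₀ (by positivity)]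
  nlinarith [pow_le_pow_left₀ (by positivity) hp' 2]

lemma Mono.dist0_pos {u v : V} (hu : u ∈ Q0) (hv : v ∈ Q0) (h : u ≠ v) : 0 < dist0 (u - v) := by
  refine (dist0_nonneg _).lt_of_ne fun h0 => h ?_
  obtain ⟨n, hn⟩ := exists_near (u - v)
  rw [← h0, mul_zero, norm_le_zero_iff, sub_eq_zero] at hn
  funext i
  have hi : u i - v i = (n i : ℝ) := congrFun hn i
  have ha : u i ∈ Set.Ioo (0 : ℝ) 1 := hu i trivial
  have hb : v i ∈ Set.Ioo (0 : ℝ) 1 := hv i trivial
  have h1 : (n i : ℝ) < ((1 : ℤ) : ℝ) := by push_cast; linarith [ha.2, hb.1]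
  have h2 : ((-1 : ℤ) : ℝ) < (n i : ℝ) := by push_cast; linarith [ha.1, hb.2]
  have h1' : n i < 1 := Int.cast_lt.1 h1
  have h2' : -1 < n i := Int.cast_lt.1 h2
  have h3 : n i = 0 := by omega
  rw [h3, Int.cast_zero, sub_eq_zero] at hi
  exact hi

/-- Away from the centre the weights tend to zero. -/
lemma Mono.exists_th_far (S : Torus.Setup) {K : Set V} (hK : IsCompact K) (hKQ : K ⊆ Q0) {y : V}
    (hy : y ∈ Q0) (hyK : y ∉ K) : ∃ C, 0 ≤ C ∧ ∀ r, ∀ u ∈ K, S.th r y u ≤ C * r ^ 2 := by
  obtain ⟨c, C', hc, -, hρ⟩ := S.exists_rho2_bounds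
  obtain ⟨d, hd, hdle⟩ := hK.exists_forall_le' (f := fun u => dist0 (u - y))
    (continuous_dist0.comp (continuous_id.sub continuous_const)).continuousOn (a := 0)
    fun u hu => Mono.dist0_pos (hKQ hu) hy fun h => hyK (h ▸ hu)
  refine ⟨1 / (c * d ^ 2) ^ 2, by positivity, fun r u hu => ?_⟩
  have h1 : c * d ^ 2 ≤ r ^ 2 + S.rho2 u (u - y) := by
    have h2 := (hρ u (u - y)).1
    have h3 : d ^ 2 ≤ dist0 (u - y) ^ 2 := pow_le_pow_left₀ hd.le (hdle u hu) 2
    nlinarith [sq_nonneg r]
  rw [Torus.Setup.th]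
  calc r ^ 2 / (r ^ 2 + S.rho2 u (u - y)) ^ 2 ≤ r ^ 2 / (c * d ^ 2) ^ 2 := by gcongr
    _ = _ := by ring

variable {X : Type*} [TopologicalSpace X] [MeasurableSpace X] [BorelSpace X]

/-- The density of a chart as an integral over `X`. -/
lemma Mono.Th_eq_global {S : GSetup X} (T : Positive S) {i : Fin S.n} {L : LocalChart S i}
    {Tc : Torus.Current L.loc} (hloc : IsLocal T Tc) {r : ℝ} (hr : 0 < r) (y : V) :
    Integrable ((S.posSet i).indicator fun z => S.χ i (S.φ i z) * L.loc.th r y (S.φ i z)) T.ν ∧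
      Tc.Th r y = ∫ z, (S.posSet i).indicator
        (fun z => S.χ i (S.φ i z) * L.loc.th r y (S.φ i z)) z ∂T.ν := by
  have := T.finite
  have := T.isFiniteMeasure_posMeasure i
  set g := fun u => S.χ i u * L.loc.th r y u
  have hg : Continuous g := (S.χ_smooth i).continuous.mul
    (Continuous.comp (g := fun p : V × V => L.loc.th r p.1 p.2) (f := fun u : V => (y, u))
      (L.loc.continuous_th₂ hr) (continuous_const.prodMk continuous_id))
  have hgi : Integrable g (T.posMeasure i) := by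
    refine Integrable.of_bound hg.aestronglyMeasurable (1 / r ^ 2) (Eventually.of_forall fun u => ?_)
    rw [Real.norm_of_nonneg (mul_nonneg (S.χ_range i u).1 (L.loc.th_nonneg r y u))]
    exact (mul_le_of_le_one_left (L.loc.th_nonneg r y u) (S.χ_range i u).2).trans
      (L.loc.th_le hr y u)
  refine ⟨(integrable_indicator_iff (S.isOpen_posSet i).measurableSet).2
    ((integrable_map_measure hg.aestronglyMeasurable (T.aemeasurable_chart i)).1 hgi), ?_⟩
  rw [Torus.Current.Th, T.integral_loc i hloc, integral_indicator (S.isOpen_posSet i).measurableSet,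
    Positive.posMeasure, integral_map (T.aemeasurable_chart i) hg.aestronglyMeasurable]

omit [BorelSpace X] in
lemma Mono.g_chart {S : GSetup X} {i : Fin S.n} (L : LocalChart S i) {x : X} (hx : x ∈ (S.φ i).source)
    (hχ : S.φ i x ∈ tsupport (S.χ i)) (a : V) :
    L.loc.g (S.φ i x) a a = ev (S.om x) (S.dT i x a) (S.J x (S.dT i x a)) := by
  obtain ⟨hJ, hom⟩ := (L.agree _ hχ).self_of_nhds
  rw [L.loc.g_self, hJ, hom, Geo.repE, Geo.rep2, if_pos ((S.φ i).map_source hx),
    if_pos ((S.φ i).map_source hx), (S.φ i).left_inv hx, ev_pull]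
  have h := congrArg (fun A : V →L[ℝ] V => A (S.J x (S.dT i x a)))
    (self_comp_inverse (S.toGeo.dT_det_ne hx))
  simp only [ContinuousLinearMap.comp_apply, ContinuousLinearMap.id_apply] at h ⊢
  rw [h]

/-- The limits of two charts agree on their common part. -/
lemma Mono.lim_agree [T2Space X] {S : GSetup X} (T : Positive S) {i j : Fin S.n}
    {Li : LocalChart S i} {Lj : LocalChart S j} {Ti : Torus.Current Li.loc}
    {Tj : Torus.Current Lj.loc} (hi : IsLocal T Ti) (hj : IsLocal T Tj) {A : ℝ}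
    (hA : ∀ r, 0 < r → r ≤ 1 → ∀ u, Ti.Th r u ≤ A) {x : X} (hxi : x ∈ tsupport (S.ψ i))
    (hxj : x ∈ tsupport (S.ψ j)) {li lj : ℝ}
    (hli : Tendsto (fun k => Ti.Th (scale k) (S.φ i x)) atTop (𝓝 li))
    (hlj : Tendsto (fun k => Tj.Th (scale k) (S.φ j x)) atTop (𝓝 lj)) : li = lj := by
  have := T.finite
  have hsi : x ∈ (S.φ i).source := S.ψ_supp i hxi
  have hsj : x ∈ (S.φ j).source := S.ψ_supp j hxj
  set y := S.φ i x
  set y' := S.φ j x
  set F : V → V := fun u => S.φ j ((S.φ i).symm u)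
  have hyt : y ∈ ((S.φ i).symm.trans (S.φ j)).source := by
    rw [OpenPartialHomeomorph.trans_source]
    exact ⟨(S.φ i).map_source hsi, by simpa [y, (S.φ i).left_inv hsi] using hsj⟩
  have hFd : HasFDerivAt F (fderiv ℝ F y) y :=
    (((S.trans_smooth i j).contDiffAt ((OpenPartialHomeomorph.open_source _).mem_nhds hyt)
      ).differentiableAt (by simp)).hasFDerivAt
  have hFy : F y = y' := by simp [F, y, y', (S.φ i).left_inv hsi]
  set B := fderiv ℝ F y
  have hyχ : y ∈ tsupport (S.χ i) := subset_tsupport _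
    (by rw [Function.mem_support, (S.χ_one i x hxi).self_of_nhds]; exact one_ne_zero)
  have hyχ' : y' ∈ tsupport (S.χ j) := subset_tsupport _
    (by rw [Function.mem_support, (S.χ_one j x hxj).self_of_nhds]; exact one_ne_zero)
  have hgg : ∀ a, Lj.loc.g y' (B a) (B a) = Li.loc.g y a a := fun a => by
    rw [Mono.g_chart Lj hsj hyχ', Mono.g_chart Li hsi hyχ, S.toGeo.dT_cocycle hsi hsj]
    rfl
  obtain ⟨cg, Cg, hcg, -, hg⟩ := Li.loc.Om_bounds
  have key : ∀ κ, 0 < κ → κ ≤ 1 / 2 → |li - lj| ≤ 12 * κ * A := by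
    intro κ hκ hκ2
    set ε := κ * cg / 4
    have hε : 0 < ε := by positivity
    have e1 := Mono.eventually_rho Li.loc (hasFDerivAt_id y) rfl hε
    have e2 := Mono.eventually_rho Lj.loc hFd hFy hε
    have e3 : ∀ᶠ u in 𝓝 y, u ∈ ((S.φ i).symm.trans (S.φ j)).source :=
      (OpenPartialHomeomorph.open_source _).mem_nhds hyt
    have e4 : ∀ᶠ u in 𝓝 y, S.χ j (F u) = 1 :=
      hFd.continuousAt.eventually (by rw [hFy]; exact S.χ_one j x hxj)
    obtain ⟨U, hU, hUo, hyU⟩ := eventually_nhds_iff.1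
      ((e1.and e2).and (e3.and ((S.χ_one i x hxi).and e4)))
    set O := (S.φ i).source ∩ S.φ i ⁻¹' U
    have hOo : IsOpen O := (S.φ i).continuousOn.isOpen_inter_preimage (S.φ i).open_source hUo
    set Uj := (S.φ j).target ∩ (S.φ j).symm ⁻¹' O
    have hUjo : IsOpen Uj :=
      (S.φ j).continuousOn_symm.isOpen_inter_preimage (S.φ j).open_target hOo
    have hyUj : y' ∈ Uj :=
      ⟨(S.φ j).map_source hsj, by simpa [y', (S.φ j).left_inv hsj, O] using ⟨hsi, hyU⟩⟩
    obtain ⟨C1, hC1, hf1⟩ := Mono.exists_th_far Li.loc ((S.χ_cpt i).diff hUo)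
      (fun u hu => S.target_sub i (S.χ_supp i hu.1)) (S.target_sub i ((S.φ i).map_source hsi))
      (fun h => h.2 hyU)
    obtain ⟨C2, hC2, hf2⟩ := Mono.exists_th_far Lj.loc ((S.χ_cpt j).diff hUjo)
      (fun u hu => S.target_sub j (S.χ_supp j hu.1)) (S.target_sub j ((S.φ j).map_source hsj))
      (fun h => h.2 hyUj)
    have hbound : ∀ k, |Ti.Th (scale k) y - Tj.Th (scale k) y'| ≤
        12 * κ * A + (C1 + C2) * T.ν.real Set.univ * scale k ^ 2 := fun k => by
      set r := scale k
      have hr : 0 < r := scale_pos' k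
      obtain ⟨ii, ei⟩ := Mono.Th_eq_global T hi hr y
      obtain ⟨ij, ej⟩ := Mono.Th_eq_global T hj hr y'
      set fi := (S.posSet i).indicator fun z => S.χ i (S.φ i z) * Li.loc.th r y (S.φ i z)
      set fj := (S.posSet j).indicator fun z => S.χ j (S.φ j z) * Lj.loc.th r y' (S.φ j z)
      have hfi0 : ∀ z, 0 ≤ fi z := fun z => Set.indicator_nonneg
        (fun z _ => mul_nonneg (S.χ_range i _).1 (Li.loc.th_nonneg r y _)) z
      have hfj0 : ∀ z, 0 ≤ fj z := fun z => Set.indicator_nonneg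
        (fun z _ => mul_nonneg (S.χ_range j _).1 (Lj.loc.th_nonneg r y' _)) z
      have hC : 0 ≤ (C1 + C2) * r ^ 2 := by positivity
      have hpt : ∀ z, |fi z - fj z| ≤ 12 * κ * fi z + (C1 + C2) * r ^ 2 := fun z => by
        by_cases hz : z ∈ O
        · obtain ⟨⟨h1, h2⟩, h3, h4, h5⟩ := hU _ hz.2
          have hzj : z ∈ (S.φ j).source := by
            have := h3.2
            simpa [(S.φ i).left_inv hz.1] using this
          have hFz : F (S.φ i z) = S.φ j z := by simp [F, (S.φ i).left_inv hz.1]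
          have hpi : z ∈ S.posSet i := ⟨hz.1, by simp [h4]⟩
          have hpj : z ∈ S.posSet j := ⟨hzj, by simp [← hFz, h5]⟩
          rw [hFz, hgg] at h2
          rw [hFz] at h5
          simp only [ContinuousLinearMap.id_apply, id_eq] at h1
          simp only [fi, fj, Set.indicator_of_mem hpi, Set.indicator_of_mem hpj, h4, h5, one_mul]
          refine le_trans ?_ (le_add_of_nonneg_right hC)
          set t := ‖S.φ i z - y‖
          have hgl := (hg y (S.φ i z - y)).1
          have hp1 := Li.loc.rho2_nonneg (S.φ i z) (S.φ i z - y)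
          rw [abs_le] at h1 h2
          refine Mono.weight_close (by positivity) hκ.le hκ2 (abs_le.2 ?_)
          simp only [ε] at h1 h2
          constructor <;>
            nlinarith [sq_nonneg t, sq_nonneg r, mul_le_mul_of_nonneg_left hgl hκ.le,
              mul_nonneg (mul_nonneg hκ.le hcg.le) (sq_nonneg t)]
        · have b1 : fi z ≤ C1 * r ^ 2 := Set.indicator_apply_le' (fun hp => by
              refine (mul_le_of_le_one_left (Li.loc.th_nonneg r y _) (S.χ_range i _).2).trans
                (hf1 r _ ⟨subset_tsupport _ hp.2.ne', fun h => hz ⟨hp.1, h⟩⟩))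
            fun _ => by positivity
          have b2 : fj z ≤ C2 * r ^ 2 := Set.indicator_apply_le' (fun hp => by
              refine (mul_le_of_le_one_left (Lj.loc.th_nonneg r y' _) (S.χ_range j _).2).trans
                (hf2 r _ ⟨subset_tsupport _ hp.2.ne', fun h => hz ?_⟩)
              have := h.2
              simpa [(S.φ j).left_inv hp.1] using this)
            fun _ => by positivity
          have a1 := hfi0 z
          have a2 := hfj0 z
          have a3 : 0 ≤ C1 * r ^ 2 := by positivity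
          have a4 : 0 ≤ C2 * r ^ 2 := by positivity
          have a5 : 0 ≤ 12 * κ * fi z := by positivity
          rw [abs_le]
          constructor <;> linarith
      rw [ei, ej, ← integral_sub ii ij]
      refine (abs_integral_le_integral_abs).trans ((integral_mono_of_nonneg
        (Eventually.of_forall fun z => abs_nonneg _)
        ((ii.const_mul _).add (integrable_const _)) (Eventually.of_forall hpt)).trans ?_)
      simp only [Pi.add_apply]
      rw [integral_add (ii.const_mul _) (integrable_const _), integral_const_mul, integral_const,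
        smul_eq_mul, ← ei]
      refine add_le_add (mul_le_mul_of_nonneg_left (hA r hr (Mass.scale_le_one k) y) (by positivity))
        (le_of_eq ?_)
      ring
    refine le_of_tendsto_of_tendsto' (hli.sub hlj).abs ?_ hbound
    have := (tendsto_scale.pow 2).const_mul ((C1 + C2) * T.ν.real Set.univ)
    simpa using tendsto_const_nhds.add this
  by_contra hne
  have hpos : 0 < |li - lj| := abs_pos.2 (sub_ne_zero.2 hne)
  set κ := min (1 / 2) (|li - lj| / (12 * (|A| + 1)))
  have hκ : 0 < κ := lt_min one_half_pos (by positivity)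
  have h1 := key κ hκ (min_le_left _ _)
  have h2 : κ * (12 * (|A| + 1)) ≤ |li - lj| :=
    (le_div_iff₀ (by positivity)).1 (min_le_right _ _)
  nlinarith [le_abs_self A, mul_le_mul_of_nonneg_left (le_abs_self A) hκ.le]

/-- The data of almost monotonicity in the charts. -/
theorem exists_monoData [T2Space X] [CompactSpace X] {S : GSetup X} {T : GCurrent S}
    {D : GUData T} (hd : T.DensBound) (hS : D.SLimit) : Nonempty (MonoData T.toPositive) := by
  have hμ : ∀ i, S.toGeo.MapLe i := fun i => by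
    obtain ⟨C, -, hC⟩ :=
      S.toGeo.exists_map_le i (S.isCompact_core i) (S.core_subset_source i)
    exact ⟨C, hC⟩
  have L : ∀ i, LocalChart S i := fun i => (LC.exists_localChart i).some
  choose Tc hloc using fun i => LC.exists_isLocal T.toPositive (L i)
  have hm : ∀ i, (Tc i).Monotone2 := fun i =>
    exists_monotone2 (hμ i) (basic S.toGeo) hS hd (L i) (Tc i) (hloc i)
  choose A hA0 hA hlim using fun i => (Tc i).exists_limit_of_mono (hm i)
  choose lim hlim using hlim
  exact ⟨{
    L := L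
    Tc := Tc
    isLocal := hloc
    dens := fun i => T.toPositive.loc_densBound i (hloc i) hd
    A := ∑ i, A i
    Th_le := fun i r hr hr1 u => (hA i r hr hr1 u).1.trans
      (Finset.single_le_sum (fun j _ => (hA0 j).le) (Finset.mem_univ i))
    lim := lim
    tendsto := hlim
    transverse := fun i => (Tc i).tendsto_transverse_of_mono (hm i)
    agree := fun i j x hi hj => Mono.lim_agree T.toPositive (hloc i) (hloc j)
      (fun r hr hr1 u => (hA i r hr hr1 u).1) hi hj (hlim i _) (hlim j _) }⟩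

end Vale.Agent.P204.Gen
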