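import Vale.Agent.P204.Gen.MonoData
import Vale.Agent.P204.Gen.GeoDist

/-!
P204 on a closed four-manifold: the trace measure of a positive current on the part of `X` seen by
the cut-off of a chart, read on the torus (module 18).
-/

open MeasureTheory Filter Topology
open scoped ENNReal

namespace Vale.Agent.P204.Gen

open Vale.Agent.P204.Torus

variable {X : Type*} [TopologicalSpace X] [MeasurableSpace X]

/-- The part of `X` seen by the cut-off of the chart `i`. -/
def Geo.posSet (G : Geo X) (i : Fin G.n) : Set X :=
  (G.φ i).source ∩ G.φ i ⁻¹' {u | 0 < G.χ i u}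

/-- The compact core of the chart `i`. -/
def Geo.core (G : Geo X) (i : Fin G.n) : Set X := (G.φ i).symm '' tsupport (G.χ i)

namespace Geo

variable (G : Geo X) (i : Fin G.n)

lemma isOpen_posSet : IsOpen (G.posSet i) :=
  (G.φ i).continuousOn.isOpen_inter_preimage (G.φ i).open_source
    (isOpen_lt continuous_const (G.χ_smooth i).continuous)

lemma posSet_subset_core : G.posSet i ⊆ G.core i := fun x hx =>
  ⟨G.φ i x, subset_tsupport _ hx.2.ne', (G.φ i).left_inv hx.1⟩

lemma isCompact_core : IsCompact (G.core i) :=
  (G.χ_cpt i).image_of_continuousOn ((G.φ i).continuousOn_symm.mono (G.χ_supp i))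

lemma core_subset_source : G.core i ⊆ (G.φ i).source := by
  rintro _ ⟨u, hu, rfl⟩
  exact (G.φ i).map_target (G.χ_supp i hu)

lemma mem_tsupport_of_core {x : X} (hx : x ∈ G.core i) : G.φ i x ∈ tsupport (G.χ i) := by
  obtain ⟨u, hu, rfl⟩ := hx
  rwa [(G.φ i).right_inv (G.χ_supp i hu)]

/-- Where the cut-off vanishes, so does its derivative. -/
lemma grad_χ_eq_zero {u : V} (hu : G.χ i u = 0) : grad (G.χ i) u = 0 := by
  have h : IsLocalMin (G.χ i) u :=
    Filter.Eventually.of_forall fun v => hu ▸ (G.χ_range i v).1
  funext j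
  simp only [grad, h.fderiv_eq_zero, zero_apply, Pi.zero_apply]

variable [OpensMeasurableSpace X]

lemma aemeasurable_chart (ν : Measure X) {s : Set X} (hs : IsOpen s) (h : s ⊆ (G.φ i).source) :
    AEMeasurable (G.φ i) (ν.restrict s) :=
  ((G.φ i).continuousOn.mono h).aemeasurable hs.measurableSet

end Geo

namespace Positive

variable {S : GSetup X} (T : Positive S) (i : Fin S.n)

/-- The trace measure where the cut-off of the chart `i` is positive, in the chart. -/
noncomputable def posMeasure : Measure V := (T.ν.restrict (S.posSet i)).map (S.φ i)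

lemma isFiniteMeasure_posMeasure : IsFiniteMeasure (T.posMeasure i) := by
  have := T.finite
  unfold posMeasure
  infer_instance

variable [OpensMeasurableSpace X]

lemma aemeasurable_chart : AEMeasurable (S.φ i) (T.ν.restrict (S.posSet i)) :=
  S.toGeo.aemeasurable_chart i _ (S.isOpen_posSet i) fun _ hx => hx.1

lemma posMeasure_pos : ∀ᵐ u ∂T.posMeasure i, 0 < S.χ i u := by
  rw [posMeasure, ae_map_iff (T.aemeasurable_chart i)
    (measurableSet_lt measurable_const (S.χ_smooth i).continuous.measurable)]
  exact (ae_restrict_mem (S.isOpen_posSet i).measurableSet).mono fun x hx => hx.2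

lemma posMeasure_supp : T.posMeasure i cubeᶜ = 0 := by
  have h : ∀ᵐ u ∂T.posMeasure i, u ∈ cube := (T.posMeasure_pos i).mono fun u hu =>
    Q0_subset_cube (S.target_sub i (S.χ_supp i (subset_tsupport _ hu.ne')))
  exact ae_iff.1 h

open Classical in
lemma locMeasure_eq : T.locMeasure i =
    (T.posMeasure i).withDensity fun u => ENNReal.ofReal (S.χ i u) := by
  have hd : (fun x => if x ∈ (S.φ i).source then ENNReal.ofReal (S.χ i (S.φ i x)) else 0) =
      (S.posSet i).indicator fun x => ENNReal.ofReal (S.χ i (S.φ i x)) := by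
    funext x
    by_cases hx : x ∈ (S.φ i).source
    · rw [if_pos hx]
      by_cases hp : 0 < S.χ i (S.φ i x)
      · rw [Set.indicator_of_mem (show x ∈ S.posSet i from ⟨hx, hp⟩)]
      · rw [Set.indicator_of_notMem (fun h : x ∈ S.posSet i => hp h.2),
          ENNReal.ofReal_eq_zero.2 (not_lt.1 hp)]
    · rw [if_neg hx, Set.indicator_of_notMem (fun h : x ∈ S.posSet i => hx h.1)]
  have hm : Measurable fun u => ENNReal.ofReal (S.χ i u) :=
    (S.χ_smooth i).continuous.measurable.ennreal_ofReal
  have := T.finite
  rw [locMeasure, hd, withDensity_indicator (S.isOpen_posSet i).measurableSet, posMeasure]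
  have hφ := T.aemeasurable_chart i
  refine Measure.ext fun s hs => ?_
  rw [Measure.map_apply_of_aemeasurable
      (hφ.mono_ac (withDensity_absolutelyContinuous _ _)) hs, withDensity_apply' _ _,
    withDensity_apply' _ _, Measure.restrict_map_of_aemeasurable hφ hs,
    lintegral_map' hm.aemeasurable (hφ.mono_measure Measure.restrict_le_self)]

variable {L : LocalChart S i} {Tc : Current L.loc}

lemma ae_h_eq (hloc : IsLocal T Tc) : ∀ᵐ u ∂T.posMeasure i, Tc.h u = T.locH i u := by
  have h := hloc.2
  rw [hloc.1, T.locMeasure_eq, ae_withDensity_iff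
    (S.χ_smooth i).continuous.measurable.ennreal_ofReal] at h
  filter_upwards [h, T.posMeasure_pos i] with u hu hp
  exact hu (ENNReal.ofReal_pos.2 hp).ne'

/-- The same current before the cut-off. -/
noncomputable def posCurrent (Tc : Current L.loc) : Current L.loc :=
  { Tc with
    ν := T.posMeasure i
    finite := T.isFiniteMeasure_posMeasure i
    supp := T.posMeasure_supp i }

lemma integral_loc (hloc : IsLocal T Tc) (g : V → ℝ) :
    ∫ u, g u ∂Tc.ν = ∫ u, S.χ i u * g u ∂T.posMeasure i := by
  rw [hloc.1, T.locMeasure_eq, integral_withDensity_eq_integral_toReal_smul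
    (S.χ_smooth i).continuous.measurable.ennreal_ofReal
    (Eventually.of_forall fun u => ENNReal.ofReal_lt_top)]
  simp only [ENNReal.toReal_ofReal (S.χ_range i _).1, smul_eq_mul]

/-- The pairing in the chart. -/
lemma app_eq (hloc : IsLocal T Tc) {α : X → Form}
    (hα : ∀ x ∉ S.posSet i, α x = 0) {F : V → Form} (hF : Measurable F)
    (he : ∀ u ∈ (S.φ i).target, S.rep2 i α u = F u) :
    T.app α = ∫ u, q (Tc.h u) (F u) ∂T.posMeasure i := by
  have h0 : ∀ x ∉ S.posSet i, q (T.h x) (α x) = 0 := fun x hx => by simp [hα x hx, q]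
  rw [app, ← setIntegral_eq_integral_of_forall_compl_eq_zero h0]
  have hm : AEStronglyMeasurable (fun u => q (Tc.h u) (F u)) (T.posMeasure i) :=
    ((Setup.continuous_q continuous_fst continuous_snd).measurable.comp
      (Tc.meas.prodMk hF)).aestronglyMeasurable
  rw [posMeasure] at hm ⊢
  rw [integral_map (T.aemeasurable_chart i) hm]
  have hh := ae_of_ae_map (T.aemeasurable_chart i) (T.ae_h_eq i hloc)
  refine integral_congr_ae ?_
  filter_upwards [hh, ae_restrict_mem (S.isOpen_posSet i).measurableSet] with x hx hxp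
  have hs : x ∈ (S.φ i).source := hxp.1
  rw [hx, ← he _ ((S.φ i).map_source hs), locH, (S.φ i).left_inv hs, S.toGeo.q_formIn hs]

end Positive

end Vale.Agent.P204.Gen
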