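import Vale.Agent.P204.Gen.GMonoPush
import Vale.Agent.P204.Gen.Integral

/-!
P204 on a closed four-manifold: almost monotonicity of the density in a chart (module 18).
-/

open MeasureTheory Filter Topology
open scoped BigOperators ContDiff

namespace Vale.Agent.P204.Gen

open Vale.Agent.P204.Torus

variable {X : Type*} [TopologicalSpace X] [MeasurableSpace X]

variable [BorelSpace X]

namespace Positive

variable {S : GSetup X} (T : Positive S) (i : Fin S.n)

/-- The bound of the density is inherited by the chart. -/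
lemma exists_pos_dens [T2Space X] (hd : T.DensBound) :
    ∃ D, 0 ≤ D ∧ ∀ r, 0 < r → r ≤ 1 → ∀ y,
      ∫ z, r ^ 2 / (r ^ 2 + dist0 (z - y) ^ 2) ^ 2 ∂T.posMeasure i ≤ D := by
  have := T.finite
  obtain ⟨D, hD⟩ := hd
  obtain ⟨C, -, hC⟩ := S.toGeo.exists_dX_dist0 (S.χ_cpt i).isCompact (S.χ_supp i)
  set M := max (2 * C) 1
  have hM : 1 ≤ M := le_max_right _ _
  refine ⟨M ^ 4 * max D 0, by positivity, fun r hr hr1 y => ?_⟩
  have hw := (Mass.continuous_w hr y).aestronglyMeasurable (μ := T.posMeasure i)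
  simp only [Mass.w] at hw
  rw [posMeasure] at hw ⊢
  rw [integral_map (T.aemeasurable_chart i) hw]
  rcases Set.eq_empty_or_nonempty (S.posSet i) with he | hne
  · rw [he, Measure.restrict_empty, integral_zero_measure]
    positivity
  have hne' : (tsupport (S.χ i)).Nonempty :=
    hne.elim fun x hx => ⟨_, subset_tsupport _ hx.2.ne'⟩
  obtain ⟨y0, hy0, hmin⟩ := (S.χ_cpt i).exists_isMinOn hne'
    ((continuous_dist0.comp (continuous_id.sub continuous_const)).continuousOn
      (s := tsupport (S.χ i))) (f := fun u => dist0 (u - y))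
  set x0 := (S.φ i).symm y0
  set f : X → ℝ := fun z => r ^ 2 / (r ^ 2 + S.dX z x0 ^ 2) ^ 2 with hf
  have hfi : Integrable f T.ν := by
    refine Integrable.of_bound ?_ (1 / r ^ 2) (Eventually.of_forall fun z => ?_)
    · exact (continuous_const.div ((continuous_const.add
        ((S.toGeo.continuous_dX_left x0).pow 2)).pow 2) fun z => (pow_pos (add_pos_of_pos_of_nonneg (pow_pos hr 2) (sq_nonneg _)) 2).ne').aestronglyMeasurable
    · rw [Real.norm_of_nonneg (by positivity)]
      exact Mass.w_le hr _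
  refine (integral_mono_of_nonneg (g := fun z => M ^ 4 * f z)
    (Eventually.of_forall fun z => by positivity) (hfi.restrict.const_mul _) ?_).trans ?_
  · refine (ae_restrict_mem (S.isOpen_posSet i).measurableSet).mono fun z hz => ?_
    have hzt : S.φ i z ∈ tsupport (S.χ i) := subset_tsupport _ hz.2.ne'
    have h1 := (hC _ hzt _ hy0).1
    rw [(S.φ i).left_inv hz.1] at h1
    have h2 : dist0 (S.φ i z - y0) ≤ 2 * dist0 (S.φ i z - y) := by
      have := dist0_add_le (S.φ i z - y) (y - y0)
      rw [sub_add_sub_cancel, dist0_sub_comm y y0] at this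
      have hm : dist0 (y0 - y) ≤ dist0 (S.φ i z - y) := hmin hzt
      linarith
    have hdx0 : 0 ≤ S.dX z x0 := by unfold Geo.dX; positivity
    have h3 : S.dX z x0 ≤ M * dist0 (S.φ i z - y) := by
      have hd0 := dist0_nonneg (S.φ i z - y0)
      have hd1 := dist0_nonneg (S.φ i z - y)
      rcases le_or_gt 0 C with h | h
      · refine h1.trans ((mul_le_mul_of_nonneg_left h2 h).trans ?_)
        rw [show C * (2 * dist0 (S.φ i z - y)) = 2 * C * dist0 (S.φ i z - y) by ring]
        exact mul_le_mul_of_nonneg_right (le_max_left _ _) hd1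
      · exact (h1.trans (mul_nonpos_of_nonpos_of_nonneg h.le hd0)).trans (by positivity)
    set d := dist0 (S.φ i z - y)
    have h4 : S.dX z x0 ^ 2 ≤ M ^ 2 * d ^ 2 :=
      (pow_le_pow_left₀ hdx0 h3 2).trans_eq (mul_pow _ _ _)
    have h5 : r ^ 2 + S.dX z x0 ^ 2 ≤ M ^ 2 * (r ^ 2 + d ^ 2) := by
      nlinarith [mul_le_mul_of_nonneg_right (one_le_pow₀ hM (n := 2)) (sq_nonneg r)]
    calc r ^ 2 / (r ^ 2 + d ^ 2) ^ 2
        = M ^ 4 * (r ^ 2 / (M ^ 2 * (r ^ 2 + d ^ 2)) ^ 2) := by field_simp
      _ ≤ M ^ 4 * f z := by simp only [hf]; gcongr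
  · rw [integral_const_mul]
    refine mul_le_mul_of_nonneg_left ?_ (by positivity)
    refine (setIntegral_le_integral hfi (Eventually.of_forall fun z => by positivity)).trans ?_
    exact (hD r hr hr1 x0).trans (le_max_left _ _)

variable {L : LocalChart S i} {Tc : Current L.loc}

lemma posCurrent_densBound [T2Space X] (hd : T.DensBound) :
    (T.posCurrent i Tc).DensBound := by
  obtain ⟨D, -, hD⟩ := T.exists_pos_dens i hd
  exact ⟨D, hD⟩

/-- The current in the chart has bounded density. -/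
lemma loc_densBound [T2Space X] (hloc : IsLocal T Tc) (hd : T.DensBound) : Tc.DensBound := by
  have := T.isFiniteMeasure_posMeasure i
  obtain ⟨D, -, hD⟩ := T.exists_pos_dens i hd
  refine ⟨D, fun r hr hr1 y => le_trans ?_ (hD r hr hr1 y)⟩
  rw [Torus.Current.dens, T.integral_loc i hloc]
  refine integral_mono_of_nonneg (Eventually.of_forall fun u => ?_)
    (Mass.integrable_w _ hr y) (Eventually.of_forall fun u => ?_)
  · have := (S.χ_range i u).1
    positivity
  · exact mul_le_of_le_one_left (Mass.w_nonneg r _) (S.χ_range i u).2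

end Positive

/-- The volume in a chart is bounded by the Lebesgue measure. -/
def Geo.MapLe (G : Geo X) (i : Fin G.n) : Prop :=
  ∃ C : ℝ, (G.μ.restrict (G.core i)).map (G.φ i) ≤ ENNReal.ofReal C • (volume.restrict cube)

omit [BorelSpace X] in
/-- Reading in a chart is bounded below on compact sets. -/
lemma exists_pull_lower [T2Space X] (G : Geo X) (i : Fin G.n) {K : Set X} (hK : IsCompact K)
    (hs : K ⊆ (G.φ i).source) : ∃ C, ∀ x ∈ K, ∀ a, ‖a‖ ≤ C * ‖pull (G.dT i x) a‖ := by
  have hb : ∀ k, ∃ C, ∀ x ∈ K ∩ tsupport (G.ψ k), ‖G.trD k i x‖ ≤ C := fun k => by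
    refine (hK.inter_right (isClosed_tsupport _)).exists_bound_of_continuousOn fun x hx => ?_
    have hk := G.ψ_supp k hx.2
    refine ContinuousAt.continuousWithinAt (ContinuousAt.comp
      (g := fderiv ℝ (G.tc k i)) (f := G.φ k) ?_ ((G.φ k).continuousAt hk))
    exact ((G.contDiffAt_tc (G.chart_mem_tdom hk (hs hx.1))).fderiv_right (m := 0)
      (by simp)).continuousAt
  choose C hC using hb
  refine ⟨∑ k, 72 * C k ^ 2, fun x hx a => ?_⟩
  have hk : x ∈ tsupport (G.ψ (G.tr x)) := subset_tsupport _ (G.tr_pos x).ne'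
  have e : pull (G.trD (G.tr x) i x) (pull (G.dT i x) a) = a := by
    rw [← pull_comp, G.dT_eq, G.trD_symm (hs hx) (G.mem_ch x), pull_id]
  conv_lhs => rw [← e]
  refine (norm_pull_le_sq _ _).trans (mul_le_mul_of_nonneg_right ?_ (norm_nonneg _))
  refine le_trans ?_ (Finset.single_le_sum (fun k _ => by positivity) (Finset.mem_univ (G.tr x)))
  gcongr
  exact hC _ x ⟨hx, hk⟩

/-- The test integral of a cut-off exact form, on the torus. -/
lemma exists_test {S : GSetup X} {i : Fin S.n} [T2Space X]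
    (T : Positive S) {L : LocalChart S i} {Tc : Current L.loc} (hloc : IsLocal T Tc) :
    ∃ C, 0 ≤ C ∧ ∀ b : V → V, Smooth b →
      S.Smooth1 (S.fromChart1 i b) ∧
      (∀ x ∉ S.posSet i, S.d (S.fromChart1 i b) x = 0) ∧
      T.app (S.d (S.fromChart1 i b)) = ∫ u, q (Tc.h u)
        (S.χ i u • d1 b u + wedge (grad (S.χ i) u) (b u)) ∂T.posMeasure i ∧
      ∀ x ∈ S.posSet i, ‖piM (S.J x) (S.d (S.fromChart1 i b) x)‖ ≤
        C * (‖piM (L.loc.J (S.φ i x)) (d1 b (S.φ i x))‖ + ‖b (S.φ i x)‖) := by
  obtain ⟨CD, hCD⟩ := exists_pull_lower S.toGeo i (S.isCompact_core i) (S.core_subset_source i)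
  obtain ⟨P, hP0, hP⟩ := L.loc.exists_proj_bound
  obtain ⟨G, hG0, hG⟩ : ∃ G, 0 < G ∧ ∀ u, ‖grad (S.χ i) u‖ ≤ G := by
    obtain ⟨K, hK⟩ := ((S.χ_smooth i).continuous_fderiv (by simp)).bounded_above_of_compact_support
      ((S.χ_cpt i).fderiv ℝ)
    refine ⟨max K 1, by positivity, fun u => (pi_norm_le_iff_of_nonneg (by positivity)).2
      fun j => ?_⟩
    exact ((fderiv ℝ (S.χ i) u).le_opNorm _).trans ((mul_le_of_le_one_right (norm_nonneg _)
      (e_norm_le j)).trans ((hK u).trans (le_max_left _ _)))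
  refine ⟨|CD| * (1 + P * (12 * G)), by positivity, fun b hb => ?_⟩
  set η := S.fromChart1 i b
  set F : V → Form := fun u => S.χ i u • d1 b u + wedge (grad (S.χ i) u) (b u)
  have hη : S.Smooth1 η := S.toGeo.smooth1_fromChart1 hb.smooth.contDiffOn
  have hrep : ∀ u ∈ (S.φ i).target, S.rep2 i (S.d η) u = F u := fun u hu => by
    rw [S.toGeo.rep2_d hη hu]
    have he : S.rep1 i η =ᶠ[𝓝 u] fun v => S.χ i v • b v :=
      eventually_of_mem ((S.φ i).open_target.mem_nhds hu) fun v hv => S.toGeo.rep1_fromChart1 b hv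
    have : d1 (S.rep1 i η) u = d1 (fun v => S.χ i v • b v) u := by
      simp only [d1, he.fderiv_eq]
    rw [this, d1_smul ((S.χ_smooth i).differentiable (by simp) u) (hb.differentiableAt u)]
  have hpt : ∀ x ∈ (S.φ i).source, pull (S.dT i x) (S.d η x) = F (S.φ i x) := fun x hx => by
    rw [← hrep _ ((S.φ i).map_source hx), Geo.rep2, if_pos ((S.φ i).map_source hx),
      (S.φ i).left_inv hx]
  have hzero : ∀ x ∉ S.posSet i, S.d η x = 0 := fun x hx => by
    by_cases hc : x ∈ S.core i
    · have hs := S.core_subset_source i hc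
      have h0 : S.χ i (S.φ i x) = 0 :=
        le_antisymm (not_lt.1 fun h => hx ⟨hs, h⟩) (S.χ_range i _).1
      have hz : F (S.φ i x) = 0 := by
        simp only [F, h0, zero_smul, zero_add, S.grad_χ_eq_zero i h0]
        ext k; simp [wedge_apply]
      have := hCD x hc (S.d η x)
      rw [hpt x hs, hz, norm_zero, mul_zero] at this
      exact norm_le_zero_iff.1 this
    · refine S.d_eq_zero ?_
      filter_upwards [(S.isCompact_core i).isClosed.isOpen_compl.mem_nhds hc] with z hz
      simp only [η, Geo.fromChart1]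
      split_ifs with hzs
      · have h0 : S.χ i (S.φ i z) = 0 := by
          by_contra h
          exact hz ⟨_, subset_tsupport _ h, (S.φ i).left_inv hzs⟩
        funext k; simp [h0, pullV, pair]
      · rfl
  have hFc : Continuous F := by
    have hg : Continuous fun u => grad (S.χ i) u := continuous_pi fun k =>
      ((S.χ_smooth i).continuous_fderiv (by simp)).clm_apply continuous_const
    refine ((S.χ_smooth i).continuous.smul (smooth_d1 hb).smooth.continuous).add ?_
    refine (PiLp.continuous_toLp 2 _).comp (continuous_pi fun k => ?_)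
    simp only [pair_e']
    have := hb.smooth.continuous
    fun_prop
  refine ⟨hη, hzero, T.app_eq i hloc hzero hFc.measurable hrep, fun x hx => ?_⟩
  have hxs : x ∈ (S.φ i).source := hx.1
  set u := S.φ i x
  have hxc := S.posSet_subset_core i hx
  have hut : u ∈ tsupport (S.χ i) := subset_tsupport _ hx.2.ne'
  have hJ : L.loc.J u =
      (S.dT i x).inverse.comp ((S.J x).comp (S.dT i x)) := by
    rw [((L.agree u hut).self_of_nhds).1, Geo.repE, if_pos ((S.φ i).map_source hxs),
      (S.φ i).left_inv hxs]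
  have hnat : pull (S.dT i x) (piM (S.J x) (S.d η x)) = piM (L.loc.J u) (F u) := by
    rw [← hpt x hxs, hJ, piM_conj (S.toGeo.dT_det_ne hxs)]
  refine (hCD x hxc _).trans ((mul_le_mul_of_nonneg_right (le_abs_self CD) (norm_nonneg _)).trans ?_)
  rw [mul_assoc, hnat]
  refine mul_le_mul_of_nonneg_left ?_ (abs_nonneg _)
  simp only [F, piM_add, piM_smul]
  refine (norm_add_le _ _).trans ?_
  have h1 : ‖S.χ i u • piM (L.loc.J u) (d1 b u)‖ ≤ ‖piM (L.loc.J u) (d1 b u)‖ := by
    rw [norm_smul, Real.norm_of_nonneg (S.χ_range i u).1]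
    exact mul_le_of_le_one_left (norm_nonneg _) (S.χ_range i u).2
  have h2 : ‖piM (L.loc.J u) (wedge (grad (S.χ i) u) (b u))‖ ≤ P * (12 * G) * ‖b u‖ := by
    refine ((hP u _).2.trans (mul_le_mul_of_nonneg_left (norm_wedge_le _ _) hP0.le)).trans ?_
    calc P * (12 * (‖grad (S.χ i) u‖ * ‖b u‖)) ≤ P * (12 * (G * ‖b u‖)) := by
          gcongr; exact hG u
      _ = _ := by ring
  calc _ ≤ 1 * ‖piM (L.loc.J u) (d1 b u)‖ + P * (12 * G) * ‖b u‖ :=
        add_le_add (h1.trans_eq (one_mul _).symm) h2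
    _ ≤ (1 + P * (12 * G)) * ‖piM (L.loc.J u) (d1 b u)‖ + (1 + P * (12 * G)) * ‖b u‖ := by
        gcongr <;> linarith [show 0 ≤ P * (12 * G) by positivity]
    _ = _ := by ring

/-- The cut-off primitives at two scales. -/
lemma exists_prim_diff (S : Torus.Setup) : ∃ C, 0 < C ∧ ∀ r R, 0 < r → r ≤ R → R ≤ 1 → ∀ y z,
    ‖S.prim r y z - S.prim R y z‖ ≤
      C * (Real.sqrt R / (dist0 (z - y) * Real.sqrt (dist0 (z - y)))) := by
  obtain ⟨c', C', hc', hC', hρ⟩ := S.exists_rho2_bounds
  obtain ⟨M, hM0, hM⟩ := exists_bound S.smooth_Om.smooth.continuous S.smooth_Om.periodic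
  set c := min c' 1
  have hc : 0 < c := lt_min hc' one_pos
  refine ⟨2 * (12 * M) * (6 / c ^ 3), by positivity, fun r R hr hrR hR y z => ?_⟩
  set d := dist0 (z - y)
  have hd0 : 0 ≤ d := dist0_nonneg _
  have hcd : c * d ^ 2 ≤ S.rho2 z (z - y) :=
    (mul_le_mul_of_nonneg_right (min_le_left _ _) (sq_nonneg _)).trans (hρ z (z - y)).1
  obtain ⟨hA, hB, hX⟩ := weight_diff_le hc (min_le_right _ _) hr hrR hd0 hcd
  have hw : ‖iota (sv (z - y)) (S.Om z)‖ ≤ 12 * M * d := by
    refine (norm_iota_le _ _).trans ?_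
    calc 12 * (‖S.Om z‖ * ‖sv (z - y)‖) ≤ 12 * (M * d) := by
          gcongr
          · exact hM z
          · exact norm_sv_le _
      _ = _ := by ring
  set ρ := S.rho2 z (z - y)
  rw [Torus.Setup.prim, Torus.Setup.prim, ← sub_smul, norm_smul, Real.norm_eq_abs,
    show 2 / (r ^ 2 + ρ) - 2 / (R ^ 2 + ρ) = 2 * (1 / (r ^ 2 + ρ) - 1 / (R ^ 2 + ρ)) by ring,
    abs_mul, abs_two, abs_of_nonneg hA]
  calc 2 * (1 / (r ^ 2 + ρ) - 1 / (R ^ 2 + ρ)) * ‖iota (sv (z - y)) (S.Om z)‖
      ≤ 2 * (1 / (r ^ 2 + ρ) - 1 / (R ^ 2 + ρ)) * (12 * M * d) := by gcongr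
    _ = 2 * (12 * M) * (d * (1 / (r ^ 2 + ρ) - 1 / (R ^ 2 + ρ))) := by ring
    _ ≤ 2 * (12 * M) * (6 / c ^ 3 * (Real.sqrt R / (d * Real.sqrt d))) := by
        refine mul_le_mul_of_nonneg_left (le_trans ?_ hX) (by positivity)
        exact le_add_of_nonneg_right (by positivity)
    _ = _ := by ring

lemma d1_sub' {a b : V → V} {x : V} (ha : DifferentiableAt ℝ a x) (hb : DifferentiableAt ℝ b x) :
    d1 (fun z => a z - b z) x = d1 a x - d1 b x := by
  ext k
  simp only [d1_apply, fderiv_fun_sub ha hb, PiLp.sub_apply, sub_apply, Pi.sub_apply]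
  ring

/-- Almost monotonicity in a chart. -/
theorem exists_monotone2 [T2Space X] {S : GSetup X} {i : Fin S.n} (hμ : S.toGeo.MapLe i)
    (hB : Basic S.toGeo) {T : GCurrent S} {D : GUData T} (hS : D.SLimit) (hd : T.DensBound)
    (L : LocalChart S i) (Tc : Torus.Current L.loc) (hloc : IsLocal T.toPositive Tc) :
    Tc.Monotone2 := by
  set P := T.toPositive
  obtain ⟨Ct, hCt0, htest⟩ := exists_test P hloc
  obtain ⟨A, hA0, hA⟩ := L.loc.exists_al_diff
  obtain ⟨B, hB0, hBp⟩ := exists_prim_diff L.loc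
  obtain ⟨W, hW⟩ := Tc.exists_int_three_halves (P.loc_densBound i hloc hd)
  obtain ⟨W', hW'⟩ := (P.posCurrent i Tc).exists_int_three_halves
    (P.posCurrent_densBound i hd)
  obtain ⟨Cs, hCs⟩ := hS.Sf_bound
  obtain ⟨N, hN0, hN⟩ := Tc.exists_h_bound
  obtain ⟨G, hG0, hG⟩ : ∃ G, 0 < G ∧ ∀ u, ‖grad (S.χ i) u‖ ≤ G := by
    obtain ⟨K, hK⟩ := ((S.χ_smooth i).continuous_fderiv (by simp)).bounded_above_of_compact_support
      ((S.χ_cpt i).fderiv ℝ)
    refine ⟨max K 1, by positivity, fun u => (pi_norm_le_iff_of_nonneg (by positivity)).2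
      fun j => ?_⟩
    exact ((fderiv ℝ (S.χ i) u).le_opNorm _).trans ((mul_le_of_le_one_right (norm_nonneg _)
      (e_norm_le j)).trans ((hK u).trans (le_max_left _ _)))
  obtain ⟨CM, hCM⟩ := hμ
  set Q := sinPowMass ((3 : ℕ) / 4 : ℝ) ^ 4
  set N2 := Ct * (A + B) * Real.sqrt (max CM 0 * Q)
  refine ⟨A * |W| + 6 * (N * (12 * (G * B))) * |W'| + |Cs| * |N2| + 1, by positivity,
    fun r R hr hrR hR y => ?_⟩
  have hR0 : 0 < R := hr.trans_le hrR
  set b : V → V := fun z => L.loc.prim r y z - L.loc.prim R y z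
  have hb : Smooth b := ⟨(L.loc.smooth_prim hr y).smooth.sub (L.loc.smooth_prim hR0 y).smooth,
    fun x n => by simp only [b, (L.loc.smooth_prim hr y).periodic x n,
      (L.loc.smooth_prim hR0 y).periodic x n]⟩
  have hd1 : ∀ u, d1 b u = L.loc.al r y u - L.loc.al R y u := fun u =>
    d1_sub' ((L.loc.smooth_prim hr y).differentiableAt u) ((L.loc.smooth_prim hR0 y).differentiableAt u)
  obtain ⟨hη, hzero, happ, hpiM⟩ := htest b hb
  set Δ := S.d (S.fromChart1 i b)
  have hΔs : S.Smooth2 Δ := hB.smooth_d _ hη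
  have hU : D.U Δ = 0 := D.closed _ hΔs fun ξ hξ => hB.stokes _ _ hη hξ
  set Xy : V → ℝ := fun u => Real.sqrt R / (dist0 (u - y) * Real.sqrt (dist0 (u - y)))
  have hX0 : ∀ u, 0 ≤ Xy u := fun u => by have := dist0_nonneg (u - y); positivity
  have hXe : ∀ u, Xy u = Real.sqrt R * (dist0 (u - y) * Real.sqrt (dist0 (u - y)))⁻¹ := fun u =>
    div_eq_mul_inv _ _
  have hs : 0 ≤ Real.sqrt R := Real.sqrt_nonneg R
  -- the anti-invariant part
  have hn2 : S.n2 (fun x => piM (S.J x) (Δ x)) ≤ N2 * Real.sqrt R := by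
    set F : V → ℝ := fun u => (Ct * (A + B)) ^ 2 * R * (dist0 (u - y) ^ 3)⁻¹
    have hFi : Integrable F cubeVol := (integrable_invPow y (by norm_num : 3 < 4)).const_mul _
    have hle : (S.μ.restrict (S.core i)).map (S.φ i) ≤ ENNReal.ofReal CM • cubeVol := hCM
    have hFm : Integrable F ((S.μ.restrict (S.core i)).map (S.φ i)) :=
      (hFi.smul_measure ENNReal.ofReal_ne_top).mono_measure hle
    have hφm : AEMeasurable (S.φ i) (S.μ.restrict (S.core i)) :=
      ((S.φ i).continuousOn.mono (S.core_subset_source i)).aemeasurable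
        (S.isCompact_core i).measurableSet
    have hFx : Integrable (fun x => F (S.φ i x)) (S.μ.restrict (S.core i)) :=
      (integrable_map_measure hFm.aestronglyMeasurable hφm).1 hFm
    have hF0 : ∀ u, 0 ≤ F u := fun u => by
      have := dist0_nonneg (u - y)
      positivity
    have h1 : ∫ x, ‖piM (S.J x) (Δ x)‖ ^ 2 ∂S.μ ≤ max CM 0 * ((Ct * (A + B)) ^ 2 * R * Q) := by
      rw [← setIntegral_eq_integral_of_forall_compl_eq_zero (s := S.core i) fun x hx => ?_]
      · refine (integral_mono_of_nonneg (Eventually.of_forall fun x => sq_nonneg _) hFx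
          (Eventually.of_forall fun x => ?_)).trans ?_
        · by_cases hx : x ∈ S.posSet i
          · have h2 := hpiM x hx
            rw [hd1] at h2
            have h3 : ‖piM (S.J x) (Δ x)‖ ≤ Ct * (A + B) * Xy (S.φ i x) := by
              refine h2.trans ?_
              rw [mul_assoc, add_mul]
              exact mul_le_mul_of_nonneg_left
                (add_le_add (hA r R hr hrR hR y _).1 (hBp r R hr hrR hR y _)) hCt0
            refine (pow_le_pow_left₀ (norm_nonneg _) h3 2).trans_eq ?_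
            simp only [F, Xy]
            rw [mul_pow (Ct * (A + B)), div_pow, mul_pow (dist0 _), Real.sq_sqrt hR0.le,
              Real.sq_sqrt (dist0_nonneg _)]
            ring
          · have hz : piM (S.J x) (Δ x) = 0 := by
              rw [hzero x hx, ← zero_smul ℝ (0 : Form), piM_smul, zero_smul, zero_smul]
            simpa [hz] using hF0 (S.φ i x)
        · rw [← integral_map hφm hFm.aestronglyMeasurable]
          refine (integral_mono_measure hle (Eventually.of_forall hF0)
            (hFi.smul_measure ENNReal.ofReal_ne_top)).trans ?_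
          rw [integral_smul_measure, ENNReal.toReal_ofReal', smul_eq_mul, integral_const_mul]
          exact mul_le_mul_of_nonneg_left (mul_le_mul_of_nonneg_left
            (integral_invPow_le y (by norm_num : 3 < 4)) (by positivity)) (le_max_right _ _)
      · rw [hzero x fun h => hx (S.posSet_subset_core i h), ← zero_smul ℝ (0 : Form), piM_smul]
        simp
    refine (Real.sqrt_le_sqrt h1).trans_eq ?_
    rw [show max CM 0 * ((Ct * (A + B)) ^ 2 * R * Q) = (Ct * (A + B)) ^ 2 * (max CM 0 * Q) * R by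
      ring, Real.sqrt_mul' _ hR0.le, Real.sqrt_mul (sq_nonneg _), Real.sqrt_sq (by positivity)]
  have h2 : |P.app Δ| ≤ |Cs| * |N2| * Real.sqrt R := by
    have h := hCs Δ hΔs
    rw [GUData.Sf, hU, zero_sub, abs_neg] at h
    refine h.trans ((mul_le_mul_of_nonneg_right (le_abs_self Cs) (Real.sqrt_nonneg _)).trans ?_)
    rw [mul_assoc]
    exact mul_le_mul_of_nonneg_left
      (hn2.trans (mul_le_mul_of_nonneg_right (le_abs_self _) hs)) (abs_nonneg _)
  -- the identity
  obtain ⟨hir, her⟩ := Tc.app_al hr (hrR.trans hR) y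
  obtain ⟨hiR, heR⟩ := Tc.app_al hR0 hR y
  have := P.isFiniteMeasure_posMeasure i
  obtain ⟨MA, hMA0, hMA⟩ := exists_bound (smooth_d1 hb).smooth.continuous (smooth_d1 hb).periodic
  obtain ⟨Mb, hMb0, hMb⟩ := exists_bound hb.smooth.continuous hb.periodic
  have hcg : Continuous fun u => grad (S.χ i) u := continuous_pi fun k =>
    ((S.χ_smooth i).continuous_fderiv (by simp)).clm_apply continuous_const
  have hw : Continuous fun u => wedge (grad (S.χ i) u) (b u) := by
    refine (PiLp.continuous_toLp 2 _).comp (continuous_pi fun k => ?_)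
    simp only [pair_e']
    have := hb.smooth.continuous
    fun_prop
  have hi1 : Integrable (fun u => S.χ i u * q (Tc.h u) (d1 b u)) (P.posMeasure i) := by
    refine Integrable.of_bound (((S.χ_smooth i).continuous.measurable.mul
      ((Torus.Setup.continuous_q continuous_fst continuous_snd).measurable.comp
        (Tc.meas.prodMk (smooth_d1 hb).smooth.continuous.measurable)))).aestronglyMeasurable
      (6 * (N * MA)) (Eventually.of_forall fun u => ?_)
    rw [norm_mul, Real.norm_of_nonneg (S.χ_range i u).1, Real.norm_eq_abs]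
    refine (mul_le_of_le_one_left (abs_nonneg _) (S.χ_range i u).2).trans ((abs_q_le _ _).trans ?_)
    gcongr
    · exact hN u
    · exact hMA u
  have hqw : ∀ u, |q (Tc.h u) (wedge (grad (S.χ i) u) (b u))| ≤
      6 * (N * (12 * (G * ‖b u‖))) := fun u => by
    refine (abs_q_le _ _).trans ?_
    gcongr
    · exact hN u
    · exact (norm_wedge_le _ _).trans (by gcongr; exact hG u)
  have hi2 : Integrable (fun u => q (Tc.h u) (wedge (grad (S.χ i) u) (b u))) (P.posMeasure i) := by
    refine Integrable.of_bound ((Torus.Setup.continuous_q continuous_fst continuous_snd).measurable.comp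
        (Tc.meas.prodMk hw.measurable)).aestronglyMeasurable
      (6 * (N * (12 * (G * Mb)))) (Eventually.of_forall fun u => ?_)
    rw [Real.norm_eq_abs]
    refine (hqw u).trans ?_
    gcongr
    exact hMb u
  simp only [q_add_right, q_smul_right] at happ
  rw [integral_add hi1 hi2] at happ
  have hloc1 : ∫ u, S.χ i u * q (Tc.h u) (d1 b u) ∂P.posMeasure i =
      Tc.app (L.loc.al r y) - Tc.app (L.loc.al R y) := by
    rw [← P.integral_loc i hloc]
    simp only [hd1, q_sub_right]
    exact integral_sub (Torus.UData.integrable_app (L.loc.smooth_al hr y))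
      (Torus.UData.integrable_app (L.loc.smooth_al hR0 y))
  have h3 : |∫ u, q (Tc.h u) (wedge (grad (S.χ i) u) (b u)) ∂P.posMeasure i| ≤
      6 * (N * (12 * (G * B))) * |W'| * Real.sqrt R := by
    refine (abs_integral_le_integral_abs).trans ?_
    refine (integral_mono_of_nonneg (Eventually.of_forall fun u => abs_nonneg _)
      (((hW' y).1.const_mul (Real.sqrt R)).const_mul (6 * (N * (12 * (G * B)))))
      (Eventually.of_forall fun u => (hqw u).trans ?_)).trans ?_
    · simp only []
      rw [← hXe u, show 6 * (N * (12 * (G * B))) * Xy u = 6 * (N * (12 * (G * (B * Xy u)))) by ring]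
      gcongr
      exact hBp r R hr hrR hR y u
    · rw [integral_const_mul, integral_const_mul, mul_assoc (6 * (N * (12 * (G * B)))),
        mul_comm |W'|]
      exact mul_le_mul_of_nonneg_left (mul_le_mul_of_nonneg_left
        ((hW' y).2.trans (le_abs_self W')) hs) (by positivity)
  have h4 : |∫ z, L.loc.alErr r y z (Tc.h z) ∂Tc.ν - ∫ z, L.loc.alErr R y z (Tc.h z) ∂Tc.ν| ≤
      A * |W| * Real.sqrt R := by
    rw [← integral_sub hir hiR]
    refine (abs_integral_le_integral_abs).trans ?_
    refine (integral_mono_of_nonneg (Eventually.of_forall fun z => abs_nonneg _)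
      (((hW y).1.const_mul (Real.sqrt R)).const_mul A) (Eventually.of_forall fun z => ?_)).trans ?_
    · exact ((hA r R hr hrR hR y z).2 (Tc.h z) (Tc.psd z) (Tc.trace z)).trans_eq
        (congrArg (A * ·) (hXe z))
    · rw [integral_const_mul, integral_const_mul, mul_assoc A, mul_comm |W|]
      exact mul_le_mul_of_nonneg_left (mul_le_mul_of_nonneg_left
        ((hW y).2.trans (le_abs_self W)) hs) hA0.le
  rw [happ, hloc1, her, heR] at h2
  have k0 : 0 ≤ A * |W| * Real.sqrt R := by positivity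
  have k1 : 0 ≤ |Cs| * |N2| * Real.sqrt R := by positivity
  have k2 : 0 ≤ 6 * (N * (12 * (G * B))) * |W'| * Real.sqrt R := by positivity
  rw [abs_le] at h2 h3 h4 ⊢
  constructor <;> linarith

end Vale.Agent.P204.Gen
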