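import Vale.Agent.P204.Gen.Interface
import Vale.Agent.P204.Gen.Congr
import Vale.Agent.P204.Gen.GeoSmooth

/-!
P204, general four-manifold: the data of the almost complex structure in a chart, and the pairing
of two positive forms read in charts (module `GPairMass`, helper51).
-/

open MeasureTheory Filter Topology Set
open scoped BigOperators ContDiff

namespace Vale.Agent.P204.Gen

open Vale.Agent.P204.Torus

namespace PairAux

/-! ## Pull-backs -/

lemma contDiff_pull : ContDiff ℝ (⊤ : ℕ∞) fun p : (V →L[ℝ] V) × Form => pull p.1 p.2 := by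
  refine contDiff_piLp' 2 (fun k => ?_)
  show ContDiff ℝ (⊤ : ℕ∞) fun p : (V →L[ℝ] V) × Form => ev p.2 (p.1 (e (fi k))) (p.1 (e (se k)))
  have h : ∀ k, ContDiff ℝ (⊤ : ℕ∞) fun p : (V →L[ℝ] V) × Form => p.2 k := fun k =>
    (contDiff_piLp_apply 2).comp contDiff_snd
  have h' : ∀ u i, ContDiff ℝ (⊤ : ℕ∞) fun p : (V →L[ℝ] V) × Form => p.1 u i := fun u i =>
    (contDiff_apply ℝ ℝ i).comp (contDiff_fst.clm_apply contDiff_const)
  simp only [ev_def]
  fun_prop

lemma contDiff_ev3 : ContDiff ℝ (⊤ : ℕ∞) fun p : Form × V × V => ev p.1 p.2.1 p.2.2 := by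
  have h : ∀ k, ContDiff ℝ (⊤ : ℕ∞) fun p : Form × V × V => p.1 k := fun k =>
    (contDiff_piLp_apply 2).comp contDiff_fst
  have h1 : ∀ i, ContDiff ℝ (⊤ : ℕ∞) fun p : Form × V × V => p.2.1 i := fun i =>
    (contDiff_apply ℝ ℝ i).comp (contDiff_fst.comp contDiff_snd)
  have h2 : ∀ i, ContDiff ℝ (⊤ : ℕ∞) fun p : Form × V × V => p.2.2 i := fun i =>
    (contDiff_apply ℝ ℝ i).comp (contDiff_snd.comp contDiff_snd)
  simp only [ev_def]
  fun_prop

lemma contDiff_det : ContDiff ℝ (⊤ : ℕ∞) fun A : V →L[ℝ] V => A.det := by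
  have h' : ∀ u i, ContDiff ℝ (⊤ : ℕ∞) fun A : V →L[ℝ] V => A u i := fun u i =>
    (contDiff_apply ℝ ℝ i).comp (contDiff_id.clm_apply contDiff_const)
  simp only [det_eq_det4, det4]
  fun_prop

lemma continuous_piP_pair : Continuous fun p : (V →L[ℝ] V) × Form => piP p.1 p.2 :=
  (continuous_snd.add contDiff_pull.continuous).const_smul (1 / 2 : ℝ)

/-- A function smooth on an open set is Lipschitz on its compact subsets. -/
lemma exists_lipschitz_on {E F : Type*} [NormedAddCommGroup E] [NormedSpace ℝ E]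
    [NormedAddCommGroup F] [NormedSpace ℝ F] {f : E → F} {U K : Set E} (hU : IsOpen U)
    (hK : IsCompact K) (hKU : K ⊆ U) (hf : ContDiffOn ℝ ∞ f U) :
    ∃ L, 0 ≤ L ∧ ∀ u ∈ K, ∀ v ∈ K, ‖f u - f v‖ ≤ L * ‖u - v‖ := by
  have hl : LocallyLipschitzOn K f := fun x hx => by
    obtain ⟨k, t, ht, hk⟩ := ((hf.contDiffAt (hU.mem_nhds (hKU hx))).of_le
      (by exact_mod_cast le_top (a := (1 : ℕ∞)))).exists_lipschitzOnWith
    exact ⟨k, t, mem_nhdsWithin_of_mem_nhds ht, hk⟩
  obtain ⟨k, hk⟩ := hl.exists_lipschitzOnWith_of_compact hK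
  exact ⟨k, k.2, fun u hu v hv => by simpa only [← dist_eq_norm] using hk.dist_le_mul u hu v hv⟩

lemma bdd_mono {D : Datum} {c M M' : ℝ} (h : D.Bdd c M) (hM : M ≤ M') : D.Bdd c M' :=
  ⟨h.lower, h.kap_ge, h.J_le.trans hM, h.Om_le.trans hM⟩

end PairAux

open PairAux

namespace GSetup

variable {X : Type*} [TopologicalSpace X] [MeasurableSpace X] (S : GSetup X)

lemma Om_eq_pt (x : X) : S.Om x = (S.pt x).Om 0 := rfl

/-- The invariant part of the taming form in the chart `i`. -/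
noncomputable def omC (i : Fin S.n) (u : V) : Form :=
  piP (S.repE i S.J u) (S.rep2 i S.om u)

lemma repE_chart {i : Fin S.n} {x : X} (hx : x ∈ (S.φ i).source) :
    S.repE i S.J (S.φ i x) = (S.dT i x).inverse.comp ((S.J x).comp (S.dT i x)) := by
  rw [Geo.repE_apply S.J ((S.φ i).map_source hx), (S.φ i).left_inv hx]

lemma comp_repE {i : Fin S.n} {x : X} (hx : x ∈ (S.φ i).source) :
    (S.dT i x).comp (S.repE i S.J (S.φ i x)) = (S.J x).comp (S.dT i x) := by
  rw [S.repE_chart hx, ← ContinuousLinearMap.comp_assoc,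
    self_comp_inverse (S.dT_det_ne hx)]
  ext u
  rfl

lemma dT_repE {i : Fin S.n} {x : X} (hx : x ∈ (S.φ i).source) (u : V) :
    S.dT i x (S.repE i S.J (S.φ i x) u) = S.J x (S.dT i x u) :=
  congrArg (fun A : V →L[ℝ] V => A u) (S.comp_repE hx)

lemma piP_repE {i : Fin S.n} {x : X} (hx : x ∈ (S.φ i).source) (α : Form) :
    piP (S.repE i S.J (S.φ i x)) (pull (S.dT i x) α) = pull (S.dT i x) (piP (S.J x) α) ∧
      piM (S.repE i S.J (S.φ i x)) (pull (S.dT i x) α) = pull (S.dT i x) (piM (S.J x) α) := by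
  have h : pull (S.repE i S.J (S.φ i x)) (pull (S.dT i x) α) =
      pull (S.dT i x) (pull (S.J x) α) := by
    rw [← pull_comp, ← pull_comp, S.comp_repE hx]
  constructor
  · show (1 / 2 : ℝ) • (_ + _) = _
    rw [h, piP, pull_smul, pull_add]
  · show (1 / 2 : ℝ) • (_ - _) = _
    rw [h, piM, pull_smul, pull_sub]

lemma omC_apply {i : Fin S.n} {x : X} (hx : x ∈ (S.φ i).source) :
    S.omC i (S.φ i x) = pull (S.dT i x) (S.Om x) := by
  rw [omC, S.rep2_apply S.om hx, (S.piP_repE hx _).1]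
  rfl

/-- The almost complex structure and the invariant part of the taming form at one point of the
chart `i`. -/
noncomputable def dat (i : Fin S.n) (x : X) (hx : x ∈ (S.φ i).source) : Datum where
  J := S.repE i S.J (S.φ i x)
  Om := S.omC i (S.φ i x)
  sq u := by
    rw [S.repE_chart hx]
    simp only [ContinuousLinearMap.comp_apply]
    have h1 : ∀ w, S.dT i x ((S.dT i x).inverse w) = w := fun w =>
      congrArg (fun A : V →L[ℝ] V => A w) (self_comp_inverse (S.dT_det_ne hx))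
    have h2 : ∀ w, (S.dT i x).inverse (S.dT i x w) = w := fun w =>
      congrArg (fun A : V →L[ℝ] V => A w) (inverse_comp_self (S.dT_det_ne hx))
    rw [h1, S.J_sq, map_neg, h2]
  inv := by
    rw [S.omC_apply hx, (S.piP_repE hx _).2]
    have h : piM (S.J x) (S.Om x) = 0 := ((S.pt x).psd_Om 0).1
    rw [h]
    exact form_ext fun u v => by simp [ev_pull, ev_zero]
  pos u hu := by
    rw [S.omC_apply hx, ev_pull, S.dT_repE hx]
    refine (S.pt x).g_pos 0 fun h0 => hu ?_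
    have := congrArg (fun A : V →L[ℝ] V => A u) (inverse_comp_self (S.dT_det_ne hx))
    simp only [ContinuousLinearMap.comp_apply, h0, map_zero] at this
    simpa using this.symm
  orient := by
    rw [S.omC_apply hx, q_pull]
    refine mul_pos (S.dT_det_pos hx) ?_
    have h := (S.pt x).kap_pos 0
    rw [Setup.kap] at h
    rw [Om_eq_pt]
    linarith

/-- A positive normalised form read in the chart `i`. -/
lemma formIn_psd {i : Fin S.n} {x : X} (hx : x ∈ (S.φ i).source) {h : Form} (hh : S.Psd x h)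
    (ht : q h (S.Om x) = 1) :
    (S.dat i x hx).Psd (S.formIn i x h) ∧ q (S.formIn i x h) (S.dat i x hx).Om = 1 := by
  have hd := S.dT_det_pos hx
  refine ⟨(psd_iff' (S.dat i x hx) _).2 ⟨?_, fun u => ?_⟩, ?_⟩
  · show piM (S.repE i S.J (S.φ i x)) _ = 0
    rw [Geo.formIn, piM_smul, (S.piP_repE hx _).2, hh.1]
    refine form_ext fun u v => ?_
    simp [ev_smul, ev_pull, ev_zero]
  · show 0 ≤ ev _ u (S.repE i S.J (S.φ i x) u)
    rw [Geo.formIn, ev_smul, ev_pull, S.dT_repE hx]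
    exact mul_nonneg (inv_nonneg.2 hd.le) (hh.2 _)
  · show q _ (S.omC i (S.φ i x)) = 1
    rw [S.omC_apply hx, Geo.formIn, q_smul_left, q_pull, ← mul_assoc, inv_mul_cancel₀ hd.ne',
      one_mul, ht]
where
  psd_iff' (D : Datum) (h : Form) : D.Psd h ↔ piM D.J h = 0 ∧ ∀ u, 0 ≤ ev h u (D.J u) :=
    D.psd_iff h

lemma continuousOn_omC (i : Fin S.n) : ContinuousOn (S.omC i) (S.φ i).target :=
  continuous_piP_pair.comp_continuousOn
    ((S.J_smooth i).continuousOn.prodMk (S.om_smooth i).continuousOn)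

lemma contDiffOn_omC (i : Fin S.n) : ContDiffOn ℝ ∞ (S.omC i) (S.φ i).target :=
  (((S.om_smooth i).add
    (contDiff_pull.comp_contDiffOn ((S.J_smooth i).prodMk (S.om_smooth i)))).const_smul
      (1 / 2 : ℝ))

variable {K : Set V}

/-- Uniform bounds and the Lipschitz bound of the data on a compact part of a chart. -/
lemma exists_dat_bound (i : Fin S.n) (hK : IsCompact K) (hKt : K ⊆ (S.φ i).target) :
    ∃ c M : ℝ, 0 < c ∧ 0 < M ∧ ∀ x (hx : x ∈ (S.φ i).source), S.φ i x ∈ K →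
      (S.dat i x hx).Bdd c M ∧ ∀ y (hy : y ∈ (S.φ i).source), S.φ i y ∈ K →
        ‖(S.dat i x hx).J - (S.dat i y hy).J‖ ≤ M * ‖S.φ i x - S.φ i y‖ ∧
        ‖(S.dat i x hx).Om - (S.dat i y hy).Om‖ ≤ M * ‖S.φ i x - S.φ i y‖ := by
  have hO := (S.φ i).open_target
  obtain ⟨L1, hL1, l1⟩ := exists_lipschitz_on hO hK hKt (S.J_smooth i)
  obtain ⟨L2, hL2, l2⟩ := exists_lipschitz_on hO hK hKt (S.contDiffOn_omC i)
  obtain ⟨N1, n1⟩ := hK.exists_bound_of_continuousOn ((S.J_smooth i).continuousOn.mono hKt)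
  obtain ⟨N2, n2⟩ := hK.exists_bound_of_continuousOn ((S.continuousOn_omC i).mono hKt)
  have hdat : ∀ u ∈ K, ∃ x, ∃ hx : x ∈ (S.φ i).source, (S.dat i x hx).J = S.repE i S.J u ∧
      (S.dat i x hx).Om = S.omC i u := fun u hu =>
    ⟨(S.φ i).symm u, (S.φ i).map_target (hKt hu), by
      show S.repE i S.J _ = _; rw [(S.φ i).right_inv (hKt hu)], by
      show S.omC i _ = _; rw [(S.φ i).right_inv (hKt hu)]⟩
  have hfc : ContinuousOn
      (fun p : V × V => ev (S.omC i p.1) p.2 (S.repE i S.J p.1 p.2))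
      (K ×ˢ Metric.sphere (0 : V) 1) := by
    have h1 : ContinuousOn (fun p : V × V => S.omC i p.1) (K ×ˢ Metric.sphere (0 : V) 1) :=
      ((S.continuousOn_omC i).mono hKt).comp continuousOn_fst fun p hp => hp.1
    have h2 : ContinuousOn (fun p : V × V => S.repE i S.J p.1) (K ×ˢ Metric.sphere (0 : V) 1) :=
      ((S.J_smooth i).continuousOn.mono hKt).comp continuousOn_fst fun p hp => hp.1
    have h3 : Continuous fun p : Form × V × V => ev p.1 p.2.1 p.2.2 :=
      contDiff_ev3.continuous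
    exact h3.comp_continuousOn (h1.prodMk (continuousOn_snd.prodMk (h2.clm_apply continuousOn_snd)))
  have hgc : ContinuousOn (fun u => q (S.omC i u) (S.omC i u) / 2) K := by
    have h : Continuous fun a : Form => q a a / 2 :=
      (Setup.continuous_q continuous_id continuous_id).div_const 2
    exact h.comp_continuousOn ((S.continuousOn_omC i).mono hKt)
  obtain ⟨c1, hc1, k1⟩ := (hK.prod (isCompact_sphere (0 : V) 1)).exists_forall_le' hfc
    (a := 0) fun p hp => by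
      obtain ⟨x, hx, hJ, hOm⟩ := hdat p.1 hp.1
      rw [← hJ, ← hOm]
      exact (S.dat i x hx).pos p.2 fun h => by simpa [h] using hp.2
  obtain ⟨c2, hc2, k2⟩ := hK.exists_forall_le' hgc (a := 0) fun u hu => by
    obtain ⟨x, hx, -, hOm⟩ := hdat u hu
    rw [← hOm]
    exact half_pos (S.dat i x hx).orient
  refine ⟨min c1 c2, max (max N1 N2) (max L1 L2) + 1, lt_min hc1 hc2, ?_, fun x hx hxK => ?_⟩
  · have : 0 ≤ max L1 L2 := hL1.trans (le_max_left _ _)
    linarith [le_max_right (max N1 N2) (max L1 L2)]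
  refine ⟨⟨fun u => ?_, (min_le_right _ _).trans (k2 _ hxK), ?_, ?_⟩, fun y hy hyK => ⟨?_, ?_⟩⟩
  · rcases eq_or_ne u 0 with rfl | hu
    · simp [ev_def]
    set t := ‖u‖ with ht
    have ht0 : 0 < t := norm_pos_iff.2 hu
    have := k1 (S.φ i x, t⁻¹ • u) ⟨hxK, by
      rw [mem_sphere_zero_iff_norm, norm_smul, norm_inv, norm_norm, inv_mul_cancel₀ ht0.ne']⟩
    show min c1 c2 * t ^ 2 ≤ ev (S.omC i _) u (S.repE i S.J _ u)
    rw [map_smul, ev_smul_left, ev_smul_right] at this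
    have h2 : min c1 c2 * t ^ 2 ≤ c1 * t ^ 2 :=
      mul_le_mul_of_nonneg_right (min_le_left _ _) (sq_nonneg _)
    refine h2.trans ((mul_le_mul_of_nonneg_right this (sq_nonneg t)).trans_eq ?_)
    field_simp
  · exact (n1 _ hxK).trans
      (le_add_of_le_of_nonneg ((le_max_left N1 N2).trans (le_max_left _ _)) zero_le_one)
  · exact (n2 _ hxK).trans
      (le_add_of_le_of_nonneg ((le_max_right N1 N2).trans (le_max_left _ _)) zero_le_one)
  · refine (l1 _ hxK _ hyK).trans (mul_le_mul_of_nonneg_right ?_ (norm_nonneg _))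
    exact le_add_of_le_of_nonneg ((le_max_left L1 L2).trans (le_max_right _ _)) zero_le_one
  · refine (l2 _ hxK _ hyK).trans (mul_le_mul_of_nonneg_right ?_ (norm_nonneg _))
    exact le_add_of_le_of_nonneg ((le_max_right L1 L2).trans (le_max_right _ _)) zero_le_one

/-- Two positive forms of a compact part of a chart pair almost nonnegatively, also after
congruences near the identity. -/
lemma exists_chart_pair (i : Fin S.n) (hK : IsCompact K) (hKt : K ⊆ (S.φ i).target) :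
    ∃ C N : ℝ, 0 < C ∧ 0 < N ∧ ∀ y (_ : y ∈ (S.φ i).source) z (_ : z ∈ (S.φ i).source)
      (a b : Form), S.φ i y ∈ K → S.φ i z ∈ K → S.Psd y a → q a (S.Om y) = 1 →
      S.Psd z b → q b (S.Om z) = 1 →
      ‖S.formIn i y a‖ ≤ N ∧
      0 ≤ q (S.formIn i y a) (S.formIn i z b) + C * ‖S.φ i y - S.φ i z‖ ^ 2 ∧
      ∀ (L₁ L₂ : V →L[ℝ] V) (δ : ℝ), 0 ≤ δ → δ ≤ 1 → ‖L₁ - 1‖ ≤ δ → ‖L₂ - 1‖ ≤ δ →
        (q (S.formIn i y a) (S.formIn i z b) + C * ‖S.φ i y - S.φ i z‖ ^ 2) / 256 -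
            C * (δ ^ 2 + ‖S.φ i y - S.φ i z‖ ^ 2) ≤
          q (pull L₁ (S.formIn i y a)) (pull L₂ (S.formIn i z b)) := by
  obtain ⟨c, M, hc, hM, hb⟩ := S.exists_dat_bound i hK hKt
  have hM1 : 0 < M + 1 := by linarith
  obtain ⟨C₁, hC₁, hlow⟩ := exists_pair_lower hc hM1
  obtain ⟨C₂, hC₂, hcon⟩ := exists_pair_congr hc hM1
  refine ⟨C₁ * M ^ 2 + C₂ * (2 * M ^ 2 + 2), 72 * (M + 1) ^ 2 / c, by positivity, by positivity,
    fun y hy z hz a b hyK hzK ha ta hb' tb => ?_⟩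
  obtain ⟨pa, qa⟩ := S.formIn_psd hy ha ta
  obtain ⟨pb, qb⟩ := S.formIn_psd hz hb' tb
  obtain ⟨by0, byd⟩ := hb y hy hyK
  obtain ⟨bz0, -⟩ := hb z hz hzK
  have by1 := bdd_mono by0 (show M ≤ M + 1 by linarith)
  have bz1 := bdd_mono bz0 (show M ≤ M + 1 by linarith)
  obtain ⟨hJ, hOm⟩ := byd z hz hzK
  set d := ‖S.φ i y - S.φ i z‖ with hd
  have hd0 : 0 ≤ d := norm_nonneg _
  have hd1 : d ≤ 1 := by
    refine (pi_norm_le_iff_of_nonneg zero_le_one).2 fun k => ?_
    have h1 := S.target_sub i ((S.φ i).map_source hy) k (mem_univ k)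
    have h2 := S.target_sub i ((S.φ i).map_source hz) k (mem_univ k)
    rw [Real.norm_eq_abs, Pi.sub_apply, abs_le]
    constructor <;> linarith [h1.1, h1.2, h2.1, h2.2]
  have hMd : M * d ≤ M := mul_le_of_le_one_right hM.le hd1
  refine ⟨?_, ?_, fun L₁ L₂ δ hδ hδ1 h1 h2 => ?_⟩
  · exact (Datum.norm_le by1 hc pa qa).trans (le_of_eq (by ring))
  · have h := hlow (S.dat i y hy) (S.dat i z hz) _ _ (M * d) by1 bz1
      ⟨by simpa using mul_nonneg hM.le hd0, hJ, hOm, by linarith⟩ pa qa pb qb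
    have h' : 0 ≤ C₂ * (2 * M ^ 2 + 2) * d ^ 2 := by positivity
    linear_combination h + h'
  · set ε := δ + M * d with hε
    have he : M * d ≤ ε := le_add_of_nonneg_left hδ
    have heM : ε ≤ M + 1 := by rw [hε]; linarith
    have n1 : Datum.Near L₁ (S.dat i y hy) (S.dat i y hy) (M + 1) ε :=
      ⟨h1.trans (le_add_of_nonneg_right (mul_nonneg hM.le hd0)),
        by simpa using add_nonneg hδ (mul_nonneg hM.le hd0),
        by simpa using add_nonneg hδ (mul_nonneg hM.le hd0), heM⟩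
    have n2 : Datum.Near L₂ (S.dat i y hy) (S.dat i z hz) (M + 1) ε :=
      ⟨h2.trans (le_add_of_nonneg_right (mul_nonneg hM.le hd0)), hJ.trans he, hOm.trans he, heM⟩
    have h := hcon _ _ _ L₁ L₂ _ _ ε by1 by1 bz1 n1 n2 pa qa pb qb
    have he2 : ε ^ 2 ≤ (2 * M ^ 2 + 2) * (δ ^ 2 + d ^ 2) := by
      rw [hε]
      nlinarith [sq_nonneg (δ - M * d), sq_nonneg (M * δ), sq_nonneg δ, sq_nonneg d]
    have h3 := mul_le_mul_of_nonneg_left he2 hC₂.le
    have h4 : 0 ≤ C₁ * M ^ 2 * (δ ^ 2 + d ^ 2) := by positivity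
    have h5 : 0 ≤ C₁ * M ^ 2 * δ ^ 2 := by positivity
    have h6 : 0 ≤ C₂ * (2 * M ^ 2 + 2) * (δ ^ 2 + d ^ 2) := by positivity
    have h7 : 0 ≤ C₂ * (2 * M ^ 2 + 2) * δ ^ 2 := by positivity
    linear_combination (1 / 256) * h + (1 / 256) * h3 + (255 / 256) * h4 + (254 / 256) * h6 +
      (1 / 256) * h5 + (1 / 256) * h7

end GSetup

end Vale.Agent.P204.Gen
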