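import Vale.Agent.P204.Gen.GPairPoint
import Vale.Agent.P204.Gen.ChartVolume

/-!
P204, general four-manifold: the energy bounds the pairs at distance `ε` in a chart (module
`GPairMass`, helper51).
-/

open MeasureTheory Filter Topology Set
open scoped BigOperators ContDiff

namespace Vale.Agent.P204.Gen

open Vale.Agent.P204.Torus PairAux

variable {X : Type*} [TopologicalSpace X] [MeasurableSpace X] [T2Space X] [CompactSpace X]
  [BorelSpace X] {S : GSetup X} (T : Positive S)

/-- The square of a regularised current is almost nonnegative. -/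
lemma exists_q_lower (hB : Basic S.toGeo) (hW : RegBound T) :
    ∃ A R ε₁ : ℝ, 0 ≤ A ∧ 0 < R ∧ 0 < ε₁ ∧ ∀ ε, 0 < ε → ε ≤ ε₁ →
      ∀ f, T.RegRep (fun _ => 1) ε f →
        ∀ᵐ x ∂S.μ, 0 ≤ q (f x) (f x) + A * ε ^ 2 * T.ball4 (R * ε) x ^ 2 := by
  obtain ⟨C, R, e1, hC, hR, he1, hW⟩ := hW
  obtain ⟨Cp, hCp, hproj⟩ := S.exists_bound_proj
  obtain ⟨CO, hCO⟩ := hB.smooth_bound S.om S.om_smooth
  set O := Cp * max CO 0
  have hO0 : 0 ≤ O := by positivity
  have hOm : ∀ x, ‖S.Om x‖ ≤ O := fun x =>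
    ((hproj S.om (hB.smooth_mem _ S.om_smooth).1).2.2 x).trans
      (mul_le_mul_of_nonneg_left ((hCO x).trans (le_max_left _ _)) hCp)
  refine ⟨12 * C * C * Cp * O + 6 * C * C * O * O + 6 * C * C, R, min e1 1, by positivity, hR,
    lt_min he1 one_pos, fun ε hε hle f hf => ?_⟩
  filter_upwards [hW ε hε (hle.trans (min_le_left _ _)) (fun _ => 1) measurable_const
    (fun _ => by simp) f hf] with x hx
  rw [← T.ball4_eq] at hx
  obtain ⟨h1, h2, h3⟩ := hx
  set b := T.ball4 (R * ε) x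
  have hb : 0 ≤ b := T.ball4_nonneg _ x
  set P := piP (S.J x) (f x)
  set m := piM (S.J x) (f x)
  set c := C * ε ^ 2 * b
  have hc : 0 ≤ c := by positivity
  have hP0 := h3 fun _ => zero_le_one
  have hpos : 0 ≤ q (P + c • S.Om x) (P + c • S.Om x) := (S.pt x).q_psd_psd (x := 0) hP0 hP0
  have e : q (f x) (f x) = q P P + q m m := (S.pt x).q_decomp 0 _ _
  simp only [q_add_left, q_add_right, q_smul_left, q_smul_right, q_comm (S.Om x) P] at hpos
  have hP : ‖P‖ ≤ Cp * (C * b) := ((hproj f hf.1.1).2.2 x).trans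
    (mul_le_mul_of_nonneg_left h1 hCp)
  have q1 : q P (S.Om x) ≤ 6 * (Cp * (C * b) * O) := (le_abs_self _).trans
    ((abs_q_le _ _).trans (mul_le_mul_of_nonneg_left
      (mul_le_mul hP (hOm x) (norm_nonneg _) (by positivity)) (by norm_num)))
  have q3 : q (S.Om x) (S.Om x) ≤ 6 * (O * O) := (le_abs_self _).trans
    ((abs_q_le _ _).trans (mul_le_mul_of_nonneg_left
      (mul_le_mul (hOm x) (hOm x) (norm_nonneg _) hO0) (by norm_num)))
  have q4 : -(6 * (C * ε * b * (C * ε * b))) ≤ q m m := neg_le_of_abs_le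
    ((abs_q_le _ _).trans (mul_le_mul_of_nonneg_left
      (mul_le_mul h2 h2 (norm_nonneg _) (by positivity)) (by norm_num)))
  have p1 := mul_le_mul_of_nonneg_left q1 hc
  have p3 := mul_le_mul_of_nonneg_left q3 (mul_nonneg hc hc)
  have hε2 : ε ^ 2 ≤ 1 := pow_le_one₀ hε.le (hle.trans (min_le_right _ _))
  have p4 : c * c * (6 * (O * O)) ≤ 6 * C * C * O * O * (ε ^ 2 * b ^ 2) := by
    have := mul_le_mul_of_nonneg_left hε2
      (by positivity : 0 ≤ 6 * C * C * O * O * (ε ^ 2 * b ^ 2))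
    simp only [c]
    linarith
  simp only [c] at p1 p3 p4 hpos
  linarith

/-- The points whose pairs are bounded by the energy. -/
def GSetup.pairSet (S : GSetup X) (i : Fin S.n) (r : ℝ) : Set (X × X) :=
  {p | 1 / (S.n : ℝ) ≤ S.ψ i p.1 ∧ p.1 ∈ tsupport (S.ψ i) ∧ p.2 ∈ tsupport (S.ψ i) ∧
    ‖S.φ i p.1 - S.φ i p.2‖ ≤ r}

omit [T2Space X] [CompactSpace X] in
lemma GSetup.measurableSet_pairSet (i : Fin S.n) (r : ℝ) :
    MeasurableSet (S.pairSet i r) := by
  have hK : MeasurableSet (tsupport (S.ψ i)) := (isClosed_tsupport _).measurableSet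
  have e : S.pairSet i r = {p : X × X | 1 / (S.n : ℝ) ≤ S.ψ i p.1} ∩
      ((tsupport (S.ψ i)) ×ˢ (tsupport (S.ψ i))) ∩
      {p : X × X | ‖S.chartPt i p.1 - S.chartPt i p.2‖ ≤ r} := by
    ext ⟨y, z⟩
    simp only [GSetup.pairSet, mem_ofPred_eq, mem_inter_iff, mem_prod, and_assoc]
    refine and_congr_right fun _ => and_congr_right fun hy => and_congr_right fun hz => ?_
    simp only [GSetup.chartPt, indicator_of_mem hy, indicator_of_mem hz]
  rw [e]
  have h1 : MeasurableSet {p : X × X | 1 / (S.n : ℝ) ≤ S.ψ i p.1} :=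
    measurableSet_le measurable_const ((S.ψ_cont i).measurable.comp measurable_fst)
  have hm : Measurable fun p : X × X => S.chartPt i p.1 - S.chartPt i p.2 :=
    ((S.measurable_chartPt i).comp measurable_fst).sub
      ((S.measurable_chartPt i).comp measurable_snd)
  have h3 : MeasurableSet {p : X × X | ‖S.chartPt i p.1 - S.chartPt i p.2‖ ≤ r} :=
    measurableSet_le hm.norm measurable_const
  exact (h1.inter (hK.prod hK)).inter h3

omit [T2Space X] [BorelSpace X] in
/-- The balls around the points where `ψ i` is large lie in the core. -/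
lemma GSetup.exists_core_margin (i : Fin S.n) :
    ∃ δ > 0, ∀ y ∈ tsupport (S.ψ i), 1 / (S.n : ℝ) ≤ S.ψ i y →
      Metric.closedBall (S.φ i y) δ ⊆ S.φ i '' S.coreSet i := by
  set K1 := S.φ i '' (tsupport (S.ψ i) ∩ {y | 1 / (S.n : ℝ) ≤ S.ψ i y})
  have hcl : IsClosed (tsupport (S.ψ i) ∩ {y : X | 1 / (S.n : ℝ) ≤ S.ψ i y}) :=
    (isClosed_tsupport (S.ψ i)).inter (isClosed_le continuous_const (S.ψ_cont i))
  have hK1 : IsCompact K1 :=
    hcl.isCompact.image_of_continuousOn
      ((S.φ i).continuousOn.mono fun x hx => S.ψ_supp i hx.1)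
  have hO : IsOpen ((S.φ i).target ∩ (S.φ i).symm ⁻¹' {x | 1 / (2 * (S.n : ℝ)) < S.ψ i x}) :=
    (S.φ i).isOpen_inter_preimage_symm (isOpen_lt continuous_const (S.ψ_cont i))
  have hsub : K1 ⊆ (S.φ i).target ∩ (S.φ i).symm ⁻¹' {x | 1 / (2 * (S.n : ℝ)) < S.ψ i x} := by
    rintro _ ⟨y, ⟨hy, hy'⟩, rfl⟩
    refine ⟨(S.φ i).map_source (S.ψ_supp i hy), ?_⟩
    show 1 / (2 * (S.n : ℝ)) < _
    rw [(S.φ i).left_inv (S.ψ_supp i hy)]
    have hn : (0 : ℝ) < S.n := by exact_mod_cast i.pos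
    refine lt_of_lt_of_le ?_ hy'
    exact one_div_lt_one_div_of_lt hn (by linarith)
  obtain ⟨δ, hδ, hδs⟩ := hK1.exists_cthickening_subset_open hO hsub
  refine ⟨δ, hδ, fun y hy hy' v hv => ?_⟩
  have hyK : S.φ i y ∈ K1 := mem_image_of_mem (S.φ i) ⟨hy, hy'⟩
  obtain ⟨hvt, hvψ⟩ := hδs (Metric.closedBall_subset_cthickening hyK δ hv)
  refine ⟨(S.φ i).symm v, ?_, (S.φ i).right_inv hvt⟩
  show 1 / (2 * (S.n : ℝ)) ≤ S.ψ i ((S.φ i).symm v)
  exact le_of_lt hvψ

/-- The pairs near a point of the chart. -/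
noncomputable def Positive.pairKer (i : Fin S.n) (C r : ℝ) (u : V) : X × X → ℝ :=
  (S.nearSet i r u ×ˢ S.nearSet i r u).indicator (T.pairW i C)

section

variable {i : Fin S.n} {C N r : ℝ}

lemma Positive.measurable_pairKer :
    Measurable (Function.uncurry (T.pairKer i C r)) := by
  have hK : MeasurableSet (tsupport (S.ψ i)) := (isClosed_tsupport _).measurableSet
  have hd : ∀ g : V × X × X → X, Measurable g →
      MeasurableSet {t : V × X × X | g t ∈ tsupport (S.ψ i) ∧
        ‖S.chartPt i (g t) - t.1‖ ≤ r} := fun g hg =>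
    (hg hK).inter (measurableSet_le
      (((S.measurable_chartPt i).comp hg).sub measurable_fst).norm measurable_const)
  have e : Function.uncurry (T.pairKer i C r) =
      ({t : V × X × X | t.2.1 ∈ tsupport (S.ψ i) ∧ ‖S.chartPt i t.2.1 - t.1‖ ≤ r} ∩
        {t : V × X × X | t.2.2 ∈ tsupport (S.ψ i) ∧ ‖S.chartPt i t.2.2 - t.1‖ ≤ r}).indicator
        fun t => T.pairW i C t.2 := by
    funext ⟨u, y, z⟩
    simp only [Function.uncurry_apply_pair, Positive.pairKer, indicator, mem_prod, mem_inter_iff,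
      GSetup.nearSet, mem_ofPred_eq, GSetup.chartPt]
    congr 1
    refine propext (and_congr ?_ ?_) <;>
      exact and_congr_right fun h => by simp only [h, if_true]
  rw [e]
  exact ((T.measurable_pairW i C).comp measurable_snd).indicator
    ((hd _ (measurable_fst.comp measurable_snd)).inter
      (hd _ (measurable_snd.comp measurable_snd)))

omit [T2Space X] [CompactSpace X] [BorelSpace X] in
lemma Positive.pairKer_mem (hN : 0 ≤ N) (hpw : ∀ y ∈ tsupport (S.ψ i), ∀ z ∈ tsupport (S.ψ i),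
    0 ≤ T.pairW i C (y, z) ∧ T.pairW i C (y, z) ≤ N) (u : V) (p : X × X) :
    0 ≤ T.pairKer i C r u p ∧ T.pairKer i C r u p ≤ N := by
  constructor
  · exact indicator_nonneg (fun p hp => (hpw p.1 hp.1.1 p.2 hp.2.1).1) p
  · exact indicator_le' (fun p hp => (hpw p.1 hp.1.1 p.2 hp.2.1).2) (fun _ _ => hN) p

lemma Positive.integrable_pairKer (hN : 0 ≤ N)
    (hpw : ∀ y ∈ tsupport (S.ψ i), ∀ z ∈ tsupport (S.ψ i),
      0 ≤ T.pairW i C (y, z) ∧ T.pairW i C (y, z) ≤ N) :
    Integrable (Function.uncurry (T.pairKer i C r))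
      ((volume.restrict (S.φ i '' S.coreSet i)).prod (T.ν.prod T.ν)) := by
  have := T.finite
  have hK : IsCompact (S.φ i '' S.coreSet i) := (S.isClosed_coreSet i).isCompact.image_of_continuousOn
    ((S.φ i).continuousOn.mono (S.coreSet_source i))
  have : IsFiniteMeasure (volume.restrict (S.φ i '' S.coreSet i)) :=
    isFiniteMeasure_restrict.2 hK.measure_ne_top
  refine Integrable.of_bound T.measurable_pairKer.aestronglyMeasurable N
    (Eventually.of_forall fun t => ?_)
  obtain ⟨h1, h2⟩ := T.pairKer_mem hN hpw (r := r) t.1 t.2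
  rw [Function.uncurry_def, Real.norm_eq_abs, abs_of_nonneg h1]
  exact h2

/-- The kernel dominates the pairs at half the radius. -/
lemma Positive.pairKer_ge (hr : 0 < r) {δ : ℝ} (hrδ : r ≤ δ)
    (hδK : ∀ y ∈ tsupport (S.ψ i), 1 / (S.n : ℝ) ≤ S.ψ i y →
      Metric.closedBall (S.φ i y) δ ⊆ S.φ i '' S.coreSet i) (hN : 0 ≤ N)
    (hpw : ∀ y ∈ tsupport (S.ψ i), ∀ z ∈ tsupport (S.ψ i),
      0 ≤ T.pairW i C (y, z) ∧ T.pairW i C (y, z) ≤ N) :
    r ^ 4 * ∫ p in S.pairSet i (r / 2), T.pairW i C p ∂T.ν.prod T.ν ≤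
      ∫ u in S.φ i '' S.coreSet i, ∫ p, T.pairKer i C r u p ∂T.ν.prod T.ν := by
  have := T.finite
  have hFi := T.integrable_pairKer (r := r) hN hpw
  have hK : IsCompact (S.φ i '' S.coreSet i) := (S.isClosed_coreSet i).isCompact.image_of_continuousOn
    ((S.φ i).continuousOn.mono (S.coreSet_source i))
  have : IsFiniteMeasure (volume.restrict (S.φ i '' S.coreSet i)) :=
    isFiniteMeasure_restrict.2 hK.measure_ne_top
  rw [integral_integral_swap hFi, ← integral_indicator (S.measurableSet_pairSet i _),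
    ← integral_const_mul]
  refine integral_mono_of_nonneg (Eventually.of_forall fun p => ?_) hFi.integral_prod_right
    (Eventually.of_forall fun p => ?_)
  · refine mul_nonneg (by positivity) (indicator_nonneg (fun p hp => ?_) p)
    exact (hpw p.1 hp.2.1 p.2 hp.2.2.1).1
  · show r ^ 4 * (S.pairSet i (r / 2)).indicator (T.pairW i C) p ≤
      ∫ u in S.φ i '' S.coreSet i, T.pairKer i C r u p
    by_cases hp : p ∈ S.pairSet i (r / 2)
    · obtain ⟨hp1, hp2, hp3, hp4⟩ := hp
      rw [indicator_of_mem (show p ∈ S.pairSet i (r / 2) from ⟨hp1, hp2, hp3, hp4⟩)]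
      set Bl := Metric.closedBall (S.φ i p.1) (r / 2)
      have hsub : Bl ⊆ S.φ i '' S.coreSet i :=
        (Metric.closedBall_subset_closedBall (by linarith)).trans (hδK _ hp2 hp1)
      have hvol : (volume.restrict (S.φ i '' S.coreSet i)).real Bl = r ^ 4 := by
        rw [measureReal_restrict_apply measurableSet_closedBall, inter_eq_self_of_subset_left hsub,
          measureReal_def, Real.volume_pi_closedBall _ (by positivity), Fintype.card_fin,
          ENNReal.toReal_ofReal (by positivity)]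
        ring
      rw [← hvol, ← smul_eq_mul, ← setIntegral_const]
      refine le_trans (le_of_eq ?_) (setIntegral_le_integral (s := Bl) ?_ ?_)
      · refine setIntegral_congr_fun measurableSet_closedBall fun u hu => ?_
        rw [Metric.mem_closedBall, dist_eq_norm, norm_sub_rev] at hu
        simp only [Positive.pairKer]
        rw [indicator_of_mem]
        refine ⟨⟨hp2, hu.trans (by linarith)⟩, hp3, ?_⟩
        calc ‖S.φ i p.2 - u‖ ≤ ‖S.φ i p.2 - S.φ i p.1‖ + ‖S.φ i p.1 - u‖ :=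
              norm_sub_le_norm_sub_add_norm_sub _ _ _
          _ ≤ r / 2 + r / 2 := add_le_add ((norm_sub_rev _ _).trans_le hp4) hu
          _ = r := by ring
      · exact Integrable.of_bound
          (T.measurable_pairKer.comp measurable_prodMk_right).aestronglyMeasurable N
          (Eventually.of_forall fun u => by
            obtain ⟨h1, h2⟩ := T.pairKer_mem hN hpw (r := r) u p
            show ‖T.pairKer i C r u p‖ ≤ N
            rw [Real.norm_eq_abs, abs_of_nonneg h1]
            exact h2)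
      · exact Eventually.of_forall fun u => (T.pairKer_mem hN hpw u p).1
    · rw [indicator_of_notMem hp, mul_zero]
      exact integral_nonneg fun u => (T.pairKer_mem hN hpw u p).1

/-- An integrable function dominating the kernel dominates its integral. -/
lemma Positive.pairKer_le {P : X → ℝ} (hPi : Integrable P S.μ) (hP0 : ∀ᵐ x ∂S.μ, 0 ≤ P x)
    (hN : 0 ≤ N) (hpw : ∀ y ∈ tsupport (S.ψ i), ∀ z ∈ tsupport (S.ψ i),
      0 ≤ T.pairW i C (y, z) ∧ T.pairW i C (y, z) ≤ N) {a : ℝ}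
    (hle : ∀ᵐ u ∂volume.restrict (S.φ i '' S.coreSet i),
      a * ∫ p, T.pairKer i C r u p ∂T.ν.prod T.ν ≤ S.jac i u * P ((S.φ i).symm u)) :
    a * ∫ u in S.φ i '' S.coreSet i, ∫ p, T.pairKer i C r u p ∂T.ν.prod T.ν ≤
      ∫ x, P x ∂S.μ := by
  have := T.finite
  have hKc : IsCompact (S.coreSet i) := (S.isClosed_coreSet i).isCompact
  have hKs : S.coreSet i ⊆ (S.φ i).source := S.coreSet_source i
  set K := S.φ i '' S.coreSet i with hKdef
  have hKVc : IsCompact K := hKc.image_of_continuousOn ((S.φ i).continuousOn.mono hKs)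
  have hKt : K ⊆ (S.φ i).target := image_subset_iff.2 fun x hx => (S.φ i).map_source (hKs hx)
  have hcm : MeasurableSet (S.coreSet i) := hKc.measurableSet
  have key : ∫ u in K, S.jac i u * P ((S.φ i).symm u) = ∫ x in S.coreSet i, P x ∂S.μ := by
    have h := S.integral_chart i (hPi.indicator hcm).1
    rw [setIntegral_indicator hcm, inter_eq_self_of_subset_right hKs] at h
    rw [h, ← integral_indicator hKVc.measurableSet,
      ← integral_indicator (S.φ i).open_target.measurableSet]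
    refine integral_congr_ae (Eventually.of_forall fun u => ?_)
    by_cases hu : u ∈ K
    · obtain ⟨x, hx, rfl⟩ := hu
      rw [indicator_of_mem (mem_image_of_mem _ hx),
        indicator_of_mem (hKt (mem_image_of_mem _ hx)), smul_eq_mul,
        (S.φ i).left_inv (hKs hx), indicator_of_mem hx]
    · rw [indicator_of_notMem hu]
      by_cases hut : u ∈ (S.φ i).target
      · rw [indicator_of_mem hut, indicator_of_notMem (s := S.coreSet i) fun h =>
          hu ⟨_, h, (S.φ i).right_inv hut⟩, smul_zero]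
      · rw [indicator_of_notMem hut]
  refine le_trans ?_ (setIntegral_le_integral (s := S.coreSet i) hPi hP0)
  rw [← key, ← integral_const_mul]
  refine integral_mono_ae ((T.integrable_pairKer hN hpw).integral_prod_left.const_mul _)
    ((S.integrable_chart hPi).mono_set hKt |>.congr
      (Eventually.of_forall fun u => smul_eq_mul _ _)) ?_
  exact hle

end

/-- The energy bounds the pairs at distance `ε` in the chart `i`. -/
theorem exists_pair_bound (hB : Basic S.toGeo) (hP : PointRep T) (hW : RegBound T)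
    (hBS : BallSquare T) (hd : T.DensBound)
    (hE : ∃ B e, 0 < e ∧ ∀ ε, 0 < ε → ε ≤ e →
      ∃ f, T.RegRep (fun _ => 1) ε f ∧ S.pairing f f ≤ B) (i : Fin S.n) :
    ∃ C N c ε₁ B : ℝ, 0 < C ∧ 0 < N ∧ 0 < c ∧ 0 < ε₁ ∧ 0 ≤ B ∧
      (∀ y ∈ tsupport (S.ψ i), ∀ z ∈ tsupport (S.ψ i),
        0 ≤ T.pairW i C (y, z) ∧ T.pairW i C (y, z) ≤ N) ∧
      ∀ ε, 0 < ε → ε ≤ ε₁ →
        ∫ p in S.pairSet i (c * ε), T.pairW i C p ∂T.ν.prod T.ν ≤ B * ε ^ 4 := by
  have := T.finite
  have := hB.finite_μ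
  obtain ⟨C, Cn, N, κ, c, r, e1, hC, hCn, hN, hκ, hc, hr, he1, hpw, hsq⟩ :=
    exists_sq_lower T hP i
  obtain ⟨A, R, e2, hA, hR, he2, hlow⟩ := exists_q_lower T hB hW
  obtain ⟨M0, hM0⟩ := hd
  obtain ⟨K1, e3, he3, hb1⟩ := hBS r hr
  obtain ⟨K2, e4, he4, hb2⟩ := hBS R hR
  obtain ⟨B, e5, he5, hE⟩ := hE
  have hKc : IsCompact (S.coreSet i) := (S.isClosed_coreSet i).isCompact
  have hKs : S.coreSet i ⊆ (S.φ i).source := S.coreSet_source i
  set K := S.φ i '' S.coreSet i
  have hKVc : IsCompact K := hKc.image_of_continuousOn ((S.φ i).continuousOn.mono hKs)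
  have hKt : K ⊆ (S.φ i).target := image_subset_iff.2 fun x hx => (S.φ i).map_source (hKs hx)
  obtain ⟨Cd, hCd, hdT⟩ := S.exists_dT_bound i hKc hKs
  obtain ⟨δ, hδ, hδK⟩ := S.exists_core_margin i
  set M := max M0 0
  set e0 := min (min (min e1 e2) (min e3 e4)) (min (min e5 1) (δ / c))
  set B' := max (B + A * (K2 * M) + Cn * Cd * (K1 * M)) 0
  refine ⟨C, N, c / 2, e0, B' / (κ * c ^ 4), hC, hN, by positivity,
    lt_min (lt_min (lt_min he1 he2) (lt_min he3 he4)) (lt_min (lt_min he5 one_pos) (by positivity)),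
    by positivity, hpw, fun ε hε hle => ?_⟩
  obtain ⟨hl, hl'⟩ := le_min_iff.1 hle
  obtain ⟨hl12, hl34⟩ := le_min_iff.1 hl
  obtain ⟨hl1, hl2⟩ := le_min_iff.1 hl12
  obtain ⟨hl3, hl4⟩ := le_min_iff.1 hl34
  obtain ⟨hl56, hlδ⟩ := le_min_iff.1 hl'
  obtain ⟨hl5, hl6⟩ := le_min_iff.1 hl56
  have hcε : c * ε ≤ δ := by rw [mul_comm]; exact (le_div_iff₀ hc).1 hlδ
  obtain ⟨f, hf, hfB⟩ := hE ε hε hl5
  have hM : ∀ y, T.dens ε y ≤ M := fun y => (hM0 ε hε hl6 y).trans (le_max_left _ _)
  -- the function on `X`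
  have hball : ∀ a : ℝ, 0 < a → Integrable (fun x => ε ^ 2 * T.ball4 (a * ε) x ^ 2) S.μ :=
    fun a ha => by
      refine (Integrable.of_bound ((T.measurable_ball4 (a * ε)).pow_const 2).aestronglyMeasurable
        ((T.ν.real Set.univ / (a * ε) ^ 4) ^ 2) (Eventually.of_forall fun x => ?_)).const_mul _
      rw [Real.norm_eq_abs, abs_of_nonneg (sq_nonneg _)]
      exact pow_le_pow_left₀ (T.ball4_nonneg _ x) (T.ball4_le (mul_pos ha hε) x) 2
  set P : X → ℝ := fun x => q (f x) (f x) + A * (ε ^ 2 * T.ball4 (R * ε) x ^ 2) +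
    Cn * Cd * (ε ^ 2 * T.ball4 (r * ε) x ^ 2)
  have hPi : Integrable P S.μ :=
    ((S.integrable_q hf.1 hf.1).add ((hball R hR).const_mul A)).add ((hball r hr).const_mul _)
  have hP0 : ∀ᵐ x ∂S.μ, 0 ≤ P x := by
    filter_upwards [hlow ε hε hl2 f hf] with x hx
    have : 0 ≤ Cn * Cd * (ε ^ 2 * T.ball4 (r * ε) x ^ 2) := by positivity
    simp only [P]
    linarith
  have hPB : ∫ x, P x ∂S.μ ≤ B' := by
    have k1 := (hb1 ε hε hl3).2 M (le_max_right _ _) hM
    have k2 := (hb2 ε hε hl4).2 M (le_max_right _ _) hM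
    have i12 := (S.integrable_q hf.1 hf.1).add ((hball R hR).const_mul A)
    have e1 := integral_add' i12 ((hball r hr).const_mul (Cn * Cd))
    have e2 := integral_add' (S.integrable_q hf.1 hf.1) ((hball R hR).const_mul A)
    simp only [Pi.add_apply, integral_const_mul] at e1 e2 k1 k2
    simp only [P]
    rw [e1, e2]
    refine le_max_of_le_left ?_
    have := mul_le_mul_of_nonneg_left k1 (show 0 ≤ Cn * Cd by positivity)
    have := mul_le_mul_of_nonneg_left k2 hA
    simp only [Geo.pairing] at hfB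
    linarith
  -- the energy dominates the kernel
  have hle : ∀ᵐ u ∂volume.restrict K, κ / ε ^ 8 * ∫ p, T.pairKer i C (c * ε) u p ∂T.ν.prod T.ν ≤
      S.jac i u * P ((S.φ i).symm u) := by
    filter_upwards [hsq ε hε hl1 f hf, ae_restrict_mem hKVc.measurableSet] with u hu huK
    obtain ⟨x, hx, rfl⟩ := huK
    have hxt := (S.φ i).map_source (hKs hx)
    rw [(S.φ i).left_inv (hKs hx), Geo.rep2, if_pos hxt, (S.φ i).left_inv (hKs hx), q_pull] at hu
    show _ ≤ S.jac i (S.φ i x) * P ((S.φ i).symm (S.φ i x))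
    rw [Geo.jac, (S.φ i).left_inv (hKs hx), Positive.pairKer,
      integral_indicator ((S.measurableSet_nearSet i _ _).prod (S.measurableSet_nearSet i _ _))]
    have hd1 := (hdT x hx).2.1
    have hj : 0 ≤ (S.dT i x).det := (S.dT_det_pos (hKs hx)).le
    have k1 : 0 ≤ (S.dT i x).det * (A * (ε ^ 2 * T.ball4 (R * ε) x ^ 2)) := by positivity
    have k2 := mul_le_mul_of_nonneg_left hd1
      (show 0 ≤ Cn * (ε ^ 2 * T.ball4 (r * ε) x ^ 2) by positivity)
    simp only [P]
    linarith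
  have hup := (T.pairKer_le hPi hP0 hN.le hpw hle).trans hPB
  have hdown := T.pairKer_ge (mul_pos hc hε) hcε hδK hN.le hpw
  rw [show c * ε / 2 = c / 2 * ε by ring] at hdown
  have k := (mul_le_mul_of_nonneg_left hdown (by positivity : 0 ≤ κ / ε ^ 8)).trans hup
  rw [show B' / (κ * c ^ 4) * ε ^ 4 = B' * ε ^ 4 / (κ * c ^ 4) by ring,
    le_div_iff₀ (by positivity)]
  rw [show κ / ε ^ 8 * ((c * ε) ^ 4 * ∫ p in S.pairSet i (c / 2 * ε), T.pairW i C p ∂T.ν.prod T.ν)
      = κ * c ^ 4 * (∫ p in S.pairSet i (c / 2 * ε), T.pairW i C p ∂T.ν.prod T.ν) / ε ^ 4 by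
    field_simp, div_le_iff₀ (by positivity)] at k
  linarith

end Vale.Agent.P204.Gen
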