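import Vale.Agent.P204.Gen.Interface
import Vale.Agent.P204.Torus.Mono

/-!
P204 on a closed four-manifold: what almost monotonicity gives in the charts (module 18).
-/

open MeasureTheory Filter Topology

namespace Vale.Agent.P204.Gen

open Vale.Agent.P204.Torus

variable {X : Type*} [TopologicalSpace X] [MeasurableSpace X]

/-- The density of `T` in each chart: bounded, with a limit at every point which does not depend on
the chart, and with transverse part tending to zero. -/
structure MonoData {S : GSetup X} (T : Positive S) where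
  /-- The charts read on the torus. -/
  L : ∀ i, LocalChart S i
  /-- The current in each chart. -/
  Tc : ∀ i, Current (L i).loc
  isLocal : ∀ i, IsLocal T (Tc i)
  dens : ∀ i, (Tc i).DensBound
  /-- A bound of the adapted densities. -/
  A : ℝ
  Th_le : ∀ i r, 0 < r → r ≤ 1 → ∀ u, (Tc i).Th r u ≤ A
  /-- The limit of the adapted densities. -/
  lim : Fin S.n → V → ℝ
  tendsto : ∀ i u, Tendsto (fun k => (Tc i).Th (scale k) u) atTop (𝓝 (lim i u))
  transverse : ∀ i, Tendsto (fun k => ∫ y, ∫ z, (L i).loc.th3 (scale k) y z *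
    (L i).loc.B z ((Tc i).h z) (sv (z - y)) (sv (z - y)) ∂(Tc i).ν ∂(Tc i).ν) atTop (𝓝 0)
  agree : ∀ i j x, x ∈ tsupport (S.ψ i) → x ∈ tsupport (S.ψ j) →
    lim i (S.φ i x) = lim j (S.φ j x)

end Vale.Agent.P204.Gen
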