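import Vale.Agent.P204.Torus.Vanish

/-!
P204, second estimate inside one chart: the torus argument with the exact test forms as hypothesis.
-/

open MeasureTheory Filter Topology
open scoped BigOperators

namespace Vale.Agent.P204.Torus

open UData (integrable_app integrable_centre measurable_dir exists_dir_bound fderiv_Th)

namespace Current

variable {S : Setup} {T : Current S}

lemma exists_var_mass_local {A : ℝ} (hA' : ∀ r, 0 < r → r ≤ 1 → ∀ y, T.Th r y ≤ A) {CP BP : ℝ}
    (hCP : 0 < CP) (hBP : 0 < BP)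
    (hP0 : ∀ᵐ p : V × V ∂T.ν.prod T.ν, 0 ≤ q (T.h p.1) (T.h p.2) + CP * dist0 (p.1 - p.2) ^ 2)
    (hP : ∀ ε, 0 < ε → ε ≤ 1 → ∫ y, ∫ z, (if dist0 (y - z) ≤ ε then
      (q (T.h y) (T.h z) + CP * dist0 (y - z) ^ 2) / ε ^ 4 else 0) ∂T.ν ∂T.ν ≤ BP)
    {η : V → V} (hη : Smooth η) :
    ∃ K, 0 ≤ K ∧ ∀ k, ∫ p : V × V, (S.th3 (scale k) p.1 p.2 *
      S.B p.2 (T.h p.2) (Setup.vec (T.h p.1) (η p.1)) (Setup.vec (T.h p.1) (η p.1)) + S.th (scale k) p.1 p.2)
        ∂T.ν.prod T.ν ≤ K := by
  have hA : 0 ≤ A := (T.Th_nonneg 1 0).trans (hA' 1 one_pos le_rfl 0)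
  obtain ⟨Cv, hCv, hv⟩ := S.exists_vec_bound
  obtain ⟨Cd, hCd, hdy⟩ := S.exists_th3_dyadic
  obtain ⟨c', C', hc', -, hρ⟩ := S.exists_rho2_bounds
  obtain ⟨N, hN0, hN⟩ := T.exists_h_bound
  obtain ⟨M, hM0, hM⟩ := exists_bound hη.smooth.continuous hη.periodic
  obtain ⟨KB, hKB, hB⟩ := T.exists_B_bound
  set E := Cv * M ^ 2
  set m := T.ν.real Set.univ
  refine ⟨E * (Cd * (2 * BP)) + (E * Cv / c' + 1) * (A * m),
    by have : 0 ≤ m := measureReal_nonneg; positivity, fun k => ?_⟩
  set r := scale k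
  have hr : 0 < r := scale_pos' k
  set P : V × V → ℝ := fun p => q (T.h p.1) (T.h p.2) + CP * dist0 (p.1 - p.2) ^ 2
  set Z : ℕ → V × V → ℝ := fun i p => if dist0 (p.1 - p.2) ≤ scale i then P p / scale i ^ 4 else 0
  have hPm : Measurable P := T.measurable_qh.add (measurable_const.mul
    ((continuous_dist0.comp (continuous_fst.sub continuous_snd)).pow 2).measurable)
  have hPb : ∀ p, |P p| ≤ 6 * (N * N) + CP := fun p => by
    refine (abs_add_le _ _).trans (add_le_add (T.abs_qh_le hN0.le hN p) ?_)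
    rw [abs_mul, abs_of_pos hCP, abs_of_nonneg (sq_nonneg _)]
    exact mul_le_of_le_one_right hCP.le (pow_le_one₀ (dist0_nonneg _) (dist0_le_one _))
  have hZi : ∀ i, Integrable (Z i) (T.ν.prod T.ν) := fun i => by
    have := scale_pos' i
    refine Integrable.of_bound (Measurable.aestronglyMeasurable (Measurable.ite
      (measurableSet_le (continuous_dist0.comp (continuous_fst.sub continuous_snd)).measurable
        measurable_const) (hPm.div_const _) measurable_const)) ((6 * (N * N) + CP) / scale i ^ 4)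
      (Eventually.of_forall fun p => ?_)
    rw [Real.norm_eq_abs]
    simp only [Z]
    split_ifs
    · rw [abs_div, abs_of_pos (pow_pos this 4)]
      gcongr
      exact hPb p
    · rw [abs_zero]; positivity
  have hth : Integrable (fun p : V × V => S.th r p.1 p.2) (T.ν.prod T.ν) :=
    Integrable.of_bound (S.continuous_th₂ hr).aestronglyMeasurable (1 / r ^ 2)
      (Eventually.of_forall fun p => by
        rw [Real.norm_eq_abs, abs_of_nonneg (S.th_nonneg r _ _)]; exact S.th_le hr _ _)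
  have hpt : ∀ p : V × V, 0 ≤ P p → S.th3 r p.1 p.2 *
      S.B p.2 (T.h p.2) (Setup.vec (T.h p.1) (η p.1)) (Setup.vec (T.h p.1) (η p.1)) + S.th r p.1 p.2 ≤
      E * (Cd * ∑ i ∈ Finset.range (k + 1), (4 : ℝ) ^ i / 4 ^ k * Z i p) +
        (E * Cv / c' + 1) * S.th r p.1 p.2 := by
    rintro ⟨y, z⟩ hP0'
    simp only [Z, P]
    set d := dist0 (y - z) with hd'
    set Pv := q (T.h y) (T.h z) + CP * d ^ 2
    have hw0 := S.th3_nonneg r y z
    have hB1 : S.B z (T.h z) (Setup.vec (T.h y) (η y)) (Setup.vec (T.h y) (η y)) ≤ E * (Pv + Cv * d ^ 2) := by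
      have h := (hv y z _ _ (η y) (T.psd y) (T.psd z) (T.trace y) (T.trace z)).2
      have hp : 0 ≤ Pv := hP0'
      have h2 : q (T.h y) (T.h z) + Cv * d ^ 2 ≤ Pv + Cv * d ^ 2 :=
        add_le_add (le_add_of_nonneg_right (by positivity)) le_rfl
      have h3 : (0 : ℝ) ≤ Pv + Cv * d ^ 2 := by positivity
      refine h.trans ((mul_le_mul_of_nonneg_left h2 (by positivity)).trans ?_)
      refine mul_le_mul_of_nonneg_right ?_ h3
      simp only [E]
      gcongr
      exact hM y
    have hd2 : S.th3 r y z * d ^ 2 ≤ 1 / c' * S.th r y z := by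
      have hρ1 := (hρ z (z - y)).1
      have hρ0 := S.rho2_nonneg z (z - y)
      rw [hd', dist0_sub_comm y z]
      have e : S.th r y z = S.th3 r y z * (r ^ 2 + S.rho2 z (z - y)) := by
        simp only [Setup.th, Setup.th3]; field_simp
      rw [e, one_div, ← mul_assoc, mul_comm c'⁻¹, mul_assoc]
      refine mul_le_mul_of_nonneg_left ?_ hw0
      rw [← div_eq_inv_mul, le_div_iff₀ hc']
      nlinarith [sq_nonneg r]
    have hdy' := hdy k y z Pv hP0'
    calc S.th3 r y z * S.B z (T.h z) (Setup.vec (T.h y) (η y)) (Setup.vec (T.h y) (η y)) + S.th r y z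
        ≤ S.th3 r y z * (E * (Pv + Cv * d ^ 2)) + S.th r y z := by gcongr
      _ = E * (S.th3 r y z * Pv) + E * Cv * (S.th3 r y z * d ^ 2) + S.th r y z := by ring
      _ ≤ E * (Cd * ∑ i ∈ Finset.range (k + 1), (4 : ℝ) ^ i / 4 ^ k *
            (if d ≤ scale i then Pv / scale i ^ 4 else 0)) +
          E * Cv * (1 / c' * S.th r y z) + S.th r y z := by gcongr
      _ = _ := by ring
  have hint := ((integrable_finsetSum (Finset.range (k + 1))
    fun i _ => (hZi i).const_mul ((4 : ℝ) ^ i / 4 ^ k)).const_mul Cd).const_mul E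
  refine (integral_mono_of_nonneg (Eventually.of_forall fun p => add_nonneg
    (mul_nonneg (S.th3_nonneg r _ _) (hB _ _).1) (S.th_nonneg r _ _))
    (hint.add (hth.const_mul _)) (hP0.mono fun p hp => hpt p hp)).trans ?_
  simp only [Pi.add_apply]
  rw [integral_add hint (hth.const_mul _), integral_const_mul, integral_const_mul,
    integral_const_mul, integral_finsetSum _ fun i _ => (hZi i).const_mul _]
  refine add_le_add (mul_le_mul_of_nonneg_left (mul_le_mul_of_nonneg_left ?_ hCd.le)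
    (by positivity)) (mul_le_mul_of_nonneg_left ?_ (by positivity))
  · calc ∑ i ∈ Finset.range (k + 1), ∫ p, (4 : ℝ) ^ i / 4 ^ k * Z i p ∂T.ν.prod T.ν
        ≤ ∑ i ∈ Finset.range (k + 1), (4 : ℝ) ^ i / 4 ^ k * BP := by
          refine Finset.sum_le_sum fun i _ => ?_
          rw [integral_const_mul, integral_prod _ (hZi i)]
          exact mul_le_mul_of_nonneg_left (hP _ (scale_pos' i) (Mass.scale_le_one i)) (by positivity)
      _ = (4 ^ (k + 1) - 1) / (4 - 1) / 4 ^ k * BP := by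
          rw [← Finset.sum_mul, ← Finset.sum_div, geom_sum_eq (by norm_num)]
      _ ≤ 2 * BP := by
          refine mul_le_mul_of_nonneg_right ?_ hBP.le
          rw [div_le_iff₀ (by positivity), pow_succ]
          have : (1 : ℝ) ≤ 4 ^ k := one_le_pow₀ (by norm_num)
          linarith
  · rw [integral_prod _ hth]
    refine (integral_mono hth.integral_prod_left (integrable_const A) fun y =>
      hA' r hr (Mass.scale_le_one k) y).trans_eq ?_
    rw [integral_const, smul_eq_mul, mul_comm]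

/-- The variation superposed with a bounded coefficient is an exact form. -/
lemma exists_superposition_local {η : V → V} (hη : Smooth η) :
    ∃ C, 0 < C ∧ ∀ k, ∀ (c : V → ℝ) (M : ℝ), Measurable c → (∀ y, |c y| ≤ M) →
      ∃ b : V → V, Smooth b ∧ (∀ x, ‖d1 b x‖ ≤ C * M * T.rad (scale k) x) ∧
        (∀ x, ‖b x‖ ≤ C * M * T.rad (scale k) x) ∧
        (∀ x δ₀, 0 < δ₀ → (∀ y, η y ≠ 0 → δ₀ ≤ dist0 (x - y)) →
          ‖b x‖ ≤ C * M * (scale k ^ 2 / δ₀ ^ 4)) ∧
        Integrable (fun p : V × V => c p.1 * q (T.h p.2)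
          (d1 (S.beta (scale k) p.1 (Setup.vec (T.h p.1) (η p.1))) p.2)) (T.ν.prod T.ν) ∧
        T.app (d1 b) = ∫ p : V × V, c p.1 * q (T.h p.2)
          (d1 (S.beta (scale k) p.1 (Setup.vec (T.h p.1) (η p.1))) p.2) ∂T.ν.prod T.ν := by
  obtain ⟨Cb, hCb, hvb⟩ := S.exists_var_bound
  obtain ⟨A, hA, hvn⟩ := exists_dir_bound (T := T) hη
  obtain ⟨N, hN0, hN⟩ := T.exists_h_bound
  obtain ⟨Cs, hCs, hsz⟩ := S.exists_sizes
  obtain ⟨Ct, hCt, hth⟩ := S.exists_th_compare
  set m := T.ν.real Set.univ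
  have hm : 0 ≤ m := measureReal_nonneg
  refine ⟨Cb * A + 4 * A * Cs * Ct * (1 + m), by positivity, fun k c M hc hM => ?_⟩
  set r := scale k
  have hr : 0 < r := scale_pos' k
  have hr1 : r ≤ 1 := Mass.scale_le_one k
  have hM0 : 0 ≤ M := (abs_nonneg _).trans (hM 0)
  set v := fun y => Setup.vec (T.h y) (η y) with hvdef
  have hvm : Measurable v := measurable_dir hη
  have hvi : ∀ i y, |c y * v y i| ≤ M * A := fun i y => by
    rw [abs_mul]
    exact mul_le_mul (hM y) ((abs_coord_le' _ i).trans (hvn y)) (abs_nonneg _) hM0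
  have hb : ∀ i, ContDiff ℝ (⊤ : ℕ∞) fun p : V × V => S.beta r p.2 (e i) p.1 := fun i =>
    S.contDiff_beta₂ hr (e i)
  have hci : ∀ i, Measurable fun y => c y * v y i := fun i =>
    hc.mul ((measurable_pi_apply i).comp hvm)
  set Bf : V → V := fun x => ∑ i, ∫ y, (c y * v y i) • S.beta r y (e i) x ∂T.ν
  set G : V → V → Form := fun x y => d1 (S.beta r y (v y)) x
  have hG : ∀ x y, G x y = ∑ i, v y i • d1 (S.beta r y (e i)) x := fun x y => by
    have e0 : S.beta r y (v y) = fun x => ∑ i, v y i • S.beta r y (e i) x := funext fun x => by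
      simp only [Setup.beta]
      rw [S.om1_sum y (v y) x, Finset.smul_sum]
      exact Finset.sum_congr rfl fun i _ => smul_comm _ _ _
    simp only [G]
    rw [e0, d1_sum_smul]
    exact fun i => (S.smooth_beta hr y (e i)).differentiableAt x
  have hBi : ∀ i, Smooth fun x => ∫ y, (c y * v y i) • S.beta r y (e i) x ∂T.ν := fun i =>
    ⟨(contDiff_integral_param T.ν T.supp (b := fun x y => S.beta r y (e i) x) (hb i) (hci i)
      (hvi i)).1, fun x n => by simp only [(S.smooth_beta hr _ _).periodic x n]⟩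
  have hBf : Smooth Bf := ⟨ContDiff.sum fun i _ => (hBi i).smooth,
    fun x n => Finset.sum_congr rfl fun i _ => (hBi i).periodic x n⟩
  -- the exact form as a superposition
  have hFx : ∀ x, d1 Bf x = ∫ y, c y • G x y ∂T.ν := fun x => by
    have h1 : d1 Bf x = ∑ i, d1 (fun x => ∫ y, (c y * v y i) • S.beta r y (e i) x ∂T.ν) x := by
      have := d1_sum_smul Finset.univ (fun _ : Fin 4 => (1 : ℝ))
        (fun i x => ∫ y, (c y * v y i) • S.beta r y (e i) x ∂T.ν) x
        fun i => (hBi i).differentiableAt x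
      simpa using this
    have h2 := fun i => d1_integral T.ν T.supp (b := fun x y => S.beta r y (e i) x) (hb i) (hci i)
      (hvi i) x
    rw [h1, Finset.sum_congr rfl fun i _ => (h2 i).2, ← integral_finsetSum _ fun i _ => (h2 i).1]
    refine integral_congr_ae (Eventually.of_forall fun y => ?_)
    simp only [hG, Finset.smul_sum, smul_smul]
  -- joint measurability and bounds
  have hGm : Measurable fun p : V × V => G p.1 p.2 := by
    simp only [hG]
    exact Finset.measurable_fun_sum _ fun i _ => (((measurable_pi_apply i).comp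
      (hvm.comp measurable_snd))).smul (continuous_d1₂ (b := fun x y => S.beta r y (e i) x) (hb i)).measurable
  have hw1 : ∀ x y, Mass.w r (dist0 (x - y)) + Mass.w' r (dist0 (x - y)) ≤ 2 / r * (1 / r ^ 2) :=
    fun x y => (le_abs_self _).trans
      ((Real.norm_eq_abs _).ge.trans (Mass.norm_weights_le hr hr1 y x))
  have hGb : ∀ x y, ‖G x y‖ ≤ Cb * A *
      (Mass.w r (dist0 (x - y)) + Mass.w' r (dist0 (x - y))) := fun x y => by
    have h0 : 0 ≤ Mass.w r (dist0 (x - y)) + Mass.w' r (dist0 (x - y)) :=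
      add_nonneg (Mass.w_nonneg _ _) (Mass.w'_nonneg r (dist0_nonneg _))
    exact (hvb r hr y (v y) x).1.trans
      (mul_le_mul_of_nonneg_right (mul_le_mul_of_nonneg_left (hvn y) hCb.le) h0)
  have hXm : Measurable fun p : V × V => c p.1 * q (T.h p.2) (G p.2 p.1) :=
    (hc.comp measurable_fst).mul ((Setup.continuous_q continuous_fst continuous_snd).measurable.comp
      ((T.meas.comp measurable_snd).prodMk (hGm.comp (measurable_snd.prodMk measurable_fst))))
  have hXi : Integrable (fun p : V × V => c p.1 * q (T.h p.2) (G p.2 p.1)) (T.ν.prod T.ν) := by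
    refine Integrable.of_bound hXm.aestronglyMeasurable
      (M * (6 * (N * (Cb * A * (2 / r * (1 / r ^ 2)))))) (Eventually.of_forall fun p => ?_)
    rw [norm_mul, Real.norm_eq_abs, Real.norm_eq_abs]
    refine mul_le_mul (hM _) ((abs_q_le _ _).trans ?_) (abs_nonneg _) hM0
    gcongr
    · exact hN _
    · exact (hGb _ _).trans (mul_le_mul_of_nonneg_left (hw1 _ _) (by positivity))
  have hBbd : ∀ x y, ∀ i, ‖(c y * v y i) • S.beta r y (e i) x‖ ≤
      M * A * Cs * Ct * Mass.w r (dist0 (x - y)) := fun x y i => by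
    have hs := (hsz y (e i) x).2.1.trans (mul_le_of_le_one_right hCs.le (e_norm_le i))
    rw [norm_smul, Setup.beta, norm_smul, Real.norm_eq_abs, Real.norm_eq_abs,
      abs_of_nonneg (S.th_nonneg r y x),
      show M * A * Cs * Ct * Mass.w r (dist0 (x - y)) =
        M * A * (Ct * Mass.w r (dist0 (x - y)) * Cs) by ring]
    have := Mass.w_nonneg r (dist0 (x - y))
    refine mul_le_mul (hvi i y) (mul_le_mul (hth r hr y x).1 hs (norm_nonneg _) (by positivity))
      (mul_nonneg (S.th_nonneg r y x) (norm_nonneg _)) (by positivity)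
  have hBle : ∀ x (W : V → ℝ), Integrable W T.ν →
      (∀ y i, ‖(c y * v y i) • S.beta r y (e i) x‖ ≤ M * A * Cs * Ct * W y) →
      ‖Bf x‖ ≤ 4 * (M * A * Cs * Ct * ∫ y, W y ∂T.ν) := fun x W hW hle => by
    refine (norm_sum_le _ _).trans ((Finset.sum_le_card_nsmul _ _ _ fun i _ =>
      (norm_integral_le_integral_norm _).trans ((integral_mono_of_nonneg
        (Eventually.of_forall fun y => norm_nonneg _) (hW.const_mul (M * A * Cs * Ct))
        (Eventually.of_forall fun y => hle y i)).trans_eq (integral_const_mul _ _))).trans ?_)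
    simp
  have hK1 : 4 * A * Cs * Ct ≤ Cb * A + 4 * A * Cs * Ct * (1 + m) :=
    le_add_of_nonneg_of_le (by positivity) (le_mul_of_one_le_right (by positivity) (by linarith))
  have hK2 : 4 * A * Cs * Ct * m ≤ Cb * A + 4 * A * Cs * Ct * (1 + m) :=
    le_add_of_nonneg_of_le (by positivity) (mul_le_mul_of_nonneg_left (by linarith) (by positivity))
  have hb1 : ∀ x, ‖Bf x‖ ≤ (Cb * A + 4 * A * Cs * Ct * (1 + m)) * M * T.rad r x := fun x => by
    refine (hBle x (fun y => Mass.w r (dist0 (y - x)) + Mass.w' r (dist0 (y - x)))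
      ((T.continuous_rad hr hr1).2 x) fun y i => (hBbd x y i).trans ?_).trans ?_
    · rw [dist0_sub_comm x y]
      gcongr
      exact le_add_of_nonneg_right (Mass.w'_nonneg r (dist0_nonneg _))
    · have := T.rad_nonneg r x
      have e1 : ∫ y, Mass.w r (dist0 (y - x)) + Mass.w' r (dist0 (y - x)) ∂T.ν = T.rad r x := rfl
      rw [e1, show 4 * (M * A * Cs * Ct * T.rad r x) = 4 * A * Cs * Ct * M * T.rad r x by ring]
      gcongr
  have hb2 : ∀ x δ₀, 0 < δ₀ → (∀ y, η y ≠ 0 → δ₀ ≤ dist0 (x - y)) →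
      ‖Bf x‖ ≤ (Cb * A + 4 * A * Cs * Ct * (1 + m)) * M * (r ^ 2 / δ₀ ^ 4) := by
    intro x δ₀ hδ₀ hfar
    refine (hBle x (fun _ => r ^ 2 / δ₀ ^ 4) (integrable_const _) fun y i => ?_).trans ?_
    · by_cases hy : η y = 0
      · have hv0 : v y = 0 := by
          funext j
          simp only [hvdef, Setup.vec, hy]
          simp [q, wedge, ofSkew_apply, pair_def]
        simp only [hv0, Pi.zero_apply, mul_zero, zero_smul, norm_zero]
        positivity
      · refine (hBbd x y i).trans ?_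
        have hd' : δ₀ ≤ dist0 (x - y) := hfar y hy
        gcongr
        calc r ^ 2 / (r ^ 2 + dist0 (x - y) ^ 2) ^ 2 ≤ r ^ 2 / (δ₀ ^ 2) ^ 2 := by
              gcongr
              nlinarith
          _ = _ := by ring
    · rw [integral_const, smul_eq_mul,
        show 4 * (M * A * Cs * Ct * (m * (r ^ 2 / δ₀ ^ 4))) =
          4 * A * Cs * Ct * m * M * (r ^ 2 / δ₀ ^ 4) by ring]
      gcongr
  refine ⟨Bf, hBf, fun x => ?_, hb1, hb2, hXi, ?_⟩
  · rw [hFx]
    have hi : Integrable (fun z => Cb * A * M *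
        (Mass.w r (dist0 (z - x)) + Mass.w' r (dist0 (z - x)))) T.ν :=
      ((T.continuous_rad hr hr1).2 x).const_mul _
    refine (norm_integral_le_integral_norm _).trans ((integral_mono_of_nonneg
      (Eventually.of_forall fun y => norm_nonneg _) hi (Eventually.of_forall fun y => ?_)).trans ?_)
    · simp only [norm_smul, Real.norm_eq_abs]
      refine (mul_le_mul (hM y) (hGb x y) (norm_nonneg _) hM0).trans_eq ?_
      rw [dist0_sub_comm x y]; ring
    · rw [integral_const_mul]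
      refine mul_le_mul_of_nonneg_right (mul_le_mul_of_nonneg_right ?_ hM0) (T.rad_nonneg r x)
      exact le_add_of_nonneg_right (by positivity)
  · change T.app (d1 Bf) = ∫ p : V × V, c p.1 * q (T.h p.2) (G p.2 p.1) ∂T.ν.prod T.ν
    rw [integral_prod_symm _ hXi, Current.app]
    refine integral_congr_ae (Eventually.of_forall fun x => ?_)
    simp only [hFx]
    have hi : Integrable (fun y => c y • G x y) T.ν := by
      refine T.integrable_bounded (hc.smul (hGm.comp measurable_prodMk_left)).aestronglyMeasurable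
        (C := M * (Cb * A * (2 / r * (1 / r ^ 2)))) fun y => ?_
      rw [norm_smul]
      exact mul_le_mul (hM y) ((hGb x y).trans (mul_le_mul_of_nonneg_left (hw1 _ _)
        (by positivity))) (norm_nonneg _) hM0
    rw [q_integral hi]
    exact integral_congr_ae (Eventually.of_forall fun y => q_smul_right _ _ _)

/-- The derivative of the weight in its centre, integrated, is an exact pairing plus an error. -/
lemma exists_centre_variation_local (hd : T.DensBound) {η : V → V} (hη : Smooth η) :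
    ∃ C, 0 < C ∧ ∀ k, ∀ (c : V → ℝ) (M : ℝ), Measurable c → (∀ y, |c y| ≤ M) → ∀ δ, 0 < δ →
      ∃ b : V → V, Smooth b ∧ (∀ x, ‖d1 b x‖ ≤ C * M * T.rad (scale k) x) ∧
        (∀ x, ‖b x‖ ≤ C * M * T.rad (scale k) x) ∧
        (∀ x δ₀, 0 < δ₀ → (∀ y, η y ≠ 0 → δ₀ ≤ dist0 (x - y)) →
          ‖b x‖ ≤ C * M * (scale k ^ 2 / δ₀ ^ 4)) ∧
        |∫ y, c y * fderiv ℝ (T.Th (scale k)) y (Setup.vec (T.h y) (η y)) ∂T.ν + T.app (d1 b)| ≤
          C * M * (δ * ∫ p : V × V, (S.th3 (scale k) p.1 p.2 *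
              S.B p.2 (T.h p.2) (Setup.vec (T.h p.1) (η p.1)) (Setup.vec (T.h p.1) (η p.1)) +
                S.th (scale k) p.1 p.2) ∂T.ν.prod T.ν +
            δ⁻¹ * (∫ y, ∫ z, S.th3 (scale k) y z *
              S.B z (T.h z) (sv (z - y)) (sv (z - y)) ∂T.ν ∂T.ν + scale k)) := by
  obtain ⟨Cw, hCw, hvar⟩ := S.exists_variation
  obtain ⟨CF, hCF, hsup⟩ := exists_superposition_local (T := T) hη
  obtain ⟨A, hA, hvn⟩ := exists_dir_bound (T := T) hη
  obtain ⟨CPh, hPh⟩ := T.exists_int_phi hd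
  obtain ⟨KB, hKB, hB⟩ := T.exists_B_bound
  set m := T.ν.real Set.univ
  have hm : 0 ≤ m := measureReal_nonneg
  set CP := max CPh 0
  refine ⟨CF + Cw * (1 + A) * (1 + CP * m), by positivity, fun k c M hc hM δ hδ => ?_⟩
  set r := scale k
  have hr : 0 < r := scale_pos' k
  have hr1 : r ≤ 1 := Mass.scale_le_one k
  have hM0 : 0 ≤ M := (abs_nonneg _).trans (hM 0)
  set v := fun y => Setup.vec (T.h y) (η y) with hvdef
  have hvm : Measurable v := measurable_dir hη
  obtain ⟨b, hbs, hFb, hbb, hbf, hXi, happ⟩ := hsup k c M hc hM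
  obtain ⟨hYi, hTh⟩ := integrable_centre (T := T) hη k hc hM
  have hC : CF * M ≤ (CF + Cw * (1 + A) * (1 + CP * m)) * M :=
    mul_le_mul_of_nonneg_right (le_add_of_nonneg_right (by positivity)) hM0
  refine ⟨b, hbs, fun x => (hFb x).trans (mul_le_mul_of_nonneg_right hC (T.rad_nonneg r x)),
    fun x => (hbb x).trans (mul_le_mul_of_nonneg_right hC (T.rad_nonneg r x)),
    fun x δ₀ h0 h => (hbf x δ₀ h0 h).trans (mul_le_mul_of_nonneg_right hC (by positivity)), ?_⟩
  rw [hTh, happ, ← integral_add hYi hXi]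
  set U := fun p : V × V => S.th3 r p.1 p.2 * S.B p.2 (T.h p.2) (v p.1) (v p.1) + S.th r p.1 p.2
  set W := fun p : V × V => S.th3 r p.1 p.2 *
    S.B p.2 (T.h p.2) (sv (p.2 - p.1)) (sv (p.2 - p.1))
  set Φ := fun p : V × V => phi r (p.2 - p.1)
  obtain ⟨KS, hKS, hBs⟩ := T.exists_Bs_bound
  have hUi : Integrable U (T.ν.prod T.ν) := by
    refine Integrable.of_bound (((S.continuous_th3₂ hr).measurable.mul (T.measurable_B
      measurable_snd (hvm.comp measurable_fst))).add
        (S.continuous_th₂ hr).measurable).aestronglyMeasurable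
      (1 / r ^ 4 * (KB * A ^ 2) + 1 / r ^ 2) (Eventually.of_forall fun p => ?_)
    rw [Real.norm_eq_abs, abs_of_nonneg (add_nonneg
      (mul_nonneg (S.th3_nonneg _ _ _) (hB _ _).1) (S.th_nonneg _ _ _))]
    refine add_le_add (mul_le_mul (S.th3_le hr _ _) ((hB _ _).2.trans ?_) (hB _ _).1
      (by positivity)) (S.th_le hr _ _)
    exact mul_le_mul_of_nonneg_left (pow_le_pow_left₀ (norm_nonneg _) (hvn _) 2) hKB.le
  have hWi : Integrable W (T.ν.prod T.ν) := by
    refine Integrable.of_bound ((S.continuous_th3₂ hr).measurable.mul (T.measurable_B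
      measurable_snd (Continuous.measurable (contDiff_sv.continuous.comp
        (continuous_snd.sub continuous_fst))))).aestronglyMeasurable (1 / r ^ 4 * KS)
      (Eventually.of_forall fun p => ?_)
    rw [Real.norm_eq_abs, abs_of_nonneg (mul_nonneg (S.th3_nonneg _ _ _) (hBs _ _).1)]
    exact mul_le_mul (S.th3_le hr _ _) (hBs _ _).2 (hBs _ _).1 (by positivity)
  have hΦi : Integrable Φ (T.ν.prod T.ν) :=
    Integrable.of_bound ((continuous_phi hr).comp
      (continuous_snd.sub continuous_fst)).aestronglyMeasurable 1 (Eventually.of_forall fun p => by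
      rw [Real.norm_eq_abs, abs_of_nonneg (phi_nonneg _ _)]; exact phi_le_one _ _)
  have hi1 : Integrable (fun p => δ * U p + δ⁻¹ * (W p + Φ p)) (T.ν.prod T.ν) :=
    (hUi.const_mul δ).fun_add ((hWi.fun_add hΦi).const_mul δ⁻¹)
  refine (abs_integral_le_integral_abs).trans ((integral_mono_of_nonneg
    (Eventually.of_forall fun p => abs_nonneg _) (hi1.const_mul (M * (Cw * (1 + A))))
    (Eventually.of_forall fun p => ?_)).trans ?_)
  · simp only
    rw [← mul_add, abs_mul, mul_assoc M]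
    refine mul_le_mul (hM _) ?_ (abs_nonneg _) hM0
    rw [add_comm]
    refine (hvar r hr p.1 p.2 (v p.1) (T.h p.2) (T.psd _) (T.trace _) δ hδ).trans ?_
    refine mul_le_mul_of_nonneg_right (mul_le_mul_of_nonneg_left
      (add_le_add le_rfl (hvn _)) hCw.le) ?_
    have h1 := S.th3_nonneg r p.1 p.2
    have h2 := S.th_nonneg r p.1 p.2
    have h3 := (hB p.2 (v p.1)).1
    have h4 := (hBs p.1 p.2).1
    have h5 := phi_nonneg r (p.2 - p.1)
    positivity
  · rw [integral_const_mul, integral_add (hUi.const_mul δ) ((hWi.fun_add hΦi).const_mul δ⁻¹),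
      integral_const_mul, integral_const_mul, integral_add hWi hΦi]
    have hW2 : ∫ p, W p ∂T.ν.prod T.ν = ∫ y, ∫ z, S.th3 r y z *
        S.B z (T.h z) (sv (z - y)) (sv (z - y)) ∂T.ν ∂T.ν := integral_prod _ hWi
    have hΦ2 : ∫ p, Φ p ∂T.ν.prod T.ν ≤ CP * m * r := by
      rw [integral_prod _ hΦi]
      refine (integral_mono hΦi.integral_prod_left (integrable_const (CP * r)) fun y => ?_).trans_eq
        (by rw [integral_const, smul_eq_mul]; ring)
      exact (hPh r hr hr1 y).trans (mul_le_mul_of_nonneg_right (le_max_left _ _) hr.le)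
    rw [← hW2]
    have hU0 : 0 ≤ ∫ p, U p ∂T.ν.prod T.ν := integral_nonneg fun p => add_nonneg
      (mul_nonneg (S.th3_nonneg _ _ _) (hB _ _).1) (S.th_nonneg _ _ _)
    have hW0 : 0 ≤ ∫ p, W p ∂T.ν.prod T.ν := integral_nonneg fun p =>
      mul_nonneg (S.th3_nonneg _ _ _) (hBs _ _).1
    calc M * (Cw * (1 + A)) * (δ * ∫ p, U p ∂T.ν.prod T.ν +
          δ⁻¹ * (∫ p, W p ∂T.ν.prod T.ν + ∫ p, Φ p ∂T.ν.prod T.ν))
        ≤ M * (Cw * (1 + A)) * ((1 + CP * m) * (δ * ∫ p, U p ∂T.ν.prod T.ν +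
            δ⁻¹ * (∫ p, W p ∂T.ν.prod T.ν + r))) := by
          refine mul_le_mul_of_nonneg_left ?_ (by positivity)
          have a1 : 0 ≤ CP * m * (δ * ∫ p, U p ∂T.ν.prod T.ν) := by positivity
          have a2 : 0 ≤ CP * m * (δ⁻¹ * ∫ p, W p ∂T.ν.prod T.ν) := by positivity
          have a3 : δ⁻¹ * ∫ p, Φ p ∂T.ν.prod T.ν ≤ δ⁻¹ * (CP * m * r) :=
            mul_le_mul_of_nonneg_left hΦ2 (by positivity)
          have a4 : 0 ≤ δ⁻¹ * r := by positivity
          linarith
      _ = Cw * (1 + A) * (1 + CP * m) * M * (δ * ∫ p, U p ∂T.ν.prod T.ν +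
            δ⁻¹ * (∫ p, W p ∂T.ν.prod T.ν + r)) := by ring
      _ ≤ _ := by
          gcongr
          exact le_add_of_nonneg_left (by positivity)

/-- The cut-off exact forms pair to zero in the limit. -/
theorem tendsto_app_cut_local (hd : T.DensBound) {A : ℝ}
    (hA : ∀ r, 0 < r → r ≤ 1 → ∀ y, T.Th r y ≤ A) {CP BP : ℝ} (hCP : 0 < CP) (hBP : 0 < BP)
    (hP0 : ∀ᵐ p : V × V ∂T.ν.prod T.ν, 0 ≤ q (T.h p.1) (T.h p.2) + CP * dist0 (p.1 - p.2) ^ 2)
    (hP : ∀ ε, 0 < ε → ε ≤ 1 → ∫ y, ∫ z, (if dist0 (y - z) ≤ ε then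
      (q (T.h y) (T.h z) + CP * dist0 (y - z) ^ 2) / ε ^ 4 else 0) ∂T.ν ∂T.ν ≤ BP)
    (hI : Tendsto (fun k => ∫ y, ∫ z, S.th3 (scale k) y z *
      S.B z (T.h z) (sv (z - y)) (sv (z - y)) ∂T.ν ∂T.ν) atTop (𝓝 0))
    {η : V → V} (hη : Smooth η) {E : Set V} {δ₀ : ℝ} (hδ₀ : 0 < δ₀)
    (hsep : ∀ x ∈ E, ∀ y, η y ≠ 0 → δ₀ ≤ dist0 (x - y))
    (hexact : ∀ C : ℝ, ∀ δ > 0, ∃ κ > 0, ∀ (b : V → V) (ρ : V → ℝ), Smooth b → Continuous ρ →
      (∀ x, 0 ≤ ρ x) → (∀ x, ‖b x‖ ≤ ρ x ∧ ‖d1 b x‖ ≤ ρ x) → l2 ρ ≤ C → l1 ρ ≤ κ →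
      (∀ x ∈ E, ‖b x‖ ≤ κ) → |T.app (d1 b)| ≤ δ)
    {τ : ℝ} (hτ : 0 < τ) :
    Tendsto (fun k => T.app fun x => (T.Th (scale k) x / (T.Th (scale k) x + τ)) • d1 η x)
      atTop (𝓝 0) := by
  obtain ⟨C, hC, hcv⟩ := exists_centre_variation_local (T := T) hd hη
  obtain ⟨K, hK, hU⟩ := exists_var_mass_local hA hCP hBP hP0 hP hη
  obtain ⟨CR, hR⟩ := T.exists_rad_bound hd
  obtain ⟨Ct, hCt, hth⟩ := S.exists_th_compare
  obtain ⟨Cb, hCb, hvb⟩ := S.exists_var_bound
  obtain ⟨A0, hA0, hA0'⟩ := exists_bound (smooth_d1 hη).smooth.continuous (smooth_d1 hη).periodic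
  obtain ⟨Mη, hMη0, hMη⟩ := exists_bound hη.smooth.continuous hη.periodic
  set CW := Ct / τ * A0 + 12 * (Cb / τ * Mη) + Ct / τ * Mη
  rw [Metric.tendsto_atTop]
  intro ε hε
  obtain ⟨η1, hη1, hS1⟩ := hexact ((CW + C * τ⁻¹) * |CR|) (ε / 4) (by positivity)
  obtain ⟨δ, hδ, hδK⟩ : ∃ δ : ℝ, 0 < δ ∧ C * τ⁻¹ * (δ * K) ≤ ε / 8 :=
    ⟨ε / 8 / (C * τ⁻¹ * (K + 1)), by positivity, by
      rw [show C * τ⁻¹ * (ε / 8 / (C * τ⁻¹ * (K + 1)) * K) = ε / 8 * (K / (K + 1)) by field_simp]
      exact mul_le_of_le_one_right (by positivity) (div_le_one_of_le₀ (by linarith) (by linarith))⟩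
  have hIs := (hI.add tendsto_scale).const_mul (C * τ⁻¹ * δ⁻¹)
  rw [add_zero, mul_zero] at hIs
  have hls := tendsto_scale.const_mul ((CW + C * τ⁻¹) * |CR|)
  rw [mul_zero] at hls
  have hfs := (tendsto_scale.pow 2).const_mul (C * τ⁻¹ / δ₀ ^ 4)
  rw [zero_pow two_ne_zero, mul_zero] at hfs
  obtain ⟨k0, hk0⟩ := eventually_atTop.1
    (((hls.eventually (eventually_le_nhds hη1)).and (hfs.eventually (eventually_le_nhds hη1))).and
      (hIs.eventually (eventually_le_nhds (show (0 : ℝ) < ε / 8 by positivity))))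
  refine ⟨k0, fun k hk => ?_⟩
  obtain ⟨⟨hk1, hk3⟩, hk2⟩ := hk0 k hk
  set r := scale k
  have hr : 0 < r := scale_pos' k
  obtain ⟨hThs, hThD⟩ := fderiv_Th (T := T) hr
  obtain ⟨hradc, hrad0, -, hrad1, hrad2⟩ := hR k
  have hpos : ∀ x, 0 < T.Th r x + τ := fun x => add_pos_of_nonneg_of_pos (T.Th_nonneg r x) hτ
  set g : V → ℝ := fun x => T.Th r x / (T.Th r x + τ)
  set c : V → ℝ := fun x => τ / (T.Th r x + τ) ^ 2
  have hgs : Smooth g :=
    ⟨hThs.smooth.div (hThs.smooth.add contDiff_const) fun x => (hpos x).ne',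
      fun x n => by simp only [g, hThs.periodic x n]⟩
  have hgd : ∀ x u, fderiv ℝ g x u = c x * fderiv ℝ (T.Th r) x u := fun x u => by
    have hh : HasDerivAt (fun t => t / (t + τ)) (c x) (T.Th r x) := by
      have := (hasDerivAt_id (T.Th r x)).fun_div ((hasDerivAt_id (T.Th r x)).add_const τ)
        (hpos x).ne'
      refine this.congr_deriv ?_
      simp only [c, id]
      ring
    have h := hh.comp_hasFDerivAt x (hThs.differentiableAt x).hasFDerivAt
    rw [show g = (fun t => t / (t + τ)) ∘ T.Th r from rfl, h.fderiv]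
    simp
  have hcb : ∀ x, |c x| ≤ τ⁻¹ := fun x => by
    rw [abs_of_nonneg (by have := hpos x; positivity), inv_eq_one_div]
    simp only [c]
    rw [div_le_div_iff₀ (pow_pos (hpos x) 2) hτ, one_mul, ← sq]
    exact pow_le_pow_left₀ hτ.le (le_add_of_nonneg_left (T.Th_nonneg r x)) 2
  have hcm : Measurable c :=
    (continuous_const.div ((hThs.smooth.continuous.add continuous_const).pow 2)
      fun x => (pow_pos (hpos x) 2).ne').measurable
  have hP : Smooth fun x => g x • η x :=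
    ⟨hgs.smooth.smul hη.smooth, fun x n => by simp only [hgs.periodic x n, hη.periodic x n]⟩
  set W := d1 fun x => g x • η x
  have hWx : ∀ x, W x = g x • d1 η x + wedge (grad g x) (η x) := fun x =>
    d1_smul (hgs.differentiableAt x) (hη.differentiableAt x)
  obtain ⟨B, hBs, hFb, hBb, hBf, hFE⟩ := hcv k c τ⁻¹ hcm hcb δ hδ
  -- the cut-off exact form is small
  have hThrad : ∀ x, T.Th r x ≤ Ct * T.rad r x := fun x => by
    rw [Current.rad, ← integral_const_mul]
    refine integral_mono (T.integrable_th hr x)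
      (((T.continuous_rad hr (Mass.scale_le_one k)).2 x).const_mul Ct) fun z => ?_
    exact (hth r hr x z).1.trans (mul_le_mul_of_nonneg_left
      (le_add_of_nonneg_right (Mass.w'_nonneg r (dist0_nonneg _))) hCt.le)
  have hgrad : ∀ x, ‖grad g x‖ ≤ Cb / τ * T.rad r x := fun x => by
    have := hrad0 x
    refine (pi_norm_le_iff_of_nonneg (by positivity)).2 fun i => ?_
    rw [Real.norm_eq_abs, grad, hgd, abs_mul, show Cb / τ * T.rad r x = τ⁻¹ * (Cb * T.rad r x) by
      ring]
    refine mul_le_mul (hcb x) ?_ (abs_nonneg _) (by positivity)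
    rw [(hThD x (e i)).2, Current.rad, ← integral_const_mul]
    refine (abs_integral_le_integral_abs).trans (integral_mono_of_nonneg
      (Eventually.of_forall fun z => abs_nonneg _)
      (((T.continuous_rad hr (Mass.scale_le_one k)).2 x).const_mul Cb)
      (Eventually.of_forall fun z => ?_))
    have h0 := dist0_nonneg (z - x)
    refine (hvb r hr x (e i) z).2.trans (mul_le_mul (mul_le_of_le_one_right hCb.le (e_norm_le i))
      (le_add_of_nonneg_left (Mass.w_nonneg r _)) (by positivity) hCb.le)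
  have hWb : ∀ x, ‖W x‖ ≤ CW * T.rad r x := fun x => by
    have := hrad0 x
    rw [hWx]
    refine (norm_add_le _ _).trans ?_
    rw [norm_smul, show CW * T.rad r x =
      Ct / τ * A0 * T.rad r x + 12 * (Cb / τ * Mη) * T.rad r x + Ct / τ * Mη * T.rad r x by
        simp only [CW]; ring]
    refine le_add_of_le_of_nonneg (add_le_add ?_ ((norm_wedge_le _ _).trans ?_)) (by positivity)
    · rw [Real.norm_eq_abs, abs_of_nonneg (div_nonneg (T.Th_nonneg r x) (hpos x).le)]
      have h1 : g x ≤ Ct / τ * T.rad r x := by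
        calc g x ≤ T.Th r x / τ := div_le_div_of_nonneg_left (T.Th_nonneg r x) hτ
              (le_add_of_nonneg_left (T.Th_nonneg r x))
          _ ≤ Ct * T.rad r x / τ := div_le_div_of_nonneg_right (hThrad x) hτ.le
          _ = _ := by ring
      calc g x * ‖d1 η x‖ ≤ Ct / τ * T.rad r x * A0 := by
            gcongr
            exact hA0' x
        _ = _ := by ring
    · calc 12 * (‖grad g x‖ * ‖η x‖) ≤ 12 * (Cb / τ * T.rad r x * Mη) := by
            gcongr
            · exact hgrad x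
            · exact hMη x
        _ = _ := by ring
  have hCW : 0 ≤ CW := by positivity
  have hgη : ∀ x, ‖g x • η x‖ ≤ Ct / τ * Mη * T.rad r x := fun x => by
    have h1 : g x ≤ Ct / τ * T.rad r x := by
      calc g x ≤ T.Th r x / τ := div_le_div_of_nonneg_left (T.Th_nonneg r x) hτ
            (le_add_of_nonneg_left (T.Th_nonneg r x))
        _ ≤ Ct * T.rad r x / τ := div_le_div_of_nonneg_right (hThrad x) hτ.le
        _ = _ := by ring
    rw [norm_smul, Real.norm_eq_abs, abs_of_nonneg (div_nonneg (T.Th_nonneg r x) (hpos x).le)]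
    calc g x * ‖η x‖ ≤ Ct / τ * T.rad r x * Mη := by
          have := T.rad_nonneg r x
          gcongr
          exact hMη x
      _ = _ := by ring
  have small : ∀ (b : V → V) (a : ℝ), Smooth b → 0 ≤ a → a ≤ CW + C * τ⁻¹ →
      (∀ x, ‖b x‖ ≤ a * T.rad r x ∧ ‖d1 b x‖ ≤ a * T.rad r x) →
      (∀ x ∈ E, ‖b x‖ ≤ η1) → |T.app (d1 b)| ≤ ε / 4 := by
    intro b a hb' ha0 ha hb hbE
    have hρ0 : ∀ x, 0 ≤ a * T.rad r x := fun x => mul_nonneg ha0 (hrad0 x)
    refine hS1 b (fun x => a * T.rad r x) hb' (continuous_const.mul hradc) hρ0 hb ?_ ?_ hbE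
    · have e : l2 (fun x => a * T.rad r x) = a * l2 (T.rad r) := by
        simp only [l2, norm_mul, mul_pow, Real.norm_of_nonneg ha0]
        rw [integral_const_mul, Real.sqrt_mul (sq_nonneg a), Real.sqrt_sq ha0]
      rw [e]
      exact mul_le_mul ha (hrad2.trans (le_abs_self _)) (l2_nonneg _) (by positivity)
    · have e : l1 (fun x => a * T.rad r x) = a * l1 (T.rad r) := by
        simp only [l1, norm_mul, Real.norm_of_nonneg ha0]
        rw [integral_const_mul]
      have hl1n : 0 ≤ l1 (T.rad r) := integral_nonneg fun x => norm_nonneg _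
      rw [e]
      refine le_trans ?_ hk1
      rw [mul_assoc]
      exact mul_le_mul ha (hrad1.trans (mul_le_mul_of_nonneg_right (le_abs_self _) hr.le)) hl1n
        (by positivity)
  have hW1 := small _ CW hP hCW (le_add_of_nonneg_right (by positivity))
    (fun x => ⟨(hgη x).trans (mul_le_mul_of_nonneg_right
      (le_add_of_nonneg_left (by positivity)) (hrad0 x)), hWb x⟩) fun x hx => by
        have h0 : η x = 0 := by
          by_contra h
          have := hsep x hx x h
          rw [sub_self, dist0_zero] at this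
          linarith
        simp [h0, hη1.le]
  have hF1 := small B (C * τ⁻¹) hBs (by positivity) (le_add_of_nonneg_left hCW)
    (fun x => ⟨hBb x, hFb x⟩) fun x hx => (hBf x δ₀ hδ₀ (hsep x hx)).trans (by
      calc C * τ⁻¹ * (r ^ 2 / δ₀ ^ 4) = C * τ⁻¹ / δ₀ ^ 4 * r ^ 2 := by ring
        _ ≤ η1 := hk3)
  -- the identity
  have hid : T.app W = T.app (fun x => g x • d1 η x) +
      ∫ y, c y * fderiv ℝ (T.Th r) y (Setup.vec (T.h y) (η y)) ∂T.ν := by
    have hs1 : Smooth fun x => g x • d1 η x := ⟨hgs.smooth.smul (smooth_d1 hη).smooth,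
      fun x n => by simp only [hgs.periodic x n, (smooth_d1 hη).periodic x n]⟩
    have hp : ∀ y, c y * fderiv ℝ (T.Th r) y (Setup.vec (T.h y) (η y)) =
        q (T.h y) (W y) - q (T.h y) (g y • d1 η y) := fun y => by
      rw [hWx, q_add_right, add_sub_cancel_left, ← Setup.pair_vec, pair_grad, hgd]
    simp only [Current.app, hp]
    rw [integral_sub (integrable_app (smooth_d1 hP)) (integrable_app hs1)]
    ring
  rw [Real.dist_eq, sub_zero]
  have hE : |∫ y, c y * fderiv ℝ (T.Th r) y (Setup.vec (T.h y) (η y)) ∂T.ν + T.app (d1 B)| ≤ ε / 4 := by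
    refine hFE.trans ?_
    calc C * τ⁻¹ * (δ * _ + δ⁻¹ * _) ≤ C * τ⁻¹ * (δ * K + δ⁻¹ *
          (∫ y, ∫ z, S.th3 r y z * S.B z (T.h z) (sv (z - y)) (sv (z - y)) ∂T.ν ∂T.ν + r)) := by
          gcongr
          exact hU k
      _ = C * τ⁻¹ * (δ * K) + C * τ⁻¹ * δ⁻¹ *
          (∫ y, ∫ z, S.th3 r y z * S.B z (T.h z) (sv (z - y)) (sv (z - y)) ∂T.ν ∂T.ν + r) := by
          ring
      _ ≤ ε / 8 + ε / 8 := add_le_add hδK hk2
      _ = ε / 4 := by ring
  rw [abs_le] at hW1 hF1 hE
  rw [abs_lt]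
  constructor <;> linarith

end Current

end Vale.Agent.P204.Torus
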