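import Vale.Agent.P204.Gen.GeoSmooth
import Vale.Agent.P204.Gen.MonoData
import Vale.Agent.P204.Gen.VanishTorus

/-!
P204 on a closed four-manifold, module GVanish: a current read in one chart.
-/

open MeasureTheory Filter Topology Set
open scoped BigOperators ContDiff

namespace Vale.Agent.P204.Gen

open Vale.Agent.P204.Torus

namespace GVanish

lemma norm_pull_le' (A : V →L[ℝ] V) (α : Form) : ‖pull A α‖ ≤ 72 * ‖A‖ ^ 2 * ‖α‖ := by
  have he : ∀ i, ‖A (e i)‖ ≤ ‖A‖ := fun i =>
    (A.le_opNorm _).trans (mul_le_of_le_one_right (norm_nonneg _) (e_norm_le i))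
  refine (norm_le_sum _).trans ((Finset.sum_le_sum fun k _ =>
    show |pull A α k| ≤ 12 * ‖A‖ ^ 2 * ‖α‖ from ?_).trans ?_)
  · rw [pull, ofSkew_apply]
    refine (abs_ev_le _ _ _).trans ?_
    calc 12 * (‖α‖ * (‖A (e (fi k))‖ * ‖A (e (se k))‖)) ≤ 12 * (‖α‖ * (‖A‖ * ‖A‖)) := by
          gcongr <;> apply he
      _ = _ := by ring
  · simp only [Finset.sum_const, Finset.card_univ, Fintype.card_fin, nsmul_eq_mul]
    exact le_of_eq (by ring)

lemma dist0_pos_of_Q0 {u v : V} (hu : u ∈ Q0) (hv : v ∈ Q0) (h : u ≠ v) : 0 < dist0 (u - v) := by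
  refine (dist0_nonneg _).lt_of_ne fun h0 => h (funext fun i => ?_)
  have h1 := abs_sin_le_dist0 (u - v) i
  rw [← h0] at h1
  have h2 : Real.sin (Real.pi * (u - v) i) = 0 := by
    have := le_antisymm h1 (by positivity)
    rcases div_eq_zero_iff.1 this with h | h
    · exact abs_eq_zero.1 h
    · exact absurd h Real.pi_ne_zero
  obtain ⟨n, hn⟩ := Real.sin_eq_zero_iff.1 h2
  have hn' : (n : ℝ) = u i - v i := by
    have : Real.pi * (n : ℝ) = Real.pi * (u - v) i := by rw [← hn]; ring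
    simpa using mul_left_cancel₀ Real.pi_ne_zero this
  obtain ⟨a1, a2⟩ := Set.mem_pi.1 hu i (Set.mem_univ i)
  obtain ⟨b1, b2⟩ := Set.mem_pi.1 hv i (Set.mem_univ i)
  have c1 : ((-1 : ℤ) : ℝ) < (n : ℝ) := by push_cast; linarith
  have c2 : (n : ℝ) < ((1 : ℤ) : ℝ) := by push_cast; linarith
  have : n = 0 := by
    have := Int.cast_lt.1 c1
    have := Int.cast_lt.1 c2
    omega
  rw [this] at hn'
  simp only [Int.cast_zero] at hn'
  linarith

lemma dist0_sub_fred (x y : V) : dist0 (x - y) = dist0 (x - fred y) := by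
  have h : x - fred y = x - y + intVec fun i => ⌊y i⌋ := by
    funext i
    simp only [fred, Int.fract, intVec, Pi.sub_apply, Pi.add_apply]
    ring
  rw [h, dist0_periodic]

section

variable {X : Type*} [TopologicalSpace X] [MeasurableSpace X] [T2Space X] [CompactSpace X]
  [BorelSpace X] {S : GSetup X}

lemma isCompact_psi (i : Fin S.n) : IsCompact (tsupport (S.ψ i)) :=
  (isClosed_tsupport _).isCompact

/-- The changes to a fixed chart are bounded on compact sets. -/
lemma exists_trD_bound (i : Fin S.n) {K : Set X} (hK : IsCompact K)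
    (hs : K ⊆ (S.φ i).source) : ∃ C, 0 ≤ C ∧ ∀ x ∈ K, ‖S.trD (S.tr x) i x‖ ≤ C := by
  have hc : ∀ k, ContinuousOn (fun x => S.trD k i x) (K ∩ tsupport (S.ψ k)) := fun k => by
    refine ((S.trans_smooth k i).continuousOn_fderiv_of_isOpen (S.isOpen_tdom k i)
      (by simp)).comp ((S.φ k).continuousOn.mono fun x hx => S.ψ_supp k hx.2) fun x hx => ?_
    exact S.chart_mem_tdom (S.ψ_supp k hx.2) (hs hx.1)
  choose M hM using fun k =>
    (hK.inter_right (isClosed_tsupport (S.ψ k))).exists_bound_of_continuousOn (hc k)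
  refine ⟨∑ k, max (M k) 0, Finset.sum_nonneg fun k _ => le_max_right _ _, fun x hx => ?_⟩
  exact ((hM _ x ⟨hx, subset_tsupport _ (S.tr_pos x).ne'⟩).trans (le_max_left _ 0)).trans
    (Finset.single_le_sum (f := fun k => max (M k) 0) (fun k _ => le_max_right _ _)
      (Finset.mem_univ _))

lemma q_pull_formIn {i : Fin S.n} {x : X} (hi : x ∈ (S.φ i).source) (h γ : Form) :
    q (S.formIn i x h) γ = q h (pull (S.trD (S.tr x) i x) γ) := by
  set k := S.tr x
  have hk := S.mem_ch x
  have e1 : pull (S.dT i x) (pull (S.trD k i x) γ) = γ := by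
    rw [Geo.dT_eq, ← pull_comp, S.trD_symm hk hi, pull_id]
  conv_lhs => rw [← e1]
  rw [Geo.formIn, q_smul_left, q_pull, inv_mul_cancel_left₀ (S.dT_det_ne hi)]

lemma eq_pull_trD (α : X → Form) {i : Fin S.n} {x : X} (hi : x ∈ (S.φ i).source) :
    α x = pull (S.trD (S.tr x) i x) (S.rep2 i α (S.φ i x)) := by
  rw [← S.rep2_change_point α (S.mem_ch x) hi]
  exact (S.rep2_tr α x).symm

/-- The cut-off of the chart, read on `X`. -/
noncomputable def cw (S : GSetup X) (i : Fin S.n) : X → ℝ := S.fromChart0 i (S.χ i)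

lemma cw_cont (i : Fin S.n) : Continuous (cw S i) :=
  S.continuous_fromChart0 (S.χ_smooth i).continuous (S.χ_cpt i) (S.χ_supp i)

lemma cw_nonneg (i : Fin S.n) (x : X) : 0 ≤ cw S i x := by
  rw [cw, Geo.fromChart0]; split_ifs
  · exact (S.χ_range i _).1
  · exact le_rfl

lemma cw_le_one (i : Fin S.n) (x : X) : cw S i x ≤ 1 := by
  rw [cw, Geo.fromChart0]; split_ifs
  · exact (S.χ_range i _).2
  · exact zero_le_one

lemma cw_ne {i : Fin S.n} {x : X} (h : cw S i x ≠ 0) :
    x ∈ (S.φ i).source ∧ S.φ i x ∈ tsupport (S.χ i) := by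
  by_cases hx : x ∈ (S.φ i).source
  · rw [cw, S.fromChart0_apply _ hx] at h
    exact ⟨hx, subset_tsupport _ h⟩
  · simp [cw, Geo.fromChart0, hx] at h

lemma cw_one {i : Fin S.n} {x : X} (hx : x ∈ tsupport (S.ψ i)) : cw S i x = 1 := by
  rw [cw, S.fromChart0_apply _ (S.ψ_supp i hx)]
  exact (S.χ_one i x hx).self_of_nhds

variable (T : Positive S)

lemma loc_density (i : Fin S.n) : T.locMeasure i =
    (T.ν.withDensity fun x => ENNReal.ofReal (cw S i x)).map (S.φ i) := by
  classical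
  rw [Positive.locMeasure]
  congr 2
  funext x
  simp only [cw, Geo.fromChart0]
  split_ifs <;> simp

lemma aemeasurable_chart (i : Fin S.n) :
    AEMeasurable (S.φ i) (T.ν.withDensity fun x => ENNReal.ofReal (cw S i x)) := by
  classical
  refine ⟨(S.φ i).source.piecewise (S.φ i) 0, (S.φ i).continuousOn.measurable_piecewise
    continuousOn_const (S.φ i).open_source.measurableSet, ?_⟩
  rw [EventuallyEq, ae_withDensity_iff (cw_cont i).measurable.ennreal_ofReal]
  refine Eventually.of_forall fun x hx => ?_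
  rw [Set.piecewise_eq_of_mem]
  exact (cw_ne fun h => hx (by rw [h, ENNReal.ofReal_zero])).1

lemma integral_loc (i : Fin S.n) {F : V → ℝ} (hF : Measurable F) :
    ∫ u, F u ∂T.locMeasure i = ∫ x, cw S i x * F (S.φ i x) ∂T.ν := by
  rw [loc_density, integral_map (aemeasurable_chart T i) hF.aestronglyMeasurable,
    integral_withDensity_eq_integral_toReal_smul (cw_cont i).measurable.ennreal_ofReal
      (Eventually.of_forall fun x => ENNReal.ofReal_lt_top)]
  refine integral_congr_ae (Eventually.of_forall fun x => ?_)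
  simp [ENNReal.toReal_ofReal (cw_nonneg i x)]

lemma integrable_loc [IsFiniteMeasure T.ν] (i : Fin S.n) {F : V → ℝ} (hF : Measurable F) {C : ℝ}
    (hC : ∀ u, |F u| ≤ C) : Integrable (fun x => cw S i x * F (S.φ i x)) T.ν := by
  classical
  set g := (S.φ i).source.piecewise (S.φ i) 0
  have hg : Measurable g := (S.φ i).continuousOn.measurable_piecewise
    continuousOn_const (S.φ i).open_source.measurableSet
  have he : (fun x => cw S i x * F (S.φ i x)) = fun x => cw S i x * F (g x) := funext fun x => by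
    by_cases h : cw S i x = 0
    · rw [h, zero_mul, zero_mul]
    · simp only [g]
      rw [Set.piecewise_eq_of_mem _ _ _ (cw_ne h).1]
  rw [he]
  refine Integrable.of_bound ((cw_cont i).measurable.mul (hF.comp hg)).aestronglyMeasurable C
    (Eventually.of_forall fun x => ?_)
  rw [Real.norm_eq_abs, abs_mul, abs_of_nonneg (cw_nonneg i x)]
  exact (mul_le_of_le_one_left (abs_nonneg _) (cw_le_one i x)).trans (hC _)

variable {T} {i : Fin S.n} {L : LocalChart S i} {Tc : Current L.loc}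

lemma ae_h (hT : IsLocal T Tc) :
    ∀ᵐ x ∂T.ν, cw S i x ≠ 0 → Tc.h (S.φ i x) = S.formIn i x (T.h x) := by
  obtain ⟨hν, hh⟩ := hT
  rw [hν, loc_density] at hh
  have h := ae_of_ae_map (aemeasurable_chart T i) hh
  rw [ae_withDensity_iff (cw_cont i).measurable.ennreal_ofReal] at h
  filter_upwards [h] with x hx hne
  rw [hx (ne_of_gt (ENNReal.ofReal_pos.2 ((cw_nonneg i x).lt_of_ne' hne))),
    Positive.locH, (S.φ i).left_inv (cw_ne hne).1]

/-- The current of the chart, integrated on `X`. -/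
lemma app_loc (hT : IsLocal T Tc) [IsFiniteMeasure T.ν] {α : V → Form} (hα : Measurable α)
    {M : ℝ} (hM : ∀ u, ‖α u‖ ≤ M) :
    Integrable (fun x => cw S i x * q (T.h x) (pull (S.trD (S.tr x) i x) (α (S.φ i x)))) T.ν ∧
      Tc.app α = ∫ x, cw S i x * q (T.h x) (pull (S.trD (S.tr x) i x) (α (S.φ i x))) ∂T.ν := by
  obtain ⟨N, hN0, hN⟩ := Tc.exists_h_bound
  have hm : Measurable fun u => q (Tc.h u) (α u) :=
    (Setup.continuous_q continuous_fst continuous_snd).measurable.comp (Tc.meas.prodMk hα)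
  have hb : ∀ u, |q (Tc.h u) (α u)| ≤ 6 * (N * M) := fun u => (abs_q_le _ _).trans (by
    gcongr
    · exact hN u
    · exact hM u)
  have hae : (fun x => cw S i x * q (Tc.h (S.φ i x)) (α (S.φ i x))) =ᵐ[T.ν]
      fun x => cw S i x * q (T.h x) (pull (S.trD (S.tr x) i x) (α (S.φ i x))) := by
    filter_upwards [ae_h hT] with x hx
    by_cases h : cw S i x = 0
    · rw [h, zero_mul, zero_mul]
    · rw [hx h, q_pull_formIn (cw_ne h).1]
  exact ⟨(integrable_loc T i hm hb).congr hae, by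
    rw [Current.app, hT.1, integral_loc T i hm]
    exact integral_congr_ae hae⟩

/-- The pairs at distance `ε` of a local current. -/
lemma pair_loc (hP : PairMass T) (hT : IsLocal T Tc) :
    ∃ CP BP, 0 < CP ∧ 0 < BP ∧
      (∀ᵐ p : V × V ∂Tc.ν.prod Tc.ν,
        0 ≤ q (Tc.h p.1) (Tc.h p.2) + CP * dist0 (p.1 - p.2) ^ 2) ∧
      ∀ ε, 0 < ε → ε ≤ 1 → ∫ y, ∫ z, (if dist0 (y - z) ≤ ε then
        (q (Tc.h y) (Tc.h z) + CP * dist0 (y - z) ^ 2) / ε ^ 4 else 0) ∂Tc.ν ∂Tc.ν ≤ BP := by
  have := Tc.finite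
  obtain ⟨C, B, hC, hB, h0, h1⟩ := hP i
  have hs : ∀ᵐ u ∂Tc.ν, u ∈ tsupport (S.χ i) := by
    rw [hT.1, loc_density]
    refine (ae_map_iff (p := fun u => u ∈ tsupport (S.χ i)) (aemeasurable_chart T i)
      (isClosed_tsupport _).measurableSet).2 ?_
    rw [ae_withDensity_iff (cw_cont i).measurable.ennreal_ofReal]
    exact Eventually.of_forall fun x hx => (cw_ne fun h => hx (by rw [h, ENNReal.ofReal_zero])).2
  refine ⟨C, B, hC, hB, ?_, fun ε hε hε1 => ?_⟩
  · have a1 := (Measure.quasiMeasurePreserving_fst (μ := Tc.ν) (ν := Tc.ν)).ae (hT.2.and hs)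
    have a2 := (Measure.quasiMeasurePreserving_snd (μ := Tc.ν) (ν := Tc.ν)).ae (hT.2.and hs)
    filter_upwards [a1, a2] with p hp1 hp2
    rw [hp1.1, hp2.1]
    exact h0 _ _ hp1.2 hp2.2
  · refine le_trans (le_of_eq ?_) (h1 ε hε hε1)
    rw [← hT.1]
    refine integral_congr_ae ?_
    filter_upwards [hT.2] with y hy
    refine integral_congr_ae ?_
    filter_upwards [hT.2] with z hz
    rw [hy, hz]

end

end GVanish

end Vale.Agent.P204.Gen
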