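import Vale.Agent.P204.Gen.GPairBound
import Vale.Agent.P204.Gen.GVanishBase
import Vale.Agent.P204.Gen.LocalChart

/-!
P204, general four-manifold: the pairs at distance `ε` of the current read in a chart (module 17
`GPairMass`, helper51).
-/

open MeasureTheory Filter Topology Set
open scoped BigOperators ContDiff

set_option linter.unusedSectionVars false

namespace Vale.Agent.P204.Gen

open Vale.Agent.P204.Torus PairAux

variable {X : Type*} [TopologicalSpace X] [MeasurableSpace X]

namespace PairAux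

/-- A positive form in two charts. -/
lemma formIn_change (S : GSetup X) {l i : Fin S.n} {x : X} (hl : x ∈ (S.φ l).source)
    (hi : x ∈ (S.φ i).source) (h : Form) :
    S.formIn l x h = ((S.trD l i x).det)⁻¹ • pull (S.trD l i x) (S.formIn i x h) := by
  rw [Geo.formIn, Geo.formIn, S.dT_cocycle hl hi, pull_comp, pull_smul, smul_smul, ← mul_inv]
  congr 2
  rw [mul_comm (S.trD l i x).det]
  exact LinearMap.det_comp _ _

end PairAux

variable [T2Space X] [CompactSpace X] [BorelSpace X] {S : GSetup X} (T : Positive S)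

/-- The pairing in one chart against the pairs weight in another. -/
lemma exists_change_chart (i l : Fin S.n) {K : Set X} (hK : IsCompact K)
    (hKs : K ⊆ (S.φ i).source) :
    ∃ D Kc ρ : ℝ, 0 ≤ D ∧ 0 ≤ Kc ∧ 0 < ρ ∧ ∀ y ∈ K, ∀ z ∈ K, y ∈ tsupport (S.ψ l) →
      z ∈ tsupport (S.ψ l) → S.dX y z ≤ ρ → ∀ Cl, 0 ≤ Cl → 0 ≤ T.pairW l Cl (y, z) →
        q (S.formIn i y (T.h y)) (S.formIn i z (T.h z)) ≤
          D * T.pairW l Cl (y, z) + Kc * S.dX y z ^ 2 := by
  have hKl : IsCompact (K ∩ tsupport (S.ψ l)) := hK.inter_right (isClosed_tsupport _)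
  have hsl : K ∩ tsupport (S.ψ l) ⊆ (S.φ l).source := fun x hx => S.ψ_supp l hx.2
  have hsi : K ∩ tsupport (S.ψ l) ⊆ (S.φ i).source := fun x hx => hKs hx.1
  obtain ⟨C, N, hC, -, hpair⟩ := S.exists_chart_pair i
    (hK.image_of_continuousOn ((S.φ i).continuousOn.mono hKs))
    (image_subset_iff.2 fun x hx => (S.φ i).map_source (hKs hx))
  obtain ⟨Ei, hEi, hei⟩ := S.exists_le_dX hKl hsi
  obtain ⟨El, hEl, hel⟩ := S.exists_le_dX hKl hsl
  have hsub : ∀ {a b : Fin S.n}, K ∩ tsupport (S.ψ l) ⊆ (S.φ a).source →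
      K ∩ tsupport (S.ψ l) ⊆ (S.φ b).source →
      S.φ a '' (K ∩ tsupport (S.ψ l)) ⊆ S.tdom a b := fun {a b} ha hb => by
    rintro _ ⟨x, hx, rfl⟩
    exact S.chart_mem_tdom (ha hx) (hb hx)
  obtain ⟨Lp, hLp, hlip⟩ := exists_lipschitz_on (S.isOpen_tdom l i)
    (hKl.image_of_continuousOn ((S.φ l).continuousOn.mono hsl)) (hsub hsl hsi)
    ((S.trans_smooth l i).fderiv_of_isOpen (S.isOpen_tdom l i) le_rfl)
  obtain ⟨Mi, hMi⟩ := (hKl.image_of_continuousOn ((S.φ i).continuousOn.mono hsi))
    |>.exists_bound_of_continuousOn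
      (((S.trans_smooth i l).continuousOn_fderiv_of_isOpen (S.isOpen_tdom i l) (by simp)).mono
        (hsub hsi hsl))
  obtain ⟨Md, hMd⟩ := (hKl.image_of_continuousOn ((S.φ l).continuousOn.mono hsl))
    |>.exists_bound_of_continuousOn
      (ContinuousLinearMap.continuous_det.comp_continuousOn
        (((S.trans_smooth l i).continuousOn_fderiv_of_isOpen (S.isOpen_tdom l i) (by simp)).mono
          (hsub hsl hsi)))
  set b := Lp * El * max Mi 0
  have hb : 0 ≤ b := by positivity
  refine ⟨256 * max Md 0, 256 * C * (b ^ 2 + Ei ^ 2), 1 / (b + 1), by positivity, by positivity,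
    by positivity, fun y hy z hz hyl hzl hd Cl hCl hW => ?_⟩
  have hyi := hKs hy
  have hzi := hKs hz
  have hys := S.ψ_supp l hyl
  have hzs := S.ψ_supp l hzl
  set d := S.dX y z
  have hd0 : 0 ≤ d := S.dX_nonneg y z
  set By := S.trD l i y
  set Bz := S.trD l i z
  set A := S.trD i l y
  set ai := S.formIn i y (T.h y)
  set bi := S.formIn i z (T.h z)
  set L := Bz.comp A
  have hAB : A.comp By = ContinuousLinearMap.id ℝ V := S.trD_symm hyi hys
  have hBA : By.comp A = ContinuousLinearMap.id ℝ V := S.trD_symm hys hyi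
  have hLB : L.comp By = Bz := by
    show (Bz.comp A).comp By = Bz
    rw [ContinuousLinearMap.comp_assoc, hAB, ContinuousLinearMap.comp_id]
  have hdy : By.det ≠ 0 := (S.trD_det_pos hys hyi).ne'
  have hdz : 0 < Bz.det := S.trD_det_pos hzs hzi
  have heq : q ai (pull L bi) =
      Bz.det * q (S.formIn l y (T.h y)) (S.formIn l z (T.h z)) := by
    rw [formIn_change S hys hyi, formIn_change S hzs hzi, q_smul_left, q_smul_right]
    show q ai (pull L bi) = Bz.det * (By.det⁻¹ * (Bz.det⁻¹ * q (pull By ai) (pull Bz bi)))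
    have k : q (pull By ai) (pull Bz bi) = By.det * q ai (pull L bi) := by
      conv_lhs => rw [← hLB, pull_comp]
      rw [q_pull]
    rw [k]
    field_simp [hdz.ne', hdy]
  have hδ : ‖L - 1‖ ≤ b * d := by
    have e : L - 1 = (Bz - By).comp A := by
      rw [ContinuousLinearMap.sub_comp, hBA]
      rfl
    rw [e]
    refine (ContinuousLinearMap.opNorm_comp_le _ _).trans ?_
    have h1 : ‖Bz - By‖ ≤ Lp * (El * d) := by
      refine (hlip _ (mem_image_of_mem _ ⟨hz, hzl⟩) _ (mem_image_of_mem _ ⟨hy, hyl⟩)).trans ?_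
      refine mul_le_mul_of_nonneg_left ?_ hLp
      rw [norm_sub_rev]
      exact hel y ⟨hy, hyl⟩ z ⟨hz, hzl⟩
    have h2 : ‖A‖ ≤ max Mi 0 :=
      (hMi _ (mem_image_of_mem _ ⟨hy, hyl⟩)).trans (le_max_left _ _)
    refine (mul_le_mul h1 h2 (norm_nonneg _) (by positivity)).trans (le_of_eq ?_)
    simp only [b]
    ring
  have hδ1 : b * d ≤ 1 := by
    have := (le_div_iff₀ (by positivity : (0 : ℝ) < b + 1)).1 hd
    linarith
  obtain ⟨-, -, h3⟩ := hpair y hyi z hzi (T.h y) (T.h z) (mem_image_of_mem _ hy)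
    (mem_image_of_mem _ hz) (T.psd y) (T.trace y) (T.psd z) (T.trace z)
  have h4 := h3 1 L (b * d) (by positivity) hδ1 (by simpa using mul_nonneg hb hd0) hδ
  rw [show pull (1 : V →L[ℝ] V) ai = ai from pull_id ai, heq] at h4
  set dd := ‖S.φ i y - S.φ i z‖
  have hdd : dd ≤ Ei * d := hei y ⟨hy, hyl⟩ z ⟨hz, hzl⟩
  have hdd2 : dd ^ 2 ≤ Ei ^ 2 * d ^ 2 := by
    rw [← mul_pow]; exact pow_le_pow_left₀ (norm_nonneg _) hdd 2
  have hWl : q (S.formIn l y (T.h y)) (S.formIn l z (T.h z)) ≤ T.pairW l Cl (y, z) := by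
    simp only [Positive.pairW, Positive.chartH, indicator_of_mem hyl, indicator_of_mem hzl]
    exact le_add_of_nonneg_right (by positivity)
  have h5 : Bz.det * q (S.formIn l y (T.h y)) (S.formIn l z (T.h z)) ≤
      max Md 0 * T.pairW l Cl (y, z) :=
    (mul_le_mul_of_nonneg_left hWl hdz.le).trans (mul_le_mul_of_nonneg_right
      (((le_abs_self _).trans (hMd _ (mem_image_of_mem _ ⟨hz, hzl⟩))).trans (le_max_left _ _)) hW)
  have h6 : C * dd ^ 2 ≤ C * (Ei ^ 2 * d ^ 2) := mul_le_mul_of_nonneg_left hdd2 hC.le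
  have h7 : 0 ≤ C * dd ^ 2 := by positivity
  linarith

/-- The lower bound of the pairings in a chart. -/
lemma exists_loc_lower (i : Fin S.n) :
    ∃ C N : ℝ, 0 < C ∧ 0 < N ∧ ∀ u ∈ tsupport (S.χ i), ∀ v ∈ tsupport (S.χ i),
      0 ≤ q (T.locH i u) (T.locH i v) + C * dist0 (u - v) ^ 2 ∧
        |q (T.locH i u) (T.locH i v)| ≤ N := by
  have hK := (S.χ_cpt i).isCompact
  obtain ⟨C, N, hC, hN, hpair⟩ := S.exists_chart_pair i hK (S.χ_supp i)
  obtain ⟨E, hE, hd⟩ := Geo.exists_norm_le_dist0 hK ((S.χ_supp i).trans (S.target_sub i))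
  refine ⟨C * E ^ 2, 6 * (N * N), by positivity, by positivity, fun u hu v hv => ?_⟩
  have hut := S.χ_supp i hu
  have hvt := S.χ_supp i hv
  have hys := (S.φ i).map_target hut
  have hzs := (S.φ i).map_target hvt
  have k : ∀ {w}, w ∈ tsupport (S.χ i) → S.φ i ((S.φ i).symm w) ∈ tsupport (S.χ i) :=
    fun {w} hw => by rwa [(S.φ i).right_inv (S.χ_supp i hw)]
  obtain ⟨h1, h2, -⟩ := hpair _ hys _ hzs _ _ (k hu) (k hv) (T.psd _) (T.trace _) (T.psd _)
    (T.trace _)
  obtain ⟨h1', -, -⟩ := hpair _ hzs _ hys _ _ (k hv) (k hu) (T.psd _) (T.trace _) (T.psd _)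
    (T.trace _)
  rw [(S.φ i).right_inv hut, (S.φ i).right_inv hvt] at h2
  refine ⟨h2.trans (add_le_add le_rfl ?_), (abs_q_le _ _).trans
    (mul_le_mul_of_nonneg_left (mul_le_mul h1 h1' (norm_nonneg _) hN.le) (by norm_num))⟩
  rw [mul_assoc, ← mul_pow]
  exact mul_le_mul_of_nonneg_left (pow_le_pow_left₀ (norm_nonneg _) (hd u hu v hv) 2) hC.le

/-- The integrand of `PairMass`, set to zero outside the support of the cut-off. -/
noncomputable def Positive.pairInt (i : Fin S.n) (C ε : ℝ) : V × V → ℝ :=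
  ((tsupport (S.χ i) ×ˢ tsupport (S.χ i)) ∩ {p | dist0 (p.1 - p.2) ≤ ε}).indicator fun p =>
    (q (T.locH i p.1) (T.locH i p.2) + C * dist0 (p.1 - p.2) ^ 2) / ε ^ 4

lemma Positive.measurable_pairInt (i : Fin S.n) (C ε : ℝ) : Measurable (T.pairInt i C ε) := by
  classical
  set H : V → Form := (tsupport (S.χ i)).indicator (T.locH i)
  have hH : Measurable H := by
    have e : H = (tsupport (S.χ i)).indicator
        fun u => if u ∈ (S.φ i).target then T.locH i u else 0 := by
      funext u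
      by_cases hu : u ∈ tsupport (S.χ i)
      · simp [H, hu, S.χ_supp i hu]
      · simp [H, hu]
    rw [e]
    exact (LC.measurable_locH T).indicator (isClosed_tsupport _).measurableSet
  have hd : Measurable fun p : V × V => dist0 (p.1 - p.2) :=
    (continuous_dist0.comp (continuous_fst.sub continuous_snd)).measurable
  have hq : Measurable fun p : V × V => q (H p.1) (H p.2) :=
    (Setup.continuous_q continuous_fst continuous_snd).measurable.comp
      ((hH.comp measurable_fst).prodMk (hH.comp measurable_snd))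
  have e : T.pairInt i C ε =
      ((tsupport (S.χ i) ×ˢ tsupport (S.χ i)) ∩ {p | dist0 (p.1 - p.2) ≤ ε}).indicator fun p =>
        (q (H p.1) (H p.2) + C * dist0 (p.1 - p.2) ^ 2) / ε ^ 4 :=
    indicator_congr fun p hp => by simp only [H, indicator_of_mem hp.1.1, indicator_of_mem hp.1.2]
  rw [e]
  exact ((hq.add ((hd.pow_const 2).const_mul C)).div_const _).indicator
    (((isClosed_tsupport _).measurableSet.prod (isClosed_tsupport _).measurableSet).inter
      (measurableSet_le hd measurable_const))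

/-- The pairs of the chart are at most the integral on `X` of a function dominating them. -/
lemma pairInt_le {i : Fin S.n} {C ε N : ℝ} (hε : 0 < ε)
    (hlow : ∀ u ∈ tsupport (S.χ i), ∀ v ∈ tsupport (S.χ i),
      0 ≤ q (T.locH i u) (T.locH i v) + C * dist0 (u - v) ^ 2 ∧
        |q (T.locH i u) (T.locH i v)| ≤ N)
    {G : X × X → ℝ} (hG : Integrable G (T.ν.prod T.ν)) (hG0 : ∀ p, 0 ≤ G p)
    (hle : ∀ y z, y ∈ (S.φ i).source → z ∈ (S.φ i).source → S.φ i y ∈ tsupport (S.χ i) →
      S.φ i z ∈ tsupport (S.χ i) → dist0 (S.φ i y - S.φ i z) ≤ ε →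
      (q (S.formIn i y (T.h y)) (S.formIn i z (T.h z)) +
        C * dist0 (S.φ i y - S.φ i z) ^ 2) / ε ^ 4 ≤ G (y, z)) :
    ∫ u, ∫ v, (if dist0 (u - v) ≤ ε then
      (q (T.locH i u) (T.locH i v) + C * dist0 (u - v) ^ 2) / ε ^ 4 else 0)
        ∂T.locMeasure i ∂T.locMeasure i ≤ ∫ p, G p ∂T.ν.prod T.ν := by
  classical
  have := T.finite
  set Φ := T.pairInt i C ε
  have hΦm : Measurable Φ := T.measurable_pairInt i C ε
  have hΦ0 : ∀ p, 0 ≤ Φ p := fun p => indicator_nonneg
    (fun p hp => div_nonneg (hlow _ hp.1.1 _ hp.1.2).1 (by positivity)) p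
  have hK : ∀ᵐ u ∂T.locMeasure i, u ∈ tsupport (S.χ i) := by
    rw [ae_iff]
    exact LC.locMeasure_apply T (isClosed_tsupport _).measurableSet.compl
      fun x _ hx => image_eq_zero_of_notMem_tsupport hx
  have hfin : IsFiniteMeasure (T.locMeasure i) := by
    rw [GVanish.loc_density]
    have : IsFiniteMeasure (T.ν.withDensity fun x => ENNReal.ofReal (GVanish.cw S i x)) := by
      refine isFiniteMeasure_withDensity (ne_top_of_le_ne_top (measure_ne_top T.ν Set.univ) ?_)
      refine (lintegral_mono fun x => ?_).trans (by simp : ∫⁻ _x, 1 ∂T.ν ≤ _)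
      exact ENNReal.ofReal_le_one.2 (GVanish.cw_le_one i x)
    infer_instance
  have e : ∫ u, ∫ v, (if dist0 (u - v) ≤ ε then
      (q (T.locH i u) (T.locH i v) + C * dist0 (u - v) ^ 2) / ε ^ 4 else 0)
        ∂T.locMeasure i ∂T.locMeasure i = ∫ u, ∫ v, Φ (u, v) ∂T.locMeasure i ∂T.locMeasure i := by
    refine integral_congr_ae ?_
    filter_upwards [hK] with u hu
    refine integral_congr_ae ?_
    filter_upwards [hK] with v hv
    simp only [Φ, Positive.pairInt, indicator_apply, mem_inter_iff, mem_prod, hu, hv, true_and,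
      mem_ofPred_eq]
  rw [e]
  set φ' : X → V := (S.φ i).source.piecewise (S.φ i) 0
  have hφ' : Measurable φ' := (S.φ i).continuousOn.measurable_piecewise
    continuousOn_const (S.φ i).open_source.measurableSet
  have hs : ∀ {x}, GVanish.cw S i x ≠ 0 →
      x ∈ (S.φ i).source ∧ S.φ i x ∈ tsupport (S.χ i) ∧ φ' x = S.φ i x := fun {x} h =>
    ⟨(GVanish.cw_ne h).1, (GVanish.cw_ne h).2, Set.piecewise_eq_of_mem _ _ _ (GVanish.cw_ne h).1⟩
  set W : X × X → ℝ := fun p =>
    GVanish.cw S i p.1 * (GVanish.cw S i p.2 * Φ (φ' p.1, φ' p.2))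
  have hcm : Measurable (GVanish.cw S i) := (GVanish.cw_cont i).measurable
  have hWm : Measurable W :=
    (hcm.comp measurable_fst).mul ((hcm.comp measurable_snd).mul
      (hΦm.comp ((hφ'.comp measurable_fst).prodMk (hφ'.comp measurable_snd))))
  have hW0 : ∀ p, 0 ≤ W p := fun p =>
    mul_nonneg (GVanish.cw_nonneg i _) (mul_nonneg (GVanish.cw_nonneg i _) (hΦ0 _))
  have hWG : ∀ p, W p ≤ G p := fun p => by
    by_cases h1 : GVanish.cw S i p.1 = 0
    · simp only [W, h1, zero_mul]; exact hG0 p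
    by_cases h2 : GVanish.cw S i p.2 = 0
    · simp only [W, h2, zero_mul, mul_zero]; exact hG0 p
    obtain ⟨a1, a2, a3⟩ := hs h1
    obtain ⟨b1, b2, b3⟩ := hs h2
    have hle1 : W p ≤ Φ (φ' p.1, φ' p.2) :=
      (mul_le_of_le_one_left (mul_nonneg (GVanish.cw_nonneg i _) (hΦ0 _))
        (GVanish.cw_le_one i _)).trans (mul_le_of_le_one_left (hΦ0 _) (GVanish.cw_le_one i _))
    refine hle1.trans ?_
    rw [a3, b3]
    simp only [Φ, Positive.pairInt, indicator_apply]
    split_ifs with hp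
    · simp only [Positive.locH, (S.φ i).left_inv a1, (S.φ i).left_inv b1]
      exact hle p.1 p.2 a1 b1 a2 b2 hp.2
    · exact hG0 p
  have hWi : Integrable W (T.ν.prod T.ν) :=
    hG.mono' hWm.aestronglyMeasurable (Eventually.of_forall fun p => by
      rw [Real.norm_eq_abs, abs_of_nonneg (hW0 p)]; exact hWG p)
  have hin : Measurable fun u => ∫ v, Φ (u, v) ∂T.locMeasure i :=
    (hΦm.stronglyMeasurable.integral_prod_right' (ν := T.locMeasure i)).measurable
  have e2 : ∫ u, ∫ v, Φ (u, v) ∂T.locMeasure i ∂T.locMeasure i = ∫ p, W p ∂T.ν.prod T.ν := by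
    rw [GVanish.integral_loc T i hin, integral_prod _ hWi]
    refine integral_congr_ae (Eventually.of_forall fun x => ?_)
    by_cases hx : GVanish.cw S i x = 0
    · simp [W, hx]
    simp only [W]
    rw [integral_const_mul, GVanish.integral_loc T i (F := fun v => Φ (S.φ i x, v))
      (hΦm.comp measurable_prodMk_left)]
    congr 1
    refine integral_congr_ae (Eventually.of_forall fun z => ?_)
    by_cases hz : GVanish.cw S i z = 0
    · simp [hz]
    simp only [(hs hx).2.2, (hs hz).2.2]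
  rw [e2]
  exact integral_mono hWi hG hWG

/-- Module 17: the pairs at distance `ε` in a chart. -/
theorem pairMass_of_energy (hB : Basic S.toGeo) (hP : PointRep T) (hW : RegBound T)
    (hBS : BallSquare T) (hd : T.DensBound)
    (hE : ∃ B e, 0 < e ∧ ∀ ε, 0 < ε → ε ≤ e →
      ∃ f, T.RegRep (fun _ => 1) ε f ∧ S.pairing f f ≤ B) : PairMass T := by
  have := T.finite
  intro i
  obtain ⟨C, N, hC, hN, hlow⟩ := exists_loc_lower T i
  choose Cl Nl cl el Bl hCl hNl hcl hel hBl hpw hpb using
    fun l => exists_pair_bound T hB hP hW hBS hd hE l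
  set K := (S.φ i).symm '' tsupport (S.χ i)
  have hKc : IsCompact K :=
    (S.χ_cpt i).isCompact.image_of_continuousOn ((S.φ i).continuousOn_symm.mono (S.χ_supp i))
  have hKs : K ⊆ (S.φ i).source :=
    image_subset_iff.2 fun u hu => (S.φ i).map_target (S.χ_supp i hu)
  choose D Kc ρ hD hKc0 hρ hch using fun l => exists_change_chart T i l hKc hKs
  choose E hE0 hEd using fun l =>
    S.exists_le_dX (isClosed_tsupport (S.ψ l)).isCompact (S.ψ_supp l)
  obtain ⟨R, hR, hRd⟩ := S.exists_dX_dist0 (S.χ_cpt i).isCompact (S.χ_supp i)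
  obtain ⟨M0, hM0⟩ := hd
  set M := max M0 0
  have hnpos : (0 : ℝ) < S.n := Nat.cast_pos.2 i.pos
  obtain ⟨es, hes, hes1, hese⟩ := exists_pos_le
    (fun l => min (el l * (cl l / (E l * R))) (min (ρ l / R) (1 / (2 * (S.n : ℝ) * R))))
    fun l => by
      have := hel l; have := hcl l; have := hE0 l; have := hρ l
      positivity
  set K' := ∑ l, Kc l * R ^ 2 + C
  have hK' : 0 ≤ K' :=
    add_nonneg (Finset.sum_nonneg fun l _ => mul_nonneg (hKc0 l) (sq_nonneg _)) hC.le
  set B1 := ∑ l, D l * Bl l * (E l * R / cl l) ^ 4 +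
    K' * ((1 + R ^ 2) ^ 2 * M * T.ν.real Set.univ)
  set B2 := (N + C) / es ^ 4 * (T.ν.real Set.univ * T.ν.real Set.univ)
  refine ⟨C, max B1 B2 + 1, hC, ?_, fun y z hy hz => (hlow y hy z hz).1, fun ε hε hε1 => ?_⟩
  · have : 0 ≤ B2 := by positivity
    linarith [le_max_right B1 B2]
  rcases le_or_gt ε es with hle | hgt
  swap
  · refine (pairInt_le T hε hlow (G := fun _ => (N + C) / es ^ 4) (integrable_const _)
      (fun _ => by positivity) fun y z _ _ hy hz _ => ?_).trans ?_
    · obtain ⟨-, h2⟩ := hlow _ hy _ hz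
      rw [Positive.locH, Positive.locH, (S.φ i).left_inv ‹y ∈ (S.φ i).source›,
        (S.φ i).left_inv ‹z ∈ (S.φ i).source›] at h2
      refine div_le_div₀ (by positivity) (add_le_add ((le_abs_self _).trans h2) ?_)
        (by positivity) (pow_le_pow_left₀ hes.le hgt.le 4)
      exact mul_le_of_le_one_right hC.le (pow_le_one₀ (dist0_nonneg _) (dist0_le_one _))
    · rw [integral_const, smul_eq_mul, mul_comm]
      have : (T.ν.prod T.ν).real Set.univ = T.ν.real Set.univ * T.ν.real Set.univ := by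
        rw [← Set.univ_prod_univ, measureReal_prod_prod]
      rw [this]
      linarith [le_max_right B1 B2]
  -- small scales
  set P : Fin S.n → Set (X × X) := fun l => S.pairSet l (cl l * (E l * R / cl l * ε))
  set Q : Set (X × X) := {p | S.dX p.2 p.1 ≤ R * ε}
  have hQm : MeasurableSet Q :=
    measurableSet_le (S.measurable_dX.comp measurable_swap) measurable_const
  set G : X × X → ℝ := fun p =>
    (∑ l, D l / ε ^ 4 * (P l).indicator (T.pairW l (Cl l)) p) +
      K' / ε ^ 2 * Q.indicator (fun _ => (1 : ℝ)) p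
  have hterm0 : ∀ l p, 0 ≤ D l / ε ^ 4 * (P l).indicator (T.pairW l (Cl l)) p := fun l p =>
    mul_nonneg (div_nonneg (hD l) (by positivity))
      (indicator_nonneg (fun p hp => (hpw l p.1 hp.2.1 p.2 hp.2.2.1).1) p)
  have hG0 : ∀ p, 0 ≤ G p := fun p => add_nonneg (Finset.sum_nonneg fun l _ => hterm0 l p)
    (mul_nonneg (by positivity) (indicator_nonneg (fun _ _ => zero_le_one) p))
  have hPi : ∀ l, Integrable ((P l).indicator (T.pairW l (Cl l))) (T.ν.prod T.ν) := fun l => by
    refine Integrable.of_bound ((T.measurable_pairW l (Cl l)).indicator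
      (S.measurableSet_pairSet l _)).aestronglyMeasurable (Nl l) (Eventually.of_forall fun p => ?_)
    rw [Real.norm_eq_abs, abs_of_nonneg
      (indicator_nonneg (fun p hp => (hpw l p.1 hp.2.1 p.2 hp.2.2.1).1) p)]
    exact indicator_le' (fun p hp => (hpw l p.1 hp.2.1 p.2 hp.2.2.1).2)
      (fun _ _ => (hNl l).le) p
  have hQi : Integrable (Q.indicator fun _ => (1 : ℝ)) (T.ν.prod T.ν) :=
    (integrable_const 1).indicator hQm
  have hsi : Integrable (fun p => ∑ l, D l / ε ^ 4 * (P l).indicator (T.pairW l (Cl l)) p)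
      (T.ν.prod T.ν) := integrable_finsetSum _ fun l _ => (hPi l).const_mul _
  have hGi : Integrable G (T.ν.prod T.ν) := hsi.add (hQi.const_mul _)
  refine (pairInt_le T hε hlow hGi hG0 fun y z hy hz hyχ hzχ hyz => ?_).trans ?_
  · have hyK : y ∈ K := ⟨_, hyχ, (S.φ i).left_inv hy⟩
    have hzK : z ∈ K := ⟨_, hzχ, (S.φ i).left_inv hz⟩
    have h1 := (hRd _ hyχ _ hzχ).1
    rw [(S.φ i).left_inv hy, (S.φ i).left_inv hz] at h1
    have hdX : S.dX y z ≤ R * ε := h1.trans (mul_le_mul_of_nonneg_left hyz hR.le)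
    obtain ⟨l, hl⟩ := S.exists_psi_ge y
    obtain ⟨he1, he23⟩ := le_min_iff.1 (hle.trans (hese l))
    obtain ⟨he2, he3⟩ := le_min_iff.1 he23
    have hρl : R * ε ≤ ρ l := by rw [mul_comm]; exact (le_div_iff₀ hR).1 he2
    have hnl : R * ε ≤ 1 / (2 * (S.n : ℝ)) := by
      rw [mul_comm, ← le_div_iff₀ hR, div_div]; exact he3
    have hyl := S.coreSet_subset l (S.mem_coreSet_of_ge hl)
    have hzl := S.coreSet_subset l (S.mem_coreSet_of_near hl (hdX.trans hnl))
    have hp : (y, z) ∈ P l := by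
      refine ⟨hl, hyl, hzl, ?_⟩
      calc ‖S.φ l y - S.φ l z‖ ≤ E l * S.dX y z := hEd l y hyl z hzl
        _ ≤ E l * (R * ε) := mul_le_mul_of_nonneg_left hdX (hE0 l).le
        _ = cl l * (E l * R / cl l * ε) := by field_simp [(hcl l).ne']
    have hq : (y, z) ∈ Q := by
      show S.dX z y ≤ R * ε
      rwa [S.dX_comm]
    have hW0 := (hpw l y hyl z hzl).1
    have h2 := hch l y hyK z hzK hyl hzl (hdX.trans hρl) (Cl l) (hCl l).le hW0
    have hdist : C * dist0 (S.φ i y - S.φ i z) ^ 2 ≤ C * ε ^ 2 :=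
      mul_le_mul_of_nonneg_left (pow_le_pow_left₀ (dist0_nonneg _) hyz 2) hC.le
    have hdX2 : Kc l * S.dX y z ^ 2 ≤ (∑ m, Kc m * R ^ 2) * ε ^ 2 := by
      refine (mul_le_mul_of_nonneg_left (pow_le_pow_left₀ (S.dX_nonneg y z) hdX 2) (hKc0 l)).trans ?_
      rw [mul_pow, ← mul_assoc]
      exact mul_le_mul_of_nonneg_right (Finset.single_le_sum
        (f := fun m => Kc m * R ^ 2) (fun m _ => mul_nonneg (hKc0 m) (sq_nonneg _))
        (Finset.mem_univ l)) (sq_nonneg _)
    refine le_trans ?_ (add_le_add (Finset.single_le_sum (fun m _ => hterm0 m (y, z))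
      (Finset.mem_univ l)) le_rfl)
    rw [indicator_of_mem hp, indicator_of_mem hq, div_le_iff₀ (by positivity)]
    refine le_trans (add_le_add h2 hdist) ?_
    rw [show (D l / ε ^ 4 * T.pairW l (Cl l) (y, z) + K' / ε ^ 2 * 1) * ε ^ 4 =
      D l * T.pairW l (Cl l) (y, z) + K' * ε ^ 2 by field_simp]
    simp only [K']
    linarith
  · have eG := integral_add hsi (hQi.const_mul (K' / ε ^ 2))
    simp only [integral_const_mul] at eG
    rw [eG, integral_finsetSum _ fun l _ => (hPi l).const_mul _]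
    refine le_trans (add_le_add (Finset.sum_le_sum fun l _ =>
      show _ ≤ D l * Bl l * (E l * R / cl l) ^ 4 from ?_)
      (show _ ≤ K' * ((1 + R ^ 2) ^ 2 * M * T.ν.real Set.univ) from ?_)) ?_
    · rw [integral_const_mul, integral_indicator (S.measurableSet_pairSet l _)]
      have ht : 0 < E l * R / cl l * ε := by have := hE0 l; have := hcl l; positivity
      have ht1 : E l * R / cl l * ε ≤ el l := by
        have h := (le_min_iff.1 (hle.trans (hese l))).1
        rw [div_mul_eq_mul_div, div_le_iff₀ (hcl l)]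
        rw [← mul_div_assoc, le_div_iff₀ (by have := hE0 l; positivity)] at h
        linarith
      refine (mul_le_mul_of_nonneg_left (hpb l _ ht ht1)
        (div_nonneg (hD l) (by positivity))).trans (le_of_eq ?_)
      field_simp
    · rw [integral_indicator_const _ hQm, smul_eq_mul, mul_one]
      have hb : (T.ν.prod T.ν).real Q ≤ (1 + R ^ 2) ^ 2 * ε ^ 2 * M * T.ν.real Set.univ := by
        have e : (T.ν.prod T.ν).real Q = ∫ y, T.ν.real {z | S.dX z y ≤ R * ε} ∂T.ν := by
          rw [← integral_indicator_one hQm, integral_prod _ ((integrable_const 1).indicator hQm)]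
          refine integral_congr_ae (Eventually.of_forall fun y => ?_)
          show ∫ z, Q.indicator (fun _ => (1 : ℝ)) (y, z) ∂T.ν =
            T.ν.real {z | S.dX z y ≤ R * ε}
          rw [← integral_indicator_one (Positive.measurableSet_ball _ _)]
          exact integral_congr_ae (Eventually.of_forall fun z => by simp [Q, indicator_apply])
        rw [e]
        refine (integral_mono_of_nonneg (Eventually.of_forall fun y => measureReal_nonneg)
          (integrable_const ((1 + R ^ 2) ^ 2 * ε ^ 2 * M)) (Eventually.of_forall fun y => ?_)).trans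
          (le_of_eq ?_)
        · exact (T.ball_le_dens hε y).trans (mul_le_mul_of_nonneg_left
            ((hM0 ε hε hε1 y).trans (le_max_left _ _)) (by positivity))
        · rw [integral_const, smul_eq_mul, mul_comm]
      refine (mul_le_mul_of_nonneg_left hb (by positivity)).trans (le_of_eq ?_)
      field_simp
    · linarith [le_max_left B1 B2]

/-- Module 17. -/
theorem GUData.pairMass {T : GCurrent S} (D : GUData T) (hB : Basic S.toGeo)
    (hR : RegFacts S.toGeo) (hA : AvgRep S.toGeo) (hW : RegBound T.toPositive)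
    (hBS : BallSquare T.toPositive) (hd : T.DensBound) (L : D.SLimit)
    (hE : EnergyFacts D L) : PairMass T.toPositive := by
  refine pairMass_of_energy T.toPositive hB (pointRep hB hR hA T.toPositive) hW hBS hd ?_
  obtain ⟨e, he, h⟩ := mem_nhdsGT_iff_exists_Ioc_subset.1
    (hE.limit.eventually (eventually_le_nhds (show -L.σ < -L.σ + 1 by linarith)))
  refine ⟨-L.σ + 1, min e D.ε₀, lt_min he D.ε₀_pos, fun ε hε hle => ⟨D.Te ε,
    D.Te_rep ε hε (hle.trans (min_le_right _ _)), ?_⟩⟩
  exact h ⟨hε, hle.trans (min_le_left _ _)⟩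

end Vale.Agent.P204.Gen
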