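import Vale.Agent.P204.Gen.PointRep
import Vale.Agent.P204.Gen.EnergyBase

/-!
P204, general four-manifold: the square of the regularised current dominates the pairs of nearby
points, pointwise in a chart (module `GPairMass`, helper51).
-/

open MeasureTheory Filter Topology Set
open scoped BigOperators ContDiff

namespace Vale.Agent.P204.Gen

open Vale.Agent.P204.Torus PairAux

variable {X : Type*} [TopologicalSpace X] [MeasurableSpace X]

/-- A normalised positive form read in the chart `i`, zero outside the support of `ψ i`. -/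
noncomputable def Positive.chartH {S : GSetup X} (T : Positive S) (i : Fin S.n) (z : X) : Form :=
  (tsupport (S.ψ i)).indicator (fun z => S.formIn i z (T.h z)) z

lemma Positive.measurable_chartH [BorelSpace X] {S : GSetup X} (T : Positive S) (i : Fin S.n) :
    Measurable (T.chartH i) := by
  classical
  have hK : MeasurableSet (tsupport (S.ψ i)) := (isClosed_tsupport _).measurableSet
  set φ' : X → V := (tsupport (S.ψ i)).piecewise (S.φ i) fun _ => 0
  have hφ : Measurable φ' :=
    ((S.φ i).continuousOn.mono (S.ψ_supp i)).measurable_piecewise continuousOn_const hK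
  have hF : Measurable fun p : Fin S.n × V => fderiv ℝ (fun u => S.φ p.1 ((S.φ i).symm u)) p.2 :=
    measurable_from_prod_countable_right fun k =>
      measurable_fderiv ℝ fun u => S.φ k ((S.φ i).symm u)
  set D : X → V →L[ℝ] V := fun z => fderiv ℝ (fun u => S.φ (S.tr z) ((S.φ i).symm u)) (φ' z)
  have hD : Measurable D := hF.comp (S.tr_meas.prodMk hφ)
  have hm : Measurable fun z => ((D z).det)⁻¹ • pull (D z) (T.h z) :=
    ((contDiff_det.continuous.measurable.comp hD).inv).smul
      (contDiff_pull.continuous.measurable.comp (hD.prodMk T.meas))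
  have e : T.chartH i = (tsupport (S.ψ i)).indicator
      fun z => ((D z).det)⁻¹ • pull (D z) (T.h z) := by
    funext z
    by_cases hz : z ∈ tsupport (S.ψ i)
    · simp only [Positive.chartH, indicator_of_mem hz, Geo.formIn, Geo.dT, Geo.ch, D, φ',
        Set.piecewise_eq_of_mem _ _ _ hz]
    · simp only [Positive.chartH, indicator_of_notMem hz]
  rw [e]
  exact hm.indicator hK

variable [T2Space X] [CompactSpace X] [BorelSpace X]

namespace PairAux

/-- `q` of two averages of congruent forms. -/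
lemma q_avg_ge {H H' : Form} {Mu Mu' : Measure (V →L[ℝ] V)} [IsFiniteMeasure Mu]
    [IsFiniteMeasure Mu'] {δ b : ℝ} (h1 : ∀ᵐ L ∂Mu, ‖L - 1‖ ≤ δ)
    (h2 : ∀ᵐ L ∂Mu', ‖L - 1‖ ≤ δ)
    (hb : ∀ L L', ‖L - 1‖ ≤ δ → ‖L' - 1‖ ≤ δ → b ≤ q (pull L H) (pull L' H')) :
    Mu.real univ * (Mu'.real univ * b) ≤ q (∫ L, pull L H ∂Mu) (∫ L, pull L H' ∂Mu') := by
  have hc : ∀ H : Form, Continuous fun L : V →L[ℝ] V => pull L H := fun H =>
    contDiff_pull.continuous.comp (continuous_id.prodMk continuous_const)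
  have hi : ∀ (H : Form) (M : Measure (V →L[ℝ] V)) [IsFiniteMeasure M],
      (∀ᵐ L ∂M, ‖L - 1‖ ≤ δ) → Integrable (fun L => pull L H) M := fun H M _ h => by
    refine Integrable.of_bound (hc H).aestronglyMeasurable (72 * (|δ| + 1) ^ 2 * ‖H‖) ?_
    filter_upwards [h] with L hL
    refine (norm_pull_le_sq L H).trans ?_
    have hL' : ‖L‖ ≤ |δ| + 1 := by
      calc ‖L‖ = ‖(L - 1) + 1‖ := by rw [sub_add_cancel]
        _ ≤ ‖L - 1‖ + ‖(1 : V →L[ℝ] V)‖ := norm_add_le _ _
        _ ≤ |δ| + 1 := add_le_add (hL.trans (le_abs_self δ)) ContinuousLinearMap.norm_id_le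
    gcongr
  have i1 := hi H Mu h1
  have i2 := hi H' Mu' h2
  have hiq : ∀ (a : Form) {M : Measure (V →L[ℝ] V)} {F : (V →L[ℝ] V) → Form},
      Integrable F M → Integrable (fun L => q a (F L)) M := fun a {M F} hF =>
    (qL a).integrable_comp hF
  rw [q_comm, q_integral i1]
  calc Mu.real univ * (Mu'.real univ * b) = ∫ _L, Mu'.real univ * b ∂Mu := by
        rw [integral_const, smul_eq_mul]
    _ ≤ _ := by
        refine integral_mono_ae (integrable_const _) (hiq _ i1) ?_
        filter_upwards [h1] with L hL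
        rw [q_comm, q_integral i2]
        calc Mu'.real univ * b = ∫ _L', b ∂Mu' := by rw [integral_const, smul_eq_mul]
          _ ≤ _ := by
              refine integral_mono_ae (integrable_const _) (hiq _ i2) ?_
              filter_upwards [h2] with L' hL'
              exact hb L L' hL hL'

end PairAux

variable {S : GSetup X} (T : Positive S)

/-- The point in the chart `i`, zero outside the support of `ψ i`. -/
noncomputable def GSetup.chartPt (S : GSetup X) (i : Fin S.n) (z : X) : V :=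
  (tsupport (S.ψ i)).indicator (S.φ i) z

omit [T2Space X] [CompactSpace X] in
lemma GSetup.measurable_chartPt (i : Fin S.n) : Measurable (S.chartPt i) := by
  classical
  have h := ((S.φ i).continuousOn.mono (S.ψ_supp i)).measurable_piecewise
    (g := fun _ => (0 : V)) continuousOn_const (isClosed_tsupport (S.ψ i)).measurableSet
  have e : S.chartPt i = (tsupport (S.ψ i)).piecewise (S.φ i) fun _ => 0 := by
    funext z
    by_cases hz : z ∈ tsupport (S.ψ i) <;> simp [GSetup.chartPt, hz]
  rwa [e]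

/-- The pairs weight in the chart `i`. -/
noncomputable def Positive.pairW (i : Fin S.n) (C : ℝ) (p : X × X) : ℝ :=
  q (T.chartH i p.1) (T.chartH i p.2) + C * ‖S.chartPt i p.1 - S.chartPt i p.2‖ ^ 2

lemma Positive.measurable_pairW (i : Fin S.n) (C : ℝ) : Measurable (T.pairW i C) := by
  have hq : Measurable fun p : Form × Form => q p.1 p.2 :=
    (Setup.continuous_q continuous_fst continuous_snd).measurable
  exact (hq.comp (((T.measurable_chartH i).comp measurable_fst).prodMk
    ((T.measurable_chartH i).comp measurable_snd))).add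
    ((((S.measurable_chartPt i).comp measurable_fst).sub
      ((S.measurable_chartPt i).comp measurable_snd)).norm.pow_const 2 |>.const_mul C)

/-- The points of `tsupport (ψ i)` within `r` of `u` in the chart. -/
def GSetup.nearSet (S : GSetup X) (i : Fin S.n) (r : ℝ) (u : V) : Set X :=
  {z | z ∈ tsupport (S.ψ i) ∧ ‖S.φ i z - u‖ ≤ r}

omit [T2Space X] [CompactSpace X] in
lemma GSetup.measurableSet_nearSet (i : Fin S.n) (r : ℝ) (u : V) :
    MeasurableSet (S.nearSet i r u) := by
  refine IsClosed.measurableSet ?_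
  have := ((S.φ i).continuousOn.mono (S.ψ_supp i)).preimage_isClosed_of_isClosed
    (isClosed_tsupport (S.ψ i)) (Metric.isClosed_closedBall (x := u) (ε := r))
  convert this using 1
  ext z
  simp [GSetup.nearSet, dist_eq_norm]

/-- The square of the regularised current dominates the pairs near the point, up to a small
multiple of the squared ball mass. -/
theorem exists_sq_lower (hP : PointRep T) (i : Fin S.n) :
    ∃ C Cn N κ c r ε₁ : ℝ, 0 < C ∧ 0 ≤ Cn ∧ 0 < N ∧ 0 < κ ∧ 0 < c ∧ 0 < r ∧ 0 < ε₁ ∧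
      (∀ y ∈ tsupport (S.ψ i), ∀ z ∈ tsupport (S.ψ i),
        0 ≤ T.pairW i C (y, z) ∧ T.pairW i C (y, z) ≤ N) ∧
      ∀ ε, 0 < ε → ε ≤ ε₁ → ∀ f, T.RegRep (fun _ => 1) ε f →
        ∀ᵐ u ∂volume.restrict (S.φ i '' S.coreSet i),
          κ / ε ^ 8 * (∫ p in S.nearSet i (c * ε) u ×ˢ S.nearSet i (c * ε) u,
              T.pairW i C p ∂T.ν.prod T.ν) -
            Cn * ε ^ 2 * T.ball4 (r * ε) ((S.φ i).symm u) ^ 2 ≤
          q (S.rep2 i f u) (S.rep2 i f u) := by
  have := T.finite
  have hKc : IsCompact (tsupport (S.ψ i)) := (isClosed_tsupport _).isCompact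
  have hK2 : IsCompact (S.φ i '' tsupport (S.ψ i)) :=
    hKc.image_of_continuousOn ((S.φ i).continuousOn.mono (S.ψ_supp i))
  obtain ⟨C, N, hC, hN, hpair⟩ := S.exists_chart_pair i hK2
    (image_subset_iff.2 fun x hx => (S.φ i).map_source (S.ψ_supp i hx))
  obtain ⟨Cp, cp, ep, hCp, hcp, hep, hrep⟩ := hP i
  have hH : ∀ z ∈ tsupport (S.ψ i), T.chartH i z = S.formIn i z (T.h z) ∧
      S.chartPt i z = S.φ i z :=
    fun z hz => ⟨indicator_of_mem hz _, indicator_of_mem hz _⟩
  have hpw : ∀ y ∈ tsupport (S.ψ i), ∀ z ∈ tsupport (S.ψ i),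
      ‖T.chartH i y‖ ≤ N ∧ 0 ≤ T.pairW i C (y, z) ∧
      ∀ (L₁ L₂ : V →L[ℝ] V) (δ : ℝ), 0 ≤ δ → δ ≤ 1 → ‖L₁ - 1‖ ≤ δ → ‖L₂ - 1‖ ≤ δ →
        T.pairW i C (y, z) / 256 - C * (δ ^ 2 + ‖S.φ i y - S.φ i z‖ ^ 2) ≤
          q (pull L₁ (S.formIn i y (T.h y))) (pull L₂ (S.formIn i z (T.h z))) := fun y hy z hz => by
    obtain ⟨h1, h2, h3⟩ := hpair y (S.ψ_supp i hy) z (S.ψ_supp i hz) _ _ (mem_image_of_mem _ hy)
      (mem_image_of_mem _ hz) (T.psd y) (T.trace y) (T.psd z) (T.trace z)
    simp only [Positive.pairW, (hH y hy).1, (hH z hz).1, (hH y hy).2, (hH z hz).2]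
    exact ⟨h1, h2, h3⟩
  refine ⟨C, 5 * C * Cp ^ 12, 6 * (N * N) + C, cp ^ 2 / 256, cp, Cp, min ep (1 / Cp), hC,
    by positivity, by positivity, by positivity, hcp, hCp, lt_min hep (by positivity),
    fun y hy z hz => ?_, fun ε hε hεb f hf => ?_⟩
  · obtain ⟨h1, h2, -⟩ := hpw y hy z hz
    obtain ⟨h3, -, -⟩ := hpw z hz y hy
    have hd1 : ‖S.φ i y - S.φ i z‖ ≤ 1 := by
      refine (pi_norm_le_iff_of_nonneg zero_le_one).2 fun k => ?_
      have k1 := S.target_sub i ((S.φ i).map_source (S.ψ_supp i hy)) k (mem_univ k)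
      have k2 := S.target_sub i ((S.φ i).map_source (S.ψ_supp i hz)) k (mem_univ k)
      rw [Real.norm_eq_abs, Pi.sub_apply, abs_le]
      constructor <;> linarith [k1.1, k1.2, k2.1, k2.2]
    refine ⟨h2, ?_⟩
    simp only [Positive.pairW, (hH y hy).2, (hH z hz).2]
    refine add_le_add ((le_abs_self _).trans ((abs_q_le _ _).trans ?_)) ?_
    · exact mul_le_mul_of_nonneg_left (mul_le_mul h1 h3 (norm_nonneg _) hN.le) (by norm_num)
    · exact mul_le_of_le_one_right hC.le (pow_le_one₀ (norm_nonneg _) hd1)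
  have hε1 : Cp * ε ≤ 1 := by
    rw [mul_comm]; exact (le_div_iff₀ hCp).1 (hεb.trans (min_le_right _ _))
  filter_upwards [hrep ε hε (hεb.trans (min_le_left _ _)) (fun _ => 1) measurable_const
    (fun _ => by simp) f hf] with u hu
  obtain ⟨g, hg, hlim, hM⟩ := hu
  set A : Set X := S.nearSet i (cp * ε) u
  set Bs : Set X := {z | S.dX z ((S.φ i).symm u) ≤ Cp * ε}
  have hAm : MeasurableSet A := S.measurableSet_nearSet i _ u
  have hBm : MeasurableSet Bs := Positive.measurableSet_ball _ _
  set κ := cp ^ 2 / 256 with hκ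
  set e : ℝ := 5 * C * Cp ^ 4 * ε ^ 2 / ε ^ 8
  have he : 0 ≤ e := by positivity
  have hkey : ∀ k y z, κ / ε ^ 8 * (A ×ˢ A).indicator (T.pairW i C) (y, z) -
      (Bs ×ˢ Bs).indicator (fun _ => e) (y, z) ≤ q (g k y) (g k z) := by
    intro k y z
    obtain ⟨Mu, hMuf, hMuC, hMun, hMul, hMuL, hgy⟩ := hM k y
    obtain ⟨Mv, hMvf, hMvC, hMvn, hMvl, hMvL, hgz⟩ := hM k z
    have hneg : 0 ≤ (Bs ×ˢ Bs).indicator (fun _ : X × X => e) (y, z) :=
      indicator_nonneg (fun _ _ => he) _
    have hzero : ∀ {a : X} {M : Measure (V →L[ℝ] V)},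
        (a ∈ (S.φ i).source → ‖S.φ i a - u‖ ≤ cp * ε → cp / ε ^ 4 ≤ M.real univ) →
        M = 0 → a ∉ A := fun {a M} h h0 ha => by
      have := h (S.ψ_supp i ha.1) ha.2
      rw [h0, measureReal_def] at this
      simp only [Measure.coe_zero, Pi.zero_apply, ENNReal.toReal_zero] at this
      exact absurd this (not_le.2 (by positivity))
    by_cases hne : Mu = 0 ∨ Mv = 0
    · have hq : q (g k y) (g k z) = 0 := by
        rcases hne with h | h
        · rw [hgy, h, integral_zero_measure, q_comm, ← qL_apply, map_zero]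
        · rw [hgz, h, integral_zero_measure, ← qL_apply, map_zero]
      have hA : (y, z) ∉ A ×ˢ A := fun h => by
        rcases hne with h0 | h0
        · exact hzero hMul h0 h.1
        · exact hzero hMvl h0 h.2
      rw [hq, indicator_of_notMem hA, mul_zero]
      linarith
    push Not at hne
    obtain ⟨hys, hyt, hyd, hyX⟩ := hMun hne.1
    obtain ⟨hzs, hzt, hzd, hzX⟩ := hMvn hne.2
    have hB : (y, z) ∈ Bs ×ˢ Bs := ⟨hyX, hzX⟩
    obtain ⟨-, hP0, h3⟩ := hpw y hyt z hzt
    set d := ‖S.φ i y - S.φ i z‖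
    have hd : d ^ 2 ≤ 4 * (Cp * ε) ^ 2 := by
      have hd : d ≤ 2 * (Cp * ε) := by
        calc d ≤ ‖S.φ i y - u‖ + ‖u - S.φ i z‖ := norm_sub_le_norm_sub_add_norm_sub _ _ _
          _ ≤ Cp * ε + Cp * ε := add_le_add hyd ((norm_sub_rev _ _).trans_le hzd)
          _ = _ := by ring
      linear_combination pow_le_pow_left₀ (norm_nonneg _) hd 2
    have hb : ∀ L L', ‖L - 1‖ ≤ Cp * ε → ‖L' - 1‖ ≤ Cp * ε →
        T.pairW i C (y, z) / 256 - 5 * C * (Cp * ε) ^ 2 ≤
          q (pull L (S.formIn i y (T.h y))) (pull L' (S.formIn i z (T.h z))) := fun L L' hL hL' => by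
      refine le_trans ?_ (h3 L L' (Cp * ε) (by positivity) hε1 hL hL')
      linarith [mul_le_mul_of_nonneg_left hd hC.le]
    have h1 := q_avg_ge hMuL hMvL hb
    rw [← hgy, ← hgz] at h1
    set m := Mu.real univ
    set m' := Mv.real univ
    have hm : 0 ≤ m := measureReal_nonneg
    have hm' : 0 ≤ m' := measureReal_nonneg
    have hpos' : κ / ε ^ 8 * (A ×ˢ A).indicator (T.pairW i C) (y, z) ≤
        m * m' * (T.pairW i C (y, z) / 256) := by
      by_cases hA : (y, z) ∈ A ×ˢ A
      · rw [indicator_of_mem hA]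
        have hmy := hMul hys hA.1.2
        have hmz := hMvl hzs hA.2.2
        refine le_trans (le_of_eq ?_) (mul_le_mul_of_nonneg_right
          (mul_le_mul hmy hmz (by positivity) hm) (by positivity))
        rw [hκ]
        field_simp
      · rw [indicator_of_notMem hA, mul_zero]
        positivity
    have hneg' : m * m' * (5 * C * (Cp * ε) ^ 2) ≤
        (Bs ×ˢ Bs).indicator (fun _ => e) (y, z) := by
      rw [indicator_of_mem hB]
      refine (mul_le_mul_of_nonneg_right (mul_le_mul hMuC hMvC hm' (by positivity))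
        (by positivity)).trans (le_of_eq ?_)
      simp only [e]
      field_simp
    linarith
  have hW : Integrable ((A ×ˢ A).indicator (T.pairW i C)) (T.ν.prod T.ν) := by
    refine Integrable.of_bound ((T.measurable_pairW i C).indicator
      (hAm.prod hAm)).aestronglyMeasurable (6 * (N * N) + C) (Eventually.of_forall fun p => ?_)
    by_cases hp : p ∈ A ×ˢ A
    · obtain ⟨h1, h2, -⟩ := hpw p.1 hp.1.1 p.2 hp.2.1
      obtain ⟨h3, -, -⟩ := hpw p.2 hp.2.1 p.1 hp.1.1
      rw [indicator_of_mem hp, Real.norm_eq_abs, abs_of_nonneg h2]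
      simp only [Positive.pairW]
      refine add_le_add ((le_abs_self _).trans ((abs_q_le _ _).trans ?_)) ?_
      · exact mul_le_mul_of_nonneg_left (mul_le_mul h1 h3 (norm_nonneg _) hN.le) (by norm_num)
      · refine mul_le_of_le_one_right hC.le (pow_le_one₀ (norm_nonneg _) ?_)
        rw [(hH _ hp.1.1).2, (hH _ hp.2.1).2]
        refine (pi_norm_le_iff_of_nonneg zero_le_one).2 fun k => ?_
        have k1 := S.target_sub i ((S.φ i).map_source (S.ψ_supp i hp.1.1)) k (mem_univ k)
        have k2 := S.target_sub i ((S.φ i).map_source (S.ψ_supp i hp.2.1)) k (mem_univ k)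
        rw [Real.norm_eq_abs, Pi.sub_apply, abs_le]
        constructor <;> linarith [k1.1, k1.2, k2.1, k2.2]
    · rw [indicator_of_notMem hp, norm_zero]
      positivity
  have hE : Integrable ((Bs ×ˢ Bs).indicator fun _ => e) (T.ν.prod T.ν) :=
    (integrable_const e).indicator (hBm.prod hBm)
  have hlow : ∀ k, κ / ε ^ 8 * (∫ p in A ×ˢ A, T.pairW i C p ∂T.ν.prod T.ν) -
      5 * C * Cp ^ 12 * ε ^ 2 * T.ball4 (Cp * ε) ((S.φ i).symm u) ^ 2 ≤
      q (∫ z, (1 : ℝ) • g k z ∂T.ν) (∫ z, (1 : ℝ) • g k z ∂T.ν) := by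
    intro k
    have hgi : Integrable (g k) T.ν :=
      Integrable.of_bound (hg k).1.aestronglyMeasurable _ (Eventually.of_forall (hg k).2)
    have hqm : Measurable fun p : X × X => q (g k p.1) (g k p.2) :=
      (Setup.continuous_q continuous_fst continuous_snd).measurable.comp
        (((hg k).1.comp measurable_fst).prodMk ((hg k).1.comp measurable_snd))
    have hqi : Integrable (fun p : X × X => q (g k p.1) (g k p.2)) (T.ν.prod T.ν) := by
      refine Integrable.of_bound hqm.aestronglyMeasurable (6 * (Cp / ε ^ 4 * (Cp / ε ^ 4)))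
        (Eventually.of_forall fun p => (abs_q_le _ _).trans ?_)
      exact mul_le_mul_of_nonneg_left (mul_le_mul ((hg k).2 _) ((hg k).2 _) (norm_nonneg _)
        (by positivity)) (by norm_num)
    simp only [one_smul]
    have heq : q (∫ z, g k z ∂T.ν) (∫ z, g k z ∂T.ν) =
        ∫ p, q (g k p.1) (g k p.2) ∂T.ν.prod T.ν := by
      rw [integral_prod _ hqi, q_integral hgi]
      refine integral_congr_ae (Eventually.of_forall fun y => ?_)
      show _ = ∫ z, q (g k y) (g k z) ∂T.ν
      rw [← q_integral hgi, q_comm]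
    rw [heq]
    refine le_trans (le_of_eq ?_) (integral_mono ((hW.const_mul _).sub hE) hqi
      fun p => hkey k p.1 p.2)
    simp only [Pi.sub_apply]
    rw [integral_sub (hW.const_mul _) hE, integral_const_mul, integral_indicator (hAm.prod hAm),
      integral_indicator_const e (hBm.prod hBm), measureReal_prod_prod, smul_eq_mul]
    rw [show T.ball4 (Cp * ε) ((S.φ i).symm u) = T.ν.real Bs / (Cp * ε) ^ 4 from rfl]
    simp only [e]
    field_simp
  refine ge_of_tendsto' (x := (atTop : Filter ℕ)) ?_ hlow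
  exact ((Setup.continuous_q continuous_fst continuous_snd).tendsto _).comp (hlim.prodMk_nhds hlim)

end Vale.Agent.P204.Gen
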