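import Vale.Agent.P204.Gen.EnergyBase
import Vale.Agent.P204.Gen.GeoSmooth
import Vale.Agent.P204.Torus.GSolve

/-!
P204 on a closed four-manifold: bounded regularisations make the anti-invariant part square
integrable (module 15, helper65).

The dual norm bounds `Sf` by the square norm, so it is the pairing with a square integrable `f`;
then `Se ε` tends to `f`, and the second order accuracy of the regulariser on smooth forms turns
the first order commutator into `o(ε)`.
-/

open MeasureTheory Filter Topology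
open scoped BigOperators ContDiff

namespace Vale.Agent.P204.Gen

open Vale.Agent.P204.Torus

variable {X : Type*} [TopologicalSpace X] [MeasurableSpace X]

/-- The norm of order zero is the square norm, up to constants. -/
def SobZero (G : Geo X) : Prop :=
  ∃ C, ∀ α, G.Smooth2 α → G.sob 0 1 α ≤ C * G.n2 α ∧ G.n2 α ≤ C * G.sob 0 1 α

/-! ## The semiclassical norms -/

lemma hsq_nonneg_aux : ∀ (k : ℕ) (ε : ℝ) (f : V → Form), 0 ≤ hsq k ε f
  | 0, _, _ => integral_nonneg fun _ => sq_nonneg _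
  | k + 1, ε, f => add_nonneg (hsq_nonneg_aux k ε f)
      (mul_nonneg (sq_nonneg _) (Finset.sum_nonneg fun _ _ => hsq_nonneg_aux k ε _))

lemma hsq_le_succ_aux (k : ℕ) (ε : ℝ) (f : V → Form) : hsq k ε f ≤ hsq (k + 1) ε f :=
  le_add_of_nonneg_right
    (mul_nonneg (sq_nonneg _) (Finset.sum_nonneg fun _ _ => hsq_nonneg_aux k ε _))

lemma hsq_mono {j k : ℕ} (h : j ≤ k) (ε : ℝ) (f : V → Form) : hsq j ε f ≤ hsq k ε f :=
  monotone_nat_of_le_succ (f := fun i => hsq i ε f) (fun i => hsq_le_succ_aux i ε f) h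

lemma pow_mul_hsq_one_le {ε : ℝ} (h0 : 0 < ε) (h1 : ε ≤ 1) :
    ∀ (k : ℕ) (f : V → Form), ε ^ (2 * k) * hsq k 1 f ≤ hsq k ε f
  | 0, f => by simp [hsq]
  | k + 1, f => by
    simp only [hsq, one_pow, one_mul, mul_add]
    refine add_le_add ?_ ?_
    · refine le_trans (mul_le_mul_of_nonneg_right ?_ (hsq_nonneg_aux k 1 f))
        (pow_mul_hsq_one_le h0 h1 k f)
      exact pow_le_pow_of_le_one h0.le h1 (by omega)
    · rw [Finset.mul_sum, Finset.mul_sum]
      refine Finset.sum_le_sum fun l _ => ?_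
      have := pow_mul_hsq_one_le h0 h1 k (fun u => fderiv ℝ f u (e l))
      calc ε ^ (2 * (k + 1)) * hsq k 1 (fun u => fderiv ℝ f u (e l))
          = ε ^ 2 * (ε ^ (2 * k) * hsq k 1 (fun u => fderiv ℝ f u (e l))) := by ring
        _ ≤ _ := mul_le_mul_of_nonneg_left this (sq_nonneg ε)

lemma continuous_hsq : ∀ (k : ℕ) (f : V → Form), Continuous fun ε => hsq k ε f
  | 0, _ => continuous_const
  | k + 1, f => (continuous_hsq k f).add ((continuous_id.pow 2).mul
      (continuous_finsetSum _ fun _ _ => continuous_hsq k _))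

lemma hsq_zero_scale : ∀ (k : ℕ) (f : V → Form), hsq k 0 f = hsq 0 1 f
  | 0, _ => rfl
  | k + 1, f => by simp [hsq, hsq_zero_scale k f]

lemma hsq_smul_aux : ∀ (k : ℕ) (ε a : ℝ) (f : V → Form), hsq k ε (a • f) = a ^ 2 * hsq k ε f
  | 0, _, a, f => by
    simp only [hsq, Pi.smul_apply, norm_smul, mul_pow, Real.norm_eq_abs, sq_abs]
    exact integral_const_mul _ _
  | k + 1, ε, a, f => by
    simp only [hsq, hsq_smul_aux k ε a f, fderiv_const_smul_field]
    have h : ∀ l : Fin 4, hsq k ε (fun u => (a • fderiv ℝ f) u (e l)) =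
        a ^ 2 * hsq k ε (fun u => fderiv ℝ f u (e l)) := fun l => by
      rw [← hsq_smul_aux k ε a]
      rfl
    simp only [h, ← Finset.mul_sum]
    ring

namespace Geo

variable (G : Geo X)

lemma locF_smul (i : Fin G.n) (a : ℝ) (α : X → Form) : G.locF i (a • α) = a • G.locF i α := by
  have h : (fun x => G.ψ i x • (a • α) x) = a • fun x => G.ψ i x • α x := by
    funext x
    simp only [Pi.smul_apply]
    exact smul_comm (G.ψ i x) a (α x)
  rw [locF, h, G.rep2_smul]
  rfl

lemma sob_smul (k : ℕ) (ε a : ℝ) (α : X → Form) : G.sob k ε (a • α) = |a| * G.sob k ε α := by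
  simp only [sob, locF_smul, hsq_smul_aux, ← Finset.mul_sum]
  rw [Real.sqrt_mul (sq_nonneg a), Real.sqrt_sq_eq_abs]

lemma sob_nonneg (k : ℕ) (ε : ℝ) (α : X → Form) : 0 ≤ G.sob k ε α := Real.sqrt_nonneg _

lemma sob_zero_scale (ε : ℝ) (α : X → Form) : G.sob 0 ε α = G.sob 0 1 α := rfl

lemma tendsto_sob (k : ℕ) (α : X → Form) :
    Tendsto (fun ε => G.sob k ε α) (𝓝[>] 0) (𝓝 (G.sob 0 1 α)) := by
  have hc : Continuous fun ε => G.sob k ε α :=
    Real.continuous_sqrt.comp (continuous_finsetSum _ fun _ _ => continuous_hsq k _)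
  have h := (hc.tendsto 0).mono_left (nhdsWithin_le_nhds (s := Set.Ioi 0))
  simpa [sob, hsq_zero_scale] using h

lemma pow_mul_sob_le {j k : ℕ} (hjk : j ≤ k) {ε : ℝ} (h0 : 0 < ε) (h1 : ε ≤ 1) (α : X → Form) :
    ε ^ k * G.sob j 1 α ≤ G.sob k ε α := by
  refine Real.le_sqrt_of_sq_le ?_
  rw [mul_pow, sob, Real.sq_sqrt (Finset.sum_nonneg fun _ _ => hsq_nonneg_aux _ _ _), ← pow_mul,
    mul_comm k 2, Finset.mul_sum]
  exact Finset.sum_le_sum fun i _ => (mul_le_mul_of_nonneg_left (hsq_mono hjk 1 _) (by positivity)).trans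
    (pow_mul_hsq_one_le h0 h1 k _)

/-! ## Square integrable fields -/

/-- The swap of a two-form with its partner under `q`. -/
noncomputable def swForm (a : Form) : Form := WithLp.toLp 2 fun k => a (sw k)

lemma q_swForm (a : Form) : q a (swForm a) = ‖a‖ ^ 2 := by
  rw [EuclideanSpace.real_norm_sq_eq]
  simp [q, swForm, sw, Fin.sum_univ_succ]
  ring

lemma norm_swForm (a : Form) : ‖swForm a‖ = ‖a‖ := by
  rw [← sq_eq_sq₀ (norm_nonneg _) (norm_nonneg _), EuclideanSpace.real_norm_sq_eq,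
    EuclideanSpace.real_norm_sq_eq]
  simp [swForm, sw, Fin.sum_univ_succ]
  ring

lemma continuous_swForm : Continuous swForm :=
  (PiLp.continuous_toLp 2 _).comp (continuous_pi fun _ => PiLp.continuous_apply 2 _ _)

variable {G}

lemma n2_sq (f : X → Form) : G.n2 f ^ 2 = ∫ x, ‖f x‖ ^ 2 ∂G.μ :=
  Real.sq_sqrt (integral_nonneg fun _ => sq_nonneg _)

lemma n2_add_le {f g : X → Form} (hf : MemLp f 2 G.μ) (hg : MemLp g 2 G.μ) :
    G.n2 (fun x => f x + g x) ≤ G.n2 f + G.n2 g := by
  refine (Real.sqrt_le_left (add_nonneg (G.n2_nonneg f) (G.n2_nonneg g))).2 ?_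
  have hfg : ∫ x, ‖f x‖ * ‖g x‖ ∂G.μ ≤ G.n2 f * G.n2 g := by
    rw [n2, n2, ← Real.sqrt_mul (integral_nonneg fun _ => sq_nonneg _)]
    exact Real.le_sqrt_of_sq_le (integral_mul_sq_le hf.norm.integrable_sq hg.norm.integrable_sq
      (G.integrable_norm_mul hf hg))
  have hi := (hf.norm.integrable_sq.add ((G.integrable_norm_mul hf hg).const_mul 2)).add
    hg.norm.integrable_sq
  refine (integral_mono (hf.add hg).norm.integrable_sq hi fun x => ?_).trans ?_
  · simp only [Pi.add_apply]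
    nlinarith [norm_add_le (f x) (g x), norm_nonneg (f x + g x), norm_nonneg (f x), norm_nonneg (g x)]
  · rw [integral_add' (hf.norm.integrable_sq.add ((G.integrable_norm_mul hf hg).const_mul 2))
      hg.norm.integrable_sq, integral_add' hf.norm.integrable_sq
      ((G.integrable_norm_mul hf hg).const_mul 2), integral_const_mul, ← n2_sq, ← n2_sq]
    nlinarith

lemma n2_neg (f : X → Form) : G.n2 (fun x => -f x) = G.n2 f := by simp [n2]

lemma n2_sub_comm (f g : X → Form) : G.n2 (fun x => f x - g x) = G.n2 (fun x => g x - f x) := by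
  simp [n2, norm_sub_rev]

lemma n2_mul_le {f g : X → Form} (hg : MemLp g 2 G.μ) {C : ℝ} (hC : 0 ≤ C)
    (h : ∀ x, ‖f x‖ ≤ C * ‖g x‖) : G.n2 f ≤ C * G.n2 g := by
  refine (Real.sqrt_le_left (mul_nonneg hC (G.n2_nonneg g))).2 ?_
  rw [mul_pow, n2_sq, ← integral_const_mul]
  refine integral_mono_of_nonneg (Eventually.of_forall fun _ => sq_nonneg _)
    (hg.norm.integrable_sq.const_mul _) (Eventually.of_forall fun x => ?_)
  simp only
  rw [← mul_pow]
  exact pow_le_pow_left₀ (norm_nonneg _) (h x) 2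

lemma pairing_sub_left {f g h : X → Form} (hf : MemLp f 2 G.μ) (hg : MemLp g 2 G.μ)
    (hh : MemLp h 2 G.μ) :
    G.pairing (fun x => f x - g x) h = G.pairing f h - G.pairing g h := by
  rw [G.pairing_comm, G.pairing_sub_right hh hf hg, G.pairing_comm h f, G.pairing_comm h g]

/-- The square norm is dual to itself on the smooth forms. -/
lemma n2_le_of_pairing (hB : Basic G) {g : X → Form} (hg : MemLp g 2 G.μ) {K : ℝ} (hK : 0 ≤ K)
    (h : ∀ α, G.Smooth2 α → |G.pairing g α| ≤ K * G.n2 α) : G.n2 g ≤ K := by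
  set w : X → Form := fun x => swForm (g x) with hwdef
  have hw : MemLp w 2 G.μ := hg.of_le (continuous_swForm.comp_aestronglyMeasurable hg.1)
    (Eventually.of_forall fun x => (norm_swForm _).le)
  have hwn : G.n2 w = G.n2 g := by simp [n2, hwdef, norm_swForm]
  have hgg : G.pairing g w = G.n2 g ^ 2 := by simp [pairing, hwdef, q_swForm, n2_sq]
  have hle : G.n2 g ^ 2 ≤ K * G.n2 g := by
    refine le_of_forall_pos_le_add fun η hη => ?_
    set t := η / (K + 6 * G.n2 g + 1) with ht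
    have hn := G.n2_nonneg g
    have ht0 : 0 < t := by positivity
    obtain ⟨α, hα, hαd⟩ := hB.dense w hw t ht0
    have hαm := hB.smooth_mem α hα
    have hd : MemLp (fun x => w x - α x) 2 G.μ := hw.sub hαm
    have h1 : G.n2 α ≤ G.n2 g + t := by
      have := n2_add_le (f := w) (g := fun x => α x - w x) hw (hαm.sub hw)
      simp only [add_sub_cancel, hwn] at this
      rw [n2_sub_comm α w] at this
      linarith
    have h2 : G.pairing g w = G.pairing g α + G.pairing g (fun x => w x - α x) := by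
      rw [G.pairing_sub_right hg hw hαm]; ring
    have h3 := G.abs_pairing_le hg hd
    have h4 := h α hα
    have h5 : G.pairing g w ≤ K * (G.n2 g + t) + 6 * (G.n2 g * t) := by
      rw [h2]
      refine add_le_add ((le_abs_self _).trans (h4.trans (mul_le_mul_of_nonneg_left h1 hK)))
        ((le_abs_self _).trans (h3.trans ?_))
      gcongr
    have h6 : (K + 6 * G.n2 g + 1) * t = η := by rw [ht]; field_simp
    rw [← hgg]
    nlinarith
  by_contra hlt
  push Not at hlt
  nlinarith [G.n2_nonneg g]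

/-- A pairing with a square integrable field is small on bounded sequences which tend to zero in
the absolute norm. -/
lemma small_pairing [IsFiniteMeasure G.μ] {f : X → Form} (hf : MemLp f 2 G.μ) (C : ℝ) {δ : ℝ}
    (hδ : 0 < δ) :
    ∃ η > 0, ∀ w : X → Form, MemLp w 2 G.μ → G.n2 w ≤ C → G.n1 w ≤ η → |G.pairing f w| ≤ δ := by
  set g := hf.1.mk f with hgdef
  have hfg : f =ᵐ[G.μ] g := hf.1.ae_eq_mk
  have hgs : StronglyMeasurable g := hf.1.stronglyMeasurable_mk
  have hgm : Measurable g := hgs.measurable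
  have hg : MemLp g 2 G.μ := hf.ae_eq hfg
  let tail : ℕ → X → Form := fun M x => if (M : ℝ) < ‖g x‖ then g x else 0
  have htm : ∀ M, Measurable (tail M) := fun M =>
    Measurable.ite (measurableSet_lt measurable_const hgm.norm) hgm measurable_const
  have htle : ∀ M x, ‖tail M x‖ ≤ ‖g x‖ := fun M x => by
    simp only [tail]; split_ifs <;> simp
  have htL : ∀ M, MemLp (tail M) 2 G.μ := fun M =>
    hg.of_le (htm M).aestronglyMeasurable (Eventually.of_forall (htle M))
  have hlim : Tendsto (fun M => G.n2 (tail M)) atTop (𝓝 0) := by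
    have h : Tendsto (fun M : ℕ => ∫ x, ‖tail M x‖ ^ 2 ∂G.μ) atTop
        (𝓝 (∫ _x, (0 : ℝ) ∂G.μ)) := by
      refine tendsto_integral_of_dominated_convergence (fun x => ‖g x‖ ^ 2)
        (fun M => ((htm M).norm.pow_const 2).aestronglyMeasurable) hg.norm.integrable_sq
        (fun M => Eventually.of_forall fun x => ?_) (Eventually.of_forall fun x => ?_)
      · rw [Real.norm_of_nonneg (sq_nonneg _)]
        exact pow_le_pow_left₀ (norm_nonneg _) (htle M x) 2
      · refine tendsto_const_nhds.congr' ?_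
        filter_upwards [eventually_ge_atTop ⌈‖g x‖⌉₊] with M hM
        have : ¬ ((M : ℝ) < ‖g x‖) := not_lt.2 (Nat.ceil_le.1 hM)
        simp [tail, this]
    simpa [n2] using h.sqrt
  set C' := max C 0 + 1
  have hC' : 0 < C' := by positivity
  obtain ⟨M, hM⟩ := ((tendsto_order.1 hlim).2 (δ / (12 * C')) (by positivity)).exists
  refine ⟨δ / (12 * (M + 1)), by positivity, fun w hw hC hl => ?_⟩
  have hsplit : ∀ x, |q (g x) (w x)| ≤ 6 * (‖tail M x‖ * ‖w x‖) + 6 * M * ‖w x‖ := fun x => by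
    refine (abs_q_le _ _).trans ?_
    simp only [tail]
    split_ifs with h
    · exact le_add_of_nonneg_right (by positivity)
    · rw [norm_zero, zero_mul, mul_zero, zero_add, mul_assoc]
      gcongr
      exact not_lt.1 h
  have hw1 : Integrable (fun x => ‖w x‖) G.μ := (hw.integrable one_le_two).norm
  have hmid : ∫ x, ‖tail M x‖ * ‖w x‖ ∂G.μ ≤ G.n2 (tail M) * G.n2 w := by
    rw [n2, n2, ← Real.sqrt_mul (integral_nonneg fun _ => sq_nonneg _)]
    exact Real.le_sqrt_of_sq_le (integral_mul_sq_le (htL M).norm.integrable_sq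
      hw.norm.integrable_sq (G.integrable_norm_mul (htL M) hw))
  have he : G.pairing f w = ∫ x, q (g x) (w x) ∂G.μ :=
    integral_congr_ae (hfg.mono fun x hx => by simp only [hx])
  calc |G.pairing f w| ≤ ∫ x, |q (g x) (w x)| ∂G.μ := by
        rw [he]; exact abs_integral_le_integral_abs
    _ ≤ ∫ x, (6 * (‖tail M x‖ * ‖w x‖) + 6 * M * ‖w x‖) ∂G.μ :=
        integral_mono (G.integrable_q hg hw).abs
          (((G.integrable_norm_mul (htL M) hw).const_mul 6).add (hw1.const_mul _)) hsplit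
    _ = 6 * (∫ x, ‖tail M x‖ * ‖w x‖ ∂G.μ) + 6 * M * G.n1 w := by
        rw [integral_add ((G.integrable_norm_mul (htL M) hw).const_mul 6) (hw1.const_mul _),
          integral_const_mul, integral_const_mul, n1]
    _ ≤ 6 * (δ / (12 * C') * C') + 6 * M * (δ / (12 * (M + 1))) :=
        add_le_add (mul_le_mul_of_nonneg_left (hmid.trans (mul_le_mul hM.le
          (hC.trans ((le_max_left C 0).trans (by simp [C']))) (G.n2_nonneg w) (by positivity)))
          (by norm_num)) (mul_le_mul_of_nonneg_left hl (by positivity))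
    _ ≤ δ := by
        have h1 : 6 * (δ / (12 * C') * C') = δ / 2 := by field_simp; ring
        have h2 : 6 * (M : ℝ) * (δ / (12 * (M + 1))) ≤ δ / 2 := by
          rw [mul_div_assoc', div_le_div_iff₀ (by positivity) two_pos]
          nlinarith
        linarith

end Geo

namespace GSetup

variable (S : GSetup X)

lemma q_piP_left (x : X) (α β : Form) : q (piP (S.J x) α) β = q α (piP (S.J x) β) :=
  (S.pt x).q_piP_left 0 α β

lemma piM_piP (x : X) (α : Form) : piM (S.J x) (piP (S.J x) α) = 0 :=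
  (S.pt x).piM_piP 0 α

lemma q_anti_nonneg {x : X} {n : Form} (hn : piP (S.J x) n = 0) : 0 ≤ q n n := by
  rcases eq_or_ne n 0 with rfl | h0
  · rw [q_zero_left]
  · exact ((S.pt x).q_anti_pos (x := 0) hn h0).le

lemma eq_zero_of_q_anti {x : X} {n : Form} (hn : piP (S.J x) n = 0) (h : q n n = 0) : n = 0 :=
  by_contra fun h0 => ((S.pt x).q_anti_pos (x := 0) hn h0).ne' h

end GSetup

namespace GUData

variable {S : GSetup X} {T : GCurrent S} (D : GUData T)

lemma app_add (hB : Basic S.toGeo) {M : ℝ} (hh : ∀ x, ‖T.h x‖ ≤ M) {α β : X → Form}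
    (hα : S.Smooth2 α) (hβ : S.Smooth2 β) : T.app (α + β) = T.app α + T.app β := by
  have := T.finite
  have hi : ∀ γ, S.Smooth2 γ → Integrable (fun x => q (T.h x) (γ x)) T.ν := fun γ hγ => by
    obtain ⟨C, hC⟩ := hB.smooth_bound γ hγ
    have hq : Continuous fun p : Form × Form => q p.1 p.2 :=
      Setup.continuous_q continuous_fst continuous_snd
    have hp : AEStronglyMeasurable (fun x => (T.h x, γ x)) T.ν :=
      T.meas.aestronglyMeasurable.prodMk (hB.smooth_meas γ hγ).aestronglyMeasurable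
    have hm : AEStronglyMeasurable (fun x => q (T.h x) (γ x)) T.ν :=
      Continuous.comp_aestronglyMeasurable (g := fun p : Form × Form => q p.1 p.2)
        (f := fun x => (T.h x, γ x)) hq hp
    refine Integrable.of_bound hm (6 * (M * C)) (Eventually.of_forall fun x => ?_)
    rw [Real.norm_eq_abs]
    refine (abs_q_le _ _).trans (mul_le_mul_of_nonneg_left ?_ (by norm_num))
    exact mul_le_mul (hh x) (hC x) (norm_nonneg _) ((norm_nonneg _).trans (hh x))
  simp only [Positive.app, Pi.add_apply, q_add_right]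
  exact integral_add (hi α hα) (hi β hβ)

lemma app_smul (a : ℝ) (α : X → Form) : T.app (a • α) = a * T.app α := by
  simp only [Positive.app, Pi.smul_apply, q_smul_right]
  exact integral_const_mul _ _

lemma Sf_add (hB : Basic S.toGeo) {M : ℝ} (hh : ∀ x, ‖T.h x‖ ≤ M) {α β : X → Form}
    (hα : S.Smooth2 α) (hβ : S.Smooth2 β) : D.Sf (α + β) = D.Sf α + D.Sf β := by
  simp only [Sf, D.add α β hα hβ, app_add hB hh hα hβ]
  ring

lemma Sf_smul (a : ℝ) {α : X → Form} (hα : S.Smooth2 α) : D.Sf (a • α) = a * D.Sf α := by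
  simp only [Sf, D.smul a α hα, app_smul]
  ring

lemma mem_Se {ε : ℝ} (h0 : 0 < ε) (h1 : ε ≤ D.ε₀) : MemLp (D.Se ε) 2 S.μ :=
  (D.Ue_mem ε h0 h1).sub (D.Te_rep ε h0 h1).1

/-- `Se ε` represents `Sf` composed with the regulariser. -/
lemma pairing_Se (hB : Basic S.toGeo) {ε : ℝ} (h0 : 0 < ε) (h1 : ε ≤ D.ε₀) {α : X → Form}
    (hα : S.Smooth2 α) : S.pairing (D.Se ε) α = D.Sf (S.reg ε α) := by
  unfold Se
  rw [Geo.pairing_sub_left (D.Ue_mem ε h0 h1) (D.Te_rep ε h0 h1).1 (hB.smooth_mem α hα),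
    D.Ue_rep ε h0 h1 α hα, (D.Te_rep ε h0 h1).2 α hα]
  simp [Sf]

/-- The dual norm bounds the functional. -/
lemma abs_Sf_le_Yn (hS : SobFacts S.toGeo) {M : ℝ}
    (hh : ∀ x, ‖T.h x‖ ≤ M) {ε : ℝ} (h0 : 0 < ε) (h1 : ε ≤ 1) {α : X → Form}
    (hα : S.Smooth2 α) : |D.Sf α| ≤ D.Yn ε * S.sob kS ε α := by
  have := T.finite
  obtain ⟨CU, hU⟩ := D.bound
  obtain ⟨CS, hCS⟩ := hS.sup
  set K := max CU 0 + 6 * (|M| * max CS 0) * T.ν.real Set.univ with hK
  have hK0 : 0 ≤ K := by positivity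
  have hraw : ∀ γ, S.Smooth2 γ → |D.Sf γ| ≤ K * S.sob pU 1 γ := fun γ hγ => by
    have hsg := S.toGeo.sob_nonneg pU 1 γ
    have ht : |T.app γ| ≤ 6 * (|M| * max CS 0) * T.ν.real Set.univ * S.sob pU 1 γ := by
      have h := norm_integral_le_of_norm_le_const (μ := T.ν)
        (f := fun x => q (T.h x) (γ x)) (C := 6 * (|M| * (max CS 0 * S.sob pU 1 γ)))
        (Eventually.of_forall fun x => by
          rw [Real.norm_eq_abs]
          refine (abs_q_le _ _).trans (mul_le_mul_of_nonneg_left ?_ (by norm_num))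
          refine mul_le_mul ((hh x).trans (le_abs_self M)) ((hCS γ hγ x).trans ?_) (norm_nonneg _)
            (abs_nonneg _)
          exact mul_le_mul_of_nonneg_right (le_max_left _ _) hsg)
      exact h.trans_eq (by ring)
    refine (abs_sub _ _).trans ?_
    rw [hK, add_mul]
    exact add_le_add ((hU γ hγ).trans (mul_le_mul_of_nonneg_right (le_max_left _ _) hsg)) ht
  have hbdd : BddAbove {r | ∃ γ, S.Smooth2 γ ∧ S.sob kS ε γ ≤ 1 ∧ r = |D.Sf γ|} := by
    refine ⟨K / ε ^ kS, ?_⟩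
    rintro r ⟨γ, hγ, hγ1, rfl⟩
    rw [le_div_iff₀ (by positivity)]
    calc |D.Sf γ| * ε ^ kS ≤ K * S.sob pU 1 γ * ε ^ kS :=
          mul_le_mul_of_nonneg_right (hraw γ hγ) (by positivity)
      _ = K * (ε ^ kS * S.sob pU 1 γ) := by ring
      _ ≤ K * 1 := mul_le_mul_of_nonneg_left
          ((S.toGeo.pow_mul_sob_le (by decide) h0 h1 γ).trans hγ1) hK0
      _ = K := mul_one K
  refine le_of_forall_pos_le_add fun η hη => ?_
  have hsn := S.toGeo.sob_nonneg kS ε α
  set s := S.sob kS ε α + η / (|D.Yn ε| + 1) with hs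
  have hs0 : 0 < s := by positivity
  have hsm : S.Smooth2 (s⁻¹ • α) := Geo.Smooth2.smul hα _
  have hle : S.sob kS ε (s⁻¹ • α) ≤ 1 := by
    rw [Geo.sob_smul, abs_of_pos (inv_pos.2 hs0), inv_mul_le_iff₀ hs0, mul_one, hs]
    exact le_add_of_nonneg_right (by positivity)
  have h := le_csSup hbdd ⟨s⁻¹ • α, hsm, hle, rfl⟩
  rw [D.Sf_smul _ hα, abs_mul, abs_of_pos (inv_pos.2 hs0), inv_mul_le_iff₀ hs0] at h
  change |D.Sf α| ≤ s * D.Yn ε at h
  have h2 : η / (|D.Yn ε| + 1) * D.Yn ε ≤ η := by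
    refine (mul_le_mul_of_nonneg_left ((le_abs_self (D.Yn ε)).trans (le_add_of_nonneg_right
      zero_le_one)) (by positivity)).trans_eq ?_
    field_simp
  rw [hs, add_mul] at h
  linarith

/-- Bounded regularisations make the functional bounded for the square norm. -/
lemma exists_Sf_bound (hB : Basic S.toGeo) (hR : RegFacts S.toGeo) (hS : SobFacts S.toGeo)
    (h0 : SobZero S.toGeo) {M : ℝ} (hh : ∀ x, ‖T.h x‖ ≤ M) (hb : D.Bounded) :
    ∃ C, ∀ α, S.Smooth2 α → |D.Sf α| ≤ C * S.n2 α := by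
  obtain ⟨Cb, eb, heb, hb⟩ := hb
  obtain ⟨Ck, ek, hek, hkey⟩ := hR.key kS
  obtain ⟨e1, he1, he11, hsc⟩ := hR.exists_scale
  obtain ⟨C0, hC0⟩ := h0
  set B := max Cb 0
  set K := 6 * B * max Ck 0 + B * max Ck 0 with hKdef
  refine ⟨K * C0, fun α hα => ?_⟩
  have hev : ∀ᶠ ε in 𝓝[>] (0 : ℝ), |D.Sf α| ≤ K * S.sob kS ε α := by
    have hm : 0 < min (min eb ek) (min e1 D.ε₀) :=
      lt_min (lt_min heb hek) (lt_min he1 D.ε₀_pos)
    filter_upwards [self_mem_nhdsWithin, nhdsWithin_le_nhds (Iic_mem_nhds hm)] with ε hε hle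
    have hε : 0 < ε := hε
    simp only [Set.mem_Iic, le_min_iff] at hle
    obtain ⟨⟨hleb, hlek⟩, hle1, hleD⟩ := hle
    obtain ⟨γ, β, hγ, hβ, hαe, hγn, hβn⟩ := hkey 1 ε one_pos le_rfl hε hlek α hα
    rw [one_mul] at hαe hβn
    rw [one_pow, mul_one] at hβn
    have hsn := S.toGeo.sob_nonneg kS ε α
    have hreg : S.Smooth2 (S.reg ε γ) := ((hsc ε hε hle1).1 γ hγ).1
    have hX : S.n2 (D.Se ε) ≤ B := ((hb ε hε hleb).1).trans (le_max_left _ _)
    have hY : D.Yn ε ≤ B := ((hb ε hε hleb).2).trans (le_max_left _ _)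
    have h1 : |D.Sf (S.reg ε γ)| ≤ 6 * (B * (max Ck 0 * S.sob kS ε α)) := by
      rw [← D.pairing_Se hB hε hleD hγ]
      refine (S.toGeo.abs_pairing_le (D.mem_Se hε hleD) (hB.smooth_mem γ hγ)).trans ?_
      refine mul_le_mul_of_nonneg_left ?_ (by norm_num)
      exact mul_le_mul hX (hγn.trans (mul_le_mul_of_nonneg_right (le_max_left _ _) hsn))
        (S.toGeo.n2_nonneg _) (le_max_right _ _)
    have h2 : |D.Sf β| ≤ B * (max Ck 0 * S.sob kS ε α) :=
      (D.abs_Sf_le_Yn hS hh hε (hle1.trans he11) hβ).trans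
        (mul_le_mul hY (hβn.trans (mul_le_mul_of_nonneg_right (le_max_left _ _) hsn))
          (S.toGeo.sob_nonneg _ _ _) (le_max_right _ _))
    rw [hαe, D.Sf_add hB hh hreg hβ]
    refine (abs_add_le _ _).trans ((add_le_add h1 h2).trans_eq ?_)
    rw [← hαe, hKdef]
    ring
  have hlim := ((S.toGeo.tendsto_sob kS α).const_mul K)
  refine (ge_of_tendsto hlim hev).trans ?_
  rw [mul_assoc]
  exact mul_le_mul_of_nonneg_left (hC0 α hα).1 (by positivity)

/-- Module 15: if the regularised anti-invariant part is bounded, it is square integrable, and its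
regularisations converge to it. -/
theorem slimit [T2Space X] [CompactSpace X] [BorelSpace X] (hB : Basic S.toGeo)
    (hR : RegFacts S.toGeo) (hS : SobFacts S.toGeo) (h0 : SobZero S.toGeo) {M : ℝ}
    (hh : ∀ x, ‖T.h x‖ ≤ M) (hb : D.Bounded) : Nonempty D.SLimit := by
  have := hB.finite_μ
  obtain ⟨CS, hCS⟩ := D.exists_Sf_bound hB hR hS h0 hh hb
  obtain ⟨f, hf, hfr⟩ := hB.riesz D.Sf (fun α β hα hβ => D.Sf_add hB hh hα hβ)
    (fun a α hα => D.Sf_smul a hα) ⟨CS, hCS⟩
  obtain ⟨Cp, hCp, hproj⟩ := S.exists_bound_proj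
  have hP : ∀ g : X → Form, MemLp g 2 S.μ → MemLp (fun x => piP (S.J x) (g x)) 2 S.μ :=
    fun g hg => (hg.norm.const_mul Cp).of_le (hproj g hg.1).1
      (Eventually.of_forall fun x => ((hproj g hg.1).2.2 x).trans (Real.le_norm_self _))
  have hPn : ∀ g : X → Form, MemLp g 2 S.μ →
      S.n2 (fun x => piP (S.J x) (g x)) ≤ Cp * S.n2 g :=
    fun g hg => Geo.n2_mul_le hg hCp (hproj g hg.1).2.2
  have hsP : ∀ α, S.Smooth2 α → S.Smooth2 (fun x => piP (S.J x) (α x)) :=
    fun α hα => Geo.Smooth2.piP S.J_smooth hα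
  have hPadj : ∀ a b : X → Form, S.pairing (fun x => piP (S.J x) (a x)) b =
      S.pairing a (fun x => piP (S.J x) (b x)) :=
    fun a b => integral_congr_ae (Eventually.of_forall fun x => S.q_piP_left x _ _)
  have hPz : ∀ᵐ x ∂S.μ, piP (S.J x) (f x) = 0 := by
    have hn : S.n2 (fun x => piP (S.J x) (f x)) ≤ 0 :=
      Geo.n2_le_of_pairing hB (hP f hf) le_rfl fun α hα => by
        rw [hPadj, hfr _ (hsP α hα), zero_mul, Sf,
          D.inv _ (hsP α hα) (fun x => S.piM_piP x (α x)), sub_self, abs_zero]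
    have hz : ∫ x, ‖piP (S.J x) (f x)‖ ^ 2 ∂S.μ = 0 := by
      rw [← Geo.n2_sq, le_antisymm hn (S.toGeo.n2_nonneg _)]
      norm_num
    filter_upwards [(integral_eq_zero_iff_of_nonneg (fun x => sq_nonneg _)
      (hP f hf).norm.integrable_sq).1 hz] with x hx
    simpa using hx
  -- the regulariser on smooth forms
  obtain ⟨C0, hC0⟩ := h0
  obtain ⟨Cg, eg, heg, hgain⟩ := hR.gain 0
  obtain ⟨Cc, ec, hec, hcomm⟩ := hR.comm _ (Geo.SmoothE.piPL S.J_smooth) 0
  obtain ⟨e1, he1, -, hsc⟩ := hR.exists_scale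
  obtain ⟨Cb, eb, heb, hb⟩ := hb
  set e0 := min (min eg ec) (min (min e1 eb) D.ε₀) with he0def
  have he0 : 0 < e0 := lt_min (lt_min heg hec) (lt_min (lt_min he1 heb) D.ε₀_pos)
  have hsmall : ∀ {ε}, ε ≤ e0 → (ε ≤ eg ∧ ε ≤ ec) ∧ (ε ≤ e1 ∧ ε ≤ eb) ∧ ε ≤ D.ε₀ := fun h => by
    simpa only [he0def, le_min_iff] using h
  have hev : ∀ {p : ℝ → Prop}, (∀ ε, 0 < ε → ε ≤ e0 → p ε) → ∀ᶠ ε in 𝓝[>] (0 : ℝ), p ε :=
    fun h => by
      filter_upwards [self_mem_nhdsWithin, nhdsWithin_le_nhds (Iic_mem_nhds he0)] with ε h1 h2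
      exact h ε h1 h2
  set Cr := |C0| * max Cg 0
  set Cm := |C0| * max Cc 0
  have hreg : ∀ ε, 0 < ε → ε ≤ e0 → ∀ α, S.Smooth2 α → S.n2 (S.reg ε α) ≤ Cr * S.n2 α := by
    intro ε hε hle α hα
    obtain ⟨⟨hlg, -⟩, ⟨hl1, -⟩, -⟩ := hsmall hle
    refine (hC0 _ ((hsc ε hε hl1).1 α hα).1).2.trans ?_
    rw [← S.toGeo.sob_zero_scale ε]
    refine (mul_le_mul (le_abs_self C0) ((hgain ε hε hlg α hα).trans (mul_le_mul_of_nonneg_right
      (le_max_left _ 0) (S.toGeo.n2_nonneg _))) (S.toGeo.sob_nonneg _ _ _) (abs_nonneg _)).trans_eq ?_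
    ring
  have hadj : ∀ ε, 0 < ε → ε ≤ e0 → ∀ φ α, S.Smooth2 φ → S.Smooth2 α →
      S.pairing φ (S.reg ε α) = S.pairing (S.regT ε φ) α := by
    intro ε hε hle φ α hφ hα
    obtain ⟨-, ⟨hl1, -⟩, -⟩ := hsmall hle
    obtain ⟨-, -, -, -, -, -, ha⟩ := hsc ε hε hl1
    rw [S.toGeo.pairing_comm, ha α φ hα hφ, S.toGeo.pairing_comm]
  -- the regularisations converge to `f`
  have hSe : ∀ ε, 0 < ε → ε ≤ e0 → MemLp (D.Se ε) 2 S.μ := fun ε hε hle =>
    D.mem_Se hε (hsmall hle).2.2
  have hrep : ∀ ε, 0 < ε → ε ≤ e0 → ∀ α, S.Smooth2 α →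
      S.pairing (D.Se ε) α = S.pairing f (S.reg ε α) := fun ε hε hle α hα => by
    rw [D.pairing_Se hB hε (hsmall hle).2.2 hα,
      hfr _ ((hsc ε hε (hsmall hle).2.1.1).1 α hα).1]
  have hdiff : Tendsto (fun ε => S.n2 (fun x => D.Se ε x - f x)) (𝓝[>] 0) (𝓝 0) := by
    refine Metric.tendsto_nhds.2 fun η hη => ?_
    set δ := η / (2 * (6 * Cr + 2)) with hδdef
    have hδ : 0 < δ := by positivity
    obtain ⟨φ, hφ, hφd⟩ := hB.dense f hf δ hδ
    obtain ⟨Cn, en, hen, hnear⟩ := hR.near φ hφ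
    have hcn : Tendsto (fun ε : ℝ => |Cn| * ε ^ 2) (𝓝[>] 0) (𝓝 0) := by
      have := (((continuous_id.pow 2).const_mul |Cn|).tendsto (0 : ℝ)).mono_left
        (nhdsWithin_le_nhds (s := Set.Ioi 0))
      simpa using this
    filter_upwards [hev fun ε h1 h2 => And.intro h1 h2, nhdsWithin_le_nhds (Iic_mem_nhds hen),
      (tendsto_order.1 hcn).2 (η / 2) (half_pos hη)] with ε hε hle hsm
    obtain ⟨hε, he⟩ := hε
    rw [dist_zero_right, Real.norm_eq_abs, abs_of_nonneg (S.toGeo.n2_nonneg _)]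
    obtain ⟨hn1, -⟩ := hnear ε hε hle
    have hφm := hB.smooth_mem φ hφ
    have hT : S.Smooth2 (S.regT ε φ) := ((hsc ε hε (hsmall he).2.1.1).1 φ hφ).2
    have hTm := hB.smooth_mem _ hT
    have hd : MemLp (fun x => f x - φ x) 2 S.μ := hf.sub hφm
    have ha : S.n2 (fun x => D.Se ε x - S.regT ε φ x) ≤ 6 * δ * Cr := by
      refine Geo.n2_le_of_pairing (g := fun x => D.Se ε x - S.regT ε φ x) hB
        ((hSe ε hε he).sub hTm) (by positivity) fun α hα => ?_
      have hrm := hB.smooth_mem _ ((hsc ε hε (hsmall he).2.1.1).1 α hα).1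
      rw [Geo.pairing_sub_left (hSe ε hε he) hTm (hB.smooth_mem α hα), hrep ε hε he α hα,
        ← hadj ε hε he φ α hφ hα, ← Geo.pairing_sub_left hf hφm hrm]
      refine (S.toGeo.abs_pairing_le hd hrm).trans ?_
      rw [mul_assoc, mul_assoc]
      refine mul_le_mul_of_nonneg_left (mul_le_mul hφd (hreg ε hε he α hα) (S.toGeo.n2_nonneg _)
        hδ.le) (by norm_num)
    have hb' : S.n2 (fun x => S.regT ε φ x - f x) ≤ |Cn| * ε ^ 2 + δ := by
      have := Geo.n2_add_le (G := S.toGeo) (f := fun x => S.regT ε φ x - φ x)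
        (g := fun x => φ x - f x) (hTm.sub hφm) (hφm.sub hf)
      simp only [sub_add_sub_cancel] at this
      refine this.trans (add_le_add (hn1.trans (mul_le_mul_of_nonneg_right (le_abs_self _)
        (sq_nonneg _))) ?_)
      rw [Geo.n2_sub_comm]
      exact hφd
    have hs := Geo.n2_add_le (G := S.toGeo) (f := fun x => D.Se ε x - S.regT ε φ x)
      (g := fun x => S.regT ε φ x - f x) ((hSe ε hε he).sub hTm) (hTm.sub hf)
    simp only [sub_add_sub_cancel] at hs
    have : δ * (2 * (6 * Cr + 2)) = η := div_mul_cancel₀ η (by positivity)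
    nlinarith
  -- the invariant part is o(ε)
  have hpiP : Tendsto (fun ε => S.n2 (fun x => piP (S.J x) (D.Se ε x)) / ε) (𝓝[>] 0) (𝓝 0) := by
    refine Metric.tendsto_nhds.2 fun η hη => ?_
    set δ := η / (2 * (6 * Cm + 1)) with hδdef
    have hδ : 0 < δ := by positivity
    obtain ⟨φ, hφ, hφd⟩ := hB.dense f hf δ hδ
    obtain ⟨Cn, en, hen, hnear⟩ := hR.near φ hφ
    obtain ⟨Cn', en', hen', hnear'⟩ := hR.near _ (hsP φ hφ)
    set L := 6 * (|Cn'| + Cp * |Cn|)
    have hcn : Tendsto (fun ε : ℝ => L * ε) (𝓝[>] 0) (𝓝 0) := by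
      have := ((continuous_id.const_mul L).tendsto (0 : ℝ)).mono_left
        (nhdsWithin_le_nhds (s := Set.Ioi 0))
      simpa using this
    filter_upwards [hev fun ε h1 h2 => And.intro h1 h2, nhdsWithin_le_nhds (Iic_mem_nhds hen),
      nhdsWithin_le_nhds (Iic_mem_nhds hen'),
      (tendsto_order.1 hcn).2 (η / 2) (half_pos hη)] with ε hε hle hle' hsm
    obtain ⟨hε, he⟩ := hε
    obtain ⟨⟨-, hlc⟩, ⟨hl1, -⟩, -⟩ := hsmall he
    rw [dist_zero_right, Real.norm_eq_abs, abs_div, abs_of_nonneg (S.toGeo.n2_nonneg _),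
      abs_of_pos hε, div_lt_iff₀ hε]
    have hφm := hB.smooth_mem φ hφ
    have hd : MemLp (fun x => f x - φ x) 2 S.μ := hf.sub hφm
    have hK : S.n2 (fun x => piP (S.J x) (D.Se ε x)) ≤ (6 * δ * Cm + L * ε) * ε := by
      refine Geo.n2_le_of_pairing hB (hP _ (hSe ε hε he)) (by positivity) fun α hα => ?_
      have hαm := hB.smooth_mem α hα
      have hrP := ((hsc ε hε hl1).1 _ (hsP α hα)).1
      have hPr := hsP _ ((hsc ε hε hl1).1 α hα).1
      set cf : X → Form := fun x => piP (S.J x) (S.reg ε α x) -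
        S.reg ε (fun y => piP (S.J y) (α y)) x with hcf
      have hcfs : S.Smooth2 cf := Geo.Smooth2.sub hPr hrP
      have hcfm := hB.smooth_mem cf hcfs
      have hcfn : S.n2 cf ≤ Cm * ε * S.n2 α := by
        refine (hC0 cf hcfs).2.trans ?_
        rw [← S.toGeo.sob_zero_scale ε]
        have hc := hcomm ε hε hlc α hα
        change S.sob 0 ε cf ≤ _ at hc
        refine (mul_le_mul (le_abs_self C0) (hc.trans (mul_le_mul_of_nonneg_right
          (mul_le_mul_of_nonneg_right (le_max_left _ 0) hε.le) (S.toGeo.n2_nonneg _)))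
          (S.toGeo.sob_nonneg _ _ _) (abs_nonneg _)).trans_eq ?_
        ring
      have hz : S.pairing f (fun x => piP (S.J x) (S.reg ε α x)) = 0 := by
        rw [← hPadj]
        refine integral_eq_zero_of_ae (hPz.mono fun x hx => ?_)
        simp only [hx, q_zero_left, Pi.zero_apply]
      have e1 : S.pairing (fun x => piP (S.J x) (D.Se ε x)) α =
          -(S.pairing (fun x => f x - φ x) cf + S.pairing φ cf) := by
        rw [hPadj, hrep ε hε he _ (hsP α hα), Geo.pairing_sub_left hf hφm hcfm,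
          S.toGeo.pairing_sub_right hf (hB.smooth_mem _ hPr) (hB.smooth_mem _ hrP), hz]
        ring
      have hTP : S.Smooth2 (S.regT ε (fun x => piP (S.J x) (φ x))) :=
        ((hsc ε hε hl1).1 _ (hsP φ hφ)).2
      have hT : S.Smooth2 (S.regT ε φ) := ((hsc ε hε hl1).1 φ hφ).2
      have hTm := hB.smooth_mem _ hT
      have e2 : S.pairing φ cf =
          S.pairing (fun x => S.regT ε (fun x => piP (S.J x) (φ x)) x - piP (S.J x) (φ x)) α +
            S.pairing (fun x => φ x - S.regT ε φ x) (fun x => piP (S.J x) (α x)) := by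
        rw [S.toGeo.pairing_sub_right hφm (hB.smooth_mem _ hPr) (hB.smooth_mem _ hrP),
          ← hPadj φ (S.reg ε α), hadj ε hε he _ α (hsP φ hφ) hα,
          hadj ε hε he φ _ hφ (hsP α hα),
          Geo.pairing_sub_left (hB.smooth_mem _ hTP) (hB.smooth_mem _ (hsP φ hφ)) hαm,
          Geo.pairing_sub_left hφm hTm (hP α hαm), hPadj φ α]
        ring
      have hn2 := (hnear ε hε hle).1
      have hn2' := (hnear' ε hε hle').1
      have hαn := S.toGeo.n2_nonneg α
      have b1 : |S.pairing (fun x => f x - φ x) cf| ≤ 6 * (δ * (Cm * ε * S.n2 α)) :=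
        (S.toGeo.abs_pairing_le hd hcfm).trans (mul_le_mul_of_nonneg_left
          (mul_le_mul hφd hcfn (S.toGeo.n2_nonneg _) hδ.le) (by norm_num))
      have b2 : |S.pairing φ cf| ≤
          6 * (|Cn'| * ε ^ 2 * S.n2 α) + 6 * (|Cn| * ε ^ 2 * (Cp * S.n2 α)) := by
        rw [e2]
        refine (abs_add_le _ _).trans (add_le_add ?_ ?_)
        · exact (S.toGeo.abs_pairing_le ((hB.smooth_mem _ hTP).sub (hB.smooth_mem _ (hsP φ hφ)))
            hαm).trans (mul_le_mul_of_nonneg_left (mul_le_mul_of_nonneg_right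
              (hn2'.trans (mul_le_mul_of_nonneg_right (le_abs_self _) (sq_nonneg _))) hαn)
              (by norm_num))
        · refine (S.toGeo.abs_pairing_le (hφm.sub hTm) (hP α hαm)).trans
            (mul_le_mul_of_nonneg_left (mul_le_mul ?_ (hPn α hαm) (S.toGeo.n2_nonneg _)
              (by positivity)) (by norm_num))
          exact ((Geo.n2_sub_comm _ _).le.trans hn2).trans
            (mul_le_mul_of_nonneg_right (le_abs_self _) (sq_nonneg _))
      rw [e1, abs_neg]
      refine (abs_add_le _ _).trans ((add_le_add b1 b2).trans_eq ?_)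
      ring
    refine hK.trans_lt ?_
    have h6 : δ * (2 * (6 * Cm + 1)) = η := div_mul_cancel₀ η (by positivity)
    nlinarith
  -- the limit
  obtain ⟨hσn, hσz⟩ : 0 ≤ S.pairing f f ∧ (S.pairing f f = 0 → ∀ᵐ x ∂S.μ, f x = 0) := by
    have hnn : 0 ≤ᵐ[S.μ] fun x => q (f x) (f x) := hPz.mono fun x hx => S.q_anti_nonneg hx
    refine ⟨integral_nonneg_of_ae hnn, fun h => ?_⟩
    filter_upwards [hPz, (integral_eq_zero_iff_of_nonneg_ae hnn
      (S.toGeo.integrable_q hf hf)).1 h] with x hx hx'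
    exact S.eq_zero_of_q_anti hx hx'
  have hlim : Tendsto (fun ε => S.pairing (D.Se ε) (D.Se ε)) (𝓝[>] 0)
      (𝓝 (S.pairing f f)) := by
    refine tendsto_iff_norm_sub_tendsto_zero.2 (squeeze_zero'
      (Eventually.of_forall fun _ => norm_nonneg _)
      (g := fun ε => 6 * (max Cb 0 + S.n2 f) * S.n2 (fun x => D.Se ε x - f x)) ?_ ?_)
    · refine hev fun ε hε he => ?_
      have hm := hSe ε hε he
      have hX : S.n2 (D.Se ε) ≤ max Cb 0 :=
        ((hb ε hε (hsmall he).2.1.2).1).trans (le_max_left _ _)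
      have hd : MemLp (fun x => D.Se ε x - f x) 2 S.μ := hm.sub hf
      rw [Real.norm_eq_abs]
      have e : S.pairing (D.Se ε) (D.Se ε) - S.pairing f f =
          S.pairing (D.Se ε) (fun x => D.Se ε x - f x) +
            S.pairing f (fun x => D.Se ε x - f x) := by
        rw [S.toGeo.pairing_sub_right hm hm hf, S.toGeo.pairing_sub_right hf hm hf,
          S.toGeo.pairing_comm f (D.Se ε)]
        ring
      rw [e]
      refine (abs_add_le _ _).trans ((add_le_add ((S.toGeo.abs_pairing_le hm hd).trans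
        (mul_le_mul_of_nonneg_left (mul_le_mul_of_nonneg_right hX (S.toGeo.n2_nonneg _))
          (by norm_num))) (S.toGeo.abs_pairing_le hf hd)).trans_eq ?_)
      ring
    · simpa using hdiff.const_mul (6 * (max Cb 0 + S.n2 f))
  refine ⟨{ σ := S.pairing f f
            σ_nonneg := hσn
            σ_zero := fun h α hα => ?_
            σ_lim := hlim
            piP_small := hpiP
            Sf_bound := ⟨6 * S.n2 f, fun α hα => ?_⟩
            Sf_small := fun C δ hδ => ?_
            Se_small := fun C δ hδ => ?_ }⟩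
  · rw [← hfr α hα]
    exact integral_eq_zero_of_ae ((hσz h).mono fun x hx => by
      simp only [hx, q_zero_left, Pi.zero_apply])
  · have hm := hB.smooth_mem _ (Geo.Smooth2.piM S.J_smooth hα)
    have h1 : S.pairing f α = S.pairing f (fun x => piM (S.J x) (α x)) := by
      refine integral_congr_ae (hPz.mono fun x hx => ?_)
      change q (f x) (α x) = q (f x) (piM (S.J x) (α x))
      conv_lhs => rw [← piP_add_piM (S.J x) (α x)]
      rw [q_add_right, ← S.q_piP_left, hx, q_zero_left, zero_add]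
    rw [← hfr α hα, h1]
    exact (S.toGeo.abs_pairing_le hf hm).trans_eq (by ring)
  · obtain ⟨η, hη, h⟩ := Geo.small_pairing hf C hδ
    exact ⟨η, hη, fun w hw h2 h1 => by
      rw [← hfr w hw]; exact h w (hB.smooth_mem w hw) h2 h1⟩
  · obtain ⟨η, hη, h⟩ := Geo.small_pairing hf C (half_pos hδ)
    set c := δ / (12 * (max C 0 + 1)) with hc
    obtain ⟨e₁, he₁, hd⟩ := mem_nhdsGT_iff_exists_Ioc_subset.1
      ((tendsto_order.1 hdiff).2 c (by positivity))
    refine ⟨min η (min e₁ e0), lt_min hη (lt_min he₁ he0), fun ε hε hle w hw h2 h1 => ?_⟩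
    obtain ⟨-, hle1, hle0⟩ : ε ≤ η ∧ ε ≤ e₁ ∧ ε ≤ e0 := by
      simpa only [le_min_iff] using hle
    have hm := hSe ε hε hle0
    have hsub : MemLp (fun x => D.Se ε x - f x) 2 S.μ := hm.sub hf
    have hlt : S.n2 (fun x => D.Se ε x - f x) < c := hd ⟨hε, hle1⟩
    have hl : S.n2 w ≤ max C 0 + 1 := h2.trans ((le_max_left C 0).trans (by simp))
    have e : S.pairing (D.Se ε) w =
        S.pairing (fun x => D.Se ε x - f x) w + S.pairing f w := by
      rw [Geo.pairing_sub_left hm hf hw]; ring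
    rw [e]
    refine (abs_add_le _ _).trans ((add_le_add (S.toGeo.abs_pairing_le hsub hw)
      (h w hw h2 (h1.trans (min_le_left _ _)))).trans ?_)
    have := mul_le_mul hlt.le hl (S.toGeo.n2_nonneg _) (by positivity)
    have e2 : c * (max C 0 + 1) = δ / 12 := by rw [hc]; field_simp
    linarith

end GUData

end Vale.Agent.P204.Gen
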