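import Vale.Agent.P204.Gen.Core

/-!
P204 on a closed four-manifold: changes of coordinates at a point, and the derivative of a change
of chart at a point.
-/

open MeasureTheory Filter Topology
open scoped ContDiff

namespace Vale.Agent.P204.Gen.LC

open Vale.Agent.P204.Torus

lemma det_eq_det4 (A : V →L[ℝ] V) : det4 (A (e 0)) (A (e 1)) (A (e 2)) (A (e 3)) = A.det := by
  rw [ContinuousLinearMap.det, ← LinearMap.det_toMatrix', Matrix.det_succ_row_zero]
  simp [Fin.sum_univ_four, Matrix.det_fin_three, det4, LinearMap.toMatrix'_apply, e,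
    Fin.succAbove, Pi.single_apply]
  ring

lemma pull_eq_co (A : V →L[ℝ] V) (α : Form) : pull A α = co (fun i => A (e i)) α := by
  ext k; simp [pull, ofSkew_apply, co_apply]

lemma q_pull (A : V →L[ℝ] V) (α β : Form) : q (pull A α) (pull A β) = A.det * q α β := by
  rw [pull_eq_co, pull_eq_co, q_co, det_eq_det4]

lemma exists_equiv {A : V →L[ℝ] V} (h : A.det ≠ 0) :
    ∃ E : V ≃L[ℝ] V, (E : V →L[ℝ] V) = A :=
  ⟨A.toContinuousLinearEquivOfDetNeZero h, A.coe_toContinuousLinearEquivOfDetNeZero h⟩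

lemma pull_add (A : V →L[ℝ] V) (α β : Form) : pull A (α + β) = pull A α + pull A β :=
  form_ext fun u v => by simp [ev_pull, ev_add]

lemma pull_sub (A : V →L[ℝ] V) (α β : Form) : pull A (α - β) = pull A α - pull A β :=
  form_ext fun u v => by simp [ev_pull, ev_sub]

lemma pull_smul (A : V →L[ℝ] V) (a : ℝ) (α : Form) : pull A (a • α) = a • pull A α :=
  form_ext fun u v => by simp [ev_pull, ev_smul]

lemma pull_pull (A B : V →L[ℝ] V) (α : Form) : pull A (pull B α) = pull (B.comp A) α :=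
  form_ext fun u v => by simp [ev_pull]

lemma pull_id (α : Form) : pull (ContinuousLinearMap.id ℝ V) α = α :=
  form_ext fun u v => by simp [ev_pull]

/-- An endomorphism read through a change of coordinates. -/
noncomputable def conjA (A J : V →L[ℝ] V) : V →L[ℝ] V := A.inverse.comp (J.comp A)

variable {A J : V →L[ℝ] V}

lemma map_conjA (h : A.det ≠ 0) (u : V) : A (conjA A J u) = J (A u) := by
  obtain ⟨E, rfl⟩ := exists_equiv h
  simp [conjA, ContinuousLinearMap.inverse_equiv]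

lemma conjA_sq (h : A.det ≠ 0) (hJ : ∀ u, J (J u) = -u) (u : V) :
    conjA A J (conjA A J u) = -u := by
  obtain ⟨E, rfl⟩ := exists_equiv h
  simp [conjA, ContinuousLinearMap.inverse_equiv, hJ]

lemma piM_conjA (h : A.det ≠ 0) (α : Form) :
    piM (conjA A J) (pull A α) = pull A (piM J α) :=
  form_ext fun u v => by
    simp [piM, ev_smul, ev_sub, ev_pull, map_conjA h]

lemma piP_conjA (h : A.det ≠ 0) (α : Form) :
    piP (conjA A J) (pull A α) = pull A (piP J α) :=
  form_ext fun u v => by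
    simp [piP, ev_smul, ev_add, ev_pull, map_conjA h]

lemma ev_conjA (h : A.det ≠ 0) (α : Form) (u : V) :
    ev (pull A α) u (conjA A J u) = ev α (A u) (J (A u)) := by
  rw [ev_pull, map_conjA h]

section Atlas

variable {X : Type*} [TopologicalSpace X] [MeasurableSpace X] (G : Geo X)

lemma mem_source_tr (x : X) : x ∈ (G.φ (G.tr x)).source :=
  G.ψ_supp _ (subset_closure (G.tr_pos x).ne')

lemma mem_trans {i j : Fin G.n} {x : X} (hi : x ∈ (G.φ i).source) (hj : x ∈ (G.φ j).source) :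
    G.φ i x ∈ ((G.φ i).symm.trans (G.φ j)).source :=
  ⟨(G.φ i).map_source hi, by
    show (G.φ i).symm (G.φ i x) ∈ (G.φ j).source
    rwa [(G.φ i).left_inv hi]⟩

lemma dT_det_pos {i : Fin G.n} {x : X} (hi : x ∈ (G.φ i).source) : 0 < (G.dT i x).det :=
  G.trans_pos i (G.tr x) _ (mem_trans G hi (mem_source_tr G x))

lemma dT_self (x : X) : G.dT (G.tr x) x = ContinuousLinearMap.id ℝ V := by
  have h : (fun u => G.ch x ((G.φ (G.tr x)).symm u)) =ᶠ[𝓝 (G.φ (G.tr x) x)] id := by
    filter_upwards [(G.φ (G.tr x)).open_target.mem_nhds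
      ((G.φ (G.tr x)).map_source (mem_source_tr G x))] with u hu
    exact (G.φ (G.tr x)).right_inv hu
  rw [Geo.dT, h.fderiv_eq, fderiv_id]

lemma rep2_apply {i : Fin G.n} {x : X} (hx : x ∈ (G.φ i).source) (α : X → Form) :
    G.rep2 i α (G.φ i x) = pull (G.dT i x) (α x) := by
  rw [Geo.rep2, if_pos ((G.φ i).map_source hx), (G.φ i).left_inv hx]

lemma rep2_tr (x : X) (α : X → Form) : G.rep2 (G.tr x) α (G.φ (G.tr x) x) = α x := by
  rw [rep2_apply G (mem_source_tr G x), dT_self, pull_id]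

lemma repE_apply {i : Fin G.n} {x : X} (hx : x ∈ (G.φ i).source) (A : X → V →L[ℝ] V) :
    G.repE i A (G.φ i x) = conjA (G.dT i x) (A x) := by
  rw [Geo.repE, if_pos ((G.φ i).map_source hx), (G.φ i).left_inv hx]
  rfl

end Atlas

section Local

variable {X : Type*} [TopologicalSpace X] [MeasurableSpace X] {S : GSetup X}
  {i : Fin S.n} {x : X}

lemma repE_J (hx : x ∈ (S.φ i).source) :
    S.repE i S.J (S.φ i x) = conjA (S.dT i x) (S.J x) := repE_apply S.toGeo hx S.J

lemma tames_rep (hx : x ∈ (S.φ i).source) {u : V} (hu : u ≠ 0) :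
    0 < ev (S.rep2 i S.om (S.φ i x)) u (S.repE i S.J (S.φ i x) u) := by
  have hd := (dT_det_pos S.toGeo hx).ne'
  rw [repE_J hx, rep2_apply S.toGeo hx, ev_conjA hd]
  refine S.tames x _ fun h0 => hu ?_
  obtain ⟨E, hE⟩ := exists_equiv hd
  rw [← hE] at h0
  simpa using h0

lemma orient_rep (hx : x ∈ (S.φ i).source) :
    0 < q (S.rep2 i S.om (S.φ i x)) (S.rep2 i S.om (S.φ i x)) := by
  rw [rep2_apply S.toGeo hx, q_pull]
  exact mul_pos (dT_det_pos S.toGeo hx) (S.orient x)

lemma Om_rep (hx : x ∈ (S.φ i).source) :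
    piP (S.repE i S.J (S.φ i x)) (S.rep2 i S.om (S.φ i x)) = pull (S.dT i x) (S.Om x) := by
  rw [repE_J hx, rep2_apply S.toGeo hx, piP_conjA (dT_det_pos S.toGeo hx).ne']
  rfl

lemma piM_rep (hx : x ∈ (S.φ i).source) (α : X → Form) :
    piM (S.repE i S.J (S.φ i x)) (S.rep2 i α (S.φ i x)) =
      pull (S.dT i x) (piM (S.J x) (α x)) := by
  rw [repE_J hx, rep2_apply S.toGeo hx, piM_conjA (dT_det_pos S.toGeo hx).ne']

lemma piM_formIn (hx : x ∈ (S.φ i).source) {h : Form} (hh : S.Psd x h) :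
    piM (S.repE i S.J (S.φ i x)) (S.formIn i x h) = 0 := by
  rw [repE_J hx, Geo.formIn, piM_smul, piM_conjA (dT_det_pos S.toGeo hx).ne', hh.1]
  ext k; simp [pull, ofSkew_apply, ev_zero]

lemma nonneg_formIn (hx : x ∈ (S.φ i).source) {h : Form} (hh : S.Psd x h) (u : V) :
    0 ≤ ev (S.formIn i x h) u (S.repE i S.J (S.φ i x) u) := by
  have hd := dT_det_pos S.toGeo hx
  rw [repE_J hx, Geo.formIn, ev_smul, ev_conjA hd.ne']
  exact mul_nonneg (inv_nonneg.2 hd.le) (hh.2 _)

lemma q_formIn (hx : x ∈ (S.φ i).source) (h β : Form) :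
    q (S.formIn i x h) (pull (S.dT i x) β) = q h β := by
  rw [Geo.formIn, q_smul_left, q_pull, ← mul_assoc, inv_mul_cancel₀ (dT_det_pos S.toGeo hx).ne',
    one_mul]

end Local

end Vale.Agent.P204.Gen.LC
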