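import Vale.Agent.P204.Gen.GeoSmooth
import Vale.Agent.P204.Gen.Integral
import Vale.Agent.P204.Gen.LocalPoint
import Vale.Agent.P204.Gen.PtBounds
import Vale.Agent.P204.Torus.Separation

/-!
P204 on a closed four-manifold, separation: the compact set of normalised positive forms, read in
all the charts, and its map to pairs of a point and a form in the coordinates in use.
-/

open MeasureTheory Set Filter Topology
open scoped BigOperators ContDiff

namespace Vale.Agent.P204.Gen

open Vale.Agent.P204.Torus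

/-! ## The transpose of a pull-back -/

/-- The `q`-transpose of the pull-back by `A`. -/
noncomputable def adjPull (A : V →L[ℝ] V) (h : Form) : Form :=
  WithLp.toLp 2 fun k => q h (pull A (EuclideanSpace.single ((![3, 4, 5, 0, 1, 2] : Fin 6 → Fin 6) k) 1))

lemma continuous_adjPull : Continuous fun p : (V →L[ℝ] V) × Form => adjPull p.1 p.2 := by
  refine (PiLp.continuous_toLp 2 fun _ : Fin 6 => ℝ).comp (continuous_pi fun k => ?_)
  exact continuous_q_comp continuous_snd (continuous_pull₂.comp
    (continuous_fst.prodMk continuous_const))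

lemma q_adjPull (A : V →L[ℝ] V) (h β : Form) : q (adjPull A h) β = q h (pull A β) := by
  have hb : pull A β = ∑ k, β k • pull A (EuclideanSpace.single k 1) := by
    conv_lhs => rw [← (EuclideanSpace.basisFun (Fin 6) ℝ).sum_repr β]
    rw [← pullL_apply, map_sum]
    simp
  rw [hb]
  simp [q, adjPull, Fin.sum_univ_six]
  ring

lemma eq_of_q_eq {a b : Form} (h : ∀ β, q a β = q b β) : a = b := by
  ext k
  have := h (EuclideanSpace.single ((![3, 4, 5, 0, 1, 2] : Fin 6 → Fin 6) k) 1)
  fin_cases k <;> simpa [q] using this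

lemma adjPull_eq {A : V →L[ℝ] V} (hA : A.det ≠ 0) (h : Form) :
    adjPull A h = A.det • pull A.inverse h := by
  refine eq_of_q_eq fun β => ?_
  rw [q_adjPull, q_smul_left]
  conv_lhs => rw [← pull_inverse_pull hA h]
  exact q_pull _ _ _

/-! ## Normalised positive forms of a pair -/

/-- Normalised positive forms `z.2` for the structure `z.1.1` and the invariant form `z.1.2`. -/
def Good : Set (((V →L[ℝ] V) × Form) × Form) :=
  {z | piM z.1.1 z.2 = 0 ∧ (∀ u, 0 ≤ ev z.2 u (z.1.1 u)) ∧ q z.2 z.1.2 = 1}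

lemma continuous_piM_fst :
    Continuous fun z : ((V →L[ℝ] V) × Form) × Form => piM z.1.1 z.2 :=
  (continuous_snd.sub (continuous_pull₂.comp
    ((continuous_fst.comp continuous_fst).prodMk continuous_snd))).const_smul (1 / 2 : ℝ)

lemma isClosed_good : IsClosed Good := by
  refine (isClosed_eq continuous_piM_fst continuous_const).inter
    (IsClosed.inter ?_ (isClosed_eq (continuous_q_comp continuous_snd
      (continuous_snd.comp continuous_fst)) continuous_const))
  show IsClosed {z : ((V →L[ℝ] V) × Form) × Form | ∀ u, 0 ≤ ev z.2 u (z.1.1 u)}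
  simp only [Set.ofPred_forall]
  exact isClosed_iInter fun u => isClosed_le continuous_const (continuous_ev_comp continuous_snd
    continuous_const ((continuous_fst.comp continuous_fst).clm_apply continuous_const))

/-- Over a compact family of tamed pairs the normalised positive forms are bounded. -/
lemma exists_good_bound {K : Set ((V →L[ℝ] V) × Form)} (hK : IsCompact K)
    (hsub : K ⊆ tamedPairs) :
    ∃ R : ℝ, ∀ p ∈ K, ∀ h, ((p.1, piP p.1 p.2), h) ∈ Good → ‖h‖ ≤ R := by
  have hC : IsClosed {z : ((V →L[ℝ] V) × Form) × Form |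
      piM z.1.1 z.2 = 0 ∧ ∀ u, 0 ≤ ev z.2 u (z.1.1 u)} := by
    refine (isClosed_eq continuous_piM_fst continuous_const).inter ?_
    show IsClosed {z : ((V →L[ℝ] V) × Form) × Form | ∀ u, 0 ≤ ev z.2 u (z.1.1 u)}
    simp only [Set.ofPred_forall]
    exact isClosed_iInter fun u => isClosed_le continuous_const (continuous_ev_comp continuous_snd
      continuous_const ((continuous_fst.comp continuous_fst).clm_apply continuous_const))
  have hQ : IsCompact ((K ×ˢ Metric.sphere (0 : Form) 1) ∩ {z : ((V →L[ℝ] V) × Form) × Form |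
      piM z.1.1 z.2 = 0 ∧ ∀ u, 0 ≤ ev z.2 u (z.1.1 u)}) :=
    (hK.prod (isCompact_sphere 0 1)).inter_right hC
  obtain ⟨c, hc, hle⟩ := hQ.exists_forall_le'
    (f := fun z : ((V →L[ℝ] V) × Form) × Form => q z.2 (piP z.1.1 z.1.2))
    (continuous_q_comp continuous_snd (continuous_piP_pair'.comp
      (continuous_fst.prodMk (continuous_snd.comp continuous_fst)))).continuousOn
    (a := 0) fun z hz => by
      have hne : z.2 ≠ 0 := fun h0 => by
        have := hz.1.2
        simp [h0] at this
      have hps : (pairSetup (hsub hz.1.1)).Psd 0 z.2 := hz.2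
      exact lt_of_le_of_ne ((pairSetup (hsub hz.1.1)).q_Om_nonneg hps) fun h0 =>
        hne ((pairSetup (hsub hz.1.1)).psd_eq_zero hps h0.symm)
  refine ⟨1 / c, fun p hp h hh => ?_⟩
  have h0 : h ≠ 0 := fun h0 => by
    have := hh.2.2
    simp [h0, q_zero_left] at this
  have hn : 0 < ‖h‖ := norm_pos_iff.2 h0
  have hmem : (p, ‖h‖⁻¹ • h) ∈ (K ×ˢ Metric.sphere (0 : Form) 1) ∩
      {z : ((V →L[ℝ] V) × Form) × Form | piM z.1.1 z.2 = 0 ∧ ∀ u, 0 ≤ ev z.2 u (z.1.1 u)} := by
    refine ⟨⟨hp, by simp [norm_smul, hn.ne']⟩, ?_, fun u => ?_⟩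
    · show piM p.1 (‖h‖⁻¹ • h) = 0
      rw [piM_smul, show piM p.1 h = 0 from hh.1, smul_zero]
    · show 0 ≤ ev (‖h‖⁻¹ • h) u (p.1 u)
      rw [ev_smul]
      exact mul_nonneg (inv_nonneg.2 hn.le) (hh.2.1 u)
  have h1 := hle _ hmem
  have h2 : q h (piP p.1 p.2) = 1 := hh.2.2
  simp only [q_smul_left, h2, mul_one] at h1
  rw [le_div_iff₀ hc, mul_comm, ← le_div_iff₀ hn, one_div]
  exact h1

namespace GSetup

variable {X : Type*} [TopologicalSpace X] [MeasurableSpace X] (S : GSetup X)

/-- A normalised positive form at a point. -/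
def Unit1 (x : X) (h : Form) : Prop := S.Psd x h ∧ q h (S.Om x) = 1

lemma unit1_iff (x : X) (h : Form) : S.Unit1 x h ↔ ((S.J x, S.Om x), h) ∈ Good :=
  ⟨fun ⟨⟨a, b⟩, c⟩ => ⟨a, b, c⟩, fun ⟨a, b, c⟩ => ⟨⟨a, b⟩, c⟩⟩

/-- The normalised positive forms, read in all the charts. -/
def Base : Set (Fin S.n × V × Form) :=
  {z | z.2.1 ∈ S.φ z.1 '' tsupport (S.ψ z.1) ∧
    ((S.repE z.1 S.J z.2.1, piP (S.repE z.1 S.J z.2.1) (S.rep2 z.1 S.om z.2.1)), z.2.2) ∈ Good}

lemma base_target {z : Fin S.n × V × Form} (hz : z ∈ S.Base) : z.2.1 ∈ (S.φ z.1).target := by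
  obtain ⟨x, hx, h⟩ := hz.1
  exact h ▸ (S.φ z.1).map_source (S.ψ_supp z.1 hx)

lemma rep_tamed_of_target {i : Fin S.n} {u : V} (hu : u ∈ (S.φ i).target) :
    (S.repE i S.J u, S.rep2 i S.om u) ∈ tamedPairs := by
  refine S.rep_tamed hu ?_
  have h := LC.orient_rep (S := S) ((S.φ i).map_target hu)
  rw [(S.φ i).right_inv hu] at h
  exact h.le

lemma isCompact_base [CompactSpace X] : IsCompact S.Base := by
  have hone : ∀ i, IsCompact {p : V × Form | (i, p) ∈ S.Base} := by
    intro i
    set K := S.φ i '' tsupport (S.ψ i)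
    have hK : IsCompact K :=
      (isClosed_tsupport _).isCompact.image_of_continuousOn
        ((S.φ i).continuousOn.mono (S.ψ_supp i))
    have hKt : K ⊆ (S.φ i).target := image_subset_iff.2 fun x hx =>
      (S.φ i).map_source (S.ψ_supp i hx)
    have hcont : ContinuousOn (fun u => (S.repE i S.J u, S.rep2 i S.om u)) K :=
      (((S.J_smooth i).continuousOn).prodMk ((S.om_smooth i).continuousOn)).mono hKt
    obtain ⟨R, hR⟩ := exists_good_bound (hK.image_of_continuousOn hcont) (by
      rintro _ ⟨u, hu, rfl⟩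
      exact S.rep_tamed_of_target (hKt hu))
    have hg : ContinuousOn (fun p : V × Form => ((S.repE i S.J p.1,
        piP (S.repE i S.J p.1) (S.rep2 i S.om p.1)), p.2)) (K ×ˢ Metric.closedBall (0 : Form) R) := by
      have h1 := hcont.comp continuousOn_fst (t := K)
        (s := K ×ˢ Metric.closedBall (0 : Form) R) fun p hp => hp.1
      have h2 := continuous_piP_pair'.comp_continuousOn (h1.prodMk (continuous_snd.comp_continuousOn h1))
      exact ((continuous_fst.comp_continuousOn h1).prodMk h2).prodMk continuousOn_snd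
    refine (hK.prod (isCompact_closedBall (0 : Form) R)).of_isClosed_subset ?_
      fun p hp => ⟨hp.1, mem_closedBall_zero_iff.2 (hR _ (mem_image_of_mem _ hp.1) _ hp.2)⟩
    have he : {p : V × Form | (i, p) ∈ S.Base} = (K ×ˢ Metric.closedBall (0 : Form) R) ∩
        (fun p : V × Form => ((S.repE i S.J p.1,
          piP (S.repE i S.J p.1) (S.rep2 i S.om p.1)), p.2)) ⁻¹' Good := by
      ext p
      exact ⟨fun hp => ⟨⟨hp.1, mem_closedBall_zero_iff.2
        (hR _ (mem_image_of_mem _ hp.1) _ hp.2)⟩, hp.2⟩, fun hp => ⟨hp.1.1, hp.2⟩⟩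
    rw [he]
    exact hg.preimage_isClosed_of_isClosed
      (hK.prod (isCompact_closedBall (0 : Form) R)).isClosed isClosed_good
  have he : S.Base = ⋃ i, (Prod.mk i) '' {p : V × Form | (i, p) ∈ S.Base} := by
    ext ⟨i, p⟩
    refine ⟨fun h => mem_iUnion.2 ⟨i, p, h, rfl⟩, fun h => ?_⟩
    obtain ⟨j, w, hw, hj⟩ := mem_iUnion.1 h
    exact hj ▸ hw
  rw [he]
  exact isCompact_iUnion fun i => (hone i).image (continuous_const.prodMk continuous_id)

lemma mem_base_of_unit1 {x : X} {h : Form} (hh : S.Unit1 x h) :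
    (S.tr x, S.φ (S.tr x) x, h) ∈ S.Base := by
  refine ⟨⟨x, S.tr_mem_tsupport x, rfl⟩, ?_⟩
  have h1 := S.rep_tr x
  simp only [Prod.mk.injEq] at h1
  simp only [h1.1, h1.2]
  exact (S.unit1_iff x h).1 hh

lemma exists_unit1_bound [CompactSpace X] : ∃ R : ℝ, ∀ x h, S.Unit1 x h → ‖h‖ ≤ R := by
  obtain ⟨R, hR⟩ := S.isCompact_base.exists_bound_of_continuousOn
    (f := fun z : Fin S.n × V × Form => z.2.2) (continuous_snd.comp continuous_snd).continuousOn
  exact ⟨R, fun x h hh => hR (S.tr x, S.φ (S.tr x) x, h) (S.mem_base_of_unit1 hh)⟩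

lemma continuousOn_base {F : Type*} [TopologicalSpace F] {g : Fin S.n → V → Form → F}
    (hg : ∀ i, ContinuousOn (fun p : V × Form => g i p.1 p.2) ((S.φ i).target ×ˢ univ)) :
    ContinuousOn (fun z => g z.1 z.2.1 z.2.2) S.Base := by
  rintro ⟨i, p⟩ hz
  have h1 : ContinuousWithinAt (fun z : Fin S.n × V × Form => g i z.2.1 z.2.2) S.Base (i, p) := by
    have h := ((hg i).continuousAt (((S.φ i).open_target.prod isOpen_univ).mem_nhds
      ⟨S.base_target hz, mem_univ _⟩))
    exact (h.comp (x := (i, p)) continuous_snd.continuousAt).continuousWithinAt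
  refine h1.congr_of_eventuallyEq ?_ rfl
  have hev : ∀ᶠ z in 𝓝[S.Base] (i, p), z.1 = i :=
    nhdsWithin_le_nhds (continuous_fst.continuousAt.eventually_mem (IsOpen.mem_nhds
      (isOpen_discrete ({i} : Set (Fin S.n))) (mem_singleton i)))
  filter_upwards [hev] with z hz'
  rw [hz']

/-- The point of an element of the base. -/
noncomputable def basePt (z : Fin S.n × V × Form) : X := (S.φ z.1).symm z.2.1

/-- The form of an element of the base, in the coordinates in use. -/
noncomputable def baseForm (z : Fin S.n × V × Form) : Form :=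
  adjPull (S.dT z.1 (S.basePt z)) z.2.2

lemma continuousOn_basePt : ContinuousOn S.basePt S.Base :=
  S.continuousOn_base (g := fun i u _ => (S.φ i).symm u) fun i =>
    (S.φ i).continuousOn_symm.comp continuousOn_fst fun _ hp => hp.1

lemma q_baseForm (z : Fin S.n × V × Form) (α : X → Form) (hz : z ∈ S.Base) :
    q (S.baseForm z) (α (S.basePt z)) = q z.2.2 (S.rep2 z.1 α z.2.1) := by
  rw [baseForm, q_adjPull, basePt, Geo.rep2, if_pos (S.base_target hz)]

lemma unit1_base {z : Fin S.n × V × Form} (hz : z ∈ S.Base) :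
    S.Unit1 (S.basePt z) (S.baseForm z) := by
  have ht := S.base_target hz
  set x := S.basePt z with hxdef
  have hx : x ∈ (S.φ z.1).source := (S.φ z.1).map_target ht
  have hd := S.dT_det_pos hx
  set A := S.dT z.1 x with hA
  have hu : S.φ z.1 x = z.2.1 := (S.φ z.1).right_inv ht
  obtain ⟨h1, h2, h3⟩ := hz.2
  have hJ : S.repE z.1 S.J z.2.1 = A.inverse.comp ((S.J x).comp A) := Geo.repE_apply S.J ht
  have hAA : ∀ v, A (A.inverse v) = v := fun v => by
    have := congrArg (fun L : V →L[ℝ] V => L v) (self_comp_inverse hd.ne')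
    simpa using this
  have hb : S.baseForm z = A.det • pull A.inverse z.2.2 := adjPull_eq hd.ne' _
  refine ⟨⟨?_, fun u => ?_⟩, ?_⟩
  · rw [hb, piM_smul]
    have h := piM_conj hd.ne' (S.J x) (pull A.inverse z.2.2)
    rw [pull_inverse_pull hd.ne', ← hJ, show piM (S.repE z.1 S.J z.2.1) z.2.2 = 0 from h1] at h
    rw [← pull_pull_inverse hd.ne' (piM (S.J x) (pull A.inverse z.2.2)), ← h, pull_zero, smul_zero]
  · rw [hb, ev_smul, ev_pull]
    refine mul_nonneg hd.le (le_of_le_of_eq (h2 (A.inverse u)) ?_)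
    simp only [hJ, ContinuousLinearMap.comp_apply, hAA]
  · rw [S.q_baseForm z S.Om hz, ← h3]
    exact congrArg (q z.2.2) (Geo.rep2_piP S.J S.om ht)

variable [BorelSpace X]

omit [BorelSpace X] in
lemma measurable_dT_base {Z : Type*} [MeasurableSpace Z] {fi : Z → Fin S.n} {fu : Z → V}
    {fx : Z → X} (hi : Measurable fi) (hu : Measurable fu) (hx : Measurable fx) :
    Measurable fun z => fderiv ℝ (S.tc (fi z) (S.tr (fx z))) (fu z) := by
  have h : Measurable fun p : (Fin S.n × Fin S.n) × V => fderiv ℝ (S.tc p.1.1 p.1.2) p.2 :=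
    measurable_from_prod_countable_right fun k => measurable_fderiv ℝ (S.tc k.1 k.2)
  exact h.comp ((hi.prodMk (S.tr_meas.comp hx)).prodMk hu)

lemma measurable_base_map :
    Measurable fun z : S.Base => ((S.basePt z.1, S.baseForm z.1) : X × Form) := by
  have hx : Measurable fun z : S.Base => S.basePt z.1 :=
    (continuousOn_iff_continuous_domRestrict.1 S.continuousOn_basePt).measurable
  have hd : Measurable fun z : S.Base => S.dT z.1.1 (S.basePt z.1) := by
    have h := S.measurable_dT_base (fi := fun z : S.Base => z.1.1)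
      (fu := fun z : S.Base => z.1.2.1) (measurable_fst.comp measurable_subtype_coe)
      ((measurable_fst.comp measurable_snd).comp measurable_subtype_coe) hx
    refine (funext fun z => ?_ : (fun z : S.Base => S.dT z.1.1 (S.basePt z.1)) = _) ▸ h
    show fderiv ℝ _ (S.φ z.1.1 (S.basePt z.1)) = _
    rw [basePt, (S.φ z.1.1).right_inv (S.base_target z.2)]
    rfl
  exact hx.prodMk (continuous_adjPull.measurable.comp
    (hd.prodMk ((measurable_snd.comp measurable_snd).comp measurable_subtype_coe)))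

/-- The almost complex structure is measurable. -/
lemma measurable_J : Measurable S.J := by
  classical
  have hg : ∀ i, Measurable ((S.φ i).source.piecewise
      (fun x => S.repE i S.J (S.φ i x)) fun _ => (0 : V →L[ℝ] V)) := fun i =>
    ((S.J_smooth i).continuousOn.comp (S.φ i).continuousOn (S.φ i).mapsTo).measurable_piecewise
      continuousOn_const (S.φ i).open_source.measurableSet
  have h : Measurable fun p : Fin S.n × X => (S.φ p.1).source.piecewise
      (fun x => S.repE p.1 S.J (S.φ p.1 x)) (fun _ => (0 : V →L[ℝ] V)) p.2 :=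
    measurable_from_prod_countable_right hg
  have e : S.J = fun x => (S.φ (S.tr x)).source.piecewise
      (fun y => S.repE (S.tr x) S.J (S.φ (S.tr x) y)) (fun _ => (0 : V →L[ℝ] V)) x := funext fun x => by
    rw [piecewise_eq_of_mem _ _ _ (S.mem_ch x)]
    exact (congrArg Prod.fst (S.rep_tr x)).symm
  rw [e]
  exact h.comp (S.tr_meas.prodMk measurable_id)

lemma measurableSet_unit1 : MeasurableSet {p : X × Form | S.Unit1 p.1 p.2} := by
  have he : {p : X × Form | S.Unit1 p.1 p.2} =
      (fun p : X × Form => ((S.J p.1, S.Om p.1), p.2)) ⁻¹' Good := by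
    ext p; exact S.unit1_iff p.1 p.2
  rw [he]
  exact (((S.measurable_J.comp measurable_fst).prodMk
    ((Geo.measurable_smooth2 S.smooth_Om).comp measurable_fst)).prodMk measurable_snd)
    isClosed_good.measurableSet

end GSetup

end Vale.Agent.P204.Gen
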