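import Vale.Agent.P204.Gen.GSolvePoint
import Vale.Agent.P204.Gen.GeoSmooth

/-!
P204, general four-manifold: smooth fields of operators on two-forms, and the fields of projections
needed by the operator `G`.
-/

open MeasureTheory
open scoped BigOperators ContDiff

namespace Vale.Agent.P204.Gen

open Vale.Agent.P204.Torus

/-- The self-dual projection, as a continuous linear map. -/
noncomputable def sdCLM (J : V →L[ℝ] V) (O : Form) : Form →L[ℝ] Form :=
  LinearMap.toContinuousLinearMap
    { toFun := GS.sdOf J O, map_add' := GS.sdOf_add J O, map_smul' := GS.sdOf_smul J O }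

namespace GS

variable {X : Type*} [TopologicalSpace X] [MeasurableSpace X] {G : Geo X}

lemma mem_core (x : X) : x ∈ tsupport (G.ψ (G.tr x)) := subset_tsupport _ (G.tr_pos x).ne'

/-- An operator field at a point is its representative in the chart used there. -/
lemma apply_eq_repOp (F : X → Form →L[ℝ] Form) (x : X) (β : Form) :
    F x β = G.repOp (G.tr x) F (G.φ (G.tr x) x) β := by
  have hd := G.dT_det_ne (G.mem_ch x)
  simp only [Geo.repOp, (G.φ _).left_inv (G.mem_ch x)]
  have h : pull (G.dT (G.tr x) x).inverse β = β := by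
    conv_lhs => rw [← pull_id β, ← G.dT_tr x, pull_pull_inverse hd]
  rw [h, G.dT_tr, pull_id]

lemma smoothOp_id : G.SmoothOp fun _ => ContinuousLinearMap.id ℝ Form := fun i β =>
  (contDiffOn_const (c := β)).congr fun _ hu =>
    pull_inverse_pull (G.dT_det_ne ((G.φ i).map_target hu)) β

lemma smoothOp_sub {F F' : X → Form →L[ℝ] Form} (hF : G.SmoothOp F) (hF' : G.SmoothOp F') :
    G.SmoothOp fun x => F x - F' x := fun i β =>
  ((hF i β).sub (hF' i β)).congr fun u _ => by simp [Geo.repOp, pull_sub]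

lemma smoothOp_smul {F : X → Form →L[ℝ] Form} (hF : G.SmoothOp F) (t : ℝ) :
    G.SmoothOp fun x => t • F x := fun i β =>
  ((hF i β).const_smul t).congr fun u _ => by simp [Geo.repOp, pull_smul]

section Compact

variable [CompactSpace X]

/-- The part of the chart `i` which carries its function of the partition. -/
lemma isCompact_core (G : Geo X) (i : Fin G.n) : IsCompact (G.φ i '' tsupport (G.ψ i)) :=
  (isClosed_tsupport _).isCompact.image_of_continuousOn ((G.φ i).continuousOn.mono (G.ψ_supp i))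

omit [CompactSpace X] in
lemma core_subset (G : Geo X) (i : Fin G.n) : G.φ i '' tsupport (G.ψ i) ⊆ (G.φ i).target := by
  rintro _ ⟨x, hx, rfl⟩
  exact (G.φ i).map_source (G.ψ_supp i hx)

/-- A smooth field of operators is bounded. -/
theorem exists_opBound {F : X → Form →L[ℝ] Form} (hF : G.SmoothOp F) :
    ∃ C, 0 ≤ C ∧ ∀ x, ‖F x‖ ≤ C := by
  have hb : ∀ (i : Fin G.n) (k : Fin 6), ∃ C, ∀ u ∈ G.φ i '' tsupport (G.ψ i),
      ‖G.repOp i F u (EuclideanSpace.single k 1)‖ ≤ C := fun i k =>
    (isCompact_core G i).exists_bound_of_continuousOn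
      ((hF i (EuclideanSpace.single k (1 : ℝ))).continuousOn.mono (core_subset G i))
  choose C hC using hb
  refine ⟨∑ i, ∑ k, |C i k|, by positivity, fun x => ?_⟩
  refine ContinuousLinearMap.opNorm_le_bound _ (by positivity) fun a => ?_
  calc ‖F x a‖ ≤ ∑ k, |C (G.tr x) k| * ‖a‖ := by
        rw [apply_eq_repOp (G := G), Geo.repOp_sum]
        refine (norm_sum_le _ _).trans (Finset.sum_le_sum fun k _ => ?_)
        rw [norm_smul, Real.norm_eq_abs, mul_comm]
        gcongr
        · exact (hC _ k _ ⟨x, mem_core x, rfl⟩).trans (le_abs_self _)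
        · exact abs_coord_le a k
    _ ≤ (∑ i, ∑ k, |C i k|) * ‖a‖ := by
        rw [← Finset.sum_mul]
        gcongr
        exact Finset.single_le_sum (fun i _ => Finset.sum_nonneg fun k _ => abs_nonneg (C i k))
          (Finset.mem_univ (G.tr x))

end Compact

section Measurable

variable [OpensMeasurableSpace X]

lemma measurable_op {F : X → Form →L[ℝ] Form} (hF : G.SmoothOp F) (β : Form) :
    Measurable fun x => F x β := by
  classical
  set Φ : Fin G.n → X → Form := fun i =>
    (G.φ i).source.piecewise (fun x => G.repOp i F (G.φ i x) β) 0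
  have hΦ : ∀ i, Measurable (Φ i) := fun i =>
    ((hF i β).continuousOn.comp (G.φ i).continuousOn fun x hx => (G.φ i).map_source hx)
      |>.measurable_piecewise continuousOn_const (G.φ i).open_source.measurableSet
  have h : (fun x => F x β) = fun x => Φ (G.tr x) x := funext fun x => by
    simp only [Φ, Set.piecewise, G.mem_ch x, if_true]
    exact apply_eq_repOp F x β
  rw [h]
  exact (measurable_from_prod_countable_left (f := fun p : X × Fin G.n => Φ p.2 p.1) hΦ).comp
    (measurable_id.prodMk G.tr_meas)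

lemma aemeasurable_op {F : X → Form →L[ℝ] Form} (hF : G.SmoothOp F) {f : X → Form}
    {m : Measure X} (hf : AEStronglyMeasurable f m) :
    AEStronglyMeasurable (fun x => F x (f x)) m := by
  have h : (fun x => F x (f x)) = fun x => ∑ k, f x k • F x (EuclideanSpace.single k 1) := funext fun x => by
    conv_lhs => rw [← (EuclideanSpace.basisFun (Fin 6) ℝ).sum_repr (f x)]
    simp [map_sum]
  rw [h]
  exact Finset.aestronglyMeasurable_fun_sum _ fun k _ =>
    ((PiLp.continuous_apply 2 _ k).comp_aestronglyMeasurable hf).smul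
      (measurable_op hF _).aestronglyMeasurable

end Measurable

end GS

namespace GSetup

variable {X : Type*} [TopologicalSpace X] [MeasurableSpace X] (S : GSetup X)

/-- The field of anti-invariant projections. -/
noncomputable def piMX (x : X) : Form →L[ℝ] Form := piML (S.J x)

/-- The field of self-dual projections. -/
noncomputable def sdX (x : X) : Form →L[ℝ] Form := sdCLM (S.J x) (S.Om x)

/-- The field of anti-self-dual projections. -/
noncomputable def asdX (x : X) : Form →L[ℝ] Form := ContinuousLinearMap.id ℝ Form - S.sdX x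

/-- The star. -/
noncomputable def swX (x : X) : Form →L[ℝ] Form :=
  (2 : ℝ) • S.sdX x - ContinuousLinearMap.id ℝ Form

lemma piMX_apply (x : X) (a : Form) : S.piMX x a = piM (S.J x) a := piML_apply _ _

lemma sdX_apply (x : X) (a : Form) : S.sdX x a = GS.sdOf (S.J x) (S.Om x) a := rfl

lemma swX_apply (x : X) (a : Form) : S.swX x a = (2 : ℝ) • S.sdX x a - a := rfl

lemma asdX_apply (x : X) (a : Form) : S.asdX x a = a - S.sdX x a := rfl

lemma q_swX (x : X) (a b : Form) : q (S.swX x a) b = 2 * q (S.sdX x a) b - q a b := by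
  rw [swX_apply, q_sub_left, q_smul_left]

lemma q_sdX_symm (x : X) (a b : Form) : q (S.sdX x a) b = q a (S.sdX x b) :=
  GS.q_sdOf_symm (S.pt x) 0 a b

lemma q_swX_symm (x : X) (a b : Form) : q (S.swX x a) b = q a (S.swX x b) := by
  rw [q_swX, swX_apply, q_sub_right, q_smul_right, S.q_sdX_symm]

lemma sdX_idem (x : X) (a : Form) : S.sdX x (S.sdX x a) = S.sdX x a := GS.sdOf_idem (S.pt x) 0 a

lemma swX_swX (x : X) (a : Form) : S.swX x (S.swX x a) = a := by
  simp only [swX_apply, map_sub, map_smul, sdX_idem]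
  module

lemma piM_swX (x : X) (a : Form) : piM (S.J x) (S.swX x a) = piM (S.J x) a := by
  rw [swX_apply, piM_sub, piM_smul]
  erw [GS.piM_sdOf (S.pt x) 0 a]
  change (2 : ℝ) • piM (S.J x) a - _ = _
  module

lemma swX_anti {x : X} {a : Form} (ha : piP (S.J x) a = 0) : S.swX x a = a := by
  rw [swX_apply, sdX_apply]
  erw [GS.sdOf_anti (S.pt x) 0 ha]
  module

lemma two_q_piM_le {x : X} (a : Form) :
    2 * q (piM (S.J x) a) (piM (S.J x) a) ≤ 2 * q (S.sdX x a) a :=
  GS.two_q_piM_le (S.pt x) 0 a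

lemma q_piM_left (x : X) (a b : Form) : q (piM (S.J x) a) b = q a (piM (S.J x) b) :=
  GS.q_piM_left (S.pt x) 0 a b

/-- The structure read in the chart `i` is tamed. -/
lemma chart_setup {i : Fin S.n} {u : V} (hu : u ∈ (S.φ i).target) :
    ∃ T : Setup, T.J 0 = S.repE i S.J u ∧ T.om 0 = S.rep2 i S.om u := by
  set x := (S.φ i).symm u with hx
  set D := S.dT i x with hD
  have hdet : 0 < D.det := S.dT_det_pos ((S.φ i).map_target hu)
  have h1 := congrArg (fun A : V →L[ℝ] V => fun v => A v) (self_comp_inverse hdet.ne')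
  have h2 := congrArg (fun A : V →L[ℝ] V => fun v => A v) (inverse_comp_self hdet.ne')
  simp only [ContinuousLinearMap.comp_apply, ContinuousLinearMap.id_apply] at h1 h2
  refine ⟨{
    J := fun _ => D.inverse.comp ((S.J x).comp D)
    om := fun _ => pull D (S.om x)
    J_smooth := ⟨contDiff_const, fun _ _ => rfl⟩
    J_sq := fun _ v => ?_
    om_smooth := ⟨contDiff_const, fun _ _ => rfl⟩
    tames := fun _ v hv => ?_
    orient := fun _ => ?_ }, (Geo.repE_apply S.J hu).symm, (if_pos hu).symm⟩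
  · simp only [ContinuousLinearMap.comp_apply, congrFun h1, S.J_sq, map_neg, congrFun h2]
  · simp only [ev_pull, ContinuousLinearMap.comp_apply, congrFun h1]
    refine S.tames x _ fun h0 => hv ?_
    rw [← congrFun h2 v, h0, map_zero]
  · rw [q_pull]; exact mul_pos hdet (S.orient x)

lemma contDiffOn_chart_Om (i : Fin S.n) :
    ContDiffOn ℝ ∞ (fun u => piP (S.repE i S.J u) (S.rep2 i S.om u)) (S.φ i).target :=
  GS.contDiffOn_piP (S.J_smooth i) (S.om_smooth i)

lemma repOp_sdX {i : Fin S.n} {u : V} (hu : u ∈ (S.φ i).target) (β : Form) :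
    S.repOp i S.sdX u β =
      GS.sdOf (S.repE i S.J u) (piP (S.repE i S.J u) (S.rep2 i S.om u)) β := by
  have hd := S.dT_det_ne ((S.φ i).map_target hu)
  rw [Geo.repE_apply S.J hu, show S.rep2 i S.om u = _ from if_pos hu, piP_conj hd]
  conv_rhs => arg 3; rw [← pull_inverse_pull hd β]
  rw [GS.sdOf_conj hd]
  rfl

lemma smoothOp_sdX : S.SmoothOp S.sdX := fun i β => by
  refine (GS.contDiffOn_sdOf (S.J_smooth i) (S.contDiffOn_chart_Om i) contDiffOn_const
    fun u hu => ?_).congr fun u hu => S.repOp_sdX hu β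
  obtain ⟨T, hJ, hom⟩ := S.chart_setup hu
  have h : T.Om 0 = piP (S.repE i S.J u) (S.rep2 i S.om u) := by rw [Setup.Om, hJ, hom]
  rw [← h]
  exact (GS.q_Om_Om_pos T 0).ne'

lemma smoothOp_piMX : S.SmoothOp S.piMX := Geo.SmoothE.piML S.J_smooth

lemma smoothOp_swX : S.SmoothOp S.swX :=
  GS.smoothOp_sub (GS.smoothOp_smul S.smoothOp_sdX 2) GS.smoothOp_id

lemma smoothOp_asdX : S.SmoothOp S.asdX := GS.smoothOp_sub GS.smoothOp_id S.smoothOp_sdX

variable [CompactSpace X]

omit [CompactSpace X] in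
lemma continuousOn_q₂ {Y : Type*} [TopologicalSpace Y] {s : Set Y} {f g : Y → Form}
    (hf : ContinuousOn f s) (hg : ContinuousOn g s) : ContinuousOn (fun y => q (f y) (g y)) s := by
  have h1 := fun k => (PiLp.continuous_apply 2 (fun _ : Fin 6 => ℝ) k).comp_continuousOn hf
  have h2 := fun k => (PiLp.continuous_apply 2 (fun _ : Fin 6 => ℝ) k).comp_continuousOn hg
  unfold q
  exact (((((h1 0).mul (h2 3)).add ((h1 1).mul (h2 4))).add ((h1 2).mul (h2 5))).add
    ((h1 3).mul (h2 0)) |>.add ((h1 4).mul (h2 1))).add ((h1 5).mul (h2 2))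

omit [CompactSpace X] in
lemma continuousOn_q_repOp (i : Fin S.n) {F : X → Form →L[ℝ] Form} (hF : S.SmoothOp F) :
    ContinuousOn (fun p : V × Form => q (S.repOp i F p.1 p.2) p.2)
      ((S.φ i).target ×ˢ Set.univ) := by
  have h1 : ∀ k : Fin 6, ContinuousOn (fun p : V × Form => p.2 k • S.repOp i F p.1 (EuclideanSpace.single k 1))
      ((S.φ i).target ×ˢ Set.univ) := fun k =>
    ((PiLp.continuous_apply 2 (fun _ : Fin 6 => ℝ) k).comp continuous_snd).continuousOn.smul
      ((hF i (EuclideanSpace.single k (1 : ℝ))).continuousOn.comp continuous_fst.continuousOn fun p hp => hp.1)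
  refine continuousOn_q₂ ?_ continuous_snd.continuousOn
  exact (continuousOn_finsetSum Finset.univ fun k _ => h1 k).congr fun p _ =>
    Geo.repOp_sum (G := S.toGeo) F i p.1 p.2

omit [CompactSpace X] in
lemma repOp_swX_pos {i : Fin S.n} {u : V} (hu : u ∈ (S.φ i).target) {a : Form} (ha : a ≠ 0) :
    0 < q (S.repOp i S.swX u a) a := by
  obtain ⟨T, hJ, hom⟩ := S.chart_setup hu
  have h := GS.q_swap_pos T 0 a ha
  rw [Setup.Om, hJ, hom, ← S.repOp_sdX hu] at h
  have he : S.repOp i S.swX u a = (2 : ℝ) • S.repOp i S.sdX u a - a := by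
    simp only [Geo.repOp, swX_apply, pull_sub, pull_smul,
      pull_inverse_pull (S.dT_det_ne ((S.φ i).map_target hu))]
  rw [he, q_sub_left, q_smul_left]
  exact h

/-- The star gives a uniformly positive form. -/
theorem exists_swX_lower :
    ∃ c, 0 < c ∧ ∀ x a, c * ‖a‖ ^ 2 ≤ q (S.swX x a) a := by
  have hpos : ∀ i : Fin S.n, ∃ c, 0 < c ∧ ∀ u ∈ S.φ i '' tsupport (S.ψ i),
      ∀ a : Form, ‖a‖ = 1 → c ≤ q (S.repOp i S.swX u a) a := by
    intro i
    set K := (S.φ i '' tsupport (S.ψ i)) ×ˢ Metric.sphere (0 : Form) 1 with hKdef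
    have hK : IsCompact K := (GS.isCompact_core S.toGeo i).prod (isCompact_sphere 0 1)
    have hc : ContinuousOn (fun p : V × Form => q (S.repOp i S.swX p.1 p.2) p.2) K :=
      (S.continuousOn_q_repOp i S.smoothOp_swX).mono
        (Set.prod_mono (GS.core_subset S.toGeo i) (Set.subset_univ _))
    have hp : ∀ p ∈ K, (0 : ℝ) < (fun p : V × Form => q (S.repOp i S.swX p.1 p.2) p.2) p :=
      fun p hp => S.repOp_swX_pos (GS.core_subset S.toGeo i hp.1) (by
        rintro h
        have := hp.2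
        simp [h] at this)
    obtain ⟨c, hc0, hle⟩ := hK.exists_forall_le' hc hp
    exact ⟨c, hc0, fun u hu a ha => hle (u, a) ⟨hu, mem_sphere_zero_iff_norm.2 ha⟩⟩
  choose c hc hle using hpos
  have hden : 0 < 1 + ∑ i, (c i)⁻¹ := by
    have : 0 ≤ ∑ i, (c i)⁻¹ := Finset.sum_nonneg fun i _ => inv_nonneg.2 (hc i).le
    linarith
  refine ⟨(1 + ∑ i, (c i)⁻¹)⁻¹, inv_pos.2 hden, fun x a => ?_⟩
  rcases eq_or_ne a 0 with rfl | ha
  · simp [q_zero_right]
  have hn : 0 < ‖a‖ := norm_pos_iff.2 ha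
  have h := hle (S.tr x) _ ⟨x, GS.mem_core x, rfl⟩ (‖a‖⁻¹ • a) (by simp [norm_smul, hn.ne'])
  rw [← GS.apply_eq_repOp, map_smul, q_smul_left, q_smul_right] at h
  have hci : (1 + ∑ i, (c i)⁻¹)⁻¹ ≤ c (S.tr x) := by
    rw [inv_le_comm₀ hden (hc _)]
    have := Finset.single_le_sum (fun i _ => inv_nonneg.2 (hc i).le) (Finset.mem_univ (S.tr x))
    linarith
  calc (1 + ∑ i, (c i)⁻¹)⁻¹ * ‖a‖ ^ 2
      ≤ (‖a‖⁻¹ * (‖a‖⁻¹ * q (S.swX x a) a)) * ‖a‖ ^ 2 := by gcongr; exact hci.trans h
    _ = q (S.swX x a) a := by field_simp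

/-- The two inequalities which make the systems elliptic. -/
theorem exists_elliptic :
    ∃ c, 0 < c ∧ ∀ x a, c * ‖a‖ ^ 2 ≤ ‖((4 : ℝ) • S.asdX x) a‖ ^ 2 + (1 : ℝ) * q a a ∧
      c * ‖a‖ ^ 2 ≤ ‖((4 : ℝ) • S.sdX x) a‖ ^ 2 + (-1 : ℝ) * q a a := by
  obtain ⟨c, hc, hle⟩ := S.exists_swX_lower
  refine ⟨c, hc, fun x a => ?_⟩
  have hs := hle x a
  rw [q_swX] at hs
  have hp : q (S.sdX x a) (S.sdX x a) = q (S.sdX x a) a := by
    conv_lhs => rw [← q_sdX_symm, sdX_idem]
  have hsplit : q (S.asdX x a) (S.asdX x a) = q a a - q (S.sdX x a) a := by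
    rw [asdX_apply]
    simp only [q_sub_left, q_sub_right, hp, q_comm a (S.sdX x a)]
    ring
  have b1 := abs_le.1 (abs_q_le (S.asdX x a) (S.asdX x a))
  have b2 := abs_le.1 (abs_q_le (S.sdX x a) (S.sdX x a))
  constructor <;>
  · simp only [smul_apply, norm_smul, Real.norm_eq_abs, abs_of_pos (show (0 : ℝ) < 4 by norm_num)]
    nlinarith [sq_nonneg ‖S.asdX x a‖, sq_nonneg ‖S.sdX x a‖]

end GSetup

end Vale.Agent.P204.Gen
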