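import Mathlib

/-!
P204, general four-manifold: the Hilbert space part of the operator `G`, for a symmetric form
`Q f g = ⟪T f, g⟫`, an involution `σ` which makes it positive, the projection `p` on the
anti-invariant forms and an isotropic space `A`, the closure of the exact forms.

The exact part is solved first, `Q (σ a) b = Q v b` on `A`; then `Q (v - a) w = Q η w` is coercive on
the anti-invariant forms, as `σ` dominates twice the anti-invariant part on `A`. The closed solution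
is `c = v - σ a`, and `h = v - a - σ a` is closed and fixed by `σ`.
-/

open scoped RealInnerProductSpace

namespace Vale.Agent.P204.Gen

variable {H : Type*} [NormedAddCommGroup H] [InnerProductSpace ℝ H] [CompleteSpace H]

/-- The hypotheses on the pairing, the projection and the star. -/
structure SwapData (T p σ : H →L[ℝ] H) (A : Submodule ℝ H) : Prop where
  symm : ∀ f g, ⟪T f, g⟫ = ⟪T g, f⟫
  p_idem : ∀ f, p (p f) = p f
  p_symm : ∀ f g, ⟪T (p f), g⟫ = ⟪T f, p g⟫
  σ_fix : ∀ v, p v = v → σ v = v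
  σ_invol : ∀ f, σ (σ f) = f
  p_σ : ∀ f, p (σ f) = p f
  iso : ∀ a ∈ A, ∀ b ∈ A, ⟪T a, b⟫ = 0
  pos : ∃ c, 0 < c ∧ ∀ f, c * ‖f‖ ^ 2 ≤ ⟪T (σ f), f⟫
  dom : ∀ a, ⟪T a, a⟫ = 0 → 2 * ⟪T (p a), p a⟫ ≤ ⟪T (σ a), a⟫

namespace SwapData

variable {T p σ : H →L[ℝ] H} {A : Submodule ℝ H}

omit [CompleteSpace H] in
/-- Lax and Milgram on a closed subspace. -/
theorem exists_inverse (R : H →L[ℝ] H) (N : Submodule ℝ H) [CompleteSpace N] {c : ℝ} (hc : 0 < c)
    (hR : ∀ a ∈ N, c * ‖a‖ ^ 2 ≤ ⟪R a, a⟫) :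
    ∃ K : H →L[ℝ] H, ∀ f, K f ∈ N ∧ ∀ b ∈ N, ⟪R (K f), b⟫ = ⟪f, b⟫ := by
  set B : N →L[ℝ] N →L[ℝ] ℝ :=
    (innerSL ℝ).comp (N.orthogonalProjectionOnto.comp (R.comp N.subtypeL))
  have hB : ∀ a b : N, B a b = ⟪R (a : H), (b : H)⟫ := fun a b => by
    simp [B]
  have hcB : IsCoercive B := ⟨c, hc, fun a => by
    rw [hB]
    have := hR a a.2
    rw [Submodule.coe_norm]
    nlinarith⟩
  refine ⟨N.subtypeL.comp ((hcB.continuousLinearEquivOfBilin.symm : N →L[ℝ] N).comp
    N.orthogonalProjectionOnto), fun f => ⟨Submodule.coe_mem _, fun b hb => ?_⟩⟩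
  have h := hcB.continuousLinearEquivOfBilin_apply
    (hcB.continuousLinearEquivOfBilin.symm (N.orthogonalProjectionOnto f)) ⟨b, hb⟩
  rw [ContinuousLinearEquiv.apply_symm_apply, hB] at h
  simp only [ContinuousLinearMap.comp_apply, Submodule.subtypeL_apply,
    ContinuousLinearEquiv.coe_coe]
  rw [← h]
  simp

variable (D : SwapData T p σ A)
include D

omit [CompleteSpace H] in
lemma iso_closure {a b : H} (ha : a ∈ A.topologicalClosure) (hb : b ∈ A.topologicalClosure) :
    ⟪T a, b⟫ = 0 := by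
  rw [← SetLike.mem_coe, Submodule.topologicalClosure_coe] at ha hb
  obtain ⟨s, hs, hsl⟩ := mem_closure_iff_seq_limit.1 ha
  obtain ⟨t, ht, htl⟩ := mem_closure_iff_seq_limit.1 hb
  exact tendsto_nhds_unique (((T.continuous.tendsto a).comp hsl).inner htl)
    (tendsto_const_nhds.congr fun n => (D.iso _ (hs n) _ (ht n)).symm)

/-- The closed forms with prescribed anti-invariant parts, and their self-dual closed parts. -/
theorem exists_solution :
    ∃ sol hrm : H →L[ℝ] H, ∀ η, p η = η →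
      (∀ b ∈ A, ⟪T (sol η), b⟫ = 0) ∧ (∀ b ∈ A, ⟪T (hrm η), b⟫ = 0) ∧
      p (sol η) = η ∧ σ (hrm η) = hrm η ∧
      sol η + σ (sol η) = (2 : ℝ) • η + hrm η - p (hrm η) := by
  obtain ⟨c, hc, hpos⟩ := D.pos
  obtain ⟨K, hK⟩ := exists_inverse (T.comp σ) A.topologicalClosure hc fun a _ => hpos a
  set a0 : H →L[ℝ] H := K.comp T
  have ha : ∀ v, a0 v ∈ A.topologicalClosure ∧
      ∀ b ∈ A.topologicalClosure, ⟪T (σ (a0 v)), b⟫ = ⟪T v, b⟫ := fun v => hK (T v)
  set M : Submodule ℝ H := (p - ContinuousLinearMap.id ℝ H).ker with hMdef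
  have hmem : ∀ v, v ∈ M ↔ p v = v := fun v => by simp [hMdef, sub_eq_zero]
  have : CompleteSpace M := (ContinuousLinearMap.isClosed_ker _).completeSpace_coe
  have hcoer : ∀ v ∈ M, c / 2 * ‖v‖ ^ 2 ≤ ⟪(T.comp (ContinuousLinearMap.id ℝ H - a0)) v, v⟫ := by
    intro v hv
    have hv' := (hmem v).1 hv
    obtain ⟨hA, hq⟩ := ha v
    set a := a0 v with hadef
    set t := ⟪T (σ a), a⟫ with ht
    have h1 : ⟪T v, a⟫ = t := (hq a hA).symm
    have h2 : ⟪T v, p a⟫ = t := by rw [← D.p_symm, hv', h1]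
    have h3 : 2 * ⟪T (p a), p a⟫ ≤ t := D.dom a (D.iso_closure hA hA)
    have hw : p (v - (2 : ℝ) • p a) = v - (2 : ℝ) • p a := by
      rw [map_sub, map_smul, D.p_idem, hv']
    have h4 := hpos (v - (2 : ℝ) • p a)
    rw [D.σ_fix _ hw] at h4
    simp only [map_sub, map_smul, inner_sub_left, inner_sub_right, real_inner_smul_left,
      real_inner_smul_right, h2, D.symm (p a) v] at h4
    have h5 := hpos v
    rw [D.σ_fix v hv'] at h5
    simp only [ContinuousLinearMap.comp_apply, sub_apply,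
      ContinuousLinearMap.id_apply, map_sub, inner_sub_left]
    rw [D.symm (a0 v) v, h1]
    nlinarith [sq_nonneg ‖v - (2 : ℝ) • p a‖]
  obtain ⟨L, hL⟩ := exists_inverse _ M (half_pos hc) hcoer
  set v0 : H →L[ℝ] H := L.comp T
  set av : H →L[ℝ] H := a0.comp v0
  refine ⟨v0 - σ.comp av, v0 - av - σ.comp av, fun η hη => ?_⟩
  simp only [sub_apply, ContinuousLinearMap.comp_apply]
  obtain ⟨hvM, hv⟩ : v0 η ∈ M ∧ ∀ w ∈ M, ⟪T (v0 η - a0 (v0 η)), w⟫ = ⟪T η, w⟫ := by
    refine ⟨(hL (T η)).1, fun w hw => ?_⟩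
    simpa [v0] using (hL (T η)).2 w hw
  simp only [av, ContinuousLinearMap.comp_apply]
  set v := v0 η
  obtain ⟨hA, hq⟩ := ha v
  set a := a0 v
  have hv' := (hmem v).1 hvM
  have hp : p (v - σ a) = η := by
    rw [map_sub, hv', D.p_σ]
    set d := v - p a - η with hd
    have hpd : p d = d := by rw [hd, map_sub, map_sub, hv', D.p_idem, hη]
    have h0 : ⟪T (σ d), d⟫ = 0 := by
      rw [D.σ_fix d hpd]
      have := hv d ((hmem d).2 hpd)
      rw [map_sub, inner_sub_left] at this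
      have h' : ⟪T (p a), d⟫ = ⟪T a, d⟫ := by rw [D.p_symm, hpd]
      rw [show T d = T v - T (p a) - T η by rw [hd, map_sub, map_sub], inner_sub_left,
        inner_sub_left, h']
      linarith
    have := hpos d
    rw [h0] at this
    have hd2 : ‖d‖ ^ 2 ≤ 0 := nonpos_of_mul_nonpos_right this hc
    have hd0 : d = 0 := norm_eq_zero.1 (sq_eq_zero_iff.1 (le_antisymm hd2 (sq_nonneg _)))
    rw [hd, sub_eq_zero] at hd0
    exact hd0
  have hcl : ∀ b ∈ A, ⟪T (v - σ a), b⟫ = 0 := fun b hb => by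
    rw [map_sub, inner_sub_left, hq b (A.le_topologicalClosure hb), sub_self]
  refine ⟨hcl, fun b hb => ?_, hp, ?_, ?_⟩
  · rw [show v - a - σ a = v - σ a - a by abel, map_sub, inner_sub_left, hcl b hb,
      D.iso_closure hA (A.le_topologicalClosure hb), sub_zero]
  · rw [map_sub, map_sub, D.σ_fix v hv', D.σ_invol]; abel
  · have h' : p a = v - η := by
      rw [map_sub, hv', D.p_σ] at hp
      rw [← hp]; abel
    rw [map_sub σ, D.σ_fix v hv', D.σ_invol, map_sub p, map_sub p, hv', D.p_σ, h']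
    module

end SwapData

end Vale.Agent.P204.Gen
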