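import Mathlib.MeasureTheory.Function.L2Space
import Vale.Agent.P204.Gen.GSolveAlg
import Vale.Agent.P204.Gen.GSolveHilbert

/-!
P204, general four-manifold: the operator `G` on square integrable forms.
-/

open MeasureTheory
open scoped BigOperators ContDiff RealInnerProductSpace

namespace Vale.Agent.P204.Gen

open Vale.Agent.P204.Torus

namespace GS

/-- The wedge pairing as an operator: `⟪qS a, b⟫ = q a b`. -/
noncomputable def qS : Form →L[ℝ] Form :=
  LinearMap.toContinuousLinearMap
    { toFun := fun a => WithLp.toLp 2 ![a 3, a 4, a 5, a 0, a 1, a 2]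
      map_add' := fun a b => by ext k; fin_cases k <;> simp
      map_smul' := fun t a => by ext k; fin_cases k <;> simp }

lemma inner_qS (a b : Form) : ⟪qS a, b⟫ = q a b := by
  simp [qS, q, PiLp.inner_apply, Fin.sum_univ_six]
  ring

variable {X : Type*} [TopologicalSpace X] [MeasurableSpace X]

/-- The square integrable two-forms. -/
noncomputable abbrev L2X (G : Geo X) := Lp Form 2 G.μ

/-- The wedge pairing on square integrable forms. -/
noncomputable def qL (G : Geo X) : L2X G →L[ℝ] L2X G := qS.compLpL 2 G.μ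

lemma inner_qL (G : Geo X) (f g : L2X G) : ⟪qL G f, g⟫ = G.pairing f g := by
  rw [L2.inner_def]
  refine integral_congr_ae ?_
  filter_upwards [qS.coeFn_compLpL f] with x hx
  rw [qL, hx, inner_qS]

lemma integrable_q (G : Geo X) (f g : L2X G) : Integrable (fun x => q (f x) (g x)) G.μ := by
  refine (L2.integrable_inner (𝕜 := ℝ) (qL G f) g).congr ?_
  filter_upwards [qS.coeFn_compLpL f] with x hx
  rw [qL, hx, inner_qS]

lemma pairing_congr (G : Geo X) {f f' g g' : X → Form} (hf : f =ᵐ[G.μ] f') (hg : g =ᵐ[G.μ] g') :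
    G.pairing f g = G.pairing f' g' := by
  refine integral_congr_ae ?_
  filter_upwards [hf, hg] with x h1 h2
  rw [h1, h2]

lemma n2_eq_norm (G : Geo X) {f : X → Form} (g : L2X G) (h : (g : X → Form) =ᵐ[G.μ] f) :
    G.n2 f = ‖g‖ := by
  rw [norm_eq_sqrt_real_inner, L2.inner_def, Geo.n2]
  congr 1
  refine integral_congr_ae ?_
  filter_upwards [h] with x hx
  rw [hx, real_inner_self_eq_norm_sq]

variable [CompactSpace X] [OpensMeasurableSpace X] {G : Geo X} {F : X → Form →L[ℝ] Form}

lemma memLp_op (hF : G.SmoothOp F) (f : L2X G) : MemLp (fun x => F x (f x)) 2 G.μ := by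
  obtain ⟨C, -, hC⟩ := exists_opBound hF
  exact (Lp.memLp f).of_le_mul (c := C) (aemeasurable_op hF (Lp.aestronglyMeasurable f))
    (Filter.Eventually.of_forall fun x => (F x).le_of_opNorm_le (hC x) _)

/-- A smooth field of operators on square integrable forms. -/
noncomputable def opL (F : X → Form →L[ℝ] Form) (hF : G.SmoothOp F) : L2X G →L[ℝ] L2X G :=
  LinearMap.mkContinuous
    { toFun := fun f => (memLp_op hF f).toLp
      map_add' := fun f g => by
        refine (MemLp.toLp_congr _ ((memLp_op hF f).add (memLp_op hF g)) ?_).trans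
          (MemLp.toLp_add _ _)
        filter_upwards [Lp.coeFn_add f g] with x hx
        change F x (_ : Form) = F x (f x) + F x (g x)
        rw [← map_add]
        exact congrArg (F x) hx
      map_smul' := fun t f => by
        refine (MemLp.toLp_congr _ ((memLp_op hF f).const_smul t) ?_).trans
          (MemLp.toLp_const_smul _ _)
        filter_upwards [Lp.coeFn_smul t f] with x hx
        change F x (_ : Form) = t • F x (f x)
        rw [← map_smul]
        exact congrArg (F x) hx }
    (exists_opBound hF).choose fun f => by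
      refine Lp.norm_le_mul_norm_of_ae_le_mul ?_
      filter_upwards [(memLp_op hF f).coeFn_toLp] with x hx
      simp only [LinearMap.coe_mk, AddHom.coe_mk]
      rw [hx]
      exact (F x).le_of_opNorm_le ((exists_opBound hF).choose_spec.2 x) _

lemma opL_ae (hF : G.SmoothOp F) (f : L2X G) :
    (opL F hF f : X → Form) =ᵐ[G.μ] fun x => F x (f x) := (memLp_op hF f).coeFn_toLp

lemma inner_qL_opL (hF : G.SmoothOp F) (f g : L2X G) :
    ⟪qL G (opL F hF f), g⟫ = ∫ x, q (F x (f x)) (g x) ∂G.μ :=
  (inner_qL G _ _).trans (pairing_congr G (opL_ae hF f) Filter.EventuallyEq.rfl)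

end GS

namespace GSetup

variable {X : Type*} [TopologicalSpace X] [MeasurableSpace X] [CompactSpace X] [OpensMeasurableSpace X]
  (S : GSetup X)

/-- The span of the exact forms. -/
noncomputable def exactL (B : Basic S.toGeo) : Submodule ℝ (GS.L2X S.toGeo) :=
  Submodule.span ℝ {a | ∃ η, ∃ hη : S.Smooth1 η, a = (B.smooth_mem _ (B.smooth_d η hη)).toLp}

lemma swapData (B : Basic S.toGeo) :
    SwapData (GS.qL S.toGeo) (GS.opL S.piMX S.smoothOp_piMX) (GS.opL S.swX S.smoothOp_swX)
      (S.exactL B) where
  symm f g := by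
    rw [GS.inner_qL, GS.inner_qL]
    exact integral_congr_ae (Filter.Eventually.of_forall fun x => q_comm _ _)
  p_idem f := by
    refine Lp.ext ?_
    filter_upwards [GS.opL_ae S.smoothOp_piMX (GS.opL S.piMX S.smoothOp_piMX f),
      GS.opL_ae S.smoothOp_piMX f] with x h1 h2
    rw [h1, h2, piMX_apply, piMX_apply]
    exact (S.pt x).piM_piM 0 _
  p_symm f g := by
    rw [GS.inner_qL_opL, GS.inner_qL]
    refine integral_congr_ae ?_
    filter_upwards [GS.opL_ae S.smoothOp_piMX g] with x hx
    rw [hx, piMX_apply, piMX_apply]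
    exact S.q_piM_left x _ _
  σ_fix v hv := by
    refine Lp.ext ?_
    have h : (GS.opL S.piMX S.smoothOp_piMX v : X → Form) =ᵐ[S.μ] v := by rw [hv]
    filter_upwards [GS.opL_ae S.smoothOp_piMX v, GS.opL_ae S.smoothOp_swX v, h] with x h1 h2 h3
    rw [h2]
    refine S.swX_anti ?_
    rw [← h3, h1, piMX_apply]
    exact (S.pt x).piP_piM 0 _
  σ_invol f := by
    refine Lp.ext ?_
    filter_upwards [GS.opL_ae S.smoothOp_swX (GS.opL S.swX S.smoothOp_swX f),
      GS.opL_ae S.smoothOp_swX f] with x h1 h2
    rw [h1, h2, swX_swX]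
  p_σ f := by
    refine Lp.ext ?_
    filter_upwards [GS.opL_ae S.smoothOp_piMX (GS.opL S.swX S.smoothOp_swX f),
      GS.opL_ae S.smoothOp_swX f, GS.opL_ae S.smoothOp_piMX f] with x h1 h2 h3
    rw [h1, h2, h3, piMX_apply, piMX_apply, piM_swX]
  iso := by
    intro a ha b hb
    induction ha using Submodule.span_induction with
    | mem a h =>
      obtain ⟨η, hη, rfl⟩ := h
      induction hb using Submodule.span_induction with
      | mem b h' =>
        obtain ⟨ξ, hξ, rfl⟩ := h'
        rw [GS.inner_qL]
        exact (GS.pairing_congr _ (MemLp.coeFn_toLp _) (MemLp.coeFn_toLp _)).trans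
          (B.stokes η ξ hη hξ)
      | zero => simp
      | add u v _ _ hu hv => rw [inner_add_right, hu, hv, add_zero]
      | smul t u _ hu => rw [real_inner_smul_right, hu, mul_zero]
    | zero => simp
    | add u v _ _ hu hv => rw [map_add, inner_add_left, hu, hv, add_zero]
    | smul t u _ hu => rw [map_smul, real_inner_smul_left, hu, mul_zero]
  pos := by
    obtain ⟨c, hc, hle⟩ := S.exists_swX_lower
    refine ⟨c, hc, fun f => ?_⟩
    have hi : Integrable (fun x => q (S.swX x (f x)) (f x)) S.μ :=
      (GS.integrable_q _ (GS.opL S.swX S.smoothOp_swX f) f).congr <| by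
        filter_upwards [GS.opL_ae S.smoothOp_swX f] with x hx
        rw [hx]
    rw [GS.inner_qL_opL, ← real_inner_self_eq_norm_sq, L2.inner_def, ← integral_const_mul]
    refine integral_mono ((L2.integrable_inner f f).const_mul c) hi fun x => ?_
    simpa [real_inner_self_eq_norm_sq] using hle x (f x)
  dom a ha := by
    set p := GS.opL S.piMX S.smoothOp_piMX with hp
    set s := GS.opL S.swX S.smoothOp_swX with hs
    have h1 : Integrable (fun x => 2 * q (p a x) (p a x)) S.μ :=
      (GS.integrable_q _ (p a) (p a)).const_mul 2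
    have h2 : Integrable (fun x => q (s a x) (a x) + q (a x) (a x)) S.μ :=
      (GS.integrable_q _ (s a) a).add (GS.integrable_q _ a a)
    have h3 := integral_mono_ae h1 h2 (by
      filter_upwards [GS.opL_ae S.smoothOp_piMX a, GS.opL_ae S.smoothOp_swX a] with x e1 e2
      rw [hp, hs, e1, e2, piMX_apply, q_swX]
      linarith [S.two_q_piM_le (x := x) (a x)])
    rw [integral_const_mul, integral_add (GS.integrable_q _ (s a) a) (GS.integrable_q _ a a)] at h3
    rw [GS.inner_qL] at ha
    rw [GS.inner_qL, GS.inner_qL]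
    simp only [Geo.pairing] at ha ⊢
    linarith

omit [CompactSpace X] [OpensMeasurableSpace X] in
/-- Weak closedness of square integrable forms. -/
lemma weakClosed_of_exactL (B : Basic S.toGeo) {f : GS.L2X S.toGeo}
    (h : ∀ b ∈ S.exactL B, ⟪GS.qL S.toGeo f, b⟫ = 0) : S.WeakClosed f := fun η hη => by
  have := h _ (Submodule.subset_span ⟨η, hη, rfl⟩)
  rw [GS.inner_qL] at this
  exact (GS.pairing_congr _ Filter.EventuallyEq.rfl (MemLp.coeFn_toLp _).symm).trans this

end GSetup

end Vale.Agent.P204.Gen
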