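import Vale.Agent.P204.Gen.GSolveX
import Vale.Agent.P204.Gen.Integral

/-!
P204, general four-manifold, module GSolveX: `GSolve S` from elliptic regularity and the Sobolev
facts, with the facts of the module Integral put in.
-/

open MeasureTheory Filter
open scoped ContDiff

namespace Vale.Agent.P204.Gen

open Vale.Agent.P204.Torus

variable {X : Type*} [TopologicalSpace X] [MeasurableSpace X] [BorelSpace X] [T2Space X]
  [CompactSpace X]

omit [T2Space X] [CompactSpace X] in
/-- A smooth two-form which vanishes almost everywhere vanishes. -/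
theorem GS.smooth2_eq_zero (G : Geo X) {α : X → Form} (hα : G.Smooth2 α)
    (h : ∀ᵐ x ∂G.μ, α x = 0) : α = 0 := by
  funext x
  set j := G.tr x with hj
  have h1 : ∀ᵐ y ∂((G.chartVol j).map (G.φ j).symm), α y = 0 :=
    by rw [← G.restrict_μ j]; exact ae_restrict_of_ae h
  have h2 : ∀ᵐ v ∂volume.restrict (G.φ j).target, α ((G.φ j).symm v) = 0 :=
    Filter.Eventually.filter_mono (G.ac_chartVol j).ae_le
      (ae_of_ae_map (p := fun y => α y = 0) (G.aemeasurable_symm_chartVol j) h1)
  have h3 : G.rep2 j α =ᵐ[volume.restrict (G.φ j).target] fun _ => (0 : Form) := by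
    filter_upwards [h2, ae_restrict_mem (G.φ j).open_target.measurableSet] with v hv hv'
    simp only [Geo.rep2, hv', if_true, hv, pull_zero]
  have h4 := Measure.eqOn_open_of_ae_eq h3 (G.φ j).open_target (hα j).continuousOn
    continuousOn_const ((G.φ j).map_source (G.mem_ch x))
  rw [Pi.zero_apply, ← G.rep2_tr α x]
  exact h4

/-- The operator `G` exists. -/
theorem gSolve (S : GSetup X) (hE : EllipticX S.toGeo) (hF : SobFacts S.toGeo) : GSolve S := by
  obtain ⟨C, -, hC⟩ := S.exists_sob_zero_equiv
  exact gSolve_of S (basic S.toGeo) hE hF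
    ⟨C, fun α hα => (hC 1 α ((basic S.toGeo).smooth_mem α hα)).2⟩
    fun α hα h => GS.smooth2_eq_zero S.toGeo hα h

end Vale.Agent.P204.Gen
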