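import Vale.Agent.P204.Torus.Alg
import Vale.Agent.P204.Gen.GeoLin

/-!
P204, general four-manifold: the star of the metric of a tamed complex structure at one point.

The self-dual forms are the anti-invariant forms and the multiples of `Ω`, the invariant part of the
taming form: `sdOf` is the projection on them, orthogonal for the wedge pairing, and `2 • sdOf - 1`
is the star.
-/

open scoped ContDiff

namespace Vale.Agent.P204.Gen.GS

open Vale.Agent.P204.Torus

/-- The projection on the anti-invariant forms and the multiples of `O`. -/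
noncomputable def sdOf (J : V →L[ℝ] V) (O a : Form) : Form :=
  piM J a + (q a O / q O O) • O

lemma sdOf_add (J : V →L[ℝ] V) (O a b : Form) :
    sdOf J O (a + b) = sdOf J O a + sdOf J O b := by
  simp only [sdOf, piM_add, q_add_left, add_div, add_smul]; abel

lemma sdOf_smul (J : V →L[ℝ] V) (O : Form) (t : ℝ) (a : Form) :
    sdOf J O (t • a) = t • sdOf J O a := by
  simp only [sdOf, piM_smul, q_smul_left, mul_div_assoc, smul_add, smul_smul]

lemma sdOf_sub (J : V →L[ℝ] V) (O a b : Form) :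
    sdOf J O (a - b) = sdOf J O a - sdOf J O b := by
  simp only [sdOf, piM_sub, q_sub_left, sub_div, sub_smul]; abel

section Point

variable (S : Setup) (x : V) (a b : Form)

lemma q_Om_Om_pos : 0 < q (S.Om x) (S.Om x) := by
  have := S.kap_pos x
  simp only [Setup.kap] at this
  linarith

lemma q_piM_Om : q (piM (S.J x) a) (S.Om x) = 0 := S.q_piM_piP x a (S.om x)

lemma q_piM_left : q (piM (S.J x) a) b = q a (piM (S.J x) b) := by
  conv_lhs => rw [← piP_add_piM (S.J x) b]
  conv_rhs => rw [← piP_add_piM (S.J x) a]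
  rw [q_add_right, q_add_left, S.q_piM_piP, S.q_piP_piM]

lemma q_sdOf_symm : q (sdOf (S.J x) (S.Om x) a) b = q a (sdOf (S.J x) (S.Om x) b) := by
  simp only [sdOf, q_add_left, q_add_right, q_smul_left, q_smul_right]
  rw [q_piM_left, q_comm (S.Om x) b]
  ring

lemma sdOf_idem : sdOf (S.J x) (S.Om x) (sdOf (S.J x) (S.Om x) a) = sdOf (S.J x) (S.Om x) a := by
  have h := (q_Om_Om_pos S x).ne'
  simp only [sdOf, piM_add, piM_smul, S.piM_piM, S.piM_Om, smul_zero, add_zero, q_add_left,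
    q_smul_left, q_piM_Om, zero_add, div_mul_cancel₀ _ h]

lemma piM_sdOf : piM (S.J x) (sdOf (S.J x) (S.Om x) a) = piM (S.J x) a := by
  simp only [sdOf, piM_add, piM_smul, S.piM_piM, S.piM_Om, smul_zero, add_zero]

lemma sdOf_anti {a : Form} (ha : piP (S.J x) a = 0) : sdOf (S.J x) (S.Om x) a = a := by
  have h := q_piM_Om S x a
  rw [S.piM_eq_self ha] at h
  simp [sdOf, S.piM_eq_self ha, h]

lemma q_sdOf_self : q (sdOf (S.J x) (S.Om x) a) a =
    q (piM (S.J x) a) (piM (S.J x) a) + q a (S.Om x) ^ 2 / q (S.Om x) (S.Om x) := by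
  have h : q (piM (S.J x) a) a = q (piM (S.J x) a) (piM (S.J x) a) := by
    conv_lhs => rw [← piP_add_piM (S.J x) a]
    rw [piP_add_piM, ← S.piM_piM, q_piM_left, S.piM_piM]
  simp only [sdOf, q_add_left, q_smul_left]
  rw [h, q_comm (S.Om x) a]
  ring

/-- The star gives a positive form. -/
theorem q_swap_pos (ha : a ≠ 0) : 0 < 2 * q (sdOf (S.J x) (S.Om x) a) a - q a a := by
  obtain ⟨F⟩ := S.exists_frame' x
  rw [q_sdOf_self, S.q_decomp x a a]
  set P := piP (S.J x) a
  set M := piM (S.J x) a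
  have hP : piM (S.J x) P = 0 := S.piM_piP x a
  have hOa : q a (S.Om x) = q P (S.Om x) := by
    conv_lhs => rw [← piP_add_piM (S.J x) a, q_add_left, q_piM_Om, add_zero]
  have hk := S.kap_pos x
  have hO : q (S.Om x) (S.Om x) = 2 * S.kap x := by simp only [Setup.kap]; ring
  have hP2 : 2 * (q a (S.Om x) ^ 2 / q (S.Om x) (S.Om x)) - q P P = S.kap x *
      (co F.c P 0 ^ 2 + co F.c P 3 ^ 2 + 2 * co F.c P 1 ^ 2 + 2 * co F.c P 2 ^ 2) := by
    rw [hOa, F.q_Om, F.q_inv hP hP, hO]
    field_simp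
    ring
  rcases eq_or_ne M 0 with hM | hM
  · have hP0 : P ≠ 0 := fun h => ha (by rw [← piP_add_piM (S.J x) a]; simp [P, M] at h hM ⊢; simp [h, hM])
    have hpos : 0 < co F.c P 0 ^ 2 + co F.c P 3 ^ 2 + 2 * co F.c P 1 ^ 2 + 2 * co F.c P 2 ^ 2 := by
      by_contra hle
      push Not at hle
      have e0 : co F.c P 0 = 0 := by nlinarith
      have e1 : co F.c P 1 = 0 := by nlinarith
      have e2 : co F.c P 2 = 0 := by nlinarith
      have e3 : co F.c P 3 = 0 := by nlinarith
      obtain ⟨e4, e5⟩ := F.co_inv hP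
      rw [e1, neg_zero] at e4
      rw [e2, neg_zero] at e5
      refine hP0 (F.co_inj ?_)
      ext k
      have hk : co F.c P k = 0 := by fin_cases k <;> assumption
      simpa [co_apply, ev_zero] using hk
    rw [hM, q_zero_left]
    nlinarith [mul_pos hk hpos, hP2]
  · have hM0 := S.q_anti_pos (S.piP_piM x a) hM
    have : 0 ≤ S.kap x *
        (co F.c P 0 ^ 2 + co F.c P 3 ^ 2 + 2 * co F.c P 1 ^ 2 + 2 * co F.c P 2 ^ 2) := by positivity
    nlinarith [hP2, this, hM0]

/-- On isotropic forms the star dominates the anti-invariant part. -/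
theorem two_q_piM_le : 2 * q (piM (S.J x) a) (piM (S.J x) a) ≤ 2 * q (sdOf (S.J x) (S.Om x) a) a := by
  rw [q_sdOf_self]
  have := div_nonneg (sq_nonneg (q a (S.Om x))) (q_Om_Om_pos S x).le
  linarith

lemma q_split : q a a = q (sdOf (S.J x) (S.Om x) a) (sdOf (S.J x) (S.Om x) a)
    + q (a - sdOf (S.J x) (S.Om x) a) (a - sdOf (S.J x) (S.Om x) a) := by
  have h : q (sdOf (S.J x) (S.Om x) a) (sdOf (S.J x) (S.Om x) a) =
      q (sdOf (S.J x) (S.Om x) a) a := by
    conv_lhs => rw [← q_sdOf_symm, sdOf_idem]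
  simp only [q_sub_left, q_sub_right, h, q_comm a (sdOf (S.J x) (S.Om x) a)]
  ring

end Point

/-! ## Pull-backs -/

lemma sdOf_conj {D : V →L[ℝ] V} (hD : D.det ≠ 0) (J : V →L[ℝ] V) (O a : Form) :
    sdOf (D.inverse.comp (J.comp D)) (pull D O) (pull D a) = pull D (sdOf J O a) := by
  simp only [sdOf, pull_add, pull_smul, piM_conj hD, q_pull, mul_div_mul_left _ _ hD]

/-! ## Smoothness -/

lemma contDiff_pull₂ : ContDiff ℝ ∞ fun p : (V →L[ℝ] V) × Form => pull p.1 p.2 :=
  (contDiff_piLp 2).2 fun k => by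
    simp only [pull, ofSkew_apply, ev_def]
    fun_prop

lemma contDiff_q₂ : ContDiff ℝ ∞ fun p : Form × Form => q p.1 p.2 := by
  simp only [q]
  fun_prop

variable {E : Type*} [NormedAddCommGroup E] [NormedSpace ℝ E] {s : Set E} {J : E → V →L[ℝ] V}
  {O a : E → Form}

lemma contDiffOn_piM (hJ : ContDiffOn ℝ ∞ J s) (ha : ContDiffOn ℝ ∞ a s) :
    ContDiffOn ℝ ∞ (fun u => piM (J u) (a u)) s :=
  (ha.sub (contDiff_pull₂.comp_contDiffOn (hJ.prodMk ha))).const_smul _

lemma contDiffOn_piP (hJ : ContDiffOn ℝ ∞ J s) (ha : ContDiffOn ℝ ∞ a s) :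
    ContDiffOn ℝ ∞ (fun u => piP (J u) (a u)) s :=
  (ha.add (contDiff_pull₂.comp_contDiffOn (hJ.prodMk ha))).const_smul _

lemma contDiffOn_sdOf (hJ : ContDiffOn ℝ ∞ J s) (hO : ContDiffOn ℝ ∞ O s)
    (ha : ContDiffOn ℝ ∞ a s) (hne : ∀ u ∈ s, q (O u) (O u) ≠ 0) :
    ContDiffOn ℝ ∞ (fun u => sdOf (J u) (O u) (a u)) s :=
  (contDiffOn_piM hJ ha).add
    (((contDiff_q₂.comp_contDiffOn (ha.prodMk hO)).div
      (contDiff_q₂.comp_contDiffOn (hO.prodMk hO)) hne).smul hO)

end Vale.Agent.P204.Gen.GS
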