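import Vale.Agent.P204.Gen.GSolveL2

/-!
P204, general four-manifold, module GSolveX: the operator `G`.

The statements of the other modules enter as arguments: `Basic`, `SobFacts`, elliptic regularity
(`EllipticX`), the comparison of `n2` with the Sobolev norm of order zero and the fact that a smooth
form which vanishes almost everywhere vanishes.
-/

open MeasureTheory
open scoped BigOperators ContDiff RealInnerProductSpace

namespace Vale.Agent.P204.Gen

open Vale.Agent.P204.Torus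

variable {X : Type*} [TopologicalSpace X] [MeasurableSpace X]

/-- Elliptic regularity for closed forms with a prescribed coercive projection. -/
def EllipticX (G : Geo X) : Prop :=
  ∀ (P : X → Form →L[ℝ] Form) (s c : ℝ), G.SmoothOp P → (s = 1 ∨ s = -1) → 0 < c →
    (∀ x a, c * ‖a‖ ^ 2 ≤ ‖P x a‖ ^ 2 + s * q a a) → ∀ k, ∃ C, ∀ f g : X → Form,
      MemLp f 2 G.μ → G.WeakClosed f → G.Smooth2 g → (fun x => P x (f x)) =ᵐ[G.μ] g →
      ∃ al, G.Smooth2 al ∧ f =ᵐ[G.μ] al ∧ G.sob k 1 al ≤ C * (G.n2 f + G.sob k 1 g)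

namespace GS

lemma integrableOn_cube {f : V → ℝ} (hf : Continuous f) : IntegrableOn f cube :=
  (hf.continuousOn.integrableOn_compact (isCompact_Icc : IsCompact (Set.Icc (0 : V) 1))).mono_set
    fun u hu => ⟨fun i => (hu i (Set.mem_univ i)).1, fun i => (hu i (Set.mem_univ i)).2.le⟩

lemma gs_hsq_nonneg (ε : ℝ) : ∀ (k : ℕ) (f : V → Form), 0 ≤ hsq k ε f
  | 0, _ => integral_nonneg fun _ => sq_nonneg _
  | k + 1, f => add_nonneg (gs_hsq_nonneg ε k f)
      (mul_nonneg (sq_nonneg ε) (Finset.sum_nonneg fun _ _ => gs_hsq_nonneg ε k _))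

lemma hsq_add_two (ε : ℝ) : ∀ (k : ℕ) {f g : V → Form}, ContDiff ℝ ∞ f → ContDiff ℝ ∞ g →
    hsq k ε (f + g) ≤ 2 * (hsq k ε f + hsq k ε g)
  | 0, f, g, hf, hg => by
    have hf' := integrableOn_cube (f := fun u => 2 * ‖f u‖ ^ 2) (by have := hf.continuous; fun_prop)
    have hg' := integrableOn_cube (f := fun u => 2 * ‖g u‖ ^ 2) (by have := hg.continuous; fun_prop)
    have hs := integrableOn_cube (f := fun u => ‖(f + g) u‖ ^ 2)
      (by have := hf.continuous; have := hg.continuous; fun_prop)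
    simp only [hsq, mul_add]
    rw [← integral_const_mul, ← integral_const_mul, ← integral_add hf' hg']
    refine integral_mono hs (hf'.add hg') fun u => ?_
    have h := norm_add_le (f u) (g u)
    simp only [Pi.add_apply]
    nlinarith [norm_nonneg (f u + g u), sq_nonneg (‖f u‖ - ‖g u‖)]
  | k + 1, f, g, hf, hg => by
    have hd : ∀ l : Fin 4, (fun u => fderiv ℝ (f + g) u (e l)) =
        (fun u => fderiv ℝ f u (e l)) + fun u => fderiv ℝ g u (e l) := fun l => funext fun u => by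
      rw [fderiv_add (hf.differentiable (by norm_num) u) (hg.differentiable (by norm_num) u)]
      rfl
    have hs : ∀ {h : V → Form}, ContDiff ℝ ∞ h → ∀ l : Fin 4,
        ContDiff ℝ ∞ fun u => fderiv ℝ h u (e l) := fun hh l =>
      (hh.fderiv_right (by norm_cast)).clm_apply contDiff_const
    simp only [hsq, hd]
    have h0 := hsq_add_two ε k hf hg
    have h1 : ∑ l : Fin 4, hsq k ε ((fun u => fderiv ℝ f u (e l)) + fun u => fderiv ℝ g u (e l)) ≤
        ∑ l : Fin 4, 2 * (hsq k ε (fun u => fderiv ℝ f u (e l)) +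
          hsq k ε fun u => fderiv ℝ g u (e l)) :=
      Finset.sum_le_sum fun l _ => hsq_add_two ε k (hs hf l) (hs hg l)
    rw [← Finset.mul_sum, Finset.sum_add_distrib] at h1
    nlinarith [mul_le_mul_of_nonneg_left h1 (sq_nonneg ε)]

variable (G : Geo X)

lemma gs_sob_nonneg (k : ℕ) (ε : ℝ) (α : X → Form) : 0 ≤ G.sob k ε α := Real.sqrt_nonneg _

lemma gs_sob_zero_le (k : ℕ) (ε : ℝ) (α : X → Form) : G.sob 0 ε α ≤ G.sob k ε α := by
  refine Real.sqrt_le_sqrt (Finset.sum_le_sum fun i _ => ?_)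
  induction k with
  | zero => rfl
  | succ k ih =>
    exact ih.trans (le_add_of_nonneg_right
      (mul_nonneg (sq_nonneg ε) (Finset.sum_nonneg fun _ _ => gs_hsq_nonneg ε k _)))

lemma gs_sob_zero_fun (k : ℕ) (ε : ℝ) : G.sob k ε (0 : X → Form) = 0 := by
  have hloc : ∀ i, G.locF i (0 : X → Form) = 0 := fun i => by
    funext u
    simp only [Geo.locF, Pi.zero_apply, smul_zero, pext]
    exact congrFun (G.rep2_zero i) _
  have hh : ∀ k, hsq k ε (0 : V → Form) = 0 := fun k => by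
    induction k with
    | zero => simp [hsq]
    | succ k ih =>
      have hd : ∀ l : Fin 4, (fun u => fderiv ℝ (0 : V → Form) u (e l)) = 0 := fun l => by
        funext u; simp
      simp only [hsq, hd, ih, Finset.sum_const_zero, mul_zero, add_zero]
  simp [Geo.sob, hloc, hh]

lemma sob_add_two [CompactSpace X] (k : ℕ) (ε : ℝ) {α β : X → Form} (ha : G.Smooth2 α)
    (hb : G.Smooth2 β) : G.sob k ε (α + β) ≤ 2 * (G.sob k ε α + G.sob k ε β) := by
  have hloc : ∀ i, G.locF i (α + β) = G.locF i α + G.locF i β := fun i => by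
    have h : (fun x => G.ψ i x • (α + β) x) =
        (fun x => G.ψ i x • α x) + fun x => G.ψ i x • β x := funext fun x => smul_add _ _ _
    funext u
    rw [Geo.locF, h, Geo.rep2_add]
    rfl
  have hle : ∑ i, hsq k ε (G.locF i (α + β)) ≤
      2 * ((∑ i, hsq k ε (G.locF i α)) + ∑ i, hsq k ε (G.locF i β)) := by
    rw [← Finset.sum_add_distrib, Finset.mul_sum]
    exact Finset.sum_le_sum fun i _ => by
      rw [hloc]; exact hsq_add_two ε k (G.smooth_locF i ha).smooth (G.smooth_locF i hb).smooth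
  have hA : 0 ≤ ∑ i, hsq k ε (G.locF i α) := Finset.sum_nonneg fun i _ => gs_hsq_nonneg ε k _
  have hB : 0 ≤ ∑ i, hsq k ε (G.locF i β) := Finset.sum_nonneg fun i _ => gs_hsq_nonneg ε k _
  unfold Geo.sob
  set A := ∑ i, hsq k ε (G.locF i α)
  set B := ∑ i, hsq k ε (G.locF i β)
  refine Real.sqrt_le_iff.2 ⟨by positivity, hle.trans ?_⟩
  nlinarith [Real.sq_sqrt hA, Real.sq_sqrt hB, Real.sqrt_nonneg A, Real.sqrt_nonneg B,
    mul_nonneg (Real.sqrt_nonneg A) (Real.sqrt_nonneg B)]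

end GS

variable [CompactSpace X] [OpensMeasurableSpace X] (S : GSetup X)

/-- A closed form with a prescribed anti-invariant part, linearly and with bounds. -/
theorem gSolve_of (B : Basic S.toGeo) (hE : EllipticX S.toGeo) (hF : SobFacts S.toGeo)
    (hn2 : ∃ C, ∀ α, S.Smooth2 α → S.n2 α ≤ C * S.sob 0 1 α)
    (hpt : ∀ α, S.Smooth2 α → (∀ᵐ x ∂S.μ, α x = 0) → α = 0) : GSolve S := by
  set p := GS.opL S.piMX S.smoothOp_piMX with hp
  set s := GS.opL S.swX S.smoothOp_swX with hs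
  obtain ⟨sol, hrm, hsol⟩ := (S.swapData B).exists_solution
  obtain ⟨c0, hc0, hell⟩ := S.exists_elliptic
  obtain ⟨Ch, hCh⟩ := hE _ 1 c0 (GS.smoothOp_smul S.smoothOp_asdX 4) (Or.inl rfl) hc0
    (fun x a => (hell x a).1) pU
  obtain ⟨Cc, hCc⟩ := hE _ (-1) c0 (GS.smoothOp_smul S.smoothOp_sdX 4) (Or.inr rfl) hc0
    (fun x a => (hell x a).2) pU
  set F1 : X → Form →L[ℝ] Form := fun _ => (4 : ℝ) • ContinuousLinearMap.id ℝ Form
  set F2 : X → Form →L[ℝ] Form := fun x =>
    (2 : ℝ) • (ContinuousLinearMap.id ℝ Form - S.piMX x)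
  have hF1 : S.SmoothOp F1 := GS.smoothOp_smul GS.smoothOp_id 4
  have hF2 : S.SmoothOp F2 :=
    GS.smoothOp_smul (GS.smoothOp_sub GS.smoothOp_id S.smoothOp_piMX) 2
  obtain ⟨M1, hM1⟩ := hF.mult F1 hF1 pU
  obtain ⟨M2, hM2⟩ := hF.mult F2 hF2 pU
  obtain ⟨Cn, hCn⟩ := hn2
  obtain ⟨Cs, hCs⟩ := hF.sup
  have hzero : S.Smooth2 (0 : X → Form) := Geo.smooth2_zero
  have hz : S.sob pU 1 (0 : X → Form) = 0 := GS.gs_sob_zero_fun S.toGeo pU 1
  set K : ℝ := |Cs| * (|Cc| * (‖sol‖ * |Cn| + 2 * (|M1| +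
    |M2| * (|Ch| * (‖hrm‖ * |Cn|))))) with hK
  have key : ∀ η : X → Form, ∃ al : X → Form, ∀ (hη : S.Smooth2 η),
      (∀ x, piP (S.J x) (η x) = 0) →
      S.Smooth2 al ∧ S.WeakClosed al ∧ (∀ x, piM (S.J x) (al x) = η x) ∧
      (sol (B.smooth_mem η hη).toLp : X → Form) =ᵐ[S.μ] al ∧
      (∀ x, ‖al x‖ ≤ K * S.sob pU 1 η) := by
    intro η
    by_cases hη : S.Smooth2 η
    swap
    · exact ⟨0, fun h => absurd h hη⟩
    by_cases hanti : ∀ x, piP (S.J x) (η x) = 0
    swap
    · exact ⟨0, fun _ h => absurd h hanti⟩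
    set η' := (B.smooth_mem η hη).toLp with hη'
    have hη'ae : (η' : X → Form) =ᵐ[S.μ] η := (B.smooth_mem η hη).coeFn_toLp
    have hpη : p η' = η' := by
      refine Lp.ext ?_
      filter_upwards [GS.opL_ae S.smoothOp_piMX η', hη'ae] with x h1 h2
      rw [h1, h2, GSetup.piMX_apply]
      exact (S.pt x).piM_eq_self (x := 0) (hanti x)
    obtain ⟨hcC, hcH, hpc, hsh, hsum⟩ := hsol η' hpη
    set c := sol η'
    set h := hrm η'
    -- the self-dual closed part
    have hPh : (fun x => ((4 : ℝ) • S.asdX x) (h x)) =ᵐ[S.μ] (0 : X → Form) := by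
      have hh : (s h : X → Form) =ᵐ[S.μ] h := by rw [hsh]
      filter_upwards [GS.opL_ae S.smoothOp_swX h, hh] with x h1 h2
      rw [h2, GSetup.swX_apply] at h1
      simp only [smul_apply, GSetup.asdX_apply, Pi.zero_apply]
      linear_combination (norm := module) (2 : ℝ) • h1
    obtain ⟨ah, hah, haeh, hbh⟩ := hCh h 0 (Lp.memLp h) (S.weakClosed_of_exactL B hcH) hzero hPh
    -- the right hand side
    have hg1 : S.Smooth2 fun x => F1 x (η x) := hF1.apply hη
    have hg2 : S.Smooth2 fun x => F2 x (ah x) := hF2.apply hah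
    set g := (fun x => F1 x (η x)) + fun x => F2 x (ah x) with hgdef
    have hPc : (fun x => ((4 : ℝ) • S.sdX x) (c x)) =ᵐ[S.μ] g := by
      have hs' : (c + s c : GS.L2X S.toGeo) = (2 : ℝ) • η' + h - p h := hsum
      have hae : ∀ᵐ x ∂S.μ, c x + s c x = (2 : ℝ) • η' x + h x - p h x := by
        filter_upwards [Lp.coeFn_add c (s c), Lp.coeFn_smul (2 : ℝ) η',
          Lp.coeFn_add ((2 : ℝ) • η') h, Lp.coeFn_sub ((2 : ℝ) • η' + h) (p h)]
          with x e1 e2 e3 e4
        simp only [Pi.add_apply, Pi.sub_apply, Pi.smul_apply] at e1 e2 e3 e4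
        rw [← e1, hs', e4, e3, e2]
      filter_upwards [hae, GS.opL_ae S.smoothOp_swX c, GS.opL_ae S.smoothOp_piMX h, hη'ae, haeh]
        with x e0 e1 e2 e3 e4
      rw [e1, e2, e3, GSetup.swX_apply, e4] at e0
      simp only [hgdef, F1, F2, Pi.add_apply, smul_apply, sub_apply,
        ContinuousLinearMap.id_apply]
      linear_combination (norm := module) (2 : ℝ) • e0
    obtain ⟨ac, hac, haec, hbc⟩ :=
      hCc c g (Lp.memLp c) (S.weakClosed_of_exactL B hcC) (hg1.add hg2) hPc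
    refine ⟨ac, fun _ _ => ⟨hac, fun ξ hξ => ?_, fun x => ?_, haec, fun x => ?_⟩⟩
    · exact (GS.pairing_congr _ haec.symm Filter.EventuallyEq.rfl).trans
        (S.weakClosed_of_exactL B hcC ξ hξ)
    · have h1 : S.Smooth2 ((fun x => S.piMX x (ac x)) - η) := (S.smoothOp_piMX.apply hac).sub hη
      have h2 := hpt _ h1 (by
        have hpc' : (p c : X → Form) =ᵐ[S.μ] η' := by rw [hpc]
        filter_upwards [GS.opL_ae S.smoothOp_piMX c, hpc', hη'ae, haec] with y e1 e2 e3 e4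
        rw [Pi.sub_apply, ← e4, ← e1, e2, e3, sub_self])
      exact sub_eq_zero.1 (congrFun h2 x)
    · have hN : ‖η'‖ ≤ |Cn| * S.sob pU 1 η := by
        rw [← GS.n2_eq_norm S.toGeo η' hη'ae]
        calc S.n2 η ≤ Cn * S.sob 0 1 η := hCn η hη
          _ ≤ |Cn| * S.sob 0 1 η :=
              mul_le_mul_of_nonneg_right (le_abs_self _) (GS.gs_sob_nonneg _ _ _ _)
          _ ≤ |Cn| * S.sob pU 1 η :=
              mul_le_mul_of_nonneg_left (GS.gs_sob_zero_le _ _ _ _) (abs_nonneg _)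
      have hnh : S.n2 h ≤ ‖hrm‖ * |Cn| * S.sob pU 1 η := by
        rw [GS.n2_eq_norm S.toGeo h Filter.EventuallyEq.rfl, mul_assoc]
        exact (hrm.le_opNorm η').trans (mul_le_mul_of_nonneg_left hN (norm_nonneg _))
      have hnc : S.n2 c ≤ ‖sol‖ * |Cn| * S.sob pU 1 η := by
        rw [GS.n2_eq_norm S.toGeo c Filter.EventuallyEq.rfl, mul_assoc]
        exact (sol.le_opNorm η').trans (mul_le_mul_of_nonneg_left hN (norm_nonneg _))
      have hsh' : S.sob pU 1 ah ≤ |Ch| * (‖hrm‖ * |Cn|) * S.sob pU 1 η := by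
        rw [hz, add_zero] at hbh
        rw [mul_assoc]
        refine hbh.trans ?_
        exact mul_le_mul (le_abs_self _) hnh (Real.sqrt_nonneg _) (abs_nonneg _)
      have hb1 : S.sob pU 1 (fun x => F1 x (η x)) ≤ |M1| * S.sob pU 1 η :=
        (hM1 η hη).trans (mul_le_mul_of_nonneg_right (le_abs_self _) (GS.gs_sob_nonneg _ _ _ _))
      have hb2 : S.sob pU 1 (fun x => F2 x (ah x)) ≤
          |M2| * (|Ch| * (‖hrm‖ * |Cn|)) * S.sob pU 1 η := by
        rw [mul_assoc]
        exact (hM2 ah hah).trans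
          (mul_le_mul (le_abs_self _) hsh' (GS.gs_sob_nonneg _ _ _ _) (abs_nonneg _))
      have hg : S.sob pU 1 g ≤
          2 * (|M1| + |M2| * (|Ch| * (‖hrm‖ * |Cn|))) * S.sob pU 1 η :=
        (GS.sob_add_two _ pU 1 hg1 hg2).trans (by linarith)
      calc ‖ac x‖ ≤ Cs * S.sob pU 1 ac := hCs ac hac x
        _ ≤ |Cs| * (|Cc| * (S.n2 c + S.sob pU 1 g)) := by
            refine mul_le_mul (le_abs_self _) (hbc.trans ?_) (GS.gs_sob_nonneg _ _ _ _) (abs_nonneg _)
            exact mul_le_mul_of_nonneg_right (le_abs_self _)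
              (add_nonneg (Real.sqrt_nonneg _) (GS.gs_sob_nonneg _ _ _ _))
        _ ≤ |Cs| * (|Cc| * ((‖sol‖ * |Cn| + 2 * (|M1| + |M2| * (|Ch| * (‖hrm‖ * |Cn|)))) *
              S.sob pU 1 η)) := by
            gcongr
            rw [add_mul]
            exact add_le_add hnc hg
        _ = K * S.sob pU 1 η := by rw [hK]; ring
  choose Gs hG using key
  refine ⟨⟨Gs, K, fun η hη hanti => ?_⟩⟩
  obtain ⟨h1, h2, h3, h4, h5⟩ := hG η hη hanti
  refine ⟨h1, h2, h3, h5, fun η' hη' hanti' => ?_, fun a => ?_⟩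
  · have hsum : S.Smooth2 (η + η') := hη.add hη'
    obtain ⟨g1, -, -, g4, -⟩ :=
      hG (η + η') hsum fun x => by simp [piP_add, hanti x, hanti' x]
    obtain ⟨k1, -, -, k4, -⟩ := hG η' hη' hanti'
    refine sub_eq_zero.1 (hpt _ (g1.sub (h1.add k1)) ?_)
    have he : sol (B.smooth_mem _ hsum).toLp =
        sol (B.smooth_mem η hη).toLp + sol (B.smooth_mem η' hη').toLp := by
      rw [← map_add]
      rfl
    rw [he] at g4
    filter_upwards [g4, h4, k4, Lp.coeFn_add (sol (B.smooth_mem η hη).toLp)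
      (sol (B.smooth_mem η' hη').toLp)] with x e1 e2 e3 e4
    rw [Pi.sub_apply, Pi.add_apply, ← e1, ← e2, ← e3]
    exact sub_eq_zero.2 e4
  · have hsum : S.Smooth2 (a • η) := hη.smul a
    obtain ⟨g1, -, -, g4, -⟩ :=
      hG (a • η) hsum fun x => by simp [piP_smul, hanti x]
    refine sub_eq_zero.1 (hpt _ (g1.sub (h1.smul a)) ?_)
    have he : sol (B.smooth_mem _ hsum).toLp = a • sol (B.smooth_mem η hη).toLp := by
      rw [← map_smul]
      rfl
    rw [he] at g4
    filter_upwards [g4, h4, Lp.coeFn_smul a (sol (B.smooth_mem η hη).toLp)] with x e1 e2 e3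
    rw [Pi.sub_apply, Pi.smul_apply, ← e1, ← e2]
    exact sub_eq_zero.2 e3

end Vale.Agent.P204.Gen
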