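import Vale.Agent.P204.Gen.GeoSmooth
import Vale.Agent.P204.Gen.EnergyBase
import Vale.Agent.P204.Gen.HBound
import Vale.Agent.P204.Torus.GOp

/-!
P204 on a closed four-manifold, module GU: square integrable fields, the current as a functional,
and elementary properties of the semiclassical norms.

A field which is orthogonal for the wedge pairing to all square integrable weakly closed fields is
a limit of exact fields (`exists_exact_approx`): the closure of the exact fields is the double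
orthogonal, and the swap of coordinates turns Euclidean orthogonality into weak closedness.
-/

open MeasureTheory Set Filter Topology
open scoped BigOperators ContDiff RealInnerProductSpace

namespace Vale.Agent.P204.Gen.GU

open Vale.Agent.P204.Torus

/-- The swap of coordinates: `q a b` is the inner product of `swF a` and `b`. -/
noncomputable def swF (a : Form) : Form := WithLp.toLp 2 fun k => a (sw k)

lemma q_eq_inner (a b : Form) : q a b = ⟪swF a, b⟫ := by
  rw [q_eq_sum, PiLp.inner_apply]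
  exact Finset.sum_congr rfl fun j _ => by simp [swF, mul_comm]

lemma swF_swF (a : Form) : swF (swF a) = a := by
  ext k; simp [swF, sw_sw]

lemma norm_swF (a : Form) : ‖swF a‖ = ‖a‖ := by
  simp only [EuclideanSpace.norm_eq, swF, Fin.sum_univ_six, sw, Matrix.cons_val_zero,
    Matrix.cons_val_one, Matrix.cons_val]
  congr 1
  ring

lemma continuous_swF : Continuous swF :=
  (PiLp.continuous_toLp 2 _).comp (continuous_pi fun k => PiLp.continuous_apply 2 _ (sw k))

/-! ## Semiclassical norms -/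

lemma hsq_nonneg' : ∀ (k : ℕ) (ε : ℝ) (f : V → Form), 0 ≤ hsq k ε f
  | 0, _, _ => integral_nonneg fun _ => sq_nonneg _
  | k + 1, ε, f => add_nonneg (hsq_nonneg' k ε f)
      (mul_nonneg (sq_nonneg ε) (Finset.sum_nonneg fun _ _ => hsq_nonneg' k ε _))

lemma hsq_smul' : ∀ (k : ℕ) (ε a : ℝ) (f : V → Form), hsq k ε (a • f) = a ^ 2 * hsq k ε f
  | 0, _, a, f => by
    simp only [hsq, Pi.smul_apply, norm_smul, mul_pow, Real.norm_eq_abs, sq_abs,
      integral_const_mul]
  | k + 1, ε, a, f => by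
    have h : ∀ l : Fin 4, (fun u => fderiv ℝ (a • f) u (e l)) =
        a • fun u => fderiv ℝ f u (e l) := fun l => by
      funext u
      rcases eq_or_ne a 0 with rfl | ha
      · simp
      · have : Invertible a := invertibleOfNonzero ha
        simp [fderiv_const_smul_of_invertible a]
    simp only [hsq, h, hsq_smul' k ε a, ← Finset.mul_sum]
    ring

lemma hsq_one_le' : ∀ (k : ℕ) {ε : ℝ}, 0 < ε → ε ≤ 1 → ∀ f : V → Form,
    ε ^ (2 * k) * hsq k 1 f ≤ hsq k ε f
  | 0, ε, _, _, f => by simp [hsq]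
  | k + 1, ε, he, he1, f => by
    have h1 : ε ^ (2 * (k + 1)) * hsq k 1 f ≤ hsq k ε f :=
      le_trans (mul_le_mul_of_nonneg_right (pow_le_pow_of_le_one he.le he1 (by omega))
        (hsq_nonneg' k 1 f)) (hsq_one_le' k he he1 f)
    have h2 : ε ^ (2 * (k + 1)) * (∑ l : Fin 4, hsq k 1 fun u => fderiv ℝ f u (e l)) ≤
        ε ^ 2 * ∑ l : Fin 4, hsq k ε fun u => fderiv ℝ f u (e l) := by
      rw [show ε ^ (2 * (k + 1)) = ε ^ 2 * ε ^ (2 * k) by ring, mul_assoc, Finset.mul_sum]
      exact mul_le_mul_of_nonneg_left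
        (Finset.sum_le_sum fun l _ => hsq_one_le' k he he1 _) (sq_nonneg ε)
    simp only [hsq, one_pow, one_mul]
    rw [mul_add (ε ^ (2 * (k + 1)))]
    linarith

lemma hsq_mono' (k : ℕ) (ε : ℝ) (f : V → Form) : hsq k ε f ≤ hsq (k + 1) ε f :=
  le_add_of_nonneg_right (mul_nonneg (sq_nonneg ε)
    (Finset.sum_nonneg fun _ _ => hsq_nonneg' k ε _))

variable {X : Type*} [TopologicalSpace X] [MeasurableSpace X] (G : Geo X)

lemma sob_nonneg' (k : ℕ) (ε : ℝ) (α : X → Form) : 0 ≤ G.sob k ε α := Real.sqrt_nonneg _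

lemma locF_smul' (i : Fin G.n) (a : ℝ) (α : X → Form) :
    G.locF i (a • α) = a • G.locF i α := by
  have h : (fun x => G.ψ i x • (a • α) x) = a • fun x => G.ψ i x • α x := by
    funext x; simp only [Pi.smul_apply, smul_smul, mul_comm]
  simp only [Geo.locF, h, G.rep2_smul]
  rfl

lemma sob_smul' (k : ℕ) (ε a : ℝ) (α : X → Form) :
    G.sob k ε (a • α) = |a| * G.sob k ε α := by
  simp only [Geo.sob, locF_smul' G, hsq_smul', ← Finset.mul_sum]
  rw [Real.sqrt_mul (sq_nonneg a), Real.sqrt_sq_eq_abs]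

lemma sob_mono' {k l : ℕ} (h : k ≤ l) (ε : ℝ) (α : X → Form) : G.sob k ε α ≤ G.sob l ε α := by
  induction l, h using Nat.le_induction with
  | base => exact le_rfl
  | succ m _ ih =>
    exact ih.trans (Real.sqrt_le_sqrt (Finset.sum_le_sum fun i _ => hsq_mono' m ε _))

lemma sob_one_le' (k : ℕ) {ε : ℝ} (he : 0 < ε) (he1 : ε ≤ 1) (α : X → Form) :
    G.sob k 1 α ≤ G.sob k ε α / ε ^ k := by
  rw [le_div_iff₀ (pow_pos he k)]
  calc G.sob k 1 α * ε ^ k
      = Real.sqrt ((∑ i, hsq k 1 (G.locF i α)) * ε ^ (2 * k)) := by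
        rw [Real.sqrt_mul' _ (by positivity), pow_mul', Real.sqrt_sq (pow_nonneg he.le k), Geo.sob]
    _ ≤ G.sob k ε α := by
        refine Real.sqrt_le_sqrt ?_
        rw [Finset.sum_mul]
        exact Finset.sum_le_sum fun i _ => (mul_comm _ _).trans_le (hsq_one_le' k he he1 _)

/-! ## Square integrable fields -/

lemma memLp_swF {f : X → Form} (hf : MemLp f 2 G.μ) : MemLp (fun x => swF (f x)) 2 G.μ :=
  hf.of_le (continuous_swF.comp_aestronglyMeasurable hf.1)
    (Eventually.of_forall fun _ => (norm_swF _).le)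

lemma n2_swF (f : X → Form) : G.n2 (fun x => swF (f x)) = G.n2 f := by
  simp only [Geo.n2, norm_swF]

lemma inner_toLp {f g : X → Form} (hf : MemLp f 2 G.μ) (hg : MemLp g 2 G.μ) :
    ⟪hf.toLp f, hg.toLp g⟫ = ∫ x, ⟪f x, g x⟫ ∂G.μ := by
  rw [L2.inner_def]
  refine integral_congr_ae ?_
  filter_upwards [hf.coeFn_toLp, hg.coeFn_toLp] with x h1 h2
  rw [h1, h2]

lemma norm_toLp' {f : X → Form} (hf : MemLp f 2 G.μ) : ‖hf.toLp f‖ = G.n2 f := by
  rw [Geo.n2, norm_eq_sqrt_real_inner, inner_toLp G hf hf]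
  simp only [real_inner_self_eq_norm_sq]

lemma pairing_le {f g : X → Form} (hf : MemLp f 2 G.μ) (hg : MemLp g 2 G.μ) :
    |G.pairing f g| ≤ G.n2 f * G.n2 g := by
  have h : G.pairing f g = ⟪(memLp_swF G hf).toLp _, hg.toLp g⟫ := by
    rw [inner_toLp G, Geo.pairing]
    simp only [q_eq_inner]
  rw [h, ← n2_swF G f, ← norm_toLp' G (memLp_swF G hf), ← norm_toLp' G hg]
  exact abs_real_inner_le_norm _ _

lemma pairing_sub_left {f f' g : X → Form} (hf : MemLp f 2 G.μ) (hf' : MemLp f' 2 G.μ)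
    (hg : MemLp g 2 G.μ) :
    G.pairing (fun x => f x - f' x) g = G.pairing f g - G.pairing f' g := by
  simp only [Geo.pairing, q_sub_left]
  exact integral_sub (G.integrable_q hf hg) (G.integrable_q hf' hg)

lemma n2_le_add_sub {f g : X → Form} (hf : MemLp f 2 G.μ) (hg : MemLp g 2 G.μ) :
    G.n2 g ≤ G.n2 f + G.n2 (fun x => f x - g x) := by
  change _ ≤ _ + G.n2 (f - g)
  rw [← norm_toLp' G hf, ← norm_toLp' G hg, ← norm_toLp' G (hf.sub hg), MemLp.toLp_sub hf hg]
  calc ‖hg.toLp g‖ = ‖hf.toLp f - (hf.toLp f - hg.toLp g)‖ := by rw [sub_sub_cancel]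
    _ ≤ _ := norm_sub_le _ _

/-- A field orthogonal to the smooth closed fields is orthogonal to all weakly closed fields. -/
lemma pairing_eq_zero_of_closed (hB : Basic G) (hR : RegFacts G) {f : X → Form}
    (hf : MemLp f 2 G.μ) (h0 : ∀ α, G.Smooth2 α → G.WeakClosed α → G.pairing f α = 0)
    {w : X → Form} (hw : MemLp w 2 G.μ) (hwc : G.WeakClosed w) : G.pairing f w = 0 := by
  refine abs_nonpos_iff.1 (le_of_forall_pos_le_add fun δ hδ => ?_)
  have hpos : 0 < G.n2 f + 1 := add_pos_of_nonneg_of_pos (G.n2_nonneg f) one_pos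
  obtain ⟨α, hα, hc, hd⟩ := hR.closed_dense w hw hwc (δ / (G.n2 f + 1)) (div_pos hδ hpos)
  have hαm := hB.smooth_mem α hα
  have h1 : G.pairing f w = G.pairing f (fun x => w x - α x) := by
    rw [G.pairing_sub_right hf hw hαm, h0 α hα hc, sub_zero]
  have hd' : MemLp (fun x => w x - α x) 2 G.μ := hw.sub hαm
  rw [h1, zero_add]
  refine (pairing_le G hf hd').trans ?_
  calc G.n2 f * G.n2 (fun x => w x - α x) ≤ (G.n2 f + 1) * (δ / (G.n2 f + 1)) :=
        mul_le_mul (by linarith) hd (G.n2_nonneg _) hpos.le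
    _ = δ := mul_div_cancel₀ δ hpos.ne'

/-- A field orthogonal to all weakly closed fields is a limit of exact fields. -/
lemma exists_exact_approx (hB : Basic G) {f : X → Form} (hf : MemLp f 2 G.μ)
    (h0 : ∀ w, MemLp w 2 G.μ → G.WeakClosed w → G.pairing f w = 0) {δ : ℝ} (hδ : 0 < δ) :
    ∃ η, G.Smooth1 η ∧ G.n2 (fun x => f x - G.d η x) ≤ δ := by
  have hmem : ∀ η, G.Smooth1 η → MemLp (G.d η) 2 G.μ := fun η hη =>
    hB.smooth_mem _ (hB.smooth_d η hη)
  let E : Submodule ℝ (Lp Form 2 G.μ) :=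
    { carrier := {F | ∃ η, G.Smooth1 η ∧ (F : X → Form) =ᵐ[G.μ] G.d η}
      zero_mem' := ⟨0, Geo.smooth1_zero, by
        have h0 : G.d (0 : X → V) = 0 := by
          simpa using G.d_smul (Geo.smooth1_zero (G := G)) 0
        rw [h0]; exact Lp.coeFn_zero _ _ _⟩
      add_mem' := by
        rintro F F' ⟨η, hη, h⟩ ⟨η', hη', h'⟩
        exact ⟨η + η', hη.add hη', by
          rw [G.d_add hη hη']; exact (Lp.coeFn_add F F').trans (h.add h')⟩
      smul_mem' := by
        rintro a F ⟨η, hη, h⟩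
        exact ⟨a • η, hη.smul a, by
          rw [G.d_smul hη]; exact (Lp.coeFn_smul a F).trans (h.const_smul a)⟩ }
  have hF : hf.toLp f ∈ E.topologicalClosure := by
    rw [← Submodule.orthogonal_orthogonal_eq_closure, Submodule.mem_orthogonal]
    intro b hb
    have hbm : MemLp (b : X → Form) 2 G.μ := Lp.memLp b
    have hw := memLp_swF G hbm
    have hwc : G.WeakClosed fun x => swF ((b : X → Form) x) := fun η hη => by
      have h := Submodule.mem_orthogonal' E b |>.1 hb _ (show (hmem η hη).toLp _ ∈ E from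
        ⟨η, hη, (hmem η hη).coeFn_toLp⟩)
      have e : b = hbm.toLp _ := (Lp.toLp_coeFn b hbm).symm
      rw [e, inner_toLp G] at h
      simpa only [Geo.pairing, q_eq_inner, swF_swF] using h
    have h := h0 _ hw hwc
    have e : b = hbm.toLp _ := (Lp.toLp_coeFn b hbm).symm
    rw [e, inner_toLp G, ← h, Geo.pairing]
    refine integral_congr_ae (Eventually.of_forall fun x => ?_)
    dsimp only
    rw [q_comm, q_eq_inner, swF_swF]
  obtain ⟨F, ⟨η, hη, hF'⟩, hd⟩ := Metric.mem_closure_iff.1 hF δ hδ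
  refine ⟨η, hη, ?_⟩
  have e : F = (hmem η hη).toLp _ := Lp.ext (hF'.trans (hmem η hη).coeFn_toLp.symm)
  rw [dist_eq_norm, e, ← MemLp.toLp_sub, norm_toLp' G] at hd
  exact hd.le

/-! ## The current as a functional -/

variable {S : GSetup X} (T : Positive S)
variable [T2Space X] [CompactSpace X]

lemma exists_h_bound : ∃ M, 0 < M ∧ ∀ x, ‖T.h x‖ ≤ M := by
  obtain ⟨N, hN⟩ := T.exists_h_bound
  exact ⟨max N 1, lt_max_of_lt_right one_pos, fun x => (hN x).trans (le_max_left _ _)⟩

lemma integrable_app {α : X → Form} (hm : Measurable α) {A : ℝ} (hA : ∀ x, ‖α x‖ ≤ A) :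
    Integrable (fun x => q (T.h x) (α x)) T.ν := by
  have := T.finite
  obtain ⟨M, hM, hb⟩ := exists_h_bound T
  refine Integrable.of_bound ?_ (6 * (M * A)) (Eventually.of_forall fun x => ?_)
  · exact ((Setup.continuous_q continuous_fst continuous_snd).measurable.comp
      (T.meas.prodMk hm)).aestronglyMeasurable
  · refine (abs_q_le _ _).trans (mul_le_mul_of_nonneg_left ?_ (by norm_num))
    exact mul_le_mul (hb x) (hA x) (norm_nonneg _) hM.le

lemma app_add {α β : X → Form} (hα : Measurable α) {A : ℝ} (hA : ∀ x, ‖α x‖ ≤ A)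
    (hβ : Measurable β) {B : ℝ} (hB : ∀ x, ‖β x‖ ≤ B) :
    T.app (α + β) = T.app α + T.app β := by
  simp only [Positive.app, Pi.add_apply, q_add_right]
  exact integral_add (integrable_app T hα hA) (integrable_app T hβ hB)

omit [T2Space X] [CompactSpace X] in
lemma app_smul (a : ℝ) (α : X → Form) : T.app (a • α) = a * T.app α := by
  simp only [Positive.app, Pi.smul_apply, q_smul_right, integral_const_mul]

lemma exists_app_bound :
    ∃ K, 0 ≤ K ∧ ∀ (α : X → Form) (A : ℝ), (∀ x, ‖α x‖ ≤ A) → |T.app α| ≤ K * A := by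
  have := T.finite
  obtain ⟨M, hM, hb⟩ := exists_h_bound T
  refine ⟨6 * M * T.ν.real univ, by positivity, fun α A hA => ?_⟩
  have h := norm_integral_le_of_norm_le_const (μ := T.ν) (f := fun x => q (T.h x) (α x))
    (C := 6 * (M * A)) (Eventually.of_forall fun x => (abs_q_le _ _).trans
      (mul_le_mul_of_nonneg_left (mul_le_mul (hb x) (hA x) (norm_nonneg _) hM.le) (by norm_num)))
  exact h.trans_eq (by ring)

end Vale.Agent.P204.Gen.GU
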