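import Vale.Agent.P204.Gen.GVanishBase
import Vale.Agent.P204.Gen.EnergyBase
import Vale.Agent.P204.Gen.GeoDist
import Vale.Agent.P204.Gen.HBound
import Vale.Agent.P204.Gen.Integral
import Vale.Agent.P204.Gen.GMono

/-!
P204 on a closed four-manifold, module GVanish: the cut-off at the density (`CutFamily`).
-/

open MeasureTheory Filter Topology Set
open scoped BigOperators ContDiff

namespace Vale.Agent.P204.Gen

open Vale.Agent.P204.Torus

/-- The chart distances are below the distance of `X` near a compact subset of a chart. -/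
def Geo.DistLower {X : Type*} [TopologicalSpace X] [MeasurableSpace X] (G : Geo X) : Prop :=
  ∀ i, ∀ K : Set X, IsCompact K → K ⊆ (G.φ i).source → ∃ c > 0, ∀ y ∈ K, ∀ z, G.dX z y < c →
    z ∈ (G.φ i).source ∧ c * ‖G.φ i z - G.φ i y‖ ≤ G.dX z y

/-- The chart distances are below the distance of `X` near a compact subset of a chart. -/
lemma Geo.distLower {X : Type*} [TopologicalSpace X] [MeasurableSpace X] [T2Space X]
    [CompactSpace X] (G : Geo X) : G.DistLower := by
  intro i K hK hs
  obtain ⟨K', hK', hsub, hK's⟩ := exists_compact_between hK (G.φ i).open_source hs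
  obtain ⟨δ, hδ, hmem⟩ := G.exists_dX_lt_mem hK isOpen_interior hsub
  obtain ⟨C, hC, hle⟩ := G.exists_le_dX hK' hK's
  refine ⟨min δ (1 / C), lt_min hδ (one_div_pos.2 hC), fun y hy z hz => ?_⟩
  have hz' : z ∈ K' := interior_subset
    (hmem y hy z ((G.dX_comm y z).trans_lt (hz.trans_le (min_le_left _ _))))
  refine ⟨hK's hz', (mul_le_mul_of_nonneg_right (min_le_right _ _) (norm_nonneg _)).trans ?_⟩
  rw [div_mul_eq_mul_div, one_mul, div_le_iff₀' hC]
  exact hle z hz' y (interior_subset (hsub hy))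

/-- The volume of `X` in a chart is below the Lebesgue measure on the support of the cut-off. -/
def Geo.VolUpper {X : Type*} [TopologicalSpace X] [MeasurableSpace X] (G : Geo X) : Prop :=
  ∀ i, ∃ C : ℝ, (G.μ.restrict ((G.φ i).symm '' tsupport (G.χ i))).map (G.φ i) ≤
    ENNReal.ofReal C • (volume : Measure V).restrict cube

namespace GVanish

variable {X : Type*} [TopologicalSpace X] [MeasurableSpace X] [T2Space X] [CompactSpace X]
  [BorelSpace X] {S : GSetup X}

lemma d_sum {ι : Type*} (s : Finset ι) {a : ι → X → V} (ha : ∀ i ∈ s, S.Smooth1 (a i)) :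
    S.d (fun x => ∑ i ∈ s, a i x) = fun x => ∑ i ∈ s, S.d (a i) x := by
  classical
  induction s using Finset.induction_on with
  | empty =>
    have h := S.d_smul (a := (0 : X → V)) Geo.smooth1_zero 0
    simp only [zero_smul] at h
    simpa [Pi.zero_def] using h
  | insert i s hi ih =>
    have h1 := ha i (Finset.mem_insert_self i s)
    have hs : ∀ j ∈ s, S.Smooth1 (a j) := fun j hj => ha j (Finset.mem_insert_of_mem hj)
    have h2 : S.Smooth1 (fun x => ∑ j ∈ s, a j x) := by
      simpa [← Finset.sum_fn] using Geo.Smooth1.sum s hs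
    have h3 := S.d_add h1 h2
    rw [ih hs] at h3
    simp only [Finset.sum_insert hi]
    exact h3

variable {T : GCurrent S}

/-- The two norms of an exact form of a chart, against a majorant of its representative. -/
lemma exists_norms (i : Fin S.n) {K : Set X} (hK : IsCompact K)
    (hs : K ⊆ (S.φ i).source) {Cm : ℝ}
    (hCm : (S.μ.restrict K).map (S.φ i) ≤ ENNReal.ofReal Cm • (volume : Measure V).restrict cube) :
    ∃ C, 0 ≤ C ∧ ∀ (F : X → Form) (ρ : V → ℝ), (∀ x, x ∉ K → F x = 0) → Continuous ρ →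
      (∀ x ∈ K, ‖S.rep2 i F (S.φ i x)‖ ≤ ρ (S.φ i x)) →
      S.n2 F ≤ C * l2 ρ ∧ S.n1 F ≤ C * l1 ρ := by
  classical
  obtain ⟨Ct, hCt0, hCt⟩ := exists_trD_bound i hK hs
  set A := 72 * Ct ^ 2
  set m := max Cm 0
  have hm : ENNReal.ofReal Cm = ENNReal.ofReal m := by simp [m, ENNReal.ofReal_max]
  refine ⟨max (A * Real.sqrt m) (A * m), by positivity, fun F ρ h0 hρ hle => ?_⟩
  have hpt : ∀ x ∈ K, ‖F x‖ ≤ A * ‖ρ (S.φ i x)‖ := fun x hx => by
    rw [eq_pull_trD F (hs hx)]
    refine (norm_pull_le' _ _).trans ?_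
    have h1 := (hle x hx).trans (le_abs_self _)
    simp only [A]
    gcongr
    · exact hCt x hx
    · exact h1
  have hφ : AEMeasurable (S.φ i) (S.μ.restrict K) :=
    ((S.φ i).continuousOn.mono hs).aemeasurable hK.measurableSet
  have hint : ∀ p : ℕ, p ≠ 0 → ∫ x, ‖F x‖ ^ p ∂S.μ ≤ A ^ p * (m * ∫ u in cube, ‖ρ u‖ ^ p) := by
    intro p hp
    have hsupp : ∫ x, ‖F x‖ ^ p ∂S.μ = ∫ x in K, ‖F x‖ ^ p ∂S.μ :=
      (setIntegral_eq_integral_of_forall_compl_eq_zero fun x hx => by
        rw [h0 x hx, norm_zero, zero_pow hp]).symm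
    have hρi : Integrable (fun u => ‖ρ u‖ ^ p) (ENNReal.ofReal m • volume.restrict cube) :=
      (integrable_cube_of_continuous (hρ.norm.pow p)).smul_measure ENNReal.ofReal_ne_top
    rw [hm] at hCm
    have hi1 : Integrable (fun u => ‖ρ u‖ ^ p) ((S.μ.restrict K).map (S.φ i)) :=
      hρi.mono_measure hCm
    have hi2 : Integrable (fun x => A ^ p * ‖ρ (S.φ i x)‖ ^ p) (S.μ.restrict K) :=
      ((integrable_map_measure hi1.aestronglyMeasurable hφ).1 hi1).const_mul _
    rw [hsupp]
    refine (integral_mono_of_nonneg (Eventually.of_forall fun x => by positivity) hi2 ?_).trans ?_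
    · filter_upwards [ae_restrict_mem hK.measurableSet] with x hx
      rw [← mul_pow]
      exact pow_le_pow_left₀ (norm_nonneg _) (hpt x hx) p
    · rw [integral_const_mul, ← integral_map hφ hi1.aestronglyMeasurable]
      refine mul_le_mul_of_nonneg_left ((integral_mono_measure hCm
        (Eventually.of_forall fun u => by positivity) hρi).trans_eq ?_) (by positivity)
      rw [integral_smul_measure, ENNReal.toReal_ofReal (le_max_right _ _), smul_eq_mul]
  constructor
  · refine le_trans ?_ (mul_le_mul_of_nonneg_right (le_max_left _ _) (l2_nonneg ρ))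
    rw [Geo.n2, l2, show A * Real.sqrt m * Real.sqrt (∫ x in cube, ‖ρ x‖ ^ 2) =
      Real.sqrt (A ^ 2 * (m * ∫ x in cube, ‖ρ x‖ ^ 2)) by
        rw [Real.sqrt_mul (sq_nonneg A), Real.sqrt_sq (by positivity),
          Real.sqrt_mul (le_max_right _ _)]; ring]
    exact Real.sqrt_le_sqrt (hint 2 two_ne_zero)
  · have h := hint 1 one_ne_zero
    simp only [pow_one] at h
    refine h.trans ?_
    rw [← mul_assoc]
    exact mul_le_mul_of_nonneg_right (le_max_right _ _) (integral_nonneg fun x => norm_nonneg _)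

/-- The current of a chart on exact forms which are small. -/
lemma exists_exact {D : GUData T} (hB : Basic S.toGeo) (hmap : S.VolUpper) {N : ℝ}
    (hN : ∀ x, ‖T.h x‖ ≤ N) (L : D.SLimit) {i : Fin S.n} {Lc : LocalChart S i}
    {Tc : Current Lc.loc} (hT : IsLocal T.toPositive Tc) :
    ∀ C : ℝ, ∀ δ > 0, ∃ κ > 0, ∀ (b : V → V) (ρ : V → ℝ), Smooth b → Continuous ρ →
      (∀ x, 0 ≤ ρ x) → (∀ x, ‖b x‖ ≤ ρ x ∧ ‖d1 b x‖ ≤ ρ x) → l2 ρ ≤ C → l1 ρ ≤ κ →
      (∀ x ∈ tsupport (S.χ i) \ interior {u | S.χ i u = 1}, ‖b x‖ ≤ κ) →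
      |Tc.app (d1 b)| ≤ δ := by
  classical
  have := T.finite
  intro C δ hδ
  set K := (S.φ i).symm '' tsupport (S.χ i)
  have hK : IsCompact K :=
    (S.χ_cpt i).isCompact.image_of_continuousOn ((S.φ i).continuousOn_symm.mono (S.χ_supp i))
  have hKs : K ⊆ (S.φ i).source := by
    rintro x ⟨u, hu, rfl⟩
    exact (S.φ i).map_target (S.χ_supp i hu)
  obtain ⟨Ct, hCt0, hCt⟩ := exists_trD_bound i hK hKs
  obtain ⟨Cm, hCm⟩ := hmap i
  obtain ⟨Cn, hCn0, hCn⟩ := exists_norms i hK hKs hCm
  have hfd : Continuous fun u => fderiv ℝ (S.χ i) u := (S.χ_smooth i).continuous_fderiv (by simp)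
  have hg : Continuous fun u => grad (S.χ i) u :=
    continuous_pi fun k => hfd.clm_apply continuous_const
  have hgc : HasCompactSupport fun u => grad (S.χ i) u :=
    HasCompactSupport.intro (S.χ_cpt i).isCompact fun u hu => by
      funext k
      rw [grad, fderiv_of_notMem_tsupport (𝕜 := ℝ) hu]
      rfl
  obtain ⟨Mg, hMg⟩ := hg.bounded_above_of_compact_support hgc
  have hMg0 : 0 ≤ Mg := (norm_nonneg _).trans (hMg 0)
  set A := 1 + 12 * Mg
  obtain ⟨η, hη, hS⟩ := L.Sf_small (Cn * (A * max C 0)) (δ / 2) (by positivity)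
  set B := 6 * (max N 0 * (72 * Ct ^ 2 * (12 * Mg))) * T.ν.real univ
  refine ⟨min (η / (Cn * A + 1)) (δ / 2 / (B + 1)), by positivity,
    fun b ρ hb hρ hρ0 hbd h2 h1 hE => ?_⟩
  set F := S.d (S.fromChart1 i b)
  have hs1 : S.Smooth1 (S.fromChart1 i b) := S.smooth1_fromChart1 hb.smooth.contDiffOn
  have hFs : S.Smooth2 F := S.smooth2_d hs1
  have hrep : ∀ u ∈ (S.φ i).target,
      S.rep2 i F u = S.χ i u • d1 b u + wedge (grad (S.χ i) u) (b u) := fun u hu => by
    have he : S.rep1 i (S.fromChart1 i b) =ᶠ[𝓝 u] fun v => S.χ i v • b v := by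
      filter_upwards [(S.φ i).open_target.mem_nhds hu] with v hv
      exact S.rep1_fromChart1 b hv
    rw [S.rep2_d hs1 hu,
      ← d1_smul (((S.χ_smooth i).differentiable (by simp)) u) (hb.differentiableAt u)]
    simp only [d1, he.fderiv_eq]
  have hF0 : ∀ x, x ∉ K → F x = 0 := fun x hx => by
    have he : S.rep1 (S.tr x) (S.fromChart1 i b) =ᶠ[𝓝 (S.ch x x)] fun _ => 0 := by
      have hc : ContinuousAt (S.φ (S.tr x)).symm (S.ch x x) :=
        (S.φ _).continuousAt_symm ((S.φ _).map_source (S.mem_ch x))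
      have hx' : (S.φ (S.tr x)).symm (S.ch x x) ∈ Kᶜ := by
        rw [Geo.ch, (S.φ _).left_inv (S.mem_ch x)]; exact hx
      filter_upwards [hc.eventually_mem (hK.isClosed.isOpen_compl.mem_nhds hx'),
        (S.φ (S.tr x)).open_target.mem_nhds ((S.φ _).map_source (S.mem_ch x))] with v hv hv2
      simp only [Geo.rep1, hv2, if_true, Geo.fromChart1]
      split_ifs with hy
      · rw [image_eq_zero_of_notMem_tsupport fun h => hv ⟨_, h, (S.φ i).left_inv hy⟩,
          zero_smul, pullV_zero, pullV_zero]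
      · exact pullV_zero _
    show d1 _ _ = 0
    ext k
    rw [d1_apply, he.fderiv_eq]
    simp
  have hFn : ∀ x ∈ K, ‖S.rep2 i F (S.φ i x)‖ ≤ A * ρ (S.φ i x) := fun x hx => by
    rw [hrep _ ((S.φ i).map_source (hKs hx))]
    refine (norm_add_le _ _).trans ?_
    rw [norm_smul, Real.norm_eq_abs, abs_of_nonneg (S.χ_range i _).1,
      show A * ρ (S.φ i x) = ρ (S.φ i x) + 12 * (Mg * ρ (S.φ i x)) by simp only [A]; ring]
    refine add_le_add ((mul_le_of_le_one_left (norm_nonneg _) (S.χ_range i _).2).trans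
      (hbd _).2) ((norm_wedge_le _ _).trans ?_)
    gcongr
    · exact hMg _
    · exact (hbd _).1
  obtain ⟨hn2, hn1⟩ := hCn F (fun u => A * ρ u) hF0 (continuous_const.mul hρ) hFn
  have hA : 0 ≤ A := by positivity
  have hl2 : l2 (fun u => A * ρ u) = A * l2 ρ := by
    simp only [l2, norm_mul, mul_pow, Real.norm_of_nonneg hA]
    rw [integral_const_mul, Real.sqrt_mul (sq_nonneg A), Real.sqrt_sq hA]
  have hl1 : l1 (fun u => A * ρ u) = A * l1 ρ := by
    simp only [l1, norm_mul, Real.norm_of_nonneg hA]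
    rw [integral_const_mul]
  have hSf : |D.Sf F| ≤ δ / 2 := by
    refine hS F hFs (hn2.trans ?_) (hn1.trans ?_)
    · rw [hl2]
      gcongr
      exact h2.trans (le_max_left _ _)
    · rw [hl1, ← mul_assoc]
      calc Cn * A * l1 ρ ≤ Cn * A * (η / (Cn * A + 1)) :=
            mul_le_mul_of_nonneg_left (h1.trans (min_le_left _ _)) (by positivity)
        _ = η * (Cn * A / (Cn * A + 1)) := by ring
        _ ≤ η := mul_le_of_le_one_right hη.le (div_le_one_of_le₀ (by linarith) (by positivity))
  have hU : D.U F = 0 := D.closed F hFs fun ξ hξ => hB.stokes _ _ hs1 hξ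
  rw [GUData.Sf, hU, zero_sub, abs_neg] at hSf
  obtain ⟨M1, hM10, hM1⟩ := exists_bound (smooth_d1 hb).smooth.continuous (smooth_d1 hb).periodic
  obtain ⟨hai, hae⟩ := app_loc hT (smooth_d1 hb).smooth.continuous.measurable hM1
  obtain ⟨M2, hM2⟩ := hB.smooth_bound F hFs
  have hFi : Integrable (fun x => q (T.h x) (F x)) T.ν :=
    Integrable.of_bound ((Setup.continuous_q continuous_fst continuous_snd).measurable.comp
      (T.meas.prodMk (hB.smooth_meas F hFs))).aestronglyMeasurable (6 * (max N 0 * M2))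
      (Eventually.of_forall fun x => by
        rw [Real.norm_eq_abs]
        refine (abs_q_le _ _).trans ?_
        gcongr
        · exact (hN x).trans (le_max_left _ _)
        · exact hM2 x)
  set κ := min (η / (Cn * A + 1)) (δ / 2 / (B + 1))
  have hκ : 0 ≤ κ := by positivity
  have hdiff : ∀ x, |q (T.h x) (F x) -
      cw S i x * q (T.h x) (pull (S.trD (S.tr x) i x) (d1 b (S.φ i x)))| ≤
      6 * (max N 0 * (72 * Ct ^ 2 * (12 * Mg))) * κ := by
    intro x
    by_cases hx : x ∈ K
    · have hi := hKs hx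
      set u := S.φ i x
      rw [eq_pull_trD F hi, hrep u ((S.φ i).map_source hi), ← pullL_apply, map_add, map_smul,
        pullL_apply, pullL_apply, q_add_right, q_smul_right,
        show cw S i x = S.χ i u from S.fromChart0_apply _ hi, add_sub_cancel_left]
      refine (abs_q_le _ _).trans ?_
      rw [mul_assoc 6, mul_assoc (max N 0)]
      gcongr
      · exact (hN x).trans (le_max_left _ _)
      refine (norm_pull_le' _ _).trans ?_
      rw [mul_assoc (72 * Ct ^ 2)]
      gcongr
      · exact hCt x hx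
      refine (norm_wedge_le _ _).trans ?_
      rw [mul_assoc]
      by_cases hu : u ∈ tsupport (S.χ i) \ interior {u | S.χ i u = 1}
      · gcongr
        · exact hMg _
        · exact hE u hu
      · have h0 : grad (S.χ i) u = 0 := by
          have hfz : fderiv ℝ (S.χ i) u = 0 := by
            by_cases h1 : u ∈ tsupport (S.χ i)
            · have h2 : u ∈ interior {u | S.χ i u = 1} := not_not.1 fun h => hu ⟨h1, h⟩
              have he : S.χ i =ᶠ[𝓝 u] fun _ => (1 : ℝ) := mem_interior_iff_mem_nhds.1 h2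
              rw [he.fderiv_eq]
              simp
            · exact fderiv_of_notMem_tsupport (𝕜 := ℝ) h1
          funext k
          rw [grad, hfz]
          rfl
        rw [h0, norm_zero, zero_mul, mul_zero]
        positivity
    · have hc : cw S i x = 0 := by
        by_contra h
        exact hx ⟨_, (cw_ne h).2, (S.φ i).left_inv (cw_ne h).1⟩
      rw [hF0 x hx, hc, zero_mul, sub_zero, show q (T.h x) 0 = 0 by simp [q], abs_zero]
      positivity
  have hd : |T.app F - Tc.app (d1 b)| ≤ δ / 2 := by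
    rw [hae, Positive.app, ← integral_sub hFi hai, ← Real.norm_eq_abs]
    refine (norm_integral_le_of_norm_le_const (Eventually.of_forall hdiff)).trans ?_
    calc 6 * (max N 0 * (72 * Ct ^ 2 * (12 * Mg))) * κ * T.ν.real univ = B * κ := by ring
      _ ≤ B * (δ / 2 / (B + 1)) :=
          mul_le_mul_of_nonneg_left (min_le_right _ _) (by positivity)
      _ = δ / 2 * (B / (B + 1)) := by ring
      _ ≤ δ / 2 :=
          mul_le_of_le_one_right (by positivity) (div_le_one_of_le₀ (by linarith) (by positivity))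
  calc |Tc.app (d1 b)| = |T.app F - (T.app F - Tc.app (d1 b))| := by rw [sub_sub_cancel]
    _ ≤ |T.app F| + |T.app F - Tc.app (d1 b)| := abs_sub _ _
    _ ≤ δ / 2 + δ / 2 := add_le_add hSf hd
    _ = δ := add_halves δ

/-- The adapted density of a chart, cut at the level `τ`. -/
noncomputable def cutT {S : GSetup X} {T : Positive S} (M : MonoData T) (τ : ℝ) (i : Fin S.n)
    (k : ℕ) (u : V) : ℝ :=
  (M.Tc i).Th (scale k) u / ((M.Tc i).Th (scale k) u + τ)

lemma cutT_smooth {S : GSetup X} {T : Positive S} (M : MonoData T) {τ : ℝ} (hτ : 0 < τ)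
    (i : Fin S.n) (k : ℕ) : Smooth (cutT M τ i k) := by
  have h := (UData.fderiv_Th (T := M.Tc i) (scale_pos' k)).1
  refine ⟨h.smooth.div (h.smooth.add contDiff_const) fun u => ?_, fun u n => ?_⟩
  · exact (add_pos_of_nonneg_of_pos ((M.Tc i).Th_nonneg _ _) hτ).ne'
  · simp only [cutT, h.periodic u n]

lemma cutT_mem {S : GSetup X} {T : Positive S} (M : MonoData T) {τ : ℝ} (hτ : 0 < τ)
    (i : Fin S.n) (k : ℕ) (u : V) : cutT M τ i k u ∈ Set.Icc (0 : ℝ) 1 := by
  have h := (M.Tc i).Th_nonneg (scale k) u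
  exact ⟨div_nonneg h (by linarith), div_le_one_of_le₀ (by linarith) (by linarith)⟩

/-- The density of `X` is below the density of a chart. -/
lemma exists_dens_le {i : Fin S.n} {Lc : LocalChart S i}
    {Tc : Current Lc.loc} (hT : IsLocal T.toPositive Tc) :
    ∃ C, 0 < C ∧ ∀ r, 0 < r → ∀ y ∈ tsupport (S.ψ i),
      T.dens r y ≤ C * (Tc.Th r (S.φ i y) + r ^ 2) := by
  classical
  have := T.finite
  have hK := isCompact_psi (S := S) i
  obtain ⟨c, hc, hlow⟩ := S.toGeo.distLower i _ hK (S.ψ_supp i)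
  set K' := S.φ i '' tsupport (S.ψ i)
  have hK' : IsCompact K' :=
    hK.image_of_continuousOn ((S.φ i).continuousOn.mono (S.ψ_supp i))
  have hsub : K' ⊆ interior {u | S.χ i u = 1} := by
    rintro u ⟨x, hx, rfl⟩
    exact mem_interior_iff_mem_nhds.2 (S.χ_one i x hx)
  obtain ⟨δ, hδ, hth⟩ := hK'.exists_thickening_subset_open isOpen_interior hsub
  obtain ⟨Ct, hCt, hcmp⟩ := Lc.loc.exists_th_compare
  set c1 := min c (c * δ / 2)
  set a := min (c ^ 2 / 4) 1
  have hc1 : 0 < c1 := by positivity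
  have ha : 0 < a := by positivity
  have hd0 : ∀ u : V, dist0 u ≤ 2 * ‖u‖ := fun u => by
    rw [dist0, div_le_iff₀ Real.pi_pos, Real.sqrt_le_iff]
    refine ⟨by positivity, ?_⟩
    calc ∑ j, Real.sin (Real.pi * u j) ^ 2 ≤ ∑ _j : Fin 4, (Real.pi * ‖u‖) ^ 2 := by
          refine Finset.sum_le_sum fun j _ => ?_
          rw [← sq_abs]
          refine pow_le_pow_left₀ (abs_nonneg _) ((Real.abs_sin_le_abs).trans ?_) 2
          rw [abs_mul, abs_of_pos Real.pi_pos]
          exact mul_le_mul_of_nonneg_left (abs_coord_le' u j) Real.pi_pos.le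
      _ = _ := by simp; ring
  refine ⟨1 / a ^ 2 * Ct + 1 / c1 ^ 4 * T.ν.real univ + 1, by positivity, fun r hr y hy => ?_⟩
  set uy := S.φ i y
  have hthm : Measurable fun u => Lc.loc.th r uy u :=
    ((Lc.loc.continuous_th₂ hr).comp (continuous_const.prodMk continuous_id)).measurable
  have hthb : ∀ u, |Lc.loc.th r uy u| ≤ 1 / r ^ 2 := fun u => by
    rw [abs_of_nonneg (Lc.loc.th_nonneg r uy u)]
    exact Lc.loc.th_le hr uy u
  have hint := integrable_loc T.toPositive i hthm hthb
  have hTh : Tc.Th r uy = ∫ z, cw S i z * Lc.loc.th r uy (S.φ i z) ∂T.ν := by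
    rw [Current.Th, hT.1, integral_loc T.toPositive i hthm]
  have hpt : ∀ z, r ^ 2 / (r ^ 2 + S.dX z y ^ 2) ^ 2 ≤
      1 / a ^ 2 * Ct * (cw S i z * Lc.loc.th r uy (S.φ i z)) + r ^ 2 * (1 / c1 ^ 4) := by
    intro z
    have h0 : 0 ≤ cw S i z * Lc.loc.th r uy (S.φ i z) :=
      mul_nonneg (cw_nonneg i z) (Lc.loc.th_nonneg r _ _)
    rcases lt_or_ge (S.dX z y) c1 with h | h
    · obtain ⟨hz, hzd⟩ := hlow y hy z (h.trans_le (min_le_left _ _))
      set d := ‖S.φ i z - uy‖
      have hdlt : d < δ := by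
        have h1 : c * d < c * δ := by
          have h2 := min_le_right c (c * δ / 2)
          have h3 : 0 < c * δ := by positivity
          calc c * d ≤ S.dX z y := hzd
            _ < c1 := h
            _ ≤ c * δ / 2 := h2
            _ < c * δ := by linarith
        exact lt_of_mul_lt_mul_left h1 hc.le
      have hone : cw S i z = 1 := by
        rw [cw, S.fromChart0_apply _ hz]
        have hmem : S.φ i z ∈ interior {u | S.χ i u = 1} :=
          hth (Metric.mem_thickening_iff.2 ⟨uy, ⟨y, hy, rfl⟩, by rw [dist_eq_norm]; exact hdlt⟩)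
        exact interior_subset (s := {u | S.χ i u = 1}) hmem
      have hden : a * (r ^ 2 + dist0 (S.φ i z - uy) ^ 2) ≤ r ^ 2 + S.dX z y ^ 2 := by
        have h2 : c * dist0 (S.φ i z - uy) ≤ 2 * S.dX z y :=
          (mul_le_mul_of_nonneg_left (hd0 _) hc.le).trans (by linarith)
        have h3 : (c * dist0 (S.φ i z - uy)) ^ 2 ≤ (2 * S.dX z y) ^ 2 :=
          pow_le_pow_left₀ (by have := dist0_nonneg (S.φ i z - uy); positivity) h2 2
        have h4 := mul_le_mul_of_nonneg_right (min_le_left (c ^ 2 / 4) 1)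
          (sq_nonneg (dist0 (S.φ i z - uy)))
        have h5 := mul_le_of_le_one_left (sq_nonneg r) (min_le_right (c ^ 2 / 4) 1)
        nlinarith
      refine le_add_of_le_of_nonneg ?_ (by positivity)
      rw [hone, one_mul]
      calc r ^ 2 / (r ^ 2 + S.dX z y ^ 2) ^ 2
          ≤ r ^ 2 / (a * (r ^ 2 + dist0 (S.φ i z - uy) ^ 2)) ^ 2 := by gcongr
        _ = 1 / a ^ 2 * (r ^ 2 / (r ^ 2 + dist0 (S.φ i z - uy) ^ 2) ^ 2) := by field_simp
        _ ≤ 1 / a ^ 2 * (Ct * Lc.loc.th r uy (S.φ i z)) := by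
            gcongr
            exact (hcmp r hr uy (S.φ i z)).2
        _ = _ := by ring
    · refine le_add_of_nonneg_of_le (mul_nonneg (by positivity) h0) ?_
      calc r ^ 2 / (r ^ 2 + S.dX z y ^ 2) ^ 2 ≤ r ^ 2 / (c1 ^ 2) ^ 2 := by
            gcongr
            nlinarith
        _ = _ := by ring
  rw [Positive.dens]
  refine (integral_mono_of_nonneg (Eventually.of_forall fun z => by positivity)
    ((hint.const_mul _).add (integrable_const _)) (Eventually.of_forall hpt)).trans ?_
  simp only [Pi.add_apply]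
  rw [integral_add (hint.const_mul _) (integrable_const _), integral_const_mul, ← hTh,
    integral_const, smul_eq_mul]
  have h1 := Tc.Th_nonneg r uy
  have h2 : 0 ≤ T.ν.real univ := measureReal_nonneg
  have h3 : 0 ≤ 1 / a ^ 2 * Ct := by positivity
  have h4 : 0 ≤ 1 / c1 ^ 4 * T.ν.real univ := by positivity
  nlinarith [mul_nonneg h3 (sq_nonneg r), mul_nonneg h4 h1]

/-- The point in the coordinates of the chart `i`. -/
noncomputable def pch (S : GSetup X) (i : Fin S.n) : X → V := by
  classical exact (S.φ i).source.piecewise (S.φ i) 0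

omit [T2Space X] [CompactSpace X] [BorelSpace X] in
lemma pch_of_mem {i : Fin S.n} {x : X} (h : x ∈ (S.φ i).source) : pch S i x = S.φ i x := by
  classical exact Set.piecewise_eq_of_mem _ _ _ h

omit [T2Space X] [CompactSpace X] in
lemma measurable_pch (i : Fin S.n) : Measurable (pch S i) := by
  classical
  unfold pch
  exact (S.φ i).continuousOn.measurable_piecewise continuousOn_const
    (S.φ i).open_source.measurableSet

/-- The cut-off of the chart `i` at a point of `X`. -/
noncomputable def cutX (M : MonoData T.toPositive) (τ : ℝ) (i : Fin S.n) (k : ℕ) (x : X) : ℝ :=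
  cutT M τ i k (pch S i x)

/-- The limit of the cut-offs. -/
noncomputable def cutL (M : MonoData T.toPositive) (τ : ℝ) (i : Fin S.n) (x : X) : ℝ :=
  M.lim i (pch S i x) / (M.lim i (pch S i x) + τ)

lemma lim_nonneg (M : MonoData T.toPositive) (i : Fin S.n) (u : V) : 0 ≤ M.lim i u :=
  ge_of_tendsto' (M.tendsto i u) fun _ => (M.Tc i).Th_nonneg _ _

lemma measurable_cutX (M : MonoData T.toPositive) {τ : ℝ} (hτ : 0 < τ) (i : Fin S.n) (k : ℕ) :
    Measurable (cutX M τ i k) :=
  (cutT_smooth M hτ i k).smooth.continuous.measurable.comp (measurable_pch i)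

lemma cutX_mem (M : MonoData T.toPositive) {τ : ℝ} (hτ : 0 < τ) (i : Fin S.n) (k : ℕ) (x : X) :
    cutX M τ i k x ∈ Set.Icc (0 : ℝ) 1 := cutT_mem M hτ i k _

lemma tendsto_cutX (M : MonoData T.toPositive) {τ : ℝ} (hτ : 0 < τ) (i : Fin S.n) (x : X) :
    Tendsto (fun k => cutX M τ i k x) atTop (𝓝 (cutL M τ i x)) :=
  (M.tendsto i _).div ((M.tendsto i _).add_const τ)
    (add_pos_of_nonneg_of_pos (lim_nonneg M i _) hτ).ne'

lemma measurable_cutL (M : MonoData T.toPositive) {τ : ℝ} (hτ : 0 < τ) (i : Fin S.n) :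
    Measurable (cutL M τ i) :=
  measurable_of_tendsto_metrizable (fun k => measurable_cutX M hτ i k)
    (tendsto_pi_nhds.2 (tendsto_cutX M hτ i))

lemma cutL_mem (M : MonoData T.toPositive) {τ : ℝ} (hτ : 0 < τ) (i : Fin S.n) (x : X) :
    cutL M τ i x ∈ Set.Icc (0 : ℝ) 1 :=
  isClosed_Icc.mem_of_tendsto (tendsto_cutX M hτ i x)
    (Eventually.of_forall fun k => cutX_mem M hτ i k x)

/-- The global cut-off is smooth. -/
lemma smooth_cut (M : MonoData T.toPositive) {τ : ℝ} (hτ : 0 < τ) (k : ℕ) :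
    S.Smooth0 fun x => ∑ i, S.ψ i x * cutX M τ i k x := by
  refine Geo.Smooth0.sum _ fun i _ => ?_
  intro j u hu
  have hc := (S.φ j).continuousAt_symm hu
  refine ContDiffAt.contDiffWithinAt ?_
  by_cases hx : (S.φ j).symm u ∈ (S.φ i).source
  · refine ((((Geo.smooth0_psi (G := S.toGeo) i) j).contDiffAt
      ((S.φ j).open_target.mem_nhds hu)).mul ((cutT_smooth M hτ i k).smooth.contDiffAt.comp u
        (S.contDiffAt_tc (i := j) (j := i) (S.mem_tdom.2 ⟨hu, hx⟩)))).congr_of_eventuallyEq ?_
    filter_upwards [(S.φ j).open_target.mem_nhds hu,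
      hc.eventually_mem ((S.φ i).open_source.mem_nhds hx)] with v hv hvi
    simp [Geo.rep0, hv, cutX, Geo.tc, pch_of_mem hvi]
  · have hxK : (S.φ j).symm u ∉ tsupport (S.ψ i) := fun h => hx (S.ψ_supp i h)
    refine (contDiffAt_const (c := (0 : ℝ))).congr_of_eventuallyEq ?_
    filter_upwards [hc.eventually_mem ((isClosed_tsupport _).isOpen_compl.mem_nhds hxK)]
      with v hv
    by_cases hvt : v ∈ (S.φ j).target
    · simp [Geo.rep0, hvt, image_eq_zero_of_notMem_tsupport hv]
    · exact S.rep0_of_notMem _ hvt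

/-- The cut-off forms vanish away from the supports. -/
lemma zero_off (i : Fin S.n) {η : X → V} (hη : S.Smooth1 η) {x : X} (hx : x ∉ tsupport (S.ψ i)) :
    S.d (fun y => S.ψ i y • η y) x = 0 := by
  have hψ0 := image_eq_zero_of_notMem_tsupport hx
  have h0 : S.d0 (S.ψ i) x = 0 := by
    funext k
    have he : S.rep0 (S.tr x) (S.ψ i) =ᶠ[𝓝 (S.ch x x)] fun _ => (0 : ℝ) := by
      have hc : ContinuousAt (S.φ (S.tr x)).symm (S.ch x x) :=
        (S.φ _).continuousAt_symm ((S.φ _).map_source (S.mem_ch x))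
      have hx' : (S.φ (S.tr x)).symm (S.ch x x) ∈ (tsupport (S.ψ i))ᶜ := by
        rw [Geo.ch, (S.φ _).left_inv (S.mem_ch x)]; exact hx
      filter_upwards [hc.eventually_mem ((isClosed_tsupport _).isOpen_compl.mem_nhds hx'),
        (S.φ (S.tr x)).open_target.mem_nhds ((S.φ _).map_source (S.mem_ch x))] with v hv hv2
      simp [Geo.rep0, hv2, image_eq_zero_of_notMem_tsupport hv]
    show fderiv ℝ _ _ _ = _
    rw [he.fderiv_eq]
    simp
  rw [S.d_fsmul (Geo.smooth0_psi i) hη, hψ0, h0]
  ext k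
  simp [wedge_apply]

/-- A bounded weighted pairing with the current. -/
lemma integrable_pairing {N K : ℝ} (hN : ∀ x, ‖T.h x‖ ≤ N) {w : X → ℝ} (hw : Measurable w)
    (hw1 : ∀ x, w x ∈ Set.Icc (0 : ℝ) 1) {γ : X → Form} (hγ : Measurable γ)
    (hK : ∀ x, ‖γ x‖ ≤ K) :
    Integrable (fun x => w x * q (T.h x) (γ x)) T.ν ∧
      ∀ x, |w x * q (T.h x) (γ x)| ≤ 6 * (max N 0 * K) := by
  have := T.finite
  have hb : ∀ x, |w x * q (T.h x) (γ x)| ≤ 6 * (max N 0 * K) := fun x => by
    rw [abs_mul, abs_of_nonneg (hw1 x).1]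
    refine (mul_le_of_le_one_left (abs_nonneg _) (hw1 x).2).trans ((abs_q_le _ _).trans ?_)
    gcongr
    · exact (hN x).trans (le_max_left _ _)
    · exact hK x
  exact ⟨Integrable.of_bound (hw.mul ((Setup.continuous_q continuous_fst
    continuous_snd).measurable.comp (T.meas.prodMk hγ))).aestronglyMeasurable _
      (Eventually.of_forall hb), hb⟩

/-- The support of the partition of unity is away from the transition of the cut-off. -/
lemma exists_sep (i : Fin S.n) :
    ∃ δ₀ > 0, ∀ x ∈ tsupport (S.χ i) \ interior {u | S.χ i u = 1},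
      ∀ y ∈ S.φ i '' tsupport (S.ψ i), δ₀ ≤ dist0 (x - y) := by
  have hK : IsCompact (S.φ i '' tsupport (S.ψ i)) :=
    (isCompact_psi i).image_of_continuousOn ((S.φ i).continuousOn.mono (S.ψ_supp i))
  have hE : IsCompact (tsupport (S.χ i) \ interior {u | S.χ i u = 1}) :=
    (S.χ_cpt i).isCompact.diff isOpen_interior
  have hc : Continuous fun p : V × V => dist0 (p.1 - p.2) :=
    continuous_dist0.comp (continuous_fst.sub continuous_snd)
  have hpos : ∀ p ∈ (tsupport (S.χ i) \ interior {u | S.χ i u = 1}) ×ˢ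
      (S.φ i '' tsupport (S.ψ i)), (0 : ℝ) < dist0 (p.1 - p.2) := by
    rintro ⟨u, v⟩ ⟨⟨hu1, hu2⟩, x, hx, rfl⟩
    refine dist0_pos_of_Q0 (S.target_sub i (S.χ_supp i hu1))
      (S.target_sub i ((S.φ i).map_source (S.ψ_supp i hx))) fun h => hu2 ?_
    simp only at h hu2 ⊢
    rw [h]
    exact mem_interior_iff_mem_nhds.2 (S.χ_one i x hx)
  obtain ⟨c, hc0, hc'⟩ := (hE.prod hK).exists_forall_le' hc.continuousOn hpos
  exact ⟨c, hc0, fun x hx y hy => hc' (x, y) ⟨hx, hy⟩⟩

/-- The cut-off exact forms of one chart pair to zero. -/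
lemma tendsto_chart (hB : Basic S.toGeo) (hmap : S.VolUpper) {N : ℝ} (hN : ∀ x, ‖T.h x‖ ≤ N)
    (hP : PairMass T.toPositive) (M : MonoData T.toPositive) {D : GUData T} (L : D.SLimit)
    {τ : ℝ} (hτ : 0 < τ) {η : X → V} (hη : S.Smooth1 η) (i : Fin S.n) :
    Tendsto (fun k => ∫ x, cutX M τ i k x * q (T.h x) (S.d (fun y => S.ψ i y • η y) x) ∂T.ν)
      atTop (𝓝 0) := by
  classical
  have := T.finite
  set a : Fin S.n → X → V := fun i x => S.ψ i x • η x
  have has : ∀ i, S.Smooth1 (a i) := fun i => (Geo.smooth0_psi i).smul1 hη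
  set K' := S.φ i '' tsupport (S.ψ i)
  have hK' : IsCompact K' :=
    (isCompact_psi i).image_of_continuousOn ((S.φ i).continuousOn.mono (S.ψ_supp i))
  have hK'Q : K' ⊆ Q0 := by
    rintro u ⟨x, hx, rfl⟩
    exact S.target_sub i ((S.φ i).map_source (S.ψ_supp i hx))
  set E := tsupport (S.χ i) \ interior {u | S.χ i u = 1}
  have hE : IsCompact E := (S.χ_cpt i).isCompact.diff isOpen_interior
  have hrc : tsupport (S.rep1 i (a i)) ⊆ K' := by
    refine closure_minimal (fun u hu => ?_) hK'.isClosed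
    by_cases ht : u ∈ (S.φ i).target
    · refine ⟨(S.φ i).symm u, subset_tsupport _ fun h => hu ?_, (S.φ i).right_inv ht⟩
      simp [Geo.rep1, ht, a, h, pullV_zero]
    · exact absurd (S.rep1_of_notMem _ ht) hu
  have hcs : HasCompactSupport (S.rep1 i (a i)) :=
    hK'.of_isClosed_subset (isClosed_tsupport _) hrc
  have hsm : ContDiff ℝ ∞ (S.rep1 i (a i)) := by
    refine contDiff_iff_contDiffAt.2 fun u => ?_
    by_cases hu : u ∈ tsupport (S.rep1 i (a i))
    · obtain ⟨x, hx, rfl⟩ := hrc hu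
      exact S.contDiffAt_rep1 (has i) ((S.φ i).map_source (S.ψ_supp i hx))
    · exact contDiffAt_const.congr_of_eventuallyEq (notMem_tsupport_iff_eventuallyEq.1 hu)
  have hηi : Smooth (pext (S.rep1 i (a i))) := smooth_pext hsm hcs (hrc.trans hK'Q)
  obtain ⟨δ₀, hδ₀, hsep0⟩ := exists_sep (S := S) i
  have hsep : ∀ x ∈ E, ∀ y, pext (S.rep1 i (a i)) y ≠ 0 → δ₀ ≤ dist0 (x - y) := by
    intro x hx y hy
    rw [dist0_sub_fred]
    exact hsep0 x hx _ (hrc (subset_tsupport _ hy))
  obtain ⟨CP, BP, hCP, hBP, hP0, hP1⟩ := pair_loc hP (M.isLocal i)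
  have hmain := (Current.tendsto_app_cut_local (M.dens i)
    (fun r hr hr1 u => M.Th_le i r hr hr1 u) hCP hBP hP0 hP1 (M.transverse i) hηi hδ₀ hsep
    (exists_exact hB hmap hN L (M.isLocal i)) hτ)
  refine hmain.congr fun k => ?_
  obtain ⟨M1, hM10, hM1⟩ :=
    exists_bound (smooth_d1 hηi).smooth.continuous (smooth_d1 hηi).periodic
  show (M.Tc i).app (fun u => cutT M τ i k u • d1 (pext (S.rep1 i (a i))) u) = _
  rw [(app_loc (M.isLocal i) (α := fun u => cutT M τ i k u • d1 (pext (S.rep1 i (a i))) u)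
    (((cutT_smooth M hτ i k).smooth.continuous.smul
      (smooth_d1 hηi).smooth.continuous).measurable) (M := M1) fun u => by
      rw [norm_smul, Real.norm_eq_abs, abs_of_nonneg (cutT_mem M hτ i k u).1]
      exact (mul_le_of_le_one_left (norm_nonneg _) (cutT_mem M hτ i k u).2).trans (hM1 u)).2]
  refine integral_congr_ae (Eventually.of_forall fun x => ?_)
  simp only
  by_cases hx : x ∈ (S.φ i).source
  · have hu := (S.φ i).map_source hx
    have hd1 : d1 (pext (S.rep1 i (a i))) (S.φ i x) = S.rep2 i (S.d (a i)) (S.φ i x) := by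
      rw [S.rep2_d (has i) hu]
      simp only [d1, (pext_eventuallyEq _ (S.target_sub i hu)).fderiv_eq]
    rw [← pullL_apply, map_smul, pullL_apply, q_smul_right, hd1, ← eq_pull_trD _ hx]
    have hfx : cutX M τ i k x = cutT M τ i k (S.φ i x) := by
      rw [cutX, pch_of_mem hx]
    rw [hfx]
    by_cases hψ : x ∈ tsupport (S.ψ i)
    · rw [cw_one hψ, one_mul]
    · simp [a, zero_off i hη hψ, q]
  · have hψ : x ∉ tsupport (S.ψ i) := fun h => hx (S.ψ_supp i h)
    have hc : cw S i x = 0 := by_contra fun h => hx (cw_ne h).1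
    simp [zero_off i hη hψ, hc, q]

/-- The mass left by the cut-off. -/
lemma eventually_mass (hd : T.DensBound) (M : MonoData T.toPositive) :
    ∃ C, 0 ≤ C ∧ ∀ τ > 0, ∀ δ > 0, ∀ᶠ j in atTop,
      ∫ x, (∑ i, S.ψ i x * (1 - cutL M τ i x)) * T.dens (scale j) x ∂T.ν ≤ C * τ + δ := by
  classical
  have := T.finite
  choose Cd hCd0 hCd using fun i => exists_dens_le (M.isLocal i)
  set C0 := ∑ i, Cd i
  set m := T.ν.real univ
  have hC0 : ∀ i, Cd i ≤ C0 := fun i =>
    Finset.single_le_sum (f := Cd) (fun j _ => (hCd0 j).le) (Finset.mem_univ i)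
  have hC00 : 0 ≤ C0 := Finset.sum_nonneg fun j _ => (hCd0 j).le
  refine ⟨C0 * m, by positivity, fun τ hτ δ hδ => ?_⟩
  have hψs : ∀ i, Measurable (S.ψ i) := fun i => (S.ψ_cont i).measurable
  obtain ⟨Cb, hCb⟩ := hd
  set G : ℕ → X → ℝ := fun j x => C0 * ∑ i, S.ψ i x * (1 - cutL M τ i x) *
    ((M.Tc i).Th (scale j) (pch S i x) + scale j ^ 2)
  set H : X → ℝ := fun x => C0 * ∑ i, S.ψ i x * (1 - cutL M τ i x) *
    M.lim i (pch S i x)
  have hGm : ∀ j, Measurable (G j) := fun j => (Finset.measurable_fun_sum _ fun i _ =>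
    ((hψs i).mul ((measurable_cutL M hτ i).const_sub 1)).mul
      (((UData.fderiv_Th (T := M.Tc i) (scale_pos' j)).1.smooth.continuous.measurable.comp
        (measurable_pch i)).add_const _)).const_mul _
  have hw0 : ∀ i x, 0 ≤ S.ψ i x * (1 - cutL M τ i x) := fun i x =>
    mul_nonneg (S.ψ_nonneg i x) (by linarith [(cutL_mem M hτ i x).2])
  have hG0 : ∀ j x, 0 ≤ G j x := fun j x => mul_nonneg hC00 (Finset.sum_nonneg fun i _ =>
    mul_nonneg (hw0 i x) (add_nonneg ((M.Tc i).Th_nonneg _ _) (sq_nonneg _)))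
  have hGb : ∀ j x, G j x ≤ C0 * (M.A + 1) := fun j x => by
    refine mul_le_mul_of_nonneg_left ?_ hC00
    calc _ ≤ ∑ i, S.ψ i x * (M.A + 1) := Finset.sum_le_sum fun i _ => by
          refine mul_le_mul (mul_le_of_le_one_right (S.ψ_nonneg i x)
            (by linarith [(cutL_mem M hτ i x).1])) (add_le_add
              (M.Th_le i _ (scale_pos' j) (Mass.scale_le_one j) _)
              (pow_le_one₀ (scale_pos' j).le (Mass.scale_le_one j)))
            (add_nonneg ((M.Tc i).Th_nonneg _ _) (sq_nonneg _)) (S.ψ_nonneg i x)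
      _ = M.A + 1 := by rw [← Finset.sum_mul, S.ψ_sum, one_mul]
  have hlimG : Tendsto (fun j => ∫ x, G j x ∂T.ν) atTop (𝓝 (∫ x, H x ∂T.ν)) := by
    refine tendsto_integral_of_dominated_convergence (fun _ => C0 * (M.A + 1))
      (fun j => (hGm j).aestronglyMeasurable) (integrable_const _)
      (fun j => Eventually.of_forall fun x => by
        rw [Real.norm_eq_abs, abs_of_nonneg (hG0 j x)]; exact hGb j x)
      (Eventually.of_forall fun x => ?_)
    refine (tendsto_finsetSum _ fun i _ => ?_).const_mul C0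
    have h2 := (tendsto_scale.pow 2)
    rw [zero_pow two_ne_zero] at h2
    have h1 := ((M.tendsto i (pch S i x)).add h2).const_mul
      (S.ψ i x * (1 - cutL M τ i x))
    rwa [add_zero] at h1
  have hH : ∫ x, H x ∂T.ν ≤ C0 * m * τ := by
    refine (integral_mono_of_nonneg (Eventually.of_forall fun x => mul_nonneg hC00
      (Finset.sum_nonneg fun i _ => mul_nonneg (hw0 i x) (lim_nonneg M _ _)))
      (integrable_const (C0 * τ)) (Eventually.of_forall fun x => ?_)).trans_eq ?_
    · refine mul_le_mul_of_nonneg_left ?_ hC00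
      calc _ ≤ ∑ i, S.ψ i x * τ := Finset.sum_le_sum fun i _ => by
            rw [mul_assoc]
            refine mul_le_mul_of_nonneg_left ?_ (S.ψ_nonneg i x)
            set l := M.lim i (pch S i x)
            have hl : 0 ≤ l := lim_nonneg M _ _
            show (1 - l / (l + τ)) * l ≤ τ
            rw [one_sub_div (by positivity), add_sub_cancel_left, div_mul_eq_mul_div,
              div_le_iff₀ (by positivity)]
            nlinarith
        _ = τ := by rw [← Finset.sum_mul, S.ψ_sum, one_mul]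
    · rw [integral_const, smul_eq_mul]; ring
  filter_upwards [hlimG.eventually (eventually_le_nhds
    (show ∫ x, H x ∂T.ν < C0 * m * τ + δ by linarith))] with j hj
  refine le_trans ?_ hj
  refine integral_mono_of_nonneg (Eventually.of_forall fun x => mul_nonneg
    (Finset.sum_nonneg fun i _ => hw0 i x) (integral_nonneg fun z => by positivity))
    (Integrable.of_bound (hGm j).aestronglyMeasurable (C0 * (M.A + 1))
      (Eventually.of_forall fun x => by
        rw [Real.norm_eq_abs, abs_of_nonneg (hG0 j x)]; exact hGb j x))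
    (Eventually.of_forall fun x => ?_)
  simp only [G, Finset.sum_mul, Finset.mul_sum]
  refine Finset.sum_le_sum fun i _ => ?_
  rw [mul_left_comm C0]
  by_cases hx : x ∈ tsupport (S.ψ i)
  · refine mul_le_mul_of_nonneg_left ?_ (hw0 i x)
    rw [pch_of_mem (S.ψ_supp i hx)]
    exact (hCd i _ (scale_pos' j) x hx).trans (mul_le_mul_of_nonneg_right (hC0 i)
      (add_nonneg ((M.Tc i).Th_nonneg _ _) (sq_nonneg _)))
  · simp [image_eq_zero_of_notMem_tsupport hx]

end GVanish

open GVanish in
/-- The cut-off family at the density. -/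
theorem cutFamily {X : Type*} [TopologicalSpace X] [MeasurableSpace X] [T2Space X]
    [CompactSpace X] [BorelSpace X] {S : GSetup X} {T : GCurrent S} {D : GUData T}
    (hB : Basic S.toGeo) (hmap : S.VolUpper) (hd : T.DensBound) (hP : PairMass T.toPositive)
    (M : MonoData T.toPositive) (L : D.SLimit) : CutFamily T.toPositive := by
  classical
  have := T.finite
  obtain ⟨C, hC, hmass⟩ := eventually_mass hd M
  obtain ⟨N, hN⟩ := T.toPositive.exists_h_bound
  refine ⟨C, hC, fun τ hτ => ?_⟩
  have hψs : ∀ i, Measurable (S.ψ i) := fun i => (S.ψ_cont i).measurable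
  refine ⟨fun k x => ∑ i, S.ψ i x * cutX M τ i k x, fun x => ∑ i, S.ψ i x * (1 - cutL M τ i x),
    fun k => ⟨smooth_cut M hτ k,
      Finset.measurable_fun_sum _ fun i _ => (hψs i).mul (measurable_cutX M hτ i k),
      fun x => ⟨Finset.sum_nonneg fun i _ => mul_nonneg (S.ψ_nonneg i x) (cutX_mem M hτ i k x).1,
        (Finset.sum_le_sum fun i _ => mul_le_of_le_one_right (S.ψ_nonneg i x)
          (cutX_mem M hτ i k x).2).trans (S.ψ_sum x).le⟩⟩,
    ⟨Finset.measurable_fun_sum _ fun i _ => (hψs i).mul ((measurable_cutL M hτ i).const_sub 1),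
      fun x => ?_⟩, fun η hη => ?_, hmass τ hτ⟩
  · have h := tendsto_finsetSum Finset.univ fun i _ =>
      ((tendsto_cutX M hτ i x).const_sub 1).const_mul (S.ψ i x)
    refine h.congr fun k => ?_
    simp only [mul_sub, Finset.sum_sub_distrib, mul_one, S.ψ_sum x]
  · set α : Fin S.n → X → Form := fun i => S.d fun y => S.ψ i y • η y
    set β : Fin S.n → X → Form := fun i x => α i x - S.ψ i x • S.d η x
    have has : ∀ i, S.Smooth1 fun y => S.ψ i y • η y := fun i => (Geo.smooth0_psi i).smul1 hη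
    have hαm : ∀ i, Measurable (α i) := fun i => hB.smooth_meas _ (S.smooth2_d (has i))
    have hdm : Measurable (S.d η) := hB.smooth_meas _ (S.smooth2_d hη)
    choose Mα hMα using fun i => hB.smooth_bound _ (S.smooth2_d (has i))
    obtain ⟨Mη, hMη⟩ := hB.smooth_bound _ (S.smooth2_d hη)
    have hsum : ∀ x, ∑ i, β i x = 0 := fun x => by
      have h := congrFun (d_sum (S := S) Finset.univ fun i _ => has i) x
      simp only [← Finset.sum_smul, S.ψ_sum, one_smul] at h
      simp only [β, α, Finset.sum_sub_distrib, ← Finset.sum_smul, S.ψ_sum, one_smul]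
      rw [sub_eq_zero]
      exact h.symm
    have hβm : ∀ i, Measurable (β i) := fun i => (hαm i).sub ((hψs i).smul hdm)
    have hβb : ∀ i x, ‖β i x‖ ≤ Mα i + Mη := fun i x => by
      refine (norm_sub_le _ _).trans (add_le_add (hMα i x) ?_)
      rw [norm_smul, Real.norm_eq_abs, abs_of_nonneg (S.ψ_nonneg i x)]
      exact (mul_le_of_le_one_left (norm_nonneg _) ((Finset.single_le_sum
        (fun j _ => S.ψ_nonneg j x) (Finset.mem_univ i)).trans (S.ψ_sum x).le)).trans (hMη x)
    have hi1 : ∀ i k, Integrable (fun x => cutX M τ i k x * q (T.h x) (α i x)) T.ν := fun i k =>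
      (integrable_pairing hN (measurable_cutX M hτ i k) (cutX_mem M hτ i k) (hαm i) (hMα i)).1
    have hi2 := fun i k =>
      integrable_pairing hN (measurable_cutX M hτ i k) (cutX_mem M hτ i k) (hβm i) (hβb i)
    have hl : ∀ i, Tendsto (fun k => ∫ x, cutX M τ i k x * q (T.h x) (β i x) ∂T.ν) atTop
        (𝓝 (∫ x, cutL M τ i x * q (T.h x) (β i x) ∂T.ν)) := fun i =>
      tendsto_integral_of_dominated_convergence (fun _ => 6 * (max N 0 * (Mα i + Mη)))
        (fun k => (hi2 i k).1.aestronglyMeasurable) (integrable_const _)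
        (fun k => Eventually.of_forall (hi2 i k).2)
        (Eventually.of_forall fun x => (tendsto_cutX M hτ i x).mul_const _)
    have h0 : ∑ i, ∫ x, cutL M τ i x * q (T.h x) (β i x) ∂T.ν = 0 := by
      rw [← integral_finsetSum _ fun i _ =>
        (integrable_pairing hN (measurable_cutL M hτ i) (cutL_mem M hτ i) (hβm i) (hβb i)).1]
      refine integral_eq_zero_of_ae (Eventually.of_forall fun x => ?_)
      have hj := subset_tsupport _ (S.tr_pos x).ne'
      have he : ∀ i, cutL M τ i x * q (T.h x) (β i x) =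
          cutL M τ (S.tr x) x * q (T.h x) (β i x) := fun i => by
        by_cases hx : x ∈ tsupport (S.ψ i)
        · rw [cutL, cutL, pch_of_mem (S.ψ_supp i hx), pch_of_mem (S.ψ_supp _ hj),
            M.agree i (S.tr x) x hx hj]
        · have : β i x = 0 := by
            simp only [β, α, zero_off i hη hx, image_eq_zero_of_notMem_tsupport hx, zero_smul,
              sub_zero]
          simp [this, q]
      simp only [Pi.zero_apply]
      rw [Finset.sum_congr rfl fun i _ => he i, ← Finset.mul_sum]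
      have hq : ∑ i, q (T.h x) (β i x) = q (T.h x) (∑ i, β i x) := by
        simp only [q, WithLp.ofLp_sum, Finset.sum_apply, Finset.mul_sum, ← Finset.sum_add_distrib]
      rw [hq, hsum]
      simp [q]
    have h := tendsto_finsetSum Finset.univ fun i _ =>
      (tendsto_chart hB hmap hN hP M L hτ hη i).sub (hl i)
    simp only [zero_sub, Finset.sum_neg_distrib, h0, neg_zero] at h
    refine h.congr fun k => ?_
    simp only [Positive.app]
    refine (Finset.sum_congr rfl fun i _ =>
      (integral_sub (hi1 i k) (hi2 i k).1).symm).trans ?_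
    rw [← integral_finsetSum]
    · refine integral_congr_ae (Eventually.of_forall fun x => ?_)
      simp only [β, α, q_sub_right, q_smul_right, Finset.sum_mul]
      exact Finset.sum_congr rfl fun i _ => by ring
    · exact fun i _ => (hi1 i k).sub (hi2 i k).1

/-- The chart volume bound holds. -/
lemma Geo.volUpper {X : Type*} [TopologicalSpace X] [MeasurableSpace X] [T2Space X] [CompactSpace X]
    [BorelSpace X] (G : Geo X) : G.VolUpper := fun i =>
  (G.exists_map_le i ((G.χ_cpt i).image_of_continuousOn ((G.φ i).continuousOn_symm.mono (G.χ_supp i)))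
    (Set.image_subset_iff.2 fun u hu => (G.φ i).map_target (G.χ_supp i hu))).imp fun _ h => h.2

/-- The cut-off family from the first estimate and the pairs at distance `ε`. -/
theorem cutFamily_of_pairMass {X : Type*} [TopologicalSpace X] [MeasurableSpace X] [T2Space X]
    [CompactSpace X] [BorelSpace X] {S : GSetup X} {T : GCurrent S} {D : GUData T}
    (hd : T.DensBound) (hP : PairMass T.toPositive) (L : D.SLimit) : CutFamily T.toPositive := by
  obtain ⟨M⟩ := exists_monoData hd L
  exact cutFamily (basic S.toGeo) S.toGeo.volUpper hd hP M L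

end Vale.Agent.P204.Gen
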