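import Vale.Agent.P204.Torus.Defs

/-!
P204, general four-manifold: the Garding inequality for self-dual and anti-self-dual two-forms
in one chart, without Fourier series.

A two-form has coordinates `(X, Y)`, `X = (01, 02, 03)`, `Y = (23, 31, 12)`. For `Y = σ X`,
`σ ^ 2 = 1`, the square of the exterior derivative and the square of the gradient of `X` have the
same integral. So if `Y = A X` with `A` close to `σ`, the gradient is bounded by `d` and `X`.
-/

open MeasureTheory
open scoped BigOperators ContDiff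

namespace Vale.Agent.P204.Gen.Garding

open Vale.Agent.P204.Torus

/-- The derivative along a basis vector. -/
noncomputable def pd (i : Fin 4) (f : V → ℝ) (x : V) : ℝ := fderiv ℝ f x (e i)

/-- The coordinates of the exterior derivative of the two-form `(X, Y)`. -/
noncomputable def dCoord (X Y : Fin 3 → V → ℝ) (x : V) : Fin 4 → ℝ :=
  ![pd 1 (Y 0) x + pd 2 (Y 1) x + pd 3 (Y 2) x,
    pd 0 (Y 0) x - pd 2 (X 2) x + pd 3 (X 1) x,
    pd 0 (Y 1) x - pd 3 (X 0) x + pd 1 (X 2) x,
    pd 0 (Y 2) x - pd 1 (X 1) x + pd 2 (X 0) x]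

/-- The square of the exterior derivative. -/
noncomputable def dSq (X Y : Fin 3 → V → ℝ) (x : V) : ℝ := ∑ k, dCoord X Y x k ^ 2

/-- The square of the gradient. -/
noncomputable def gradSq (a : Fin 3 → V → ℝ) (x : V) : ℝ := ∑ i, ∑ k, pd k (a i) x ^ 2

/-- The square of the size. -/
def sizeSq (a : Fin 3 → V → ℝ) (x : V) : ℝ := ∑ i, a i x ^ 2

lemma continuous_pd {f : V → ℝ} (hf : ContDiff ℝ 1 f) (i : Fin 4) : Continuous (pd i f) :=
  (hf.continuous_fderiv one_ne_zero).clm_apply continuous_const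

lemma contDiff_pd {f : V → ℝ} (hf : ContDiff ℝ 2 f) (i : Fin 4) : ContDiff ℝ 1 (pd i f) :=
  (hf.fderiv_right (m := 1) le_rfl).clm_apply contDiff_const

lemma hasCompactSupport_pd {f : V → ℝ} (hs : HasCompactSupport f) (i : Fin 4) :
    HasCompactSupport (pd i f) := hs.fderiv_apply ℝ (e i)

lemma pd_comm {f : V → ℝ} (hf : ContDiff ℝ 2 f) (i j : Fin 4) (x : V) :
    pd j (pd i f) x = pd i (pd j f) x := by
  have key : ∀ k l, pd l (pd k f) x = fderiv ℝ (fderiv ℝ f) x (e l) (e k) := fun k l => by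
    have hd : DifferentiableAt ℝ (fderiv ℝ f) x :=
      ((hf.fderiv_right (m := 1) le_rfl).differentiable one_ne_zero) x
    show fderiv ℝ (fun y => fderiv ℝ f y (e k)) x (e l) = _
    rw [fderiv_clm_apply hd (differentiableAt_const _)]
    simp
  rw [key, key]
  exact (hf.contDiffAt.isSymmSndFDerivAt (by simp)) _ _

/-- Mixed products of first derivatives are symmetric under the integral. -/
lemma integral_pd_swap {f g : V → ℝ} (hf : ContDiff ℝ 2 f) (hg : ContDiff ℝ 2 g)
    (hfs : HasCompactSupport f) (hgs : HasCompactSupport g) (i j : Fin 4) :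
    ∫ x, pd i f x * pd j g x = ∫ x, pd j f x * pd i g x := by
  have hf1 := hf.of_le (show (1 : WithTop ℕ∞) ≤ 2 by norm_num)
  have hg1 := hg.of_le (show (1 : WithTop ℕ∞) ≤ 2 by norm_num)
  have key : ∀ k l, ∫ x, f x * pd k (pd l g) x = - ∫ x, pd k f x * pd l g x := fun k l => by
    refine integral_mul_fderiv_eq_neg_fderiv_mul_of_integrable
      (((continuous_pd hf1 k).mul (continuous_pd hg1 l)).integrable_of_hasCompactSupport
        ((hasCompactSupport_pd hgs l).mul_left))
      ((hf.continuous.mul (continuous_pd (contDiff_pd hg l) k)).integrable_of_hasCompactSupport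
        hfs.mul_right)
      ((hf.continuous.mul (continuous_pd hg1 l)).integrable_of_hasCompactSupport hfs.mul_right)
      (fun x _ => (hf.differentiable (by norm_num)) x)
      (fun x _ => ((contDiff_pd hg l).differentiable one_ne_zero) x)
  have h1 := key i j
  have h2 := key j i
  simp only [pd_comm hg j i] at h1
  linarith

lemma pd_const_mul {f : V → ℝ} {x : V} (hf : DifferentiableAt ℝ f x) (c : ℝ) (i : Fin 4) :
    pd i (fun y => c * f y) x = c * pd i f x := by
  simp [pd, fderiv_const_mul hf]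

/-- The exact identity for `Y = σ X`. -/
theorem integral_dSq_eq_gradSq {a : Fin 3 → V → ℝ} (ha : ∀ i, ContDiff ℝ 2 (a i))
    (hs : ∀ i, HasCompactSupport (a i)) {σ : ℝ} (hσ : σ ^ 2 = 1) :
    ∫ x, dSq a (fun i y => σ * a i y) x = ∫ x, gradSq a x := by
  have hd : ∀ i x, DifferentiableAt ℝ (a i) x := fun i x =>
    ((ha i).differentiable (by norm_num)) x
  have ha1 : ∀ i, ContDiff ℝ 1 (a i) := fun i => (ha i).of_le (by norm_num)
  have hint : ∀ i j k l, Integrable fun x => pd i (a k) x * pd j (a l) x := fun i j k l =>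
    ((continuous_pd (ha1 k) i).mul (continuous_pd (ha1 l) j)).integrable_of_hasCompactSupport
      ((hasCompactSupport_pd (hs l) j).mul_left)
  let P : Fin 4 → Fin 4 → Fin 3 → Fin 3 → V → ℝ := fun i j k l x =>
    pd i (a k) x * pd j (a l) x - pd j (a k) x * pd i (a l) x
  have hP : ∀ i j k l, Integrable (P i j k l) ∧ ∫ x, P i j k l x = 0 := fun i j k l =>
    ⟨(hint i j k l).sub (hint j i k l), by
      rw [integral_sub (hint i j k l) (hint j i k l),
        integral_pd_swap (ha k) (ha l) (hs k) (hs l) i j, sub_self]⟩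
  let R : V → ℝ := fun x => 2 * (P 1 2 0 1 x + P 1 3 0 2 x + P 2 3 1 2 x) +
    2 * σ * (P 2 0 0 2 x + P 0 3 0 1 x + P 0 1 1 2 x)
  have e : ∀ x, dSq a (fun i y => σ * a i y) x = gradSq a x + R x := fun x => by
    simp only [dSq, dCoord, gradSq, R, P, Fin.sum_univ_four, Fin.sum_univ_three,
      pd_const_mul (hd _ x), Matrix.cons_val]
    linear_combination ((pd 1 (a 0) x + pd 2 (a 1) x + pd 3 (a 2) x) ^ 2 + pd 0 (a 0) x ^ 2 +
      pd 0 (a 1) x ^ 2 + pd 0 (a 2) x ^ 2) * hσ
  have hR : Integrable R ∧ ∫ x, R x = 0 := by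
    have h1 := ((hP 1 2 0 1).1.add (hP 1 3 0 2).1).add (hP 2 3 1 2).1
    have h2 := ((hP 2 0 0 2).1.add (hP 0 3 0 1).1).add (hP 0 1 1 2).1
    refine ⟨(h1.const_mul 2).add (h2.const_mul (2 * σ)), ?_⟩
    simp only [R]
    rw [integral_add, integral_const_mul, integral_const_mul, integral_add, integral_add,
      integral_add, integral_add, (hP 1 2 0 1).2, (hP 1 3 0 2).2, (hP 2 3 1 2).2,
      (hP 2 0 0 2).2, (hP 0 3 0 1).2, (hP 0 1 1 2).2]
    · simp
    all_goals first
      | exact (hP _ _ _ _).1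
      | exact (hP _ _ _ _).1.add (hP _ _ _ _).1
      | exact h1.const_mul 2
      | exact h2.const_mul (2 * σ)
  have hg : Integrable (gradSq a) := by
    unfold gradSq
    exact integrable_finsetSum _ fun i _ => integrable_finsetSum _ fun k _ => by
      simpa [sq] using hint k k i i
  simp only [e]
  rw [integral_add hg hR.1, hR.2, add_zero]

/-- The derivative of a row `(A - σ) a`, pointwise. -/
lemma pd_rem_sq_le {a : Fin 3 → V → ℝ} {A : Fin 3 → Fin 3 → V → ℝ} {σ δ M : ℝ} {x : V}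
    (ha : ∀ j, DifferentiableAt ℝ (a j) x) (hA : ∀ i j, DifferentiableAt ℝ (A i j) x)
    (hδ : ∀ i j, |A i j x - σ * (if i = j then 1 else 0)| ≤ δ)
    (hM : ∀ i j k, |pd k (A i j) x| ≤ M) (i : Fin 3) (k : Fin 4) :
    (pd k (fun y => ∑ j, A i j y * a j y) x - σ * pd k (a i) x) ^ 2 ≤
      6 * δ ^ 2 * (∑ j, pd k (a j) x ^ 2) + 6 * M ^ 2 * sizeSq a x := by
  have e : pd k (fun y => ∑ j, A i j y * a j y) x - σ * pd k (a i) x =
      ∑ j, ((A i j x - σ * (if i = j then 1 else 0)) * pd k (a j) x + pd k (A i j) x * a j x) := by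
    have h0 : pd k (fun y => ∑ j, A i j y * a j y) x =
        ∑ j, (A i j x * pd k (a j) x + a j x * pd k (A i j) x) := by
      simp only [pd]
      rw [fderiv_fun_sum fun j _ => (hA i j).fun_mul (ha j)]
      simp only [FunLike.coe_sum, Finset.sum_apply]
      refine Finset.sum_congr rfl fun j _ => ?_
      rw [fderiv_fun_mul (hA i j) (ha j)]
      simp
    rw [h0]
    simp only [sub_mul, Finset.sum_add_distrib, Finset.sum_sub_distrib, mul_comm (pd k (A i _) x),
      mul_assoc, ite_mul, one_mul, zero_mul, ← Finset.mul_sum, Finset.sum_ite_eq,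
      Finset.mem_univ, if_true]
    ring
  rw [e]
  set u := fun j => (A i j x - σ * (if i = j then 1 else 0)) * pd k (a j) x
  set v := fun j => pd k (A i j) x * a j x
  have h1 : (∑ j, (u j + v j)) ^ 2 ≤ 3 * ∑ j, (u j + v j) ^ 2 := by
    have := sq_sum_le_card_mul_sum_sq (s := Finset.univ) (f := fun j => u j + v j)
    simpa using this
  refine h1.trans ?_
  simp only [sizeSq, Finset.mul_sum, ← Finset.sum_add_distrib]
  refine Finset.sum_le_sum fun j _ => ?_
  have hu : u j ^ 2 ≤ δ ^ 2 * pd k (a j) x ^ 2 := by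
    rw [mul_pow]
    refine mul_le_mul_of_nonneg_right (sq_le_sq.mpr ((hδ i j).trans (le_abs_self δ))) (sq_nonneg _)
  have hv : v j ^ 2 ≤ M ^ 2 * a j x ^ 2 := by
    rw [mul_pow]
    refine mul_le_mul_of_nonneg_right (sq_le_sq.mpr ((hM i j k).trans (le_abs_self M))) (sq_nonneg _)
  nlinarith [sq_nonneg (u j - v j)]

/-- Pointwise comparison with the exact case. -/
lemma dSq_base_le {a : Fin 3 → V → ℝ} {A : Fin 3 → Fin 3 → V → ℝ} {σ δ M : ℝ} {x : V}
    (ha : ∀ j, DifferentiableAt ℝ (a j) x) (hA : ∀ i j, DifferentiableAt ℝ (A i j) x)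
    (hδ : ∀ i j, |A i j x - σ * (if i = j then 1 else 0)| ≤ δ)
    (hM : ∀ i j k, |pd k (A i j) x| ≤ M) :
    dSq a (fun i y => σ * a i y) x ≤ 2 * dSq a (fun i y => ∑ j, A i j y * a j y) x +
      36 * δ ^ 2 * gradSq a x + 216 * M ^ 2 * sizeSq a x := by
  set Y : Fin 3 → V → ℝ := fun i y => ∑ j, A i j y * a j y with hY
  set S : Fin 4 → ℝ := fun k => ∑ j, pd k (a j) x ^ 2 with hS
  have h : ∀ i k, (pd k (Y i) x - σ * pd k (a i) x) ^ 2 ≤
      6 * δ ^ 2 * S k + 6 * M ^ 2 * sizeSq a x := fun i k => pd_rem_sq_le ha hA hδ hM i k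
  have two : ∀ c d : ℝ, d ^ 2 ≤ 2 * c ^ 2 + 2 * (c - d) ^ 2 := fun c d => by
    nlinarith [sq_nonneg (2 * c - d)]
  have three : ∀ u v w : ℝ, (u + v + w) ^ 2 ≤ 3 * (u ^ 2 + v ^ 2 + w ^ 2) := fun u v w => by
    nlinarith [sq_nonneg (u - v), sq_nonneg (v - w), sq_nonneg (u - w)]
  have hS0 : ∀ k, 0 ≤ S k := fun k => Finset.sum_nonneg fun j _ => sq_nonneg _
  have hg : gradSq a x = S 0 + S 1 + S 2 + S 3 := by
    simp only [gradSq, hS, Fin.sum_univ_four, Fin.sum_univ_three]
    ring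
  have hz : 0 ≤ sizeSq a x := Finset.sum_nonneg fun j _ => sq_nonneg _
  have h1 := two (dCoord a Y x 0) (dCoord a (fun i y => σ * a i y) x 0)
  have h2 := two (dCoord a Y x 1) (dCoord a (fun i y => σ * a i y) x 1)
  have h3 := two (dCoord a Y x 2) (dCoord a (fun i y => σ * a i y) x 2)
  have h4 := two (dCoord a Y x 3) (dCoord a (fun i y => σ * a i y) x 3)
  have e0 : dCoord a Y x 0 - dCoord a (fun i y => σ * a i y) x 0 =
      (pd 1 (Y 0) x - σ * pd 1 (a 0) x) + (pd 2 (Y 1) x - σ * pd 2 (a 1) x) +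
        (pd 3 (Y 2) x - σ * pd 3 (a 2) x) := by
    simp [dCoord, pd_const_mul (ha _)]; ring
  have e1 : dCoord a Y x 1 - dCoord a (fun i y => σ * a i y) x 1 =
      pd 0 (Y 0) x - σ * pd 0 (a 0) x := by simp [dCoord, pd_const_mul (ha _)]
  have e2 : dCoord a Y x 2 - dCoord a (fun i y => σ * a i y) x 2 =
      pd 0 (Y 1) x - σ * pd 0 (a 1) x := by simp [dCoord, pd_const_mul (ha _)]
  have e3 : dCoord a Y x 3 - dCoord a (fun i y => σ * a i y) x 3 =
      pd 0 (Y 2) x - σ * pd 0 (a 2) x := by simp [dCoord, pd_const_mul (ha _)]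
  rw [e0] at h1
  rw [e1] at h2
  rw [e2] at h3
  rw [e3] at h4
  have t := three (pd 1 (Y 0) x - σ * pd 1 (a 0) x) (pd 2 (Y 1) x - σ * pd 2 (a 1) x)
    (pd 3 (Y 2) x - σ * pd 3 (a 2) x)
  have hd : ∀ X : Fin 3 → V → ℝ, dSq a X x = dCoord a X x 0 ^ 2 + dCoord a X x 1 ^ 2 +
      dCoord a X x 2 ^ 2 + dCoord a X x 3 ^ 2 := fun X => Fin.sum_univ_four _
  rw [hd, hd, hg]
  nlinarith [h 0 1, h 1 2, h 2 3, h 0 0, h 1 0, h 2 0, mul_nonneg (sq_nonneg δ) (hS0 0),
    mul_nonneg (sq_nonneg M) hz]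

/-- **The Garding inequality** for the two-forms `(a, A a)` with `A` close to `σ`, `σ ^ 2 = 1`. -/
theorem integral_gradSq_le {a : Fin 3 → V → ℝ} {A : Fin 3 → Fin 3 → V → ℝ} {σ δ M : ℝ}
    (ha : ∀ i, ContDiff ℝ 2 (a i)) (hs : ∀ i, HasCompactSupport (a i))
    (hA : ∀ i j, ContDiff ℝ 1 (A i j)) (hσ : σ ^ 2 = 1) (hδ' : 72 * δ ^ 2 ≤ 1)
    (hδ : ∀ x ∈ ⋃ l, tsupport (a l), ∀ i j, |A i j x - σ * (if i = j then 1 else 0)| ≤ δ)
    (hM : ∀ x ∈ ⋃ l, tsupport (a l), ∀ i j k, |pd k (A i j) x| ≤ M) :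
    ∫ x, gradSq a x ≤ 4 * (∫ x, dSq a (fun i y => ∑ j, A i j y * a j y) x) +
      432 * M ^ 2 * ∫ x, sizeSq a x := by
  set Y : Fin 3 → V → ℝ := fun i y => ∑ j, A i j y * a j y
  set W : Set V := ⋃ l, tsupport (a l)
  have hW : IsCompact W := isCompact_iUnion fun l => hs l
  have ha1 : ∀ i, ContDiff ℝ 1 (a i) := fun i => (ha i).of_le (by norm_num)
  have hY : ∀ i, ContDiff ℝ 1 (Y i) := fun i => by fun_prop
  have hσa : ∀ i, ContDiff ℝ 1 fun y => σ * a i y := fun i => (ha1 i).const_smul σ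
  have hzero : ∀ x ∉ W, ∀ f : V → ℝ, (∀ y ∉ W, f y = 0) → ∀ k, pd k f x = 0 := by
    intro x hx f hf k
    have : f =ᶠ[nhds x] fun _ => (0 : ℝ) := by
      filter_upwards [hW.isClosed.isOpen_compl.mem_nhds hx] with y hy using hf y hy
    simp [pd, this.fderiv_eq]
  have haW : ∀ i, ∀ y ∉ W, a i y = 0 := fun i y hy =>
    image_eq_zero_of_notMem_tsupport fun h => hy (Set.mem_iUnion.mpr ⟨i, h⟩)
  have hint : ∀ f : V → ℝ, Continuous f → (∀ x ∉ W, f x = 0) → Integrable f := fun f hf h0 =>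
    hf.integrable_of_hasCompactSupport (HasCompactSupport.intro hW h0)
  have hcd : ∀ X : Fin 3 → V → ℝ, (∀ i, ContDiff ℝ 1 (X i)) → (∀ i, ∀ y ∉ W, X i y = 0) →
      Integrable (dSq a X) := by
    intro X hX hX0
    refine hint _ ?_ fun x hx => ?_
    · have := fun i k => continuous_pd (hX i) k
      have := fun i k => continuous_pd (ha1 i) k
      refine continuous_finsetSum _ fun k _ => ?_
      fin_cases k <;> simp [dCoord] <;> fun_prop
    · have z1 := fun i k => hzero x hx _ (hX0 i) k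
      have z2 := fun i k => hzero x hx _ (haW i) k
      simp [dSq, dCoord, Fin.sum_univ_four, z1, z2]
  have hG : Integrable (gradSq a) := by
    refine hint _ ?_ fun x hx => by simp [gradSq, fun i k => hzero x hx _ (haW i) k]
    have := fun i k => continuous_pd (ha1 i) k
    exact continuous_finsetSum _ fun i _ => continuous_finsetSum _ fun k _ => (this i k).pow 2
  have hS : Integrable (sizeSq a) := by
    refine hint _ ?_ fun x hx => by simp [sizeSq, fun i => haW i x hx]
    exact continuous_finsetSum _ fun i _ => (ha i).continuous.pow 2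
  have hY0 : ∀ i, ∀ y ∉ W, Y i y = 0 := fun i y hy => by simp [Y, fun j => haW j y hy]
  have hσ0 : ∀ i, ∀ y ∉ W, σ * a i y = 0 := fun i y hy => by simp [haW i y hy]
  have hdY := hcd Y hY hY0
  have hb : ∀ x, dSq a (fun i y => σ * a i y) x ≤
      2 * dSq a Y x + 36 * δ ^ 2 * gradSq a x + 216 * M ^ 2 * sizeSq a x := by
    intro x
    by_cases hx : x ∈ W
    · exact dSq_base_le (fun j => (ha1 j).differentiable one_ne_zero x)
        (fun i j => (hA i j).differentiable one_ne_zero x) (hδ x hx) (hM x hx)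
    · simp [dSq, dCoord, gradSq, sizeSq, Fin.sum_univ_four, fun i k => hzero x hx _ (hσ0 i) k,
        fun i k => hzero x hx _ (haW i) k, fun i k => hzero x hx _ (hY0 i) k, fun i => haW i x hx]
  have hmain : ∫ x, gradSq a x ≤
      2 * (∫ x, dSq a Y x) + 36 * δ ^ 2 * (∫ x, gradSq a x) + 216 * M ^ 2 * ∫ x, sizeSq a x := by
    conv_lhs => rw [← integral_dSq_eq_gradSq ha hs hσ]
    refine (integral_mono (hcd _ hσa hσ0) ((((hdY.const_mul 2).add (hG.const_mul (36 * δ ^ 2))).add
      (hS.const_mul (216 * M ^ 2)))) hb).trans (le_of_eq ?_)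
    simp only [Pi.add_apply]
    rw [integral_add (f := fun x => 2 * dSq a Y x + 36 * δ ^ 2 * gradSq a x)
      ((hdY.const_mul 2).add (hG.const_mul (36 * δ ^ 2))) (hS.const_mul _),
      integral_add (hdY.const_mul 2) (hG.const_mul _), integral_const_mul, integral_const_mul,
      integral_const_mul]
  have hG0 : 0 ≤ ∫ x, gradSq a x :=
    integral_nonneg fun x => Finset.sum_nonneg fun i _ => Finset.sum_nonneg fun k _ => sq_nonneg _
  nlinarith [mul_le_mul_of_nonneg_right hδ' hG0]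

/-- A closed field of two-forms has vanishing derivative coordinates. -/
theorem dCoord_of_closed {β : V → Form} (hβ : Differentiable ℝ β) (hc : Closed β) (x : V) :
    dCoord (fun i y => β y (Fin.castLE (by norm_num) i))
      (fun i y => β y (Fin.natAdd 3 i)) x = 0 := by
  have hp : ∀ (k : Fin 6) i, pd i (fun y => β y k) x = fderiv ℝ β x (e i) k := fun k i => by
    have := ((EuclideanSpace.proj (𝕜 := ℝ) k).hasFDerivAt.comp x (hβ x).hasFDerivAt).fderiv
    simp only [pd]
    rw [show (fun y => β y k) = (EuclideanSpace.proj (𝕜 := ℝ) k) ∘ β from rfl, this]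
    simp
  have h0 := hc x (e 1) (e 2) (e 3)
  have h1 := hc x (e 0) (e 2) (e 3)
  have h2 := hc x (e 0) (e 3) (e 1)
  have h3 := hc x (e 0) (e 1) (e 2)
  funext k
  simp [ev, e, fi, se, Fin.sum_univ_six] at h0 h1 h2 h3
  fin_cases k <;> simp [dCoord, hp, e, Fin.castLE, Fin.natAdd] <;> linarith

end Vale.Agent.P204.Gen.Garding
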