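import Vale.Agent.P204.Gen.GeoLin

/-!
P204 on a closed four-manifold: linear algebra and Stokes on a chart, for the module `Integral`
(helper66).
-/

open MeasureTheory
open scoped BigOperators ContDiff RealInnerProductSpace

namespace Vale.Agent.P204.Gen

open Vale.Agent.P204.Torus

/-! ## Pull-back and determinant -/

lemma continuous_pull₂ : Continuous fun p : (V →L[ℝ] V) × Form => pull p.1 p.2 := by
  have h : ∀ (i : Fin 4) (j : Fin 4), Continuous fun p : (V →L[ℝ] V) × Form => p.1 (e i) j :=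
    fun i j => by fun_prop
  refine (PiLp.continuous_toLp 2 _).comp (continuous_pi fun k => ?_)
  show Continuous fun p : (V →L[ℝ] V) × Form => ev p.2 (p.1 (e (fi k))) (p.1 (e (se k)))
  simp only [ev]
  fun_prop

lemma norm_pull_le_sq (A : V →L[ℝ] V) (α : Form) : ‖pull A α‖ ≤ 72 * ‖A‖ ^ 2 * ‖α‖ := by
  have h : ∀ k, |pull A α k| ≤ 12 * ‖A‖ ^ 2 * ‖α‖ := fun k => by
    have he : ∀ i, ‖A (e i)‖ ≤ ‖A‖ := fun i =>
      (A.le_opNorm _).trans (mul_le_of_le_one_right (norm_nonneg A) (e_norm_le i))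
    refine (abs_ev_le α (A (e (fi k))) (A (e (se k)))).trans ?_
    calc 12 * (‖α‖ * (‖A (e (fi k))‖ * ‖A (e (se k))‖)) ≤ 12 * (‖α‖ * (‖A‖ * ‖A‖)) := by
          gcongr <;> exact he _
      _ = _ := by ring
  calc ‖pull A α‖ ≤ ∑ k, |pull A α k| := norm_le_sum _
    _ ≤ ∑ _k : Fin 6, 12 * ‖A‖ ^ 2 * ‖α‖ := Finset.sum_le_sum fun k _ => h k
    _ = _ := by simp; ring

/-- The Hodge involution of the flat metric: `q α β = ⟪swL α, β⟫`. -/
noncomputable def swL : Form →L[ℝ] Form :=
  LinearMap.toContinuousLinearMap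
    { toFun := fun a => WithLp.toLp 2 ![a 3, a 4, a 5, a 0, a 1, a 2]
      map_add' := fun a b => PiLp.ext fun k => by fin_cases k <;> simp
      map_smul' := fun c a => PiLp.ext fun k => by fin_cases k <;> simp }

lemma swL_swL (a : Form) : swL (swL a) = a := PiLp.ext fun k => by fin_cases k <;> simp [swL]

lemma inner_swL (a b : Form) : ⟪swL a, b⟫ = q a b := by
  simp [PiLp.inner_apply, Fin.sum_univ_six, swL, q]
  ring

lemma norm_swL (a : Form) : ‖swL a‖ = ‖a‖ := by
  rw [EuclideanSpace.norm_eq, EuclideanSpace.norm_eq]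
  congr 1
  simp [Fin.sum_univ_six, swL]
  ring

lemma det_mul_norm_le (A : V →L[ℝ] V) (hA : 0 < A.det) (a : Form) :
    A.det * ‖a‖ ≤ 432 * ‖A‖ ^ 2 * ‖pull A a‖ := by
  by_cases ha : ‖a‖ = 0
  · rw [ha, mul_zero]; positivity
  refine le_of_mul_le_mul_right ?_ (lt_of_le_of_ne (norm_nonneg a) (Ne.symm ha))
  have h1 : q (swL a) a = ‖a‖ ^ 2 := by
    rw [← inner_swL, swL_swL, real_inner_self_eq_norm_sq]
  have h2 := abs_q_le (pull A (swL a)) (pull A a)
  rw [q_pull, h1, abs_of_nonneg (by positivity)] at h2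
  have h3 := norm_pull_le_sq A (swL a)
  rw [norm_swL] at h3
  nlinarith [mul_le_mul_of_nonneg_right h3 (norm_nonneg (pull A a))]

/-! ## Exterior derivatives on a chart -/

lemma d1_congr {b c : V → V} {x : V} (h : b =ᶠ[nhds x] c) : d1 b x = d1 c x := by
  simp only [d1, h.fderiv_eq]

lemma d1_zero (x : V) : d1 (fun _ : V => (0 : V)) x = 0 :=
  PiLp.ext fun k => by simp [d1, ofSkew_apply, pair]

lemma contDiffOn_d1 {b : V → V} {U : Set V} (hU : IsOpen U) (hb : ContDiffOn ℝ ∞ b U) :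
    ContDiffOn ℝ ∞ (d1 b) U := by
  have hD : ContDiffOn ℝ ∞ (fderiv ℝ b) U := hb.fderiv_of_isOpen hU le_rfl
  refine contDiffOn_piLp' 2 fun k => ?_
  show ContDiffOn ℝ ∞ (fun x => pair (fderiv ℝ b x (e (fi k))) (e (se k)) -
    pair (fderiv ℝ b x (e (se k))) (e (fi k))) U
  simp only [pair_e']
  exact ((contDiffOn_pi.1 (hD.clm_apply contDiffOn_const)) (se k)).sub
    ((contDiffOn_pi.1 (hD.clm_apply contDiffOn_const)) (fi k))

/-! ## Stokes on a chart -/

lemma integral_fderiv_swap_eq_zero {f g : V → ℝ} (hf : ContDiff ℝ ∞ f) (hfc : HasCompactSupport f)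
    (hg : ContDiff ℝ ∞ g) (u v : V) :
    ∫ x, (fderiv ℝ f x u * fderiv ℝ g x v - fderiv ℝ f x v * fderiv ℝ g x u) = 0 := by
  have hg1 : ∀ w, ContDiff ℝ ∞ fun x => fderiv ℝ g x w := fun w =>
    (hg.fderiv_right (m := ∞) le_rfl).clm_apply contDiff_const
  have hf1 : ∀ w, ContDiff ℝ ∞ fun x => fderiv ℝ f x w := fun w =>
    (hf.fderiv_right (m := ∞) le_rfl).clm_apply contDiff_const
  have hfcw : ∀ w, HasCompactSupport fun x => fderiv ℝ f x w := fun w =>
    (hfc.fderiv ℝ).comp_left (g := fun L : V →L[ℝ] ℝ => L w) rfl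
  have hint : ∀ w z, Integrable fun x => fderiv ℝ f x w * fderiv ℝ g x z := fun w z =>
    ((hf1 w).continuous.mul (hg1 z).continuous).integrable_of_hasCompactSupport (hfcw w).mul_right
  have key : ∀ w z, ∫ x, fderiv ℝ f x w * fderiv ℝ g x z =
      -∫ x, f x * fderiv ℝ (fderiv ℝ g) x w z := fun w z => by
    have e1 : ∀ x, fderiv ℝ (fun y => fderiv ℝ g y z) x w = fderiv ℝ (fderiv ℝ g) x w z := by
      intro x
      rw [fderiv_clm_apply ((hg.fderiv_right (m := ∞) le_rfl).differentiable (by simp) x)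
        (differentiableAt_const z)]
      simp
    have h2 : Integrable fun x => f x * fderiv ℝ (fun y => fderiv ℝ g y z) x w :=
      (hf.continuous.mul ((((hg1 z).fderiv_right (m := ∞) le_rfl).clm_apply
        contDiff_const).continuous)).integrable_of_hasCompactSupport hfc.mul_right
    have := integral_mul_fderiv_eq_neg_fderiv_mul_of_integrable (μ := (volume : Measure V))
      (hint w z) h2 ((hf.continuous.mul (hg1 z).continuous).integrable_of_hasCompactSupport
        hfc.mul_right) (fun x _ => hf.differentiable (by simp) x)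
      (fun x _ => (hg1 z).differentiable (by simp) x)
    simp only [e1] at this
    linarith
  rw [integral_sub (hint u v) (hint v u), key, key, neg_sub_neg, sub_eq_zero]
  refine integral_congr_ae (Filter.Eventually.of_forall fun x => ?_)
  show f x * _ = f x * _
  rw [(hg.contDiffAt.isSymmSndFDerivAt (by simp; exact ENat.LEInfty.out)).eq v u]

/-- The indices `(a, b, c, d)` with `(a, b, c, d)` an even permutation, one for each `(b, d)`. -/
def quad : Fin 12 → Fin 4 × Fin 4 × Fin 4 × Fin 4 :=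
  ![(3, 0, 2, 1), (1, 0, 3, 2), (2, 0, 1, 3), (2, 1, 3, 0), (3, 1, 0, 2), (0, 1, 2, 3),
    (3, 2, 1, 0), (0, 2, 3, 1), (1, 2, 0, 3), (1, 3, 2, 0), (2, 3, 0, 1), (0, 3, 1, 2)]

lemma q_d1_eq (b c : V → V) (x : V) : q (d1 b x) (d1 c x) = ∑ t : Fin 12,
    (fderiv ℝ b x (e (quad t).1) (quad t).2.1 * fderiv ℝ c x (e (quad t).2.2.1) (quad t).2.2.2 -
      fderiv ℝ b x (e (quad t).2.2.1) (quad t).2.1 * fderiv ℝ c x (e (quad t).1) (quad t).2.2.2) := by
  simp only [q, d1, ofSkew_apply, pair_e']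
  simp [Fin.sum_univ_succ, quad, fi, se]
  ring

/-- Stokes: exact forms are isotropic. -/
theorem integral_q_d1 {b c : V → V} (hb : ContDiff ℝ ∞ b) (hbc : HasCompactSupport b)
    (hc : ContDiff ℝ ∞ c) : ∫ x, q (d1 b x) (d1 c x) = 0 := by
  have hcoord : ∀ {f : V → V}, ContDiff ℝ ∞ f → ∀ (j : Fin 4) x w,
      fderiv ℝ f x w j = fderiv ℝ (fun y => f y j) x w := fun {f} hf j x w =>
    (fderiv_coord (hf.differentiable (by simp) x) w j).symm
  simp only [q_d1_eq, hcoord hb, hcoord hc]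
  have hfc : ∀ j, HasCompactSupport fun y => b y j := fun j =>
    hbc.comp_left (g := fun w : V => w j) rfl
  have hD : ∀ {f : V → V}, ContDiff ℝ ∞ f → ∀ j w,
      Continuous fun x => fderiv ℝ (fun y => f y j) x w := fun {f} hf j w =>
    (((contDiff_pi.1 hf j).fderiv_right (m := ∞) le_rfl).clm_apply contDiff_const).continuous
  have hI : ∀ j l w z, Integrable fun x =>
      fderiv ℝ (fun y => b y j) x w * fderiv ℝ (fun y => c y l) x z := fun j l w z =>
    ((hD hb j w).mul (hD hc l z)).integrable_of_hasCompactSupport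
      (((hfc j).fderiv ℝ).comp_left (g := fun L : V →L[ℝ] ℝ => L w) rfl).mul_right
  rw [integral_finsetSum]
  · exact Finset.sum_eq_zero fun t _ =>
      integral_fderiv_swap_eq_zero (contDiff_pi.1 hb _) (hfc _) (contDiff_pi.1 hc _) _ _
  · exact fun t _ => (hI _ _ _ _).sub (hI _ _ _ _)

end Vale.Agent.P204.Gen
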