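import Vale.Agent.P204.Gen.IntegralMeasure
import Vale.Agent.P204.Gen.GeoSmooth

/-!
P204 on a closed four-manifold: forms of one chart read on `X`, as needed by the module `Integral`
(helper66).
-/

open MeasureTheory Set Filter Topology
open scoped BigOperators ContDiff

namespace Vale.Agent.P204.Gen

open Vale.Agent.P204.Torus

variable {X : Type*} [TopologicalSpace X] [MeasurableSpace X] {G : Geo X}

namespace Geo

variable (G) in
/-- The smooth two-forms. -/
def smoothForms : Submodule ℝ (X → Form) where
  carrier := {α | G.Smooth2 α}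
  add_mem' hα hβ := Smooth2.add hα hβ
  zero_mem' := smooth2_zero
  smul_mem' c _ hα := Smooth2.smul hα c

open Classical in
/-- A two-form of the chart `j` read on `X`. -/
noncomputable def fromChart2 (G : Geo X) (j : Fin G.n) (β : V → Form) (x : X) : Form :=
  if x ∈ (G.φ j).source then pull (G.dT j x).inverse (β (G.φ j x)) else 0

lemma rep2_fromChart2 {j : Fin G.n} (β : V → Form) {v : V} (hv : v ∈ (G.φ j).target) :
    G.rep2 j (G.fromChart2 j β) v = β v := by
  have hj : (G.φ j).symm v ∈ (G.φ j).source := (G.φ j).map_target hv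
  rw [rep2, if_pos hv, fromChart2, if_pos hj, pull_inverse_pull (G.dT_det_ne hj),
    (G.φ j).right_inv hv]

lemma smooth2_fromChart2 [T2Space X] {j : Fin G.n} {β : V → Form} (hβ : ContDiff ℝ ∞ β)
    (hc : HasCompactSupport β) (hs : tsupport β ⊆ (G.φ j).target) :
    G.Smooth2 (G.fromChart2 j β) := fun i u hu => by
  refine ContDiffAt.contDiffWithinAt ?_
  set x := (G.φ i).symm u with hx
  have hi : x ∈ (G.φ i).source := (G.φ i).map_target hu
  have hux : G.φ i x = u := (G.φ i).right_inv hu
  by_cases hj : x ∈ (G.φ j).source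
  · have hd : u ∈ G.tdom i j := G.mem_tdom.2 ⟨hu, hj⟩
    have e : G.rep2 i (G.fromChart2 j β) =ᶠ[𝓝 u] fun w =>
        pull (fderiv ℝ (G.tc i j) w) (β (G.tc i j w)) := by
      filter_upwards [(G.isOpen_tdom i j).mem_nhds hd] with w hw
      rw [G.rep2_change _ hw,
        rep2_fromChart2 β (show G.tc i j w ∈ (G.φ j).target from
          (G.φ j).map_source (G.mem_tdom.1 hw).2)]
    refine ContDiffAt.congr_of_eventuallyEq ?_ e
    exact (contDiffOn_pull ((G.trans_smooth i j).fderiv_of_isOpen (G.isOpen_tdom i j) le_rfl)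
      (hβ.comp_contDiffOn (G.trans_smooth i j))).contDiffAt ((G.isOpen_tdom i j).mem_nhds hd)
  · set K := (G.φ j).symm '' tsupport β
    have hK : IsClosed K :=
      (hc.image_of_continuousOn ((G.φ j).continuousOn_symm.mono hs)).isClosed
    have hxK : x ∉ K := by
      rintro ⟨v, hv, hvx⟩
      exact hj (hvx ▸ (G.φ j).map_target (hs hv))
    have e : G.rep2 i (G.fromChart2 j β) =ᶠ[𝓝 u] fun _ => 0 := by
      have hcn := (G.φ i).continuousAt_symm hu
      filter_upwards [hcn.eventually (hK.isOpen_compl.mem_nhds hxK)] with w hw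
      simp only [rep2]
      split
      · rw [fromChart2]
        split
        · rename_i _ h2
          rw [image_eq_zero_of_notMem_tsupport (f := β), pull_zero, pull_zero]
          exact fun h => hw ⟨_, h, (G.φ j).left_inv h2⟩
        · rw [pull_zero]
      · rfl
    exact contDiffAt_const.congr_of_eventuallyEq e

lemma contDiff_of_chart {F : Type*} [NormedAddCommGroup F] [NormedSpace ℝ F] {f : V → F}
    {U L : Set V} (hU : IsOpen U) (hf : ContDiffOn ℝ ∞ f U) (hL : IsCompact L) (hLU : L ⊆ U)
    (h0 : ∀ v ∉ L, f v = 0) : ContDiff ℝ ∞ f ∧ HasCompactSupport f := by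
  refine ⟨contDiff_iff_contDiffAt.2 fun v => ?_, HasCompactSupport.intro hL h0⟩
  by_cases hv : v ∈ U
  · exact hf.contDiffAt (hU.mem_nhds hv)
  · refine (contDiffAt_const (c := (0 : F))).congr_of_eventuallyEq ?_
    filter_upwards [hL.isClosed.isOpen_compl.mem_nhds fun h => hv (hLU h)] with w hw
    exact h0 w hw

end Geo

end Vale.Agent.P204.Gen
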