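import Mathlib

/-!
P204, general four-manifold: the kernel of an average along a family of maps, in one chart.

For `z ∈ K` the derivative of `a ↦ Φ (a, z)` at `0` is onto and has a right inverse `L z` which is
continuous in `z`. Averaging over the substitution `a = b + L z v` and then substituting
`x = Φ (b + L z v, z)` gives `∫ ρ_e a • f (a, Φ (a, z)) = ∫ x, ∫ b, w z b x • f (A z b x, x)`.
The weight `w` is continuous, lives on `‖b‖, ‖x - z‖ ≤ C e`, and its mass in `b` is of exact order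
`e ^ (-d)` near the diagonal.
-/

open MeasureTheory Set Filter Topology Metric Function

namespace Vale.Agent.P204.Gen.KernelLocal

variable {N d : ℕ}

/-- The derivative of the family in the parameter. -/
noncomputable def dPar (Φ : (Fin N → ℝ) × (Fin d → ℝ) → (Fin d → ℝ)) (a : Fin N → ℝ)
    (z : Fin d → ℝ) : (Fin N → ℝ) →L[ℝ] (Fin d → ℝ) :=
  (fderiv ℝ Φ (a, z)).comp (ContinuousLinearMap.inl ℝ (Fin N → ℝ) (Fin d → ℝ))

/-- The coordinatewise retraction to the ball of radius `r`. -/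
def clamp {ι : Type*} (r : ℝ) (x : ι → ℝ) : ι → ℝ := fun i => max (-r) (min r (x i))

lemma continuous_clamp {ι : Type*} (r : ℝ) : Continuous (clamp (ι := ι) r) :=
  continuous_pi fun i => continuous_const.max (continuous_const.min (continuous_apply i))

lemma norm_clamp_le {ι : Type*} [Fintype ι] {r : ℝ} (hr : 0 ≤ r) (x : ι → ℝ) :
    ‖clamp r x‖ ≤ r := by
  refine (pi_norm_le_iff_of_nonneg hr).2 fun i => ?_
  rw [Real.norm_eq_abs, abs_le]
  exact ⟨le_max_left _ _, max_le (by linarith) (min_le_left _ _)⟩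

lemma clamp_of_norm_le {ι : Type*} [Fintype ι] {r : ℝ} {x : ι → ℝ} (h : ‖x‖ ≤ r) :
    clamp r x = x := funext fun i => by
  have := (norm_le_pi_norm x i).trans h
  rw [Real.norm_eq_abs, abs_le] at this
  simp [clamp, min_eq_right this.2, max_eq_right this.1]

lemma eq_of_norm_clamp_lt {ι : Type*} [Fintype ι] {r : ℝ} (_hr : 0 ≤ r) {x : ι → ℝ}
    (h : ‖clamp r x‖ < r) : clamp r x = x := funext fun i => by
  have := (norm_le_pi_norm (clamp r x) i).trans_lt h
  rw [Real.norm_eq_abs, abs_lt] at this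
  simp only [clamp] at this ⊢
  rcases le_total (x i) (-r) with h1 | h1
  · rw [min_eq_right (by linarith), max_eq_left h1] at this; linarith
  rcases le_total r (x i) with h2 | h2
  · rw [min_eq_left h2, max_eq_right (by linarith)] at this; linarith
  · rw [min_eq_right h2, max_eq_right h1]

/-- A right inverse of the parameter derivative which is continuous on `K`. -/
theorem exists_rightInverse {Φ : (Fin N → ℝ) × (Fin d → ℝ) → (Fin d → ℝ)} (hΦ : ContDiff ℝ 1 Φ)
    {K : Set (Fin d → ℝ)} (honto : ∀ z ∈ K, Surjective (dPar Φ 0 z)) :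
    ∃ L : (Fin d → ℝ) → (Fin d → ℝ) →L[ℝ] (Fin N → ℝ),
      ContinuousOn L K ∧ ∀ z ∈ K, ∀ v, dPar Φ 0 z (L z v) = v := by
  set M : (Fin d → ℝ) → Matrix (Fin d) (Fin N) ℝ :=
    fun z => LinearMap.toMatrix' (dPar Φ 0 z).toLinearMap
  have hMv : ∀ z y, (M z).mulVec y = dPar Φ 0 z y := fun z y =>
    LinearMap.toMatrix'_mulVec _ _
  have hD : Continuous fun z => dPar Φ 0 z :=
    ((hΦ.continuous_fderiv one_ne_zero).comp
      (continuous_const.prodMk continuous_id)).clm_comp continuous_const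
  have hMc : Continuous M := by
    refine continuous_pi fun i => continuous_pi fun j => ?_
    simp only [M, LinearMap.toMatrix'_apply]
    exact (continuous_apply i).comp (hD.clm_apply continuous_const)
  have hdet : ∀ z ∈ K, IsUnit (M z * (M z).transpose).det := by
    intro z hz
    rw [← Matrix.isUnit_iff_isUnit_det, ← Matrix.mulVec_injective_iff_isUnit]
    refine (injective_iff_map_eq_zero (Matrix.mulVecLin (M z * (M z).transpose))).2 fun x hx => ?_
    rw [Matrix.mulVecLin_apply] at hx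
    have h0 : (M z).transpose.mulVec x = 0 := by
      rw [← dotProduct_self_eq_zero]
      rw [Matrix.mulVec_transpose, ← Matrix.dotProduct_mulVec, ← Matrix.mulVec_transpose,
        Matrix.mulVec_mulVec, hx, dotProduct_zero]
    obtain ⟨y, hy⟩ := honto z hz x
    rw [← dotProduct_self_eq_zero]
    nth_rw 2 [← hy]
    rw [← hMv, Matrix.dotProduct_mulVec, ← Matrix.mulVec_transpose, h0, zero_dotProduct]
  refine ⟨fun z => LinearMap.toContinuousLinearMap
    (Matrix.toLin' ((M z).transpose * (M z * (M z).transpose)⁻¹)), ?_, fun z hz v => ?_⟩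
  · refine continuousOn_clm_apply.2 fun v => ?_
    simp only [LinearMap.coe_toContinuousLinearMap', Matrix.toLin'_apply]
    intro z hz
    have hi : ContinuousAt (fun z => (M z * (M z).transpose)⁻¹) z :=
      (continuousAt_matrix_inv _ (by
        simpa [Ring.inverse_eq_inv'] using continuousAt_inv₀ (hdet z hz).ne_zero)).comp
        (hMc.matrix_mul hMc.matrix_transpose).continuousAt
    have h2 : Continuous fun q : Matrix (Fin d) (Fin N) ℝ × Matrix (Fin d) (Fin d) ℝ =>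
        (q.1.transpose * q.2).mulVec v :=
      (continuous_fst.matrix_transpose.matrix_mul continuous_snd).matrix_mulVec continuous_const
    exact (h2.continuousAt.comp (hMc.continuousAt.prodMk hi)).continuousWithinAt
  · rw [LinearMap.coe_toContinuousLinearMap', Matrix.toLin'_apply, ← hMv, Matrix.mulVec_mulVec,
      ← Matrix.mul_assoc, Matrix.mul_nonsing_inv _ (hdet z hz), Matrix.one_mulVec]

/-- Operators close to the identity have determinants of exact order one. -/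
lemma exists_det_bounds : ∃ c C : ℝ, 0 < c ∧ ∀ T : (Fin d → ℝ) →L[ℝ] (Fin d → ℝ),
    ‖T - ContinuousLinearMap.id ℝ (Fin d → ℝ)‖ ≤ 1 / 2 → c ≤ |T.det| ∧ |T.det| ≤ C := by
  set B := closedBall (ContinuousLinearMap.id ℝ (Fin d → ℝ)) (1 / 2)
  have hB : IsCompact B := isCompact_closedBall _ _
  have hne : B.Nonempty := nonempty_closedBall.2 (by norm_num)
  have hc : Continuous fun T : (Fin d → ℝ) →L[ℝ] (Fin d → ℝ) => |T.det| :=
    ContinuousLinearMap.continuous_det.abs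
  obtain ⟨T₀, hT₀, hmin⟩ := hB.exists_isMinOn hne hc.continuousOn
  obtain ⟨T₁, _, hmax⟩ := hB.exists_isMaxOn hne hc.continuousOn
  refine ⟨|T₀.det|, |T₁.det|, abs_pos.2 fun h0 => ?_, fun T hT =>
    ⟨hmin (mem_closedBall_iff_norm.2 hT), hmax (mem_closedBall_iff_norm.2 hT)⟩⟩
  obtain ⟨x, hx, hx0⟩ := (Submodule.ne_bot_iff _).1
    (ne_of_gt (LinearMap.bot_lt_ker_of_det_eq_zero h0))
  have h := (T₀ - ContinuousLinearMap.id ℝ (Fin d → ℝ)).le_opNorm x
  have hx' : T₀ x = 0 := hx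
  rw [sub_apply, hx', ContinuousLinearMap.id_apply, zero_sub, norm_neg] at h
  have := h.trans (mul_le_mul_of_nonneg_right (mem_closedBall_iff_norm.1 hT₀) (norm_nonneg x))
  have := norm_pos_iff.2 hx0
  linarith

/-- What the kernel at the scale `e` has to satisfy. -/
structure IsKernel (Φ : (Fin N → ℝ) × (Fin d → ℝ) → (Fin d → ℝ)) (ρ : (Fin N → ℝ) → ℝ)
    (K : Set (Fin d → ℝ)) (e C c : ℝ) (w : (Fin d → ℝ) → (Fin N → ℝ) → (Fin d → ℝ) → ℝ)
    (A : (Fin d → ℝ) → (Fin N → ℝ) → (Fin d → ℝ) → (Fin N → ℝ)) : Prop where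
  cont_w : ContinuousOn (fun p : (Fin d → ℝ) × (Fin N → ℝ) × (Fin d → ℝ) => w p.1 p.2.1 p.2.2)
    (K ×ˢ univ)
  cont_A : ContinuousOn (fun p : (Fin d → ℝ) × (Fin N → ℝ) × (Fin d → ℝ) => A p.1 p.2.1 p.2.2)
    (K ×ˢ univ)
  nonneg : ∀ z b x, 0 ≤ w z b x
  small : ∀ z ∈ K, ∀ b x, w z b x ≠ 0 →
    ‖A z b x‖ ≤ C * e ∧ ‖b‖ ≤ C * e ∧ ‖x - z‖ ≤ C * e ∧ Φ (A z b x, z) = x
  le_upper : ∀ z ∈ K, ∀ b x, w z b x ≤ C / e ^ (N + d)
  mass_le : ∀ z ∈ K, ∀ x, ∫ b, w z b x ≤ C / e ^ d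
  le_mass : ∀ z ∈ K, ∀ x, ‖x - z‖ ≤ c * e → c / e ^ d ≤ ∫ b, w z b x
  integral_eq : ∀ z ∈ K, ∀ {F : Type} [NormedAddCommGroup F] [NormedSpace ℝ F] [CompleteSpace F]
    (f : (Fin N → ℝ) × (Fin d → ℝ) → F), Continuous f →
      ∫ a, (ρ (e⁻¹ • a) / e ^ N) • f (a, Φ (a, z)) =
        ∫ x, ∫ b, w z b x • f (A z b x, x)

/-- The data behind the kernel: a right inverse `L` and the solution `v = s z b x` of
`Φ (b + L z v, z) = x` for small `b` and `x - z`, continued continuously to all `b` and `x`. -/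
structure Sol (Φ : (Fin N → ℝ) × (Fin d → ℝ) → (Fin d → ℝ)) (K : Set (Fin d → ℝ)) where
  /-- The right inverse. -/
  L : (Fin d → ℝ) → (Fin d → ℝ) →L[ℝ] (Fin N → ℝ)
  /-- The solution. -/
  s : (Fin d → ℝ) → (Fin N → ℝ) → (Fin d → ℝ) → (Fin d → ℝ)
  /-- The radius for `v`. -/
  r : ℝ
  /-- The radius for `b` and `x - z`. -/
  r1 : ℝ
  /-- The bound of `L`. -/
  Lm : ℝ
  /-- The Lipschitz bound of `Φ` in the parameter. -/
  M : ℝ
  /-- The lower bound of the determinant. -/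
  c₀ : ℝ
  /-- The upper bound of the determinant. -/
  C₀ : ℝ
  r_pos : 0 < r
  r1_pos : 0 < r1
  one_le_Lm : 1 ≤ Lm
  one_le_M : 1 ≤ M
  c₀_pos : 0 < c₀
  C₀_pos : 0 < C₀
  cont_L : ContinuousOn L K
  norm_L : ∀ z ∈ K, ∀ v, ‖L z v‖ ≤ Lm * ‖v‖
  norm_s : ∀ z ∈ K, ∀ b x, ‖s z b x‖ ≤ r
  solves : ∀ z ∈ K, ∀ b x, Φ (clamp r1 b + L z (s z b x), z) = z + clamp r1 (x - z)
  cont_s : ContinuousOn (fun p : (Fin d → ℝ) × (Fin N → ℝ) × (Fin d → ℝ) =>
    s p.1 p.2.1 p.2.2) (K ×ˢ univ)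
  anti : ∀ z ∈ K, ∀ b v v', ‖b‖ ≤ r1 → ‖v‖ ≤ r → ‖v'‖ ≤ r →
    ‖v - v'‖ ≤ 2 * ‖Φ (b + L z v, z) - Φ (b + L z v', z)‖
  move : ∀ z ∈ K, ∀ b v, ‖b‖ ≤ r1 → ‖v‖ ≤ r → ‖Φ (b + L z v, z) - z‖ ≤ M * ‖b + L z v‖
  det : ∀ z ∈ K, ∀ b v, ‖b‖ ≤ r1 → ‖v‖ ≤ r →
    c₀ ≤ |((dPar Φ (b + L z v) z).comp (L z)).det| ∧
      |((dPar Φ (b + L z v) z).comp (L z)).det| ≤ C₀

/-- The data of the kernel exist. -/
theorem exists_sol {Φ : (Fin N → ℝ) × (Fin d → ℝ) → (Fin d → ℝ)} (hΦ : ContDiff ℝ 1 Φ)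
    {K : Set (Fin d → ℝ)} (hK : IsCompact K) (hΦ0 : ∀ z ∈ K, Φ (0, z) = z)
    (honto : ∀ z ∈ K, Surjective (dPar Φ 0 z)) : Nonempty (Sol Φ K) := by
  classical
  obtain ⟨L, hLc, hL⟩ := exists_rightInverse hΦ honto
  obtain ⟨Lm', hLm'⟩ := hK.exists_bound_of_continuousOn hLc
  set Lm := max Lm' 1
  have hLm1 : 1 ≤ Lm := le_max_right _ _
  have hLm : ∀ z ∈ K, ∀ v, ‖L z v‖ ≤ Lm * ‖v‖ := fun z hz v =>
    (L z).le_of_opNorm_le ((hLm' z hz).trans (le_max_left _ _)) v
  have hdP : Continuous fun p : (Fin N → ℝ) × (Fin d → ℝ) => dPar Φ p.1 p.2 :=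
    (hΦ.continuous_fderiv one_ne_zero).clm_comp continuous_const
  obtain ⟨Dm, hDm⟩ := hK.exists_bound_of_continuousOn (f := fun z => dPar Φ 0 z)
    (hdP.comp (continuous_const.prodMk continuous_id)).continuousOn
  set η : ℝ := 1 / (2 * Lm) with hη
  have hη0 : 0 < η := by positivity
  -- the parameter range on which the derivative is almost constant
  have hev : ∀ᶠ a : Fin N → ℝ in 𝓝 0, ∀ z ∈ K, ‖dPar Φ a z - dPar Φ 0 z‖ < η := by
    refine hK.eventually_forall_of_forall_eventually fun z _ => ?_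
    have hc : Continuous fun q : (Fin N → ℝ) × (Fin d → ℝ) =>
        ‖dPar Φ q.1 q.2 - dPar Φ 0 q.2‖ :=
      (hdP.sub (hdP.comp (continuous_const.prodMk continuous_snd))).norm
    exact hc.continuousAt.eventually_lt continuousAt_const (by simpa using hη0)
  obtain ⟨δ, hδ, hball⟩ := Metric.eventually_nhds_iff.1 hev
  have hnear : ∀ a : Fin N → ℝ, ‖a‖ < δ → ∀ z ∈ K, ‖dPar Φ a z - dPar Φ 0 z‖ ≤ η :=
    fun a ha z hz => (hball (by simpa [dist_eq_norm] using ha) z hz).le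
  set M := max (Dm + η) 1
  have hM1 : 1 ≤ M := le_max_right _ _
  have hfd : ∀ (a : Fin N → ℝ) z, HasFDerivAt (fun a => Φ (a, z)) (dPar Φ a z) a := fun a z =>
    ((hΦ.differentiable one_ne_zero) (a, z)).hasFDerivAt.comp a (hasFDerivAt_prodMk_left a z)
  have hmove : ∀ z ∈ K, ∀ a : Fin N → ℝ, ‖a‖ < δ → ‖Φ (a, z) - z‖ ≤ M * ‖a‖ := by
    intro z hz a ha
    have h := (convex_ball (0 : Fin N → ℝ) δ).norm_image_sub_le_of_norm_hasFDerivWithin_le
      (f := fun a => Φ (a, z)) (C := M) (fun b _ => (hfd b z).hasFDerivWithinAt) (fun b hb => ?_)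
      (mem_ball_self hδ) (mem_ball_zero_iff.2 ha)
    · simpa [hΦ0 z hz] using h
    · refine le_trans ?_ (le_max_left _ _)
      calc ‖dPar Φ b z‖ ≤ ‖dPar Φ b z - dPar Φ 0 z‖ + ‖dPar Φ 0 z‖ := norm_le_norm_sub_add _ _
        _ ≤ η + Dm := add_le_add (hnear b (mem_ball_zero_iff.1 hb) z hz) (hDm z hz)
        _ = Dm + η := add_comm _ _
  -- the radii
  set r : ℝ := δ / (4 * Lm) with hr
  set r1 : ℝ := min (δ / 4) (r / (2 * (M + 1))) with hr1
  have hr0 : 0 < r := by positivity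
  have hr10 : 0 < r1 := lt_min (by positivity) (by positivity)
  have hrad : ∀ z ∈ K, ∀ (b : Fin N → ℝ) (v : Fin d → ℝ), ‖b‖ ≤ r1 → ‖v‖ ≤ r →
      ‖b + L z v‖ < δ := by
    intro z hz b v hb hv
    have h1 : ‖L z v‖ ≤ δ / 4 :=
      ((hLm z hz v).trans (mul_le_mul_of_nonneg_left hv (by linarith))).trans_eq
        (by rw [hr]; field_simp)
    have h2 := norm_add_le b (L z v)
    have h3 : ‖b‖ ≤ δ / 4 := hb.trans (min_le_left _ _)
    linarith
  set ψ : (Fin d → ℝ) → (Fin N → ℝ) → (Fin d → ℝ) → (Fin d → ℝ) :=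
    fun z b v => Φ (b + L z v, z) with hψ
  set J : (Fin d → ℝ) → (Fin N → ℝ) → (Fin d → ℝ) → (Fin d → ℝ) →L[ℝ] (Fin d → ℝ) :=
    fun z b v => (dPar Φ (b + L z v) z).comp (L z) with hJ
  have hψd : ∀ z b v, HasFDerivAt (ψ z b) (J z b v) v := fun z b v =>
    (hfd _ z).comp v ((L z).hasFDerivAt.const_add b)
  have hJid : ∀ z ∈ K, ∀ b v, ‖b‖ ≤ r1 → ‖v‖ ≤ r →
      ‖J z b v - ContinuousLinearMap.id ℝ (Fin d → ℝ)‖ ≤ 1 / 2 := by
    intro z hz b v hb hv
    refine ContinuousLinearMap.opNorm_le_bound _ (by norm_num) fun u => ?_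
    have e1 : (J z b v - ContinuousLinearMap.id ℝ (Fin d → ℝ)) u =
        (dPar Φ (b + L z v) z - dPar Φ 0 z) (L z u) := by simp [hJ, hL z hz u]
    rw [e1]
    calc _ ≤ ‖dPar Φ (b + L z v) z - dPar Φ 0 z‖ * ‖L z u‖ := ContinuousLinearMap.le_opNorm _ _
      _ ≤ η * (Lm * ‖u‖) := mul_le_mul (hnear _ (hrad z hz b v hb hv) z hz) (hLm z hz u)
          (norm_nonneg _) hη0.le
      _ = 1 / 2 * ‖u‖ := by rw [hη]; field_simp
  have hanti : ∀ z ∈ K, ∀ b v v', ‖b‖ ≤ r1 → ‖v‖ ≤ r → ‖v'‖ ≤ r →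
      ‖v - v'‖ ≤ 2 * ‖ψ z b v - ψ z b v'‖ := by
    intro z hz b v v' hb hv hv'
    have h := (convex_closedBall (0 : Fin d → ℝ) r).norm_image_sub_le_of_norm_hasFDerivWithin_le'
      (φ := ContinuousLinearMap.id ℝ (Fin d → ℝ)) (C := 1 / 2)
      (fun u _ => (hψd z b u).hasFDerivWithinAt)
      (fun u hu => hJid z hz b u hb (mem_closedBall_zero_iff.1 hu))
      (mem_closedBall_zero_iff.2 hv') (mem_closedBall_zero_iff.2 hv)
    rw [ContinuousLinearMap.id_apply] at h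
    have h2 := norm_le_insert (ψ z b v - ψ z b v') (v - v')
    linarith
  have hsurj : ∀ z ∈ K, ∀ b x, ‖b‖ ≤ r1 → ‖x - z‖ ≤ r1 → ∃ v, ‖v‖ ≤ r ∧ ψ z b v = x := by
    intro z hz b x hb hx
    set g := fun v => v - (ψ z b v - x) with hg
    have hlip : ∀ u ∈ closedBall (0 : Fin d → ℝ) r, ∀ v ∈ closedBall (0 : Fin d → ℝ) r,
        ‖g u - g v‖ ≤ 1 / 2 * ‖u - v‖ := by
      intro u hu v hv
      have h := (convex_closedBall (0 : Fin d → ℝ) r).norm_image_sub_le_of_norm_hasFDerivWithin_le'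
        (φ := ContinuousLinearMap.id ℝ (Fin d → ℝ)) (C := 1 / 2)
        (fun w _ => (hψd z b w).hasFDerivWithinAt)
        (fun w hw => hJid z hz b w hb (mem_closedBall_zero_iff.1 hw)) hv hu
      rw [show g u - g v = -(ψ z b u - ψ z b v - ContinuousLinearMap.id ℝ (Fin d → ℝ) (u - v)) by
        simp only [hg, ContinuousLinearMap.id_apply]; abel, norm_neg]
      exact h
    have hg0 : ‖g 0‖ ≤ r / 2 := by
      have h1 : g 0 = (x - z) - (Φ (b, z) - z) := by simp [hg, hψ]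
      rw [h1]
      have h2 := norm_sub_le (x - z) (Φ (b, z) - z)
      have h3 := hmove z hz b (hb.trans_lt (by linarith [min_le_left (δ / 4) (r / (2 * (M + 1)))]))
      have h4 : M * ‖b‖ ≤ M * r1 := mul_le_mul_of_nonneg_left hb (by linarith)
      have h5 : (M + 1) * r1 ≤ r / 2 := by
        refine (mul_le_mul_of_nonneg_left (min_le_right _ _) (by linarith)).trans_eq ?_
        field_simp
      nlinarith
    have hmaps : MapsTo g (closedBall 0 r) (closedBall 0 r) := by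
      intro v hv
      have h1 := hlip v hv 0 (mem_closedBall_self hr0.le)
      have h2 := norm_le_norm_sub_add (g v) (g 0)
      rw [mem_closedBall_zero_iff, ] at hv ⊢
      rw [sub_zero] at h1
      linarith
    have hc : ContractingWith (1 / 2 : NNReal) (hmaps.restrict g _ _) := by
      refine ⟨by norm_num, LipschitzWith.of_dist_le_mul fun u v => ?_⟩
      simpa [Subtype.dist_eq, dist_eq_norm] using hlip u u.2 v v.2
    obtain ⟨v, hv, hfix, -⟩ := hc.exists_fixedPoint' isClosed_closedBall.isComplete hmaps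
      (mem_closedBall_self hr0.le) (edist_ne_top _ _)
    exact ⟨v, mem_closedBall_zero_iff.1 hv, sub_eq_zero.1 (sub_eq_self.1 hfix.eq)⟩
  choose! sol hsolr hsol using hsurj
  set s : (Fin d → ℝ) → (Fin N → ℝ) → (Fin d → ℝ) → (Fin d → ℝ) :=
    fun z b x => sol z (clamp r1 b) (z + clamp r1 (x - z)) with hs
  have hcb : ∀ b : Fin N → ℝ, ‖clamp r1 b‖ ≤ r1 := norm_clamp_le hr10.le
  have hcx : ∀ z x : Fin d → ℝ, ‖z + clamp r1 (x - z) - z‖ ≤ r1 := fun z x => by
    simpa using norm_clamp_le hr10.le (x - z)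
  have hsr : ∀ z ∈ K, ∀ b x, ‖s z b x‖ ≤ r := fun z hz b x =>
    hsolr z hz _ _ (hcb b) (hcx z x)
  have hsψ : ∀ z ∈ K, ∀ b x, ψ z (clamp r1 b) (s z b x) = z + clamp r1 (x - z) := fun z hz b x =>
    hsol z hz _ _ (hcb b) (hcx z x)
  set S : Set ((Fin d → ℝ) × (Fin N → ℝ) × (Fin d → ℝ)) := K ×ˢ univ with hSdef
  have hsc : ContinuousOn (fun p : (Fin d → ℝ) × (Fin N → ℝ) × (Fin d → ℝ) =>
      s p.1 p.2.1 p.2.2) S := by
    intro p hp
    have hz : p.1 ∈ K := hp.1
    set v₀ := s p.1 p.2.1 p.2.2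
    have hL' : ContinuousOn (fun q : (Fin d → ℝ) × (Fin N → ℝ) × (Fin d → ℝ) => L q.1) S :=
      hLc.comp continuous_fst.continuousOn fun q hq => hq.1
    set G := fun q : (Fin d → ℝ) × (Fin N → ℝ) × (Fin d → ℝ) =>
      2 * ‖q.1 + clamp r1 (q.2.2 - q.1) - Φ (clamp r1 q.2.1 + L q.1 v₀, q.1)‖ with hG
    have hGc : ContinuousOn G S := by
      refine (ContinuousOn.norm (ContinuousOn.sub ?_ ?_)).const_smul (2 : ℝ)
      · exact (continuous_fst.add ((continuous_clamp r1).comp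
          (continuous_snd.snd.sub continuous_fst))).continuousOn
      · exact hΦ.continuous.comp_continuousOn
          ((((continuous_clamp r1).comp continuous_snd.fst).continuousOn.add
            (hL'.clm_apply continuousOn_const)).prodMk continuous_fst.continuousOn)
    have hG0 : G p = 0 := by
      have : Φ (clamp r1 p.2.1 + L p.1 v₀, p.1) = p.1 + clamp r1 (p.2.2 - p.1) :=
        hsψ p.1 hz p.2.1 p.2.2
      simp [hG, this]
    have hlim := hGc p hp
    rw [ContinuousWithinAt, hG0] at hlim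
    refine tendsto_iff_norm_sub_tendsto_zero.2 (squeeze_zero' ?_ ?_ hlim)
    · exact Eventually.of_forall fun q => norm_nonneg _
    · refine eventually_nhdsWithin_of_forall fun q hq => ?_
      have h := hanti q.1 hq.1 _ _ v₀ (hcb q.2.1) (hsr q.1 hq.1 q.2.1 q.2.2)
        (hsr p.1 hz p.2.1 p.2.2)
      rw [hsψ q.1 hq.1] at h
      exact h
  obtain ⟨c₀, C₀, hc₀, hdet⟩ := exists_det_bounds (d := d)
  have hC₀ : 0 < C₀ := by
    have h := hdet (ContinuousLinearMap.id ℝ (Fin d → ℝ)) (by simp)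
    linarith [h.1, h.2]
  exact ⟨{ L := L, s := s, r := r, r1 := r1, Lm := Lm, M := M, c₀ := c₀, C₀ := C₀
           r_pos := hr0, r1_pos := hr10, one_le_Lm := hLm1, one_le_M := hM1
           c₀_pos := hc₀, C₀_pos := hC₀, cont_L := hLc, norm_L := hLm, norm_s := hsr
           solves := hsψ, cont_s := hsc, anti := hanti
           move := fun z hz b v hb hv => hmove z hz _ (hrad z hz b v hb hv)
           det := fun z hz b v hb hv => hdet _ (hJid z hz b v hb hv) }⟩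

namespace Sol

variable {Φ : (Fin N → ℝ) × (Fin d → ℝ) → (Fin d → ℝ)} {K : Set (Fin d → ℝ)} (D : Sol Φ K)

/-- The parameter over `(b, x)`. -/
def param (z : Fin d → ℝ) (b : Fin N → ℝ) (x : Fin d → ℝ) : Fin N → ℝ := b + D.L z (D.s z b x)

/-- The weight over `(b, x)`. -/
noncomputable def weight (μ : (Fin N → ℝ) → ℝ) (β : (Fin d → ℝ) → ℝ) (z : Fin d → ℝ)
    (b : Fin N → ℝ) (x : Fin d → ℝ) : ℝ :=
  μ (D.param z b x) * β (D.s z b x) /
    |((dPar Φ (clamp D.r1 b + D.L z (D.s z b x)) z).comp (D.L z)).det|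

lemma continuousOn_param : ContinuousOn (fun p : (Fin d → ℝ) × (Fin N → ℝ) × (Fin d → ℝ) =>
    D.param p.1 p.2.1 p.2.2) (K ×ˢ univ) :=
  continuous_snd.fst.continuousOn.add
    ((D.cont_L.comp continuous_fst.continuousOn fun _ hq => hq.1).clm_apply D.cont_s)

lemma continuousOn_weight (hΦ : ContDiff ℝ 1 Φ) {μ : (Fin N → ℝ) → ℝ} (hμ : Continuous μ)
    {β : (Fin d → ℝ) → ℝ} (hβ : Continuous β) :
    ContinuousOn (fun p : (Fin d → ℝ) × (Fin N → ℝ) × (Fin d → ℝ) =>
      D.weight μ β p.1 p.2.1 p.2.2) (K ×ˢ univ) := by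
  refine ((hμ.comp_continuousOn D.continuousOn_param).mul (hβ.comp_continuousOn D.cont_s)).div ?_
    fun p hp => ?_
  · have hL' : ContinuousOn (fun q : (Fin d → ℝ) × (Fin N → ℝ) × (Fin d → ℝ) => D.L q.1)
        (K ×ˢ univ) := D.cont_L.comp continuous_fst.continuousOn fun _ hq => hq.1
    have hdP : Continuous fun p : (Fin N → ℝ) × (Fin d → ℝ) => dPar Φ p.1 p.2 :=
      (hΦ.continuous_fderiv one_ne_zero).clm_comp continuous_const
    refine (ContinuousLinearMap.continuous_det.abs).comp_continuousOn ?_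
    exact (hdP.comp_continuousOn
      ((((continuous_clamp D.r1).comp continuous_snd.fst).continuousOn.add
        (hL'.clm_apply D.cont_s)).prodMk continuous_fst.continuousOn)).clm_comp hL'
  · have := D.det p.1 hp.1 _ _ (norm_clamp_le D.r1_pos.le p.2.1) (D.norm_s p.1 hp.1 p.2.1 p.2.2)
    linarith [this.1, D.c₀_pos]

/-- The weight lives on `‖b‖, ‖x - z‖ ≤ Q e`, and there it solves the equation. -/
lemma weight_small {μ : (Fin N → ℝ) → ℝ} {β : (Fin d → ℝ) → ℝ} {e R Q : ℝ} (he : 0 ≤ e)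
    (hμ : ∀ a, μ a ≠ 0 → ‖a‖ ≤ R * e) (hβ : ∀ v, β v ≠ 0 → ‖v‖ ≤ 2 * e)
    (hQ1 : R + 2 * D.Lm ≤ Q) (hQ2 : D.M * R ≤ Q) (hQe : Q * e < D.r1)
    {z : Fin d → ℝ} (hz : z ∈ K) {b : Fin N → ℝ} {x : Fin d → ℝ} (h : D.weight μ β z b x ≠ 0) :
    ‖D.param z b x‖ ≤ R * e ∧ ‖b‖ ≤ Q * e ∧ ‖x - z‖ ≤ Q * e ∧ Φ (D.param z b x, z) = x := by
  simp only [weight, div_ne_zero_iff, mul_ne_zero_iff] at h
  have hAe := hμ _ h.1.1
  have hLs : ‖D.L z (D.s z b x)‖ ≤ 2 * D.Lm * e := by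
    refine (D.norm_L z hz _).trans ?_
    have := mul_le_mul_of_nonneg_left (hβ _ h.1.2) (zero_le_one.trans D.one_le_Lm)
    linarith
  have hbe : ‖b‖ ≤ Q * e := by
    have h1 : ‖b‖ ≤ ‖D.param z b x‖ + ‖D.L z (D.s z b x)‖ := by
      simpa [param] using norm_sub_le (D.param z b x) (D.L z (D.s z b x))
    nlinarith
  have hb1 : ‖b‖ ≤ D.r1 := hbe.trans hQe.le
  have hψA : Φ (D.param z b x, z) = z + clamp D.r1 (x - z) := by
    have := D.solves z hz b x
    rwa [clamp_of_norm_le hb1] at this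
  have hmv : ‖Φ (D.param z b x, z) - z‖ ≤ D.M * ‖D.param z b x‖ :=
    D.move z hz b _ hb1 (D.norm_s z hz b x)
  rw [hψA, add_sub_cancel_left] at hmv
  have hcl : ‖clamp D.r1 (x - z)‖ ≤ Q * e := by
    have := mul_le_mul_of_nonneg_left hAe (zero_le_one.trans D.one_le_M)
    nlinarith
  have hxe := eq_of_norm_clamp_lt D.r1_pos.le (hcl.trans_lt hQe)
  rw [hxe] at hψA hcl
  exact ⟨hAe, hbe, hcl, by rw [hψA, add_sub_cancel]⟩

/-- Near the diagonal the parameter and the solution are small. -/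
lemma small_of_small {z : Fin d → ℝ} (hz : z ∈ K) {b : Fin N → ℝ} {x : Fin d → ℝ} {u : ℝ}
    (hb : ‖b‖ ≤ u) (hx : ‖x - z‖ ≤ u) (hu : u ≤ D.r1) :
    ‖D.s z b x‖ ≤ 2 * (D.M + 1) * u ∧
      ‖D.param z b x‖ ≤ (1 + 2 * D.Lm * (D.M + 1)) * u := by
  have hψs : Φ (b + D.L z (D.s z b x), z) = x := by
    have := D.solves z hz b x
    rwa [clamp_of_norm_le (hb.trans hu), clamp_of_norm_le (hx.trans hu), add_sub_cancel] at this
  have h := D.anti z hz b (D.s z b x) 0 (hb.trans hu) (D.norm_s z hz b x)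
    (by simpa using D.r_pos.le)
  have h3 := D.move z hz b 0 (hb.trans hu) (by simpa using D.r_pos.le)
  rw [hψs, sub_zero] at h
  simp only [map_zero, add_zero] at h h3
  have h2 : ‖x - Φ (b, z)‖ ≤ ‖x - z‖ + ‖Φ (b, z) - z‖ := by
    simpa using norm_sub_le (x - z) (Φ (b, z) - z)
  have h4 := mul_le_mul_of_nonneg_left hb (zero_le_one.trans D.one_le_M)
  have hs : ‖D.s z b x‖ ≤ 2 * (D.M + 1) * u := by linarith
  refine ⟨hs, ?_⟩
  have h5 := norm_add_le b (D.L z (D.s z b x))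
  have h6 := (D.norm_L z hz (D.s z b x)).trans
    (mul_le_mul_of_nonneg_left hs (zero_le_one.trans D.one_le_Lm))
  simp only [param]
  linarith

/-- The substitution in one slice. -/
lemma integral_slice (hΦ : ContDiff ℝ 1 Φ) {μ : (Fin N → ℝ) → ℝ} {β : (Fin d → ℝ) → ℝ}
    {e R Q : ℝ} (he : 0 ≤ e) (hμ : ∀ a, μ a ≠ 0 → ‖a‖ ≤ R * e)
    (hβ : ∀ v, β v ≠ 0 → ‖v‖ ≤ 2 * e) (hQ1 : R + 2 * D.Lm ≤ Q) (hQ2 : D.M * R ≤ Q)
    (hQe : Q * e < D.r1) (her : 2 * e ≤ D.r) {z : Fin d → ℝ} (hz : z ∈ K) {F : Type*}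
    [NormedAddCommGroup F] [NormedSpace ℝ F] (f : (Fin N → ℝ) × (Fin d → ℝ) → F) (b : Fin N → ℝ) :
    ∫ v, β v • μ (b + D.L z v) • f (b + D.L z v, Φ (b + D.L z v, z)) =
      ∫ x, D.weight μ β z b x • f (D.param z b x, x) := by
  set H : (Fin d → ℝ) → F :=
    fun v => β v • μ (b + D.L z v) • f (b + D.L z v, Φ (b + D.L z v, z)) with hH
  set G : (Fin d → ℝ) → F := fun x => D.weight μ β z b x • f (D.param z b x, x) with hG
  show ∫ v, H v = ∫ x, G x
  by_cases hb : ‖b‖ ≤ D.r1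
  swap
  · have h1 : ∀ v, H v = 0 := fun v => by
      by_contra h
      simp only [hH, smul_ne_zero_iff] at h
      have h2 := hμ _ h.2.1
      have h3 := norm_sub_le (b + D.L z v) (D.L z v)
      rw [add_sub_cancel_right] at h3
      have h4 := (D.norm_L z hz v).trans
        (mul_le_mul_of_nonneg_left (hβ _ h.1) (zero_le_one.trans D.one_le_Lm))
      nlinarith
    have h2 : ∀ x, G x = 0 := fun x => by
      by_contra h
      exact hb ((D.weight_small he hμ hβ hQ1 hQ2 hQe hz (smul_ne_zero_iff.1 h).1).2.1.trans hQe.le)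
    simp [h1, h2]
  set ψ := fun v => Φ (b + D.L z v, z) with hψ
  have hfd : ∀ a, HasFDerivAt (fun a => Φ (a, z)) (dPar Φ a z) a := fun a =>
    ((hΦ.differentiable one_ne_zero) (a, z)).hasFDerivAt.comp a (hasFDerivAt_prodMk_left a z)
  have hψd : ∀ v, HasFDerivAt ψ ((dPar Φ (b + D.L z v) z).comp (D.L z)) v := fun v =>
    (hfd _).comp v ((D.L z).hasFDerivAt.const_add b)
  have hinj : InjOn ψ (closedBall 0 D.r) := fun u hu v hv huv => by
    have := D.anti z hz b u v hb (mem_closedBall_zero_iff.1 hu) (mem_closedBall_zero_iff.1 hv)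
    simp only [hψ] at huv
    rw [huv, sub_self, norm_zero, mul_zero] at this
    exact sub_eq_zero.1 (norm_le_zero_iff.1 this)
  have himg : ∀ x, x ∉ ψ '' closedBall 0 D.r → G x = 0 := fun x hx => of_not_not fun h =>
    hx ⟨D.s z b x, mem_closedBall_zero_iff.2 (D.norm_s z hz b x),
      (D.weight_small he hμ hβ hQ1 hQ2 hQe hz (smul_ne_zero_iff.1 h).1).2.2.2⟩
  have hsupp : ∀ v, v ∉ closedBall (0 : Fin d → ℝ) D.r → H v = 0 := fun v hv => of_not_not fun h =>
    hv (mem_closedBall_zero_iff.2 ((hβ _ (smul_ne_zero_iff.1 h).1).trans her))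
  rw [← setIntegral_eq_integral_of_forall_compl_eq_zero himg,
    integral_image_eq_integral_abs_det_fderiv_smul volume measurableSet_closedBall
      (fun v _ => (hψd v).hasFDerivWithinAt) hinj,
    ← setIntegral_eq_integral_of_forall_compl_eq_zero hsupp]
  refine setIntegral_congr_fun measurableSet_closedBall fun v hv => ?_
  rw [mem_closedBall_zero_iff] at hv
  by_cases hx : ‖ψ v - z‖ ≤ D.r1
  · have hsv : D.s z b (ψ v) = v := by
      have h := D.anti z hz b (D.s z b (ψ v)) v hb (D.norm_s z hz _ _) hv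
      have h' := D.solves z hz b (ψ v)
      rw [clamp_of_norm_le hb, clamp_of_norm_le hx, add_sub_cancel] at h'
      simp only [hψ] at h h' ⊢
      rw [h', sub_self, norm_zero, mul_zero] at h
      exact sub_eq_zero.1 (norm_le_zero_iff.1 h)
    have hd0 := D.c₀_pos.trans_le (D.det z hz b v hb hv).1
    simp only [hH, hG, weight, param, hsv, clamp_of_norm_le hb, smul_smul]
    simp only [hψ]
    congr 1
    field_simp
  · have h1 : D.weight μ β z b (ψ v) = 0 := of_not_not fun h =>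
      hx ((D.weight_small he hμ hβ hQ1 hQ2 hQe hz h).2.2.1.trans hQe.le)
    have h2 : β v * μ (b + D.L z v) = 0 := of_not_not fun h => by
      have h3 := mul_le_mul_of_nonneg_left (hμ _ (mul_ne_zero_iff.1 h).2)
        (zero_le_one.trans D.one_le_M)
      have h4 := D.move z hz b v hb hv
      have h5 : D.M * (R * e) ≤ Q * e := by nlinarith
      exact hx (by simp only [hψ]; linarith)
    simp [hH, hG, h1, smul_smul, h2]

/-- The substitution after the averaging over `b`. -/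
lemma integral_eq (hΦ : ContDiff ℝ 1 Φ) {μ : (Fin N → ℝ) → ℝ} (hμc : Continuous μ)
    {β : (Fin d → ℝ) → ℝ} (hβc : Continuous β) (hβi : ∫ v, β v = 1)
    {e R Q : ℝ} (he : 0 ≤ e) (hμ : ∀ a, μ a ≠ 0 → ‖a‖ ≤ R * e)
    (hβ : ∀ v, β v ≠ 0 → ‖v‖ ≤ 2 * e) (hQ1 : R + 2 * D.Lm ≤ Q) (hQ2 : D.M * R ≤ Q)
    (hQe : Q * e < D.r1) (her : 2 * e ≤ D.r) {z : Fin d → ℝ} (hz : z ∈ K) {F : Type*}
    [NormedAddCommGroup F] [NormedSpace ℝ F] [CompleteSpace F]
    (f : (Fin N → ℝ) × (Fin d → ℝ) → F) (hf : Continuous f) :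
    ∫ a, μ a • f (a, Φ (a, z)) = ∫ x, ∫ b, D.weight μ β z b x • f (D.param z b x, x) := by
  set g : (Fin N → ℝ) → F := fun a => μ a • f (a, Φ (a, z)) with hg
  have hgc : Continuous g :=
    hμc.smul (hf.comp (continuous_id.prodMk (hΦ.continuous.comp
      (continuous_id.prodMk continuous_const))))
  set H : (Fin N → ℝ) → (Fin d → ℝ) → F := fun b v => β v • g (b + D.L z v) with hH
  have hHc : Continuous (uncurry H) :=
    (hβc.comp continuous_snd).smul (hgc.comp (continuous_fst.add ((D.L z).continuous.comp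
      continuous_snd)))
  have hHs : HasCompactSupport (uncurry H) := by
    refine HasCompactSupport.intro ((isCompact_closedBall (0 : Fin N → ℝ) (Q * e)).prod
      (isCompact_closedBall (0 : Fin d → ℝ) (2 * e))) fun p hp => ?_
    by_contra h
    simp only [uncurry, hH, hg, smul_ne_zero_iff] at h
    have h1 := hβ _ h.1
    have h2 := hμ _ h.2.1
    refine hp ⟨mem_closedBall_zero_iff.2 ?_, mem_closedBall_zero_iff.2 h1⟩
    have h3 := norm_sub_le (p.1 + D.L z p.2) (D.L z p.2)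
    rw [add_sub_cancel_right] at h3
    have h4 := (D.norm_L z hz p.2).trans
      (mul_le_mul_of_nonneg_left h1 (zero_le_one.trans D.one_le_Lm))
    nlinarith
  set G : (Fin N → ℝ) → (Fin d → ℝ) → F :=
    fun b x => D.weight μ β z b x • f (D.param z b x, x) with hG
  have hmk : Continuous fun p : (Fin N → ℝ) × (Fin d → ℝ) => (z, p) :=
    continuous_const.prodMk continuous_id
  have hGc : Continuous (uncurry G) :=
    ((D.continuousOn_weight hΦ hμc hβc).comp_continuous hmk fun _ => ⟨hz, trivial⟩).smul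
      (hf.comp ((D.continuousOn_param.comp_continuous hmk fun _ => ⟨hz, trivial⟩).prodMk
        continuous_snd))
  have hGs : HasCompactSupport (uncurry G) := by
    refine HasCompactSupport.intro ((isCompact_closedBall (0 : Fin N → ℝ) (Q * e)).prod
      (isCompact_closedBall z (Q * e))) fun p hp => ?_
    by_contra h
    simp only [uncurry, hG, smul_ne_zero_iff] at h
    obtain ⟨-, h2, h3, -⟩ := D.weight_small he hμ hβ hQ1 hQ2 hQe hz h.1
    exact hp ⟨mem_closedBall_zero_iff.2 h2, mem_closedBall_iff_norm.2 h3⟩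
  have h0 : ∀ v, ∫ b, H b v = β v • ∫ a, g a := fun v => by
    simp only [hH, integral_smul, integral_add_right_eq_self g]
  have key : ∀ b, ∫ v, H b v = ∫ x, G b x :=
    D.integral_slice hΦ he hμ hβ hQ1 hQ2 hQe her hz f
  calc ∫ a, g a = ∫ v, ∫ b, H b v := by simp only [h0, integral_smul_const, hβi, one_smul]
    _ = ∫ b, ∫ v, H b v :=
      (integral_integral_swap (hHc.integrable_of_hasCompactSupport hHs)).symm
    _ = ∫ b, ∫ x, G b x := by simp_rw [key]
    _ = ∫ x, ∫ b, G b x := integral_integral_swap (hGc.integrable_of_hasCompactSupport hGs)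

end Sol

/-- A bump of mass one at the scale `e`. -/
lemma exists_bump {e : ℝ} (he : 0 < e) : ∃ β : (Fin d → ℝ) → ℝ, Continuous β ∧ (∀ v, 0 ≤ β v) ∧
    (∀ v, β v ≠ 0 → ‖v‖ ≤ 2 * e) ∧ (∫ v, β v = 1) ∧ (∀ v, β v ≤ 1 / (2 * e) ^ d) ∧
      ∀ v, ‖v‖ ≤ e → 1 / (4 * e) ^ d ≤ β v := by
  let φb : ContDiffBump (0 : Fin d → ℝ) := ⟨e, 2 * e, he, by linarith⟩
  have hvol : ∀ ρ' : ℝ, 0 ≤ ρ' →
      volume.real (closedBall (0 : Fin d → ℝ) ρ') = (2 * ρ') ^ d := fun ρ' h => by
    simp [measureReal_def, Real.volume_pi_closedBall _ h, h]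
  refine ⟨φb.normed volume, φb.continuous_normed, φb.nonneg_normed, fun v hv => ?_,
    φb.integral_normed, fun v => ?_, fun v hv => ?_⟩
  · have := (φb.support_normed_eq (μ := volume)) ▸ (mem_support.2 hv)
    exact le_of_lt (by simpa [φb] using this)
  · exact (φb.normed_le_div_measure_closedBall_rIn volume v).trans_eq (by rw [hvol e he.le])
  · rw [ContDiffBump.normed_def, φb.one_of_mem_closedBall (mem_closedBall_zero_iff.2 hv)]
    refine one_div_le_one_div_of_le φb.integral_pos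
      ((φb.integral_le_measure_closedBall volume).trans_eq ?_)
    rw [hvol (2 * e) (by linarith)]
    ring

/-- The average along `Φ` at a small scale has a continuous kernel of exact order `e ^ (-d)`. -/
theorem exists_kernel {Φ : (Fin N → ℝ) × (Fin d → ℝ) → (Fin d → ℝ)} (hΦ : ContDiff ℝ 1 Φ)
    {K : Set (Fin d → ℝ)} (hK : IsCompact K) (hΦ0 : ∀ z ∈ K, Φ (0, z) = z)
    (honto : ∀ z ∈ K, Surjective (dPar Φ 0 z)) {ρ : (Fin N → ℝ) → ℝ} (hρ : Continuous ρ)
    (hρ0 : ∀ a, 0 ≤ ρ a) (hρs : HasCompactSupport ρ) (hρp : 0 < ρ 0) :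
    ∃ e₀ C c : ℝ, 0 < e₀ ∧ 0 < C ∧ 0 < c ∧ ∀ e, 0 < e → e ≤ e₀ →
      ∃ (w : (Fin d → ℝ) → (Fin N → ℝ) → (Fin d → ℝ) → ℝ)
        (A : (Fin d → ℝ) → (Fin N → ℝ) → (Fin d → ℝ) → (Fin N → ℝ)),
        IsKernel Φ ρ K e C c w A := by
  obtain ⟨D⟩ := exists_sol hΦ hK hΦ0 honto
  obtain ⟨R', hR'⟩ := hρs.isBounded.subset_closedBall 0
  set R := max R' 1
  have hR1 : 1 ≤ R := le_max_right _ _
  have hR : ∀ a, ρ a ≠ 0 → ‖a‖ ≤ R := fun a ha =>
    (mem_closedBall_zero_iff.1 (hR' (subset_tsupport _ ha))).trans (le_max_left _ _)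
  obtain ⟨Rm, hRm⟩ := hρs.exists_bound_of_continuous hρ
  have hRm0 : 0 ≤ Rm := (norm_nonneg _).trans (hRm 0)
  obtain ⟨t, ht, hρt⟩ := Metric.eventually_nhds_iff.1
    ((continuousAt_const (y := ρ 0 / 2)).eventually_lt hρ.continuousAt
      (by linarith : ρ 0 / 2 < ρ 0) : ∀ᶠ a in 𝓝 0, ρ 0 / 2 < ρ a)
  have hLm1 := D.one_le_Lm
  have hM1 := D.one_le_M
  have hc₀ := D.c₀_pos
  have hC₀ := D.C₀_pos
  set Q := R + 2 * D.Lm + D.M * R
  have hMR : 1 ≤ D.M * R := one_le_mul_of_one_le_of_one_le hM1 hR1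
  have hQ : 0 < Q := by linarith
  have hQ1 : R + 2 * D.Lm ≤ Q := by linarith
  have hQ2 : D.M * R ≤ Q := by linarith
  set c₁ := min (t / (2 * (1 + 2 * D.Lm * (D.M + 1)))) (1 / (2 * (D.M + 1))) with hc₁
  have hc₁0 : 0 < c₁ := lt_min (by positivity) (by positivity)
  have hc1 : 2 * (D.M + 1) * c₁ ≤ 1 :=
    (mul_le_mul_of_nonneg_left (min_le_right _ _) (by linarith)).trans_eq (by field_simp)
  have hc2 : (1 + 2 * D.Lm * (D.M + 1)) * c₁ ≤ t / 2 :=
    (mul_le_mul_of_nonneg_left (min_le_left _ _) (by positivity)).trans_eq (by field_simp)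
  set U := Rm * (1 / 2 ^ d) / D.c₀ with hU
  set Lo := ρ 0 / 2 * (1 / 4 ^ d) / D.C₀ with hLo
  have hU0 : 0 ≤ U := by positivity
  have hLo0 : 0 < Lo := by positivity
  have hr1' := D.r1_pos
  have hr' := D.r_pos
  refine ⟨min (D.r / 2) (min (D.r1 / (2 * Q)) (D.r1 / (2 * c₁))),
    max (max Q U) (U * (2 * Q) ^ N), min c₁ (Lo * (2 * c₁) ^ N),
    lt_min (by positivity) (lt_min (by positivity) (by positivity)),
    lt_of_lt_of_le hQ ((le_max_left _ _).trans (le_max_left _ _)),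
    lt_min hc₁0 (by positivity), fun e he he' => ?_⟩
  simp only [le_min_iff] at he'
  obtain ⟨he2, he3, he4⟩ := he'
  have her : 2 * e ≤ D.r := by linarith
  have hQe : Q * e < D.r1 := by
    rw [le_div_iff₀ (by positivity)] at he3; nlinarith
  have hce : c₁ * e ≤ D.r1 := by
    rw [le_div_iff₀ (by positivity)] at he4; nlinarith
  obtain ⟨β, hβc, hβ0, hβs, hβi, hβu, hβl⟩ := exists_bump (d := d) he
  set μ : (Fin N → ℝ) → ℝ := fun a => ρ (e⁻¹ • a) / e ^ N with hμdef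
  have hμc : Continuous μ := (hρ.comp (continuous_const_smul _)).div_const _
  have hμ0 : ∀ a, 0 ≤ μ a := fun a => div_nonneg (hρ0 _) (pow_nonneg he.le _)
  have hμs : ∀ a, μ a ≠ 0 → ‖a‖ ≤ R * e := fun a ha => by
    have h := hR (e⁻¹ • a) fun h => ha (by simp [hμdef, h])
    rwa [norm_smul, norm_inv, Real.norm_of_nonneg he.le, inv_mul_le_iff₀ he, mul_comm] at h
  have hw0 : ∀ z b x, 0 ≤ D.weight μ β z b x := fun z b x =>
    div_nonneg (mul_nonneg (hμ0 _) (hβ0 _)) (abs_nonneg _)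
  have hsmall := fun z (hz : z ∈ K) b x (h : D.weight μ β z b x ≠ 0) =>
    D.weight_small he.le hμs hβs hQ1 hQ2 hQe hz (b := b) (x := x) h
  have hupper : ∀ z ∈ K, ∀ b x, D.weight μ β z b x ≤ U / e ^ (N + d) := fun z hz b x => by
    have h1 : μ (D.param z b x) ≤ Rm / e ^ N :=
      div_le_div_of_nonneg_right ((le_abs_self _).trans (hRm _)) (pow_nonneg he.le _)
    have h2 := (D.det z hz _ _ (norm_clamp_le hr1'.le b) (D.norm_s z hz b x)).1
    calc D.weight μ β z b x ≤ Rm / e ^ N * (1 / (2 * e) ^ d) / D.c₀ :=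
          div_le_div₀ (by positivity) (mul_le_mul h1 (hβu _) (hβ0 _) (by positivity)) hc₀ h2
      _ = U / e ^ (N + d) := by rw [hU, pow_add, mul_pow]; field_simp
  have hwint : ∀ z ∈ K, ∀ x, Integrable fun b => D.weight μ β z b x := fun z hz x =>
    ((D.continuousOn_weight hΦ hμc hβc).comp_continuous
      (continuous_const.prodMk (continuous_id.prodMk continuous_const))
        fun _ => ⟨hz, trivial⟩).integrable_of_hasCompactSupport
      (HasCompactSupport.intro (isCompact_closedBall (0 : Fin N → ℝ) (Q * e)) fun b hb =>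
        of_not_not fun h => hb (mem_closedBall_zero_iff.2 (hsmall z hz b x h).2.1))
  have hvol : ∀ ρ' : ℝ, 0 ≤ ρ' →
      volume.real (closedBall (0 : Fin N → ℝ) ρ') = (2 * ρ') ^ N := fun ρ' h => by
    simp [measureReal_def, Real.volume_pi_closedBall _ h, h]
  have hball : ∀ ρ' a : ℝ, 0 ≤ ρ' → Integrable ((closedBall (0 : Fin N → ℝ) ρ').indicator fun _ => a) ∧
      ∫ b, (closedBall (0 : Fin N → ℝ) ρ').indicator (fun _ => a) b = (2 * ρ') ^ N * a :=
    fun ρ' a h => ⟨(integrableOn_const measure_closedBall_lt_top.ne).integrable_indicator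
      measurableSet_closedBall, by
      rw [integral_indicator measurableSet_closedBall, setIntegral_const, hvol _ h, smul_eq_mul]⟩
  have hCQ : Q ≤ max (max Q U) (U * (2 * Q) ^ N) := (le_max_left _ _).trans (le_max_left _ _)
  have hRQ : R ≤ Q := by linarith
  refine ⟨D.weight μ β, D.param, D.continuousOn_weight hΦ hμc hβc, D.continuousOn_param, hw0,
    fun z hz b x h => ?_, fun z hz b x => ?_, fun z hz x => ?_, fun z hz x hx => ?_, ?_⟩
  · obtain ⟨h1, h2, h3, h4⟩ := hsmall z hz b x h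
    exact ⟨h1.trans (mul_le_mul_of_nonneg_right (hRQ.trans hCQ) he.le),
      h2.trans (mul_le_mul_of_nonneg_right hCQ he.le),
      h3.trans (mul_le_mul_of_nonneg_right hCQ he.le), h4⟩
  · exact (hupper z hz b x).trans (div_le_div_of_nonneg_right
      ((le_max_right _ _).trans (le_max_left _ _)) (pow_nonneg he.le _))
  · obtain ⟨hi, hv⟩ := hball (Q * e) (U / e ^ (N + d)) (by positivity)
    refine (integral_mono (hwint z hz x) hi fun b => ?_).trans ?_
    · by_cases hb : b ∈ closedBall (0 : Fin N → ℝ) (Q * e)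
      · rw [indicator_of_mem hb]; exact hupper z hz b x
      · rw [indicator_of_notMem hb]
        by_contra hc
        exact hb (mem_closedBall_zero_iff.2 (hsmall z hz b x fun h0 => hc h0.le).2.1)
    · rw [hv]
      refine le_of_eq_of_le ?_
        (div_le_div_of_nonneg_right (le_max_right _ _) (pow_nonneg he.le _))
      rw [pow_add, mul_pow, mul_pow, mul_pow]
      field_simp
  · have hx1 : ‖x - z‖ ≤ c₁ * e := hx.trans (mul_le_mul_of_nonneg_right (min_le_left _ _) he.le)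
    obtain ⟨hi, hv⟩ := hball (c₁ * e) (Lo / e ^ (N + d)) (by positivity)
    refine le_trans ?_ (integral_mono hi (hwint z hz x) fun b => ?_)
    · rw [hv]
      refine le_of_le_of_eq
        (div_le_div_of_nonneg_right (min_le_right _ _) (pow_nonneg he.le _)) ?_
      rw [pow_add, mul_pow, mul_pow, mul_pow]
      field_simp
    · by_cases hb : b ∈ closedBall (0 : Fin N → ℝ) (c₁ * e)
      swap
      · rw [indicator_of_notMem hb]; exact hw0 _ _ _
      rw [indicator_of_mem hb]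
      obtain ⟨hs, hA⟩ := D.small_of_small hz (mem_closedBall_zero_iff.1 hb) hx1 hce
      have hse : ‖D.s z b x‖ ≤ e := by nlinarith
      have hρA : ρ 0 / 2 / e ^ N ≤ μ (D.param z b x) := by
        refine div_le_div_of_nonneg_right (le_of_lt (hρt ?_)) (pow_nonneg he.le _)
        rw [dist_zero_right, norm_smul, norm_inv, Real.norm_of_nonneg he.le, inv_mul_lt_iff₀ he]
        nlinarith
      have hJ2 := D.det z hz _ _ (norm_clamp_le hr1'.le b) (D.norm_s z hz b x)
      calc Lo / e ^ (N + d) = ρ 0 / 2 / e ^ N * (1 / (4 * e) ^ d) / D.C₀ := by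
            rw [hLo, pow_add, mul_pow]; field_simp
        _ ≤ D.weight μ β z b x := div_le_div₀ (mul_nonneg (hμ0 _) (hβ0 _))
            (mul_le_mul hρA (hβl _ hse) (by positivity) (hμ0 _)) (hc₀.trans_le hJ2.1) hJ2.2
  · intro z hz F _ _ _ f hf
    exact D.integral_eq hΦ hμc hβc hβi he.le hμs hβs hQ1 hQ2 hQe her hz f hf

/-- Integrals in `b` against the kernel are continuous in the two points. -/
theorem IsKernel.continuousOn_integral {Φ : (Fin N → ℝ) × (Fin d → ℝ) → (Fin d → ℝ)}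
    {ρ : (Fin N → ℝ) → ℝ} {K : Set (Fin d → ℝ)} {e C c : ℝ}
    {w : (Fin d → ℝ) → (Fin N → ℝ) → (Fin d → ℝ) → ℝ}
    {A : (Fin d → ℝ) → (Fin N → ℝ) → (Fin d → ℝ) → (Fin N → ℝ)}
    (h : IsKernel Φ ρ K e C c w A) {F : Type*} [NormedAddCommGroup F] [NormedSpace ℝ F]
    {f : (Fin d → ℝ) × (Fin N → ℝ) × (Fin d → ℝ) → F} (hf : ContinuousOn f (K ×ˢ univ)) :
    ContinuousOn (fun p : (Fin d → ℝ) × (Fin d → ℝ) =>
      ∫ b, w p.1 b p.2 • f (p.1, A p.1 b p.2, p.2)) (K ×ˢ univ) := by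
  refine continuousOn_integral_of_compact_support (isCompact_closedBall (0 : Fin N → ℝ) (C * e))
    ?_ fun p b hp hb => ?_
  · have hm : ContinuousOn (fun q : ((Fin d → ℝ) × (Fin d → ℝ)) × (Fin N → ℝ) =>
        (q.1.1, q.2, q.1.2)) ((K ×ˢ univ) ×ˢ univ) := by fun_prop
    have hmap : MapsTo (fun q : ((Fin d → ℝ) × (Fin d → ℝ)) × (Fin N → ℝ) =>
        (q.1.1, q.2, q.1.2)) ((K ×ˢ univ) ×ˢ univ) (K ×ˢ univ) := fun q hq => ⟨hq.1.1, trivial⟩
    have hA := h.cont_A.comp hm hmap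
    refine (h.cont_w.comp hm hmap).smul (hf.comp ?_ fun q hq => ⟨hq.1.1, trivial⟩)
    exact continuous_fst.fst.continuousOn.prodMk (hA.prodMk continuous_fst.snd.continuousOn)
  · by_contra hne
    exact hb (mem_closedBall_zero_iff.2 (h.small p.1 hp.1 b p.2 (smul_ne_zero_iff.1 hne).1).2.1)

/-- The kernel for a weight which acts linearly on the value of `φ`. -/
theorem IsKernel.integral_apply {Φ : (Fin N → ℝ) × (Fin d → ℝ) → (Fin d → ℝ)}
    {ρ : (Fin N → ℝ) → ℝ} {K : Set (Fin d → ℝ)} {e C c : ℝ}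
    {w : (Fin d → ℝ) → (Fin N → ℝ) → (Fin d → ℝ) → ℝ}
    {A : (Fin d → ℝ) → (Fin N → ℝ) → (Fin d → ℝ) → (Fin N → ℝ)}
    (h : IsKernel Φ ρ K e C c w A) {F₁ F₂ : Type} [NormedAddCommGroup F₁] [NormedSpace ℝ F₁]
    [NormedAddCommGroup F₂] [NormedSpace ℝ F₂] [CompleteSpace F₂]
    {G : (Fin N → ℝ) → F₁ →L[ℝ] F₂} (hG : Continuous G) {φ : (Fin d → ℝ) → F₁}
    (hφ : Continuous φ) {z : Fin d → ℝ} (hz : z ∈ K) :
    ∫ a, (ρ (e⁻¹ • a) / e ^ N) • G a (φ (Φ (a, z))) =
      ∫ x, (∫ b, w z b x • G (A z b x)) (φ x) := by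
  rw [h.integral_eq z hz (fun p => G p.1 (φ p.2))
    ((hG.comp continuous_fst).clm_apply (hφ.comp continuous_snd))]
  refine integral_congr_ae (Eventually.of_forall fun x => ?_)
  have hc : Continuous fun b => w z b x • G (A z b x) :=
    (h.cont_w.comp_continuous (continuous_const.prodMk (continuous_id.prodMk continuous_const))
      fun b => ⟨hz, trivial⟩).smul (hG.comp (h.cont_A.comp_continuous
      (continuous_const.prodMk (continuous_id.prodMk continuous_const)) fun b => ⟨hz, trivial⟩))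
  simp only []
  rw [ContinuousLinearMap.integral_apply (hc.integrable_of_hasCompactSupport
    (HasCompactSupport.intro (isCompact_closedBall (0 : Fin N → ℝ) (C * e)) fun b hb =>
      of_not_not fun hne => hb (mem_closedBall_zero_iff.2
        (h.small z hz b x (smul_ne_zero_iff.1 hne).1).2.1)))]
  simp

end Vale.Agent.P204.Gen.KernelLocal
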