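import Vale.Agent.P204.Torus.Calculus

/-!
P204: two-forms and endomorphisms of a smooth four-manifold read in charts with values in `V`,
their change of charts, and the invariance of closedness.
-/

noncomputable section

open scoped Manifold ContDiff Topology
open Filter Set

namespace Vale.Agent.P204.Four

open Vale.Agent.P204.Torus

/-- The model space of a four-manifold. -/
abbrev E4 := EuclideanSpace ℝ (Fin 4)

variable {X : Type*} [TopologicalSpace X] [ChartedSpace E4 X]

/-- A field of endomorphisms of the tangent spaces. -/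
abbrev Endo (X : Type*) [TopologicalSpace X] [ChartedSpace E4 X] :=
  ∀ x : X, TangentSpace (𝓡 4) x →L[ℝ] TangentSpace (𝓡 4) x

/-- A field of bilinear forms on the tangent spaces. -/
abbrev Bilin (X : Type*) [TopologicalSpace X] [ChartedSpace E4 X] :=
  ∀ x : X, TangentSpace (𝓡 4) x →L[ℝ] TangentSpace (𝓡 4) x →L[ℝ] ℝ

/-- The components of `J` in the chart at `p`: the image of the constant vector `a` at `u`. -/
def endoInChart (J : Endo X) (p : X) (a u : E4) : E4 :=
  mfderiv (𝓡 4) (𝓡 4) (chartAt E4 p) ((chartAt E4 p).symm u)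
    (J ((chartAt E4 p).symm u) (mfderiv (𝓡 4) (𝓡 4) (chartAt E4 p).symm u a))

/-- The component `(a, b)` of `om` in the chart at `p`. -/
def formInChart (om : Bilin X) (p : X) (a b u : E4) : ℝ :=
  om ((chartAt E4 p).symm u) (mfderiv (𝓡 4) (𝓡 4) (chartAt E4 p).symm u a)
    (mfderiv (𝓡 4) (𝓡 4) (chartAt E4 p).symm u b)

/-- A smooth almost complex structure. -/
structure AlmostComplex (J : Endo X) : Prop where
  sq : ∀ x v, J x (J x v) = -v
  smooth : ∀ p a, ContDiffOn ℝ ∞ (endoInChart J p a) (chartAt E4 p).target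

/-- A smooth closed two-form. -/
structure ClosedTwoForm (om : Bilin X) : Prop where
  skew : ∀ x u v, om x u v = -om x v u
  smooth : ∀ p a b, ContDiffOn ℝ ∞ (formInChart om p a b) (chartAt E4 p).target
  closed : ∀ p, ∀ u ∈ (chartAt E4 p).target, ∀ a b c,
    fderiv ℝ (formInChart om p b c) u a + fderiv ℝ (formInChart om p c a) u b
      + fderiv ℝ (formInChart om p a b) u c = 0

/-- The linear identification of the model space with the coordinates of the torus. -/
def toV : E4 ≃L[ℝ] V := EuclideanSpace.equiv (Fin 4) ℝ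

/-- A chart with values in `V` of the smooth structure. -/
structure IsChart (φ : OpenPartialHomeomorph X V) : Prop where
  fwd : ContMDiffOn (𝓡 4) 𝓘(ℝ, V) ∞ φ φ.source
  inv : ContMDiffOn 𝓘(ℝ, V) (𝓡 4) ∞ φ.symm φ.target

/-- The chart at `p` with values in `V`. -/
def stdChart (p : X) : OpenPartialHomeomorph X V :=
  (chartAt E4 p).trans toV.toHomeomorph.toOpenPartialHomeomorph

/-- The derivative of a chart. -/
def D (φ : OpenPartialHomeomorph X V) (x : X) : E4 →L[ℝ] V := mfderiv (𝓡 4) 𝓘(ℝ, V) φ x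

/-- The derivative of the inverse of a chart. -/
def P (φ : OpenPartialHomeomorph X V) (u : V) : V →L[ℝ] E4 :=
  mfderiv 𝓘(ℝ, V) (𝓡 4) φ.symm u

/-- An endomorphism of a tangent space, on the model space. -/
def Jm (J : Endo X) (x : X) : E4 →L[ℝ] E4 := J x

/-- A bilinear form on a tangent space, on the model space. -/
def Bm (om : Bilin X) (x : X) : E4 →L[ℝ] E4 →L[ℝ] ℝ := om x

/-- The change from the chart `φ` to the chart `χ`. -/
def change (φ χ : OpenPartialHomeomorph X V) (u : V) : V := χ (φ.symm u)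

/-- A two-form in a chart. -/
def formRep (φ : OpenPartialHomeomorph X V) (om : Bilin X) (u : V) : Form :=
  ofSkew fun a b => Bm om (φ.symm u) (P φ u a) (P φ u b)

/-- An endomorphism field in a chart. -/
def endoRep (φ : OpenPartialHomeomorph X V) (J : Endo X) (u : V) : V →L[ℝ] V :=
  (D φ (φ.symm u)).comp ((Jm J (φ.symm u)).comp (P φ u))

variable {φ χ : OpenPartialHomeomorph X V}

lemma IsChart.mdiffAt (h : IsChart φ) {x : X} (hx : x ∈ φ.source) :
    MDifferentiableAt (𝓡 4) 𝓘(ℝ, V) φ x :=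
  (h.fwd.contMDiffAt (φ.open_source.mem_nhds hx)).mdifferentiableAt (by simp)

lemma IsChart.mdiffAt_symm (h : IsChart φ) {u : V} (hu : u ∈ φ.target) :
    MDifferentiableAt 𝓘(ℝ, V) (𝓡 4) φ.symm u :=
  (h.inv.contMDiffAt (φ.open_target.mem_nhds hu)).mdifferentiableAt (by simp)

lemma IsChart.fderiv_change (hφ : IsChart φ) (hχ : IsChart χ) {u : V} (hu : u ∈ φ.target)
    (hx : φ.symm u ∈ χ.source) :
    fderiv ℝ (change φ χ) u = (D χ (φ.symm u)).comp (P φ u) := by
  rw [← mfderiv_eq_fderiv]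
  exact mfderiv_comp u (hχ.mdiffAt hx) (hφ.mdiffAt_symm hu)

omit [ChartedSpace E4 X] in
lemma change_eventuallyEq_self {u : V} (hu : u ∈ φ.target) : change φ φ =ᶠ[𝓝 u] id :=
  eventually_of_mem (φ.open_target.mem_nhds hu) fun _ hv => φ.right_inv hv

lemma IsChart.D_P (h : IsChart φ) {x : X} (hx : x ∈ φ.source) (a : V) :
    D φ x (P φ (φ x) a) = a := by
  have h1 := h.fderiv_change h (φ.map_source hx) (by rwa [φ.left_inv hx])
  rw [(change_eventuallyEq_self (φ.map_source hx)).fderiv_eq, fderiv_id, φ.left_inv hx] at h1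
  exact (DFunLike.congr_fun h1 a).symm

lemma IsChart.P_D (h : IsChart φ) {x : X} (hx : x ∈ φ.source) (v : E4) :
    P φ (φ x) (D φ x v) = v := by
  have h1 := mfderiv_comp x (h.mdiffAt_symm (φ.map_source hx)) (h.mdiffAt hx)
  have h2 : (φ.symm ∘ φ) =ᶠ[𝓝 x] id :=
    eventually_of_mem (φ.open_source.mem_nhds hx) fun _ hv => φ.left_inv hv
  rw [h2.mfderiv_eq, mfderiv_id] at h1
  exact (DFunLike.congr_fun h1 v).symm

lemma IsChart.contDiffOn_change (hφ : IsChart φ) (hχ : IsChart χ) :
    ContDiffOn ℝ ∞ (change φ χ) (φ.target ∩ φ.symm ⁻¹' χ.source) :=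
  (hχ.fwd.comp (hφ.inv.mono inter_subset_left) inter_subset_right).contDiffOn

omit [ChartedSpace E4 X] in
lemma isOpen_change (φ χ : OpenPartialHomeomorph X V) :
    IsOpen (φ.target ∩ φ.symm ⁻¹' χ.source) :=
  φ.isOpen_inter_preimage_symm χ.open_source

lemma IsChart.contDiffAt_change (hφ : IsChart φ) (hχ : IsChart χ) {u : V} (hu : u ∈ φ.target)
    (hx : φ.symm u ∈ χ.source) : ContDiffAt ℝ ∞ (change φ χ) u :=
  (hφ.contDiffOn_change hχ).contDiffAt ((isOpen_change φ χ).mem_nhds ⟨hu, hx⟩)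

lemma ev_formRep {om : Bilin X} (hskew : ∀ x u v, om x u v = -om x v u) (u a b : V) :
    ev (formRep φ om u) a b = Bm om (φ.symm u) (P φ u a) (P φ u b) :=
  ev_ofSkew (fun a b => Bm om (φ.symm u) (P φ u a) (P φ u b)) (fun _ _ => hskew _ _ _)
    (fun _ _ _ => by simp) (fun _ _ _ => by simp) a b

lemma formRep_change (hφ : IsChart φ) (hχ : IsChart χ) {om : Bilin X}
    (hskew : ∀ x u v, om x u v = -om x v u) {u : V} (hu : u ∈ φ.target)
    (hx : φ.symm u ∈ χ.source) :
    formRep φ om u = pull (fderiv ℝ (change φ χ) u) (formRep χ om (change φ χ u)) := by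
  refine form_ext fun a b => ?_
  rw [ev_pull, ev_formRep hskew, ev_formRep hskew, hφ.fderiv_change hχ hu hx,
    ContinuousLinearMap.comp_apply, ContinuousLinearMap.comp_apply, change, hχ.P_D hx, hχ.P_D hx,
    χ.left_inv hx]

lemma endoRep_change (hφ : IsChart φ) (hχ : IsChart χ) (J : Endo X) {u : V} (hu : u ∈ φ.target)
    (hx : φ.symm u ∈ χ.source) :
    endoRep φ J u = (fderiv ℝ (change χ φ) (change φ χ u)).comp
      ((endoRep χ J (change φ χ u)).comp (fderiv ℝ (change φ χ) u)) := by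
  have h2 : χ.symm (change φ χ u) = φ.symm u := χ.left_inv hx
  refine ContinuousLinearMap.ext fun a => ?_
  have hy : change φ χ u ∈ χ.target := χ.map_source hx
  rw [hφ.fderiv_change hχ hu hx, hχ.fderiv_change hφ hy (by rw [h2]; exact φ.map_target hu)]
  simp only [endoRep, ContinuousLinearMap.comp_apply, h2]
  simp only [change, hχ.P_D hx]

/-- Closedness of a field of two-forms at a point. -/
def ClosedAt (f : V → Form) (u : V) : Prop :=
  ∀ a b c, ev (fderiv ℝ f u a) b c + ev (fderiv ℝ f u b) c a + ev (fderiv ℝ f u c) a b = 0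

lemma ClosedAt.congr {f g : V → Form} {u : V} (h : ClosedAt f u) (hfg : g =ᶠ[𝓝 u] f) :
    ClosedAt g u := by
  rw [ClosedAt, hfg.fderiv_eq]; exact h

lemma contDiffOn_form {f : V → Form} {s : Set V} :
    ContDiffOn ℝ ∞ f s ↔ ∀ k, ContDiffOn ℝ ∞ (fun x => f x k) s :=
  contDiffOn_piLp 2

lemma contDiffOn_ev {f : V → Form} {a b : V → V} {s : Set V} (hf : ContDiffOn ℝ ∞ f s)
    (ha : ContDiffOn ℝ ∞ a s) (hb : ContDiffOn ℝ ∞ b s) :
    ContDiffOn ℝ ∞ (fun x => ev (f x) (a x) (b x)) s := by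
  have h1 := contDiffOn_form.1 hf
  have h2 := contDiffOn_pi.1 ha
  have h3 := contDiffOn_pi.1 hb
  simp only [ev]
  exact ContDiffOn.sum fun k _ => (h1 k).mul (((h2 _).mul (h3 _)).sub ((h3 _).mul (h2 _)))

lemma contDiffOn_pull {f : V → Form} {A : V → V →L[ℝ] V} {s : Set V} (hf : ContDiffOn ℝ ∞ f s)
    (hA : ContDiffOn ℝ ∞ A s) : ContDiffOn ℝ ∞ (fun x => pull (A x) (f x)) s := by
  refine contDiffOn_form.2 fun k => ?_
  simp only [pull, ofSkew_apply]
  exact contDiffOn_ev hf (hA.clm_apply contDiffOn_const) (hA.clm_apply contDiffOn_const)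

/-- The pull-back of a closed field is closed. -/
lemma closedAt_pull {T : V → V} {f : V → Form} {u : V} (hT : ContDiffAt ℝ ∞ T u)
    (hf : DifferentiableAt ℝ f (T u)) (hc : ClosedAt f (T u)) :
    ClosedAt (fun v => pull (fderiv ℝ T v) (f (T v))) u := by
  have hT1 : DifferentiableAt ℝ T u := hT.differentiableAt (by simp)
  have hT2 : DifferentiableAt ℝ (fderiv ℝ T) u :=
    (hT.fderiv_right (m := (1 : WithTop ℕ∞)) (WithTop.coe_le_coe.2 le_top)).differentiableAt
      one_ne_zero
  have hsym : IsSymmSndFDerivAt ℝ T u := hT.isSymmSndFDerivAt (by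
    rw [minSmoothness_of_isRCLikeNormedField]; exact WithTop.coe_le_coe.2 le_top)
  have hfT : DifferentiableAt ℝ (fun v => f (T v)) u := hf.comp u hT1
  have hd : ∀ a, DifferentiableAt ℝ (fun v => fderiv ℝ T v a) u := fun a =>
    hT2.clm_apply (differentiableAt_const a)
  have hF : DifferentiableAt ℝ (fun v => pull (fderiv ℝ T v) (f (T v))) u := by
    refine (differentiableAt_piLp 2).2 fun k => ?_
    simp only [pull, ofSkew_apply, ev]
    fun_prop
  have key : ∀ a b c, ev (fderiv ℝ (fun v => pull (fderiv ℝ T v) (f (T v))) u a) b c =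
      ev (fderiv ℝ f (T u) (fderiv ℝ T u a)) (fderiv ℝ T u b) (fderiv ℝ T u c)
        + ev (f (T u)) (fderiv ℝ (fderiv ℝ T) u a b) (fderiv ℝ T u c)
        + ev (f (T u)) (fderiv ℝ T u b) (fderiv ℝ (fderiv ℝ T) u a c) := by
    intro a b c
    have h1 := fderiv_ev hF (differentiableAt_const b) (differentiableAt_const c) a
    simp only [fderiv_fun_const, Pi.zero_apply, zero_apply, ev_pull, map_zero] at h1
    rw [show ev (f (T u)) (0 : V) (fderiv ℝ T u c) = 0 by simp [ev_def],
      show ev (f (T u)) (fderiv ℝ T u b) (0 : V) = 0 by simp [ev_def], add_zero, add_zero] at h1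
    rw [← h1, fderiv_ev hfT (hd b) (hd c)]
    simp [fderiv_clm_apply hT2 (differentiableAt_const _), fderiv_fun_comp u hf hT1]
  intro a b c
  have h := hc (fderiv ℝ T u a) (fderiv ℝ T u b) (fderiv ℝ T u c)
  rw [key, key, key, hsym.eq b a, hsym.eq c a, hsym.eq c b]
  linarith [ev_skew (f (T u)) (fderiv ℝ T u b) (fderiv ℝ (fderiv ℝ T) u a c),
    ev_skew (f (T u)) (fderiv ℝ T u c) (fderiv ℝ (fderiv ℝ T) u a b),
    ev_skew (f (T u)) (fderiv ℝ T u a) (fderiv ℝ (fderiv ℝ T) u b c)]

variable [IsManifold (𝓡 4) ∞ X]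

lemma isChart_stdChart (p : X) : IsChart (stdChart p) where
  fwd := (toV.contDiff.contMDiff.comp_contMDiffOn (contMDiffOn_chart (x := p) (n := ∞))).mono fun _ h => h.1
  inv := (contMDiffOn_chart_symm (x := p) (n := ∞)).comp toV.symm.contDiff.contMDiff.contMDiffOn
    fun _ h => h.2

omit [IsManifold (𝓡 4) ∞ X] in
lemma mem_stdChart_target {p : X} {u : E4} (hu : u ∈ (chartAt E4 p).target) :
    toV u ∈ (stdChart p).target := by
  simpa [stdChart] using hu

lemma P_stdChart (p : X) {u : E4} (hu : u ∈ (chartAt E4 p).target) (a : E4) :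
    P (stdChart p) (toV u) (toV a) = mfderiv (𝓡 4) (𝓡 4) (chartAt E4 p).symm u a := by
  have h1 : mfderiv 𝓘(ℝ, V) (𝓡 4) ((chartAt E4 p).symm ∘ toV.symm) (toV u) =
      (mfderiv (𝓡 4) (𝓡 4) (chartAt E4 p).symm (toV.symm (toV u))).comp
        (mfderiv 𝓘(ℝ, V) (𝓡 4) toV.symm (toV u)) :=
    mfderiv_comp _ (by
      rw [toV.symm_apply_apply]
      exact ((contMDiffOn_chart_symm (x := p) (n := ∞)).contMDiffAt
        ((chartAt E4 p).open_target.mem_nhds hu)).mdifferentiableAt (by simp))
      toV.symm.differentiableAt.mdifferentiableAt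
  rw [mfderiv_eq_fderiv, toV.symm.fderiv, toV.symm_apply_apply] at h1
  show mfderiv 𝓘(ℝ, V) (𝓡 4) ((chartAt E4 p).symm ∘ toV.symm) (toV u) (toV a) = _
  rw [h1]
  exact congrArg (mfderiv (𝓡 4) (𝓡 4) (chartAt E4 p).symm u) (toV.symm_apply_apply a)

lemma D_stdChart (p : X) {x : X} (hx : x ∈ (chartAt E4 p).source) (v : E4) :
    D (stdChart p) x v = toV (mfderiv (𝓡 4) (𝓡 4) (chartAt E4 p) x v) := by
  have h1 : mfderiv (𝓡 4) 𝓘(ℝ, V) (toV ∘ chartAt E4 p) x =
      (mfderiv (𝓡 4) 𝓘(ℝ, V) toV (chartAt E4 p x)).comp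
        (mfderiv (𝓡 4) (𝓡 4) (chartAt E4 p) x) :=
    mfderiv_comp _ toV.differentiableAt.mdifferentiableAt
      (((contMDiffOn_chart (x := p) (n := ∞)).contMDiffAt
        ((chartAt E4 p).open_source.mem_nhds hx)).mdifferentiableAt (by simp))
  rw [mfderiv_eq_fderiv, toV.fderiv] at h1
  show mfderiv (𝓡 4) 𝓘(ℝ, V) (toV ∘ chartAt E4 p) x v = _
  rw [h1]
  rfl

lemma ev_formRep_stdChart {om : Bilin X} (hskew : ∀ x u v, om x u v = -om x v u) (p : X) {u : E4}
    (hu : u ∈ (chartAt E4 p).target) (a b : E4) :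
    ev (formRep (stdChart p) om (toV u)) (toV a) (toV b) = formInChart om p a b u := by
  rw [ev_formRep hskew, P_stdChart p hu, P_stdChart p hu]
  have : (stdChart p).symm (toV u) = (chartAt E4 p).symm u :=
    congrArg (chartAt E4 p).symm (toV.symm_apply_apply u)
  rw [this]
  rfl

lemma endoRep_stdChart (J : Endo X) (p : X) {u : E4} (hu : u ∈ (chartAt E4 p).target) (a : E4) :
    endoRep (stdChart p) J (toV u) (toV a) = toV (endoInChart J p a u) := by
  have : (stdChart p).symm (toV u) = (chartAt E4 p).symm u :=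
    congrArg (chartAt E4 p).symm (toV.symm_apply_apply u)
  simp only [endoRep, ContinuousLinearMap.comp_apply, this, P_stdChart p hu,
    D_stdChart p ((chartAt E4 p).map_target hu)]
  rfl

omit [IsManifold (𝓡 4) ∞ X] in
lemma stdChart_target_eq (p : X) {u : V} (hu : u ∈ (stdChart p).target) :
    toV.symm u ∈ (chartAt E4 p).target := hu.2

lemma ClosedTwoForm.contDiffOn_formRep {om : Bilin X} (h : ClosedTwoForm om) (hφ : IsChart φ) :
    ContDiffOn ℝ ∞ (formRep φ om) φ.target := by
  have hstd : ∀ p : X, ContDiffOn ℝ ∞ (formRep (stdChart p) om) (stdChart p).target := fun p => by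
    refine contDiffOn_form.2 fun k => ?_
    refine ((h.smooth p (toV.symm (e (fi k))) (toV.symm (e (se k)))).comp
      toV.symm.contDiff.contDiffOn fun u hu => stdChart_target_eq p hu).congr fun u hu => ?_
    have h1 := ev_formRep_stdChart h.skew p (stdChart_target_eq p hu) (toV.symm (e (fi k)))
      (toV.symm (e (se k)))
    simp only [toV.apply_symm_apply] at h1
    show formRep (stdChart p) om u k = _
    rw [Function.comp_apply, ← h1]
    exact (congrArg (fun f : Form => f k) (ofSkew_ev (formRep (stdChart p) om u))).symm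
  intro u hu
  set χ := stdChart (φ.symm u)
  have hχ : IsChart χ := isChart_stdChart _
  have hx : φ.symm u ∈ χ.source :=
    ⟨mem_chart_source E4 (φ.symm u), mem_univ _⟩
  have hc : ContDiffOn ℝ ∞ (fun v => pull (fderiv ℝ (change φ χ) v) (formRep χ om (change φ χ v)))
      (φ.target ∩ φ.symm ⁻¹' χ.source) :=
    contDiffOn_pull ((hstd _).comp (hφ.contDiffOn_change hχ) fun v hv => χ.map_source hv.2)
      ((hφ.contDiffOn_change hχ).fderiv_of_isOpen (isOpen_change φ χ) (by simp))
  exact ((hc.congr fun v hv => formRep_change hφ hχ h.skew hv.1 hv.2).contDiffAt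
    ((isOpen_change φ χ).mem_nhds ⟨hu, hx⟩)).contDiffWithinAt

lemma AlmostComplex.contDiffOn_endoRep {J : Endo X} (h : AlmostComplex J) (hφ : IsChart φ) :
    ContDiffOn ℝ ∞ (endoRep φ J) φ.target := by
  have hstd : ∀ p : X, ContDiffOn ℝ ∞ (endoRep (stdChart p) J) (stdChart p).target := fun p => by
    refine contDiffOn_clm_apply.2 fun v => ?_
    refine (toV.contDiff.comp_contDiffOn ((h.smooth p (toV.symm v)).comp
      toV.symm.contDiff.contDiffOn fun u hu => stdChart_target_eq p hu)).congr fun u hu => ?_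
    have h1 := endoRep_stdChart J p (stdChart_target_eq p hu) (toV.symm v)
    simpa using h1
  intro u hu
  set χ := stdChart (φ.symm u)
  have hχ : IsChart χ := isChart_stdChart _
  have hx : φ.symm u ∈ χ.source :=
    ⟨mem_chart_source E4 (φ.symm u), mem_univ _⟩
  have hT := hφ.contDiffOn_change hχ
  have hS := (hχ.contDiffOn_change hφ).fderiv_of_isOpen (isOpen_change χ φ) (m := ∞) (by simp)
  have hc : ContDiffOn ℝ ∞ (fun v => (fderiv ℝ (change χ φ) (change φ χ v)).comp
      ((endoRep χ J (change φ χ v)).comp (fderiv ℝ (change φ χ) v)))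
      (φ.target ∩ φ.symm ⁻¹' χ.source) :=
    (hS.comp hT fun v hv => ⟨χ.map_source hv.2, by
      rw [mem_preimage, change, χ.left_inv hv.2]; exact φ.map_target hv.1⟩).clm_comp
      (((hstd _).comp hT fun v hv => χ.map_source hv.2).clm_comp
        (hT.fderiv_of_isOpen (isOpen_change φ χ) (by simp)))
  exact ((hc.congr fun v hv => endoRep_change hφ hχ J hv.1 hv.2).contDiffAt
    ((isOpen_change φ χ).mem_nhds ⟨hu, hx⟩)).contDiffWithinAt

lemma ClosedTwoForm.closedAt_formRep {om : Bilin X} (h : ClosedTwoForm om) (hφ : IsChart φ)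
    {u : V} (hu : u ∈ φ.target) : ClosedAt (formRep φ om) u := by
  set p := φ.symm u
  set χ := stdChart p
  have hχ : IsChart χ := isChart_stdChart _
  have hx : φ.symm u ∈ χ.source := ⟨mem_chart_source E4 p, mem_univ _⟩
  have hy : change φ χ u ∈ χ.target := χ.map_source hx
  have hd : DifferentiableAt ℝ (formRep χ om) (change φ χ u) :=
    ((h.contDiffOn_formRep hχ).contDiffAt (χ.open_target.mem_nhds hy)).differentiableAt (by simp)
  refine (closedAt_pull (hφ.contDiffAt_change hχ hu hx) hd ?_).congr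
    (eventually_of_mem ((isOpen_change φ χ).mem_nhds ⟨hu, hx⟩)
      fun v hv => formRep_change hφ hχ h.skew hv.1 hv.2)
  intro a b c
  set y := change φ χ u
  have hy' := stdChart_target_eq p hy
  have hk : ∀ a b c : V, ev (fderiv ℝ (formRep χ om) y a) b c =
      fderiv ℝ (formInChart om p (toV.symm b) (toV.symm c)) (toV.symm y) (toV.symm a) := by
    intro a b c
    have h1 := fderiv_ev hd (differentiableAt_const b) (differentiableAt_const c) a
    have h2 : (fun v => ev (formRep χ om v) b c) =ᶠ[𝓝 y]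
        (formInChart om p (toV.symm b) (toV.symm c) ∘ toV.symm) := by
      refine eventually_of_mem (χ.open_target.mem_nhds hy) fun v hv => ?_
      have h3 := ev_formRep_stdChart h.skew p (stdChart_target_eq p hv) (toV.symm b) (toV.symm c)
      simpa using h3
    rw [h2.fderiv_eq, toV.symm.comp_right_fderiv] at h1
    simpa [ev_def] using h1.symm
  rw [hk, hk, hk]
  exact h.closed p _ hy' _ _ _

end Vale.Agent.P204.Four
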