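import Vale.Agent.P204.Gen.ChartForm
import Vale.Agent.P204.Gen.GeoDist
import Vale.Agent.P204.Gen.PointRepDef
import Vale.Agent.P204.Torus.Phase1

/-!
P204 on a closed four-manifold: uniform bounds in the charts for the monotonicity inequality
(module 13).
-/

open MeasureTheory Filter Topology
open scoped ContDiff BigOperators

namespace Vale.Agent.P204.Gen.LC

open Vale.Agent.P204.Torus

lemma norm_pull_le (A : V →L[ℝ] V) (α : Form) : ‖pull A α‖ ≤ 72 * ‖A‖ ^ 2 * ‖α‖ := by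
  refine (norm_le_sum _).trans ((Finset.sum_le_sum fun k _ =>
    (?_ : _ ≤ 12 * ‖A‖ ^ 2 * ‖α‖)).trans (le_of_eq (by simp; ring)))
  rw [pull, ofSkew_apply]
  refine (abs_ev_le _ _ _).trans ?_
  have hj : ∀ i, ‖A (e i)‖ ≤ ‖A‖ := fun i =>
    (A.le_opNorm _).trans (mul_le_of_le_one_right (norm_nonneg _) (e_norm_le i))
  calc 12 * (‖α‖ * (‖A (e (fi k))‖ * ‖A (e (se k))‖)) ≤ 12 * (‖α‖ * (‖A‖ * ‖A‖)) := by
        gcongr <;> exact hj _
    _ = _ := by ring

lemma norm_pull_sub_le {A : V →L[ℝ] V} {δ : ℝ} (hA : ‖A - ContinuousLinearMap.id ℝ V‖ ≤ δ)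
    (hδ : δ ≤ 1) (α : Form) : ‖pull A α - α‖ ≤ 216 * δ * ‖α‖ := by
  refine (norm_le_sum _).trans ((Finset.sum_le_sum fun k _ =>
    (?_ : _ ≤ 36 * δ * ‖α‖)).trans (le_of_eq (by simp; ring)))
  have hδ0 : 0 ≤ δ := (norm_nonneg _).trans hA
  have hd : ∀ i, ‖A (e i) - e i‖ ≤ δ := fun i =>
    ((A - ContinuousLinearMap.id ℝ V).le_opNorm _).trans
      ((mul_le_of_le_one_right (norm_nonneg _) (e_norm_le i)).trans hA)
  have hj : ∀ i, ‖A (e i)‖ ≤ 2 := fun i => by
    calc ‖A (e i)‖ = ‖e i + (A (e i) - e i)‖ := by rw [add_sub_cancel]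
      _ ≤ ‖e i‖ + ‖A (e i) - e i‖ := norm_add_le _ _
      _ ≤ 1 + δ := add_le_add (e_norm_le i) (hd i)
      _ ≤ 2 := by linarith
  have hval : (pull A α - α) k = ev α (A (e (fi k)) - e (fi k)) (A (e (se k))) +
      ev α (e (fi k)) (A (e (se k)) - e (se k)) := by
    rw [PiLp.sub_apply, pull, ofSkew_apply, coord_eq_ev α k]
    simp only [ev_def, Pi.sub_apply]
    ring
  rw [hval]
  refine (abs_add_le _ _).trans ?_
  have h1 := (abs_ev_le α (A (e (fi k)) - e (fi k)) (A (e (se k)))).trans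
    (mul_le_mul_of_nonneg_left (mul_le_mul_of_nonneg_left
      (mul_le_mul (hd _) (hj _) (norm_nonneg _) hδ0) (norm_nonneg α)) (by norm_num))
  have h2 := (abs_ev_le α (e (fi k)) (A (e (se k)) - e (se k))).trans
    (mul_le_mul_of_nonneg_left (mul_le_mul_of_nonneg_left
      (mul_le_mul (e_norm_le _) (hd _) (norm_nonneg _) zero_le_one) (norm_nonneg α)) (by norm_num))
  linarith

variable {X : Type*} [TopologicalSpace X] [MeasurableSpace X]

section Atlas

variable (G : Geo X)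

lemma continuousOn_trD (i j : Fin G.n) :
    ContinuousOn (G.trD i j) ((G.φ i).source ∩ (G.φ j).source) := by
  have h : ContinuousOn (fderiv ℝ (G.tc i j)) (G.tdom i j) :=
    (G.trans_smooth i j).continuousOn_fderiv_of_isOpen (G.isOpen_tdom i j) (by simp)
  exact h.comp ((G.φ i).continuousOn.mono Set.inter_subset_left)
    fun x hx => G.chart_mem_tdom hx.1 hx.2

/-- The changes to the coordinates in use are bounded both ways on compact subsets of a chart. -/
lemma exists_dT_bounds [CompactSpace X] {i : Fin G.n} {K : Set X} (hK : IsCompact K)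
    (hs : K ⊆ (G.φ i).source) :
    ∃ C, 0 < C ∧ ∀ x ∈ K, ∀ β, ‖pull (G.dT i x) β‖ ≤ C * ‖β‖ ∧
      ‖β‖ ≤ C * ‖pull (G.dT i x) β‖ := by
  have hj : ∀ j, ∃ C, ∀ x ∈ K ∩ tsupport (G.ψ j), ‖G.trD i j x‖ ≤ C ∧ ‖G.trD j i x‖ ≤ C := by
    intro j
    have hc : IsCompact (K ∩ tsupport (G.ψ j)) := hK.inter_right (isClosed_tsupport _)
    have hsub : ∀ x ∈ K ∩ tsupport (G.ψ j), x ∈ (G.φ i).source ∧ x ∈ (G.φ j).source :=
      fun x hx => ⟨hs hx.1, G.ψ_supp j hx.2⟩
    obtain ⟨C1, h1⟩ := hc.exists_bound_of_continuousOn ((continuousOn_trD G i j).mono hsub)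
    obtain ⟨C2, h2⟩ := hc.exists_bound_of_continuousOn
      ((continuousOn_trD G j i).mono fun x hx => ⟨(hsub x hx).2, (hsub x hx).1⟩)
    exact ⟨max C1 C2, fun x hx =>
      ⟨(h1 x hx).trans (le_max_left _ _), (h2 x hx).trans (le_max_right _ _)⟩⟩
  choose C hC using hj
  refine ⟨∑ j, 72 * C j ^ 2 + 1, by positivity, fun x hx β => ?_⟩
  have hk : x ∈ K ∩ tsupport (G.ψ (G.tr x)) :=
    ⟨hx, subset_tsupport _ (G.tr_pos x).ne'⟩
  obtain ⟨h1, h2⟩ := hC _ x hk
  rw [G.dT_eq]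
  have hle : 72 * C (G.tr x) ^ 2 ≤ ∑ j, 72 * C j ^ 2 + 1 := le_trans
    (Finset.single_le_sum (f := fun j => 72 * C j ^ 2) (fun j _ => by positivity)
      (Finset.mem_univ _)) (by linarith)
  have key : ∀ A : V →L[ℝ] V, ‖A‖ ≤ C (G.tr x) → ∀ b,
      ‖pull A b‖ ≤ (∑ j, 72 * C j ^ 2 + 1) * ‖b‖ := fun A hA b => by
    refine (norm_pull_le A b).trans (mul_le_mul_of_nonneg_right (le_trans ?_ hle) (norm_nonneg _))
    have := norm_nonneg A
    gcongr
  refine ⟨key _ h1 β, ?_⟩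
  conv_lhs => rw [← pull_id β, ← G.trD_symm (hs hx) (G.mem_ch x), ← pull_pull]
  exact key _ h2 _

/-- The regions where a function of the partition is not small. -/
lemma core_compact [CompactSpace X] (i : Fin G.n) : IsCompact (G.coreSet i) :=
  (isClosed_le continuous_const (G.ψ_cont i)).isCompact

lemma n_pos (x : X) : 0 < (G.n : ℝ) := by
  have : 0 < G.n := (G.tr x).pos
  exact_mod_cast this

lemma core_psi_ne {i : Fin G.n} {x : X} (hx : x ∈ G.coreSet i) : G.ψ i x ≠ 0 := by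
  have := n_pos G x
  have h : 1 / (2 * (G.n : ℝ)) ≤ G.ψ i x := hx
  intro h0
  rw [h0] at h
  have : (0 : ℝ) < 1 / (2 * (G.n : ℝ)) := by positivity
  linarith

lemma core_source {i : Fin G.n} {x : X} (hx : x ∈ G.coreSet i) : x ∈ (G.φ i).source :=
  G.ψ_supp i (subset_tsupport _ (core_psi_ne G hx))

lemma core_one {i : Fin G.n} {x : X} (hx : x ∈ G.coreSet i) :
    ∀ᶠ u in 𝓝 (G.φ i x), G.χ i u = 1 :=
  G.χ_one i x (subset_tsupport _ (core_psi_ne G hx))

lemma core_mem_chi {i : Fin G.n} {x : X} (hx : x ∈ G.coreSet i) :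
    G.φ i x ∈ tsupport (G.χ i) :=
  subset_tsupport _ (by rw [Function.mem_support, (core_one G hx).self_of_nhds]; norm_num)

lemma exists_big (x : X) : ∃ i, 1 / (G.n : ℝ) ≤ G.ψ i x := by
  by_contra h
  push Not at h
  have hne : (Finset.univ : Finset (Fin G.n)).Nonempty := ⟨G.tr x, Finset.mem_univ _⟩
  have := Finset.sum_lt_sum_of_nonempty hne fun i _ => h i
  rw [G.ψ_sum x, Finset.sum_const, Finset.card_univ, Fintype.card_fin, nsmul_eq_mul,
    mul_one_div_cancel (n_pos G x).ne'] at this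
  exact lt_irrefl _ this

lemma exists_core (x : X) : ∃ i, x ∈ G.coreSet i := by
  obtain ⟨i, hi⟩ := exists_big G x
  refine ⟨i, le_trans ?_ hi⟩
  have := n_pos G x
  gcongr
  linarith

/-- A neighbourhood of the core in the chart: its points are in the chart, where the cut-off is
one, and the distance is bounded there by the coordinate distance. -/
lemma exists_core_nhd [CompactSpace X] (i : Fin G.n) :
    ∃ δ C, 0 < δ ∧ 0 < C ∧ ∀ z ∈ G.coreSet i, ∀ v, ‖v - G.φ i z‖ ≤ δ →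
      v ∈ (G.φ i).target ∧ (∀ᶠ w in 𝓝 v, G.χ i w = 1) ∧
      G.dX ((G.φ i).symm v) z ≤ C * ‖v - G.φ i z‖ := by
  set W := interior {v | G.χ i v = 1} ∩ (G.φ i).target
  have hW : IsOpen W := isOpen_interior.inter (G.φ i).open_target
  have hA : IsCompact (G.φ i '' G.coreSet i) :=
    (core_compact G i).image_of_continuousOn
      ((G.φ i).continuousOn.mono fun x hx => core_source G hx)
  have hAW : G.φ i '' G.coreSet i ⊆ W := by
    rintro _ ⟨x, hx, rfl⟩
    exact ⟨mem_interior_iff_mem_nhds.2 (core_one G hx), (G.φ i).map_source (core_source G hx)⟩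
  obtain ⟨δ, hδ, hsub⟩ := hA.exists_cthickening_subset_open hW hAW
  have hK : IsCompact (Metric.cthickening δ (G.φ i '' G.coreSet i)) := hA.cthickening
  obtain ⟨C, hC, hle⟩ := G.exists_dX_le
    (hK.image_of_continuousOn ((G.φ i).continuousOn_symm.mono fun v hv => (hsub hv).2))
    (Set.image_subset_iff.2 fun v hv => (G.φ i).map_target (hsub hv).2)
  refine ⟨δ, C, hδ, hC, fun z hz v hv => ?_⟩
  have hzs := core_source G hz
  have hzA : G.φ i z ∈ Metric.cthickening δ (G.φ i '' G.coreSet i) :=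
    Metric.self_subset_cthickening _ ⟨z, hz, rfl⟩
  have hvK : v ∈ Metric.cthickening δ (G.φ i '' G.coreSet i) :=
    Metric.mem_cthickening_of_dist_le v _ δ _ ⟨z, hz, rfl⟩ (by rwa [dist_eq_norm])
  obtain ⟨hv1, hv2⟩ := hsub hvK
  refine ⟨hv2, mem_interior_iff_mem_nhds.1 hv1, ?_⟩
  have h := hle _ (Set.mem_image_of_mem _ hvK) z ⟨G.φ i z, hzA, (G.φ i).left_inv hzs⟩
  rwa [(G.φ i).right_inv hv2] at h

end Atlas

section Fields

variable [T2Space X] [CompactSpace X] {S : GSetup X}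

/-- Normalised positive forms are uniformly bounded in the charts. -/
lemma exists_formIn_bound : ∃ N, 0 < N ∧ ∀ (T : Positive S) i, ∀ z ∈ S.coreSet i,
    ‖S.formIn i z (T.h z)‖ ≤ N := by
  let L : ∀ i, LocalChart S i := fun i => (exists_localChart i).some
  choose N hN hNb using fun i => (L i).loc.exists_norm_psd
  refine ⟨∑ i, N i + 1, add_pos_of_nonneg_of_pos (Finset.sum_nonneg fun i _ => (hN i).le) one_pos, fun T i z hz => ?_⟩
  obtain ⟨hp, hq⟩ := loc_psd (L i) (core_source S.toGeo hz) (core_mem_chi S.toGeo hz) (T.psd z)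
    (T.trace z)
  refine (hNb i _ _ hp).trans ?_
  rw [hq, mul_one]
  linarith [Finset.single_le_sum (f := N) (fun j _ => (hN j).le) (Finset.mem_univ i)]

/-- The test form against the distance, on all of `X`. -/
lemma exists_alX_le {i : Fin S.n} (L : LocalChart S i) : ∃ C, 0 < C ∧ ∀ r, 0 < r → r ≤ 1 →
    ∀ y ∈ S.coreSet i, ∀ x,
      ‖L.alX r (S.φ i y) x‖ ≤ C / (r ^ 2 + S.dX x y ^ 2) := by
  obtain ⟨Cb, hCb, hb⟩ := L.exists_alX_bounds
  have hKt : IsCompact (tsupport (S.χ i)) := (S.χ_cpt i).isCompact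
  obtain ⟨Cd, hCd, hd⟩ := S.toGeo.exists_dX_dist0 hKt (S.χ_supp i)
  have hKX := hKt.image_of_continuousOn ((S.φ i).continuousOn_symm.mono (S.χ_supp i))
  have hKs : (S.φ i).symm '' tsupport (S.χ i) ⊆ (S.φ i).source :=
    Set.image_subset_iff.2 fun u hu => (S.φ i).map_target (S.χ_supp i hu)
  obtain ⟨Ct, hCt, ht⟩ := exists_dT_bounds S.toGeo hKX hKs
  refine ⟨Ct * Cb * (1 + Cd ^ 2), by positivity, fun r hr hr1 y hy x => ?_⟩
  by_cases hx : x ∈ (S.φ i).symm '' tsupport (S.χ i)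
  · obtain ⟨u, hu, rfl⟩ := hx
    have hut := S.χ_supp i hu
    have hys := core_source S.toGeo hy
    obtain ⟨h1, -⟩ := hd u hu (S.φ i y) (core_mem_chi S.toGeo hy)
    rw [(S.φ i).left_inv hys] at h1
    obtain ⟨h3, -⟩ := hb r hr hr1 (S.φ i y) u hut
    have h4 := (ht _ ⟨u, hu, rfl⟩ (L.alX r (S.φ i y) ((S.φ i).symm u))).2
    rw [← S.toGeo.rep2_apply _ ((S.φ i).map_target hut), (S.φ i).right_inv hut] at h4
    refine h4.trans ((mul_le_mul_of_nonneg_left h3 hCt.le).trans ?_)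
    set D := S.dX ((S.φ i).symm u) y
    set d := dist0 (u - S.φ i y)
    have hD : 0 ≤ D := S.toGeo.dX_nonneg _ _
    have hD2 : D ^ 2 ≤ Cd ^ 2 * d ^ 2 := by
      rw [← mul_pow]; exact pow_le_pow_left₀ hD h1 2
    rw [mul_div_assoc', div_le_div_iff₀ (by positivity) (by positivity),
      mul_assoc (Ct * Cb)]
    refine mul_le_mul_of_nonneg_left ?_ (by positivity)
    nlinarith [mul_nonneg (sq_nonneg Cd) (sq_nonneg r), sq_nonneg r, sq_nonneg d]
  · rw [L.alX_eq_zero _ hx, norm_zero]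
    positivity

end Fields

end Vale.Agent.P204.Gen.LC
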