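import Vale.Agent.P204.Gen.MonoCharts

/-!
P204 on a closed four-manifold: the regularised test form against a positive form at a point
(module 13).
-/

open MeasureTheory Filter Topology
open scoped ContDiff BigOperators

namespace Vale.Agent.P204.Gen.LC

open Vale.Agent.P204.Torus

/-- The comparisons of the weights. -/
lemma weights_compare {K r ρ d d' D : ℝ} (hK : 1 ≤ K) (hr : 0 < r) (hρ0 : 0 ≤ ρ) (hd : 0 ≤ d)
    (hd' : 0 ≤ d') (hD : 0 ≤ D) (hρ : ρ ≤ K * d' ^ 2) (h1 : d' ≤ K * (r + d))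
    (h2 : d ≤ K * (r + d')) (h3 : d ≤ K * D) (h4 : D ≤ K * d) :
    4 / (2 * (2 * K) ^ 5) ^ 2 * (r ^ 2 / (r ^ 2 + D ^ 2) ^ 2) ≤
        4 * r ^ 2 / (r ^ 2 + ρ) ^ 2 ∧
      1 / (r + d') ≤ (2 * K) ^ 2 / (r + D) ∧
      r / (r ^ 2 + d' ^ 2) ≤ 2 * (1 / (r + d')) := by
  have hA : r + d' ≤ 2 * K * (r + d) := by nlinarith
  have hB : r + d ≤ 2 * K * (r + D) := by nlinarith
  have hC : r + D ≤ 2 * K * (r + d) := by nlinarith
  have hE : r + d ≤ 2 * K * (r + d') := by nlinarith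
  refine ⟨?_, ?_, ?_⟩
  · have hX : r + d' ≤ (2 * K) ^ 2 * (r + D) := by nlinarith
    have hS : r ^ 2 + ρ ≤ 2 * (2 * K) ^ 5 * (r ^ 2 + D ^ 2) := by
      calc r ^ 2 + ρ ≤ 2 * K * (r + d') ^ 2 := by nlinarith [mul_nonneg hr.le hd']
        _ ≤ 2 * K * ((2 * K) ^ 2 * (r + D)) ^ 2 := by gcongr
        _ = (2 * K) ^ 5 * (r + D) ^ 2 := by ring
        _ ≤ (2 * K) ^ 5 * (2 * (r ^ 2 + D ^ 2)) := by
            gcongr
            nlinarith [sq_nonneg (r - D)]
        _ = _ := by ring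
    calc 4 / (2 * (2 * K) ^ 5) ^ 2 * (r ^ 2 / (r ^ 2 + D ^ 2) ^ 2)
        = 4 * r ^ 2 / (2 * (2 * K) ^ 5 * (r ^ 2 + D ^ 2)) ^ 2 := by
          rw [mul_pow _ (r ^ 2 + D ^ 2), div_mul_div_comm]
      _ ≤ _ := by gcongr
  · rw [div_le_div_iff₀ (by positivity) (by positivity), one_mul]
    nlinarith
  · rw [mul_one_div, div_le_div_iff₀ (by positivity) (by positivity)]
    nlinarith [sq_nonneg (r - d'), sq_nonneg r, sq_nonneg d']

variable {X : Type*} [TopologicalSpace X] [T2Space X] [CompactSpace X] [MeasurableSpace X]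
  {S : GSetup X}

/-- At a point of the chart, near the centre or not. -/
lemma exists_reg_lower_near (hA : AvgRep S.toGeo) {i : Fin S.n} (L : LocalChart S i) :
    ∃ C c ε₁, 0 < C ∧ 0 < c ∧ 0 < ε₁ ∧ ∀ (T : Positive S) r, 0 < r → r ≤ ε₁ →
      ∀ y ∈ S.coreSet i, ∀ z ∈ S.coreSet i,
        c * (r ^ 2 / (r ^ 2 + S.dX z y ^ 2) ^ 2) - C / (r + S.dX z y) ≤
          q (T.h z) (S.reg r (L.alX r (S.φ i y)) z) := by
  obtain ⟨Ca, ca, e₁, hCa, -, he₁, hrep⟩ := hA.rep i (S.coreSet i) (core_compact S.toGeo i)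
    (fun x hx => core_source S.toGeo hx) fun z hz => core_one S.toGeo hz
  obtain ⟨δ, Cn, hδ, hCn, hnhd⟩ := exists_core_nhd S.toGeo i
  obtain ⟨N, hN, hNb⟩ := exists_formIn_bound (S := S)
  obtain ⟨Ct, hCt, htest⟩ := L.loc.exists_test_lower
  obtain ⟨Cl, hCl, hal⟩ := L.loc.exists_al_bounds
  obtain ⟨cρ, Cρ, hcρ, hCρ, hρ⟩ := L.loc.exists_rho2_bounds
  obtain ⟨C3, hC3, htri⟩ := exists_dist0_triangle
  obtain ⟨C4, hC4, hnorm⟩ := Geo.exists_dist0_le_norm
  obtain ⟨Cd, hCd, hdd⟩ := S.toGeo.exists_dX_dist0 (S.χ_cpt i).isCompact (S.χ_supp i)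
  set K := 1 + Cρ + Cd + C3 * (1 + C4 * Ca) with hKdef
  have hK : 1 ≤ K := by
    have : 0 ≤ Cρ + Cd + C3 * (1 + C4 * Ca) := by positivity
    linarith
  set E := Ct * (1 + C4 * Ca * 2) + 6 * N * (216 * Ca) * Cl * 2 with hE
  refine ⟨E * (2 * K) ^ 2, 4 / (2 * (2 * K) ^ 5) ^ 2, min e₁ (min 1 (min (δ / Ca) (1 / Ca))),
    by positivity, by positivity, by positivity, fun T r hr hr0 y hy z hz => ?_⟩
  obtain ⟨hre, hr1, hrδ, hrA⟩ : r ≤ e₁ ∧ r ≤ 1 ∧ r ≤ δ / Ca ∧ r ≤ 1 / Ca := by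
    simpa only [le_min_iff, and_assoc] using hr0
  rw [le_div_iff₀' hCa] at hrδ hrA
  obtain ⟨m, hm, hsupp, -, -, heq⟩ := hrep z hz r hr hre
  set uy := S.φ i y with huy
  set uz := S.φ i z with huz
  set D := S.dX z y
  set d := dist0 (uz - uy)
  set h' := S.formIn i z (T.h z) with hh'
  have hys := core_source S.toGeo hy
  have hzs := core_source S.toGeo hz
  have hzχ := core_mem_chi S.toGeo hz
  obtain ⟨hd1, hd2⟩ := hdd uz hzχ uy (core_mem_chi S.toGeo hy)
  rw [(S.φ i).left_inv hzs, (S.φ i).left_inv hys] at hd1 hd2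
  have hD : 0 ≤ D := S.toGeo.dX_nonneg _ _
  obtain ⟨hpsd, htr⟩ := loc_psd L hzs hzχ (T.psd z) (T.trace z)
  have hN' : ‖h'‖ ≤ N := hNb T i z hz
  set G : V × (V →L[ℝ] V) → Form := fun p => pull p.2 (L.loc.al r uy p.1) with hG
  have hae : ∀ᵐ p ∂m, pull p.2 (S.rep2 i (L.alX r uy) p.1) = G p := by
    filter_upwards [hsupp] with p hp
    obtain ⟨ht, h1, -⟩ := hnhd z hz p.1 (hp.2.1.trans hrδ)
    rw [hG, L.rep2_alX_of_one hr _ h1 ht]
  have hGi : Integrable G m := by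
    have hGc : Continuous G := by
      refine (PiLp.continuous_toLp 2 _).comp (continuous_pi fun k => ?_)
      exact continuous_ev_comp ((L.loc.smooth_al hr uy).smooth.continuous.comp continuous_fst)
        (continuous_snd.clm_apply continuous_const) (continuous_snd.clm_apply continuous_const)
    refine Integrable.of_bound hGc.aestronglyMeasurable (72 * 2 ^ 2 * (Cl / r ^ 2)) ?_
    filter_upwards [hsupp] with p hp
    refine (norm_pull_le _ _).trans ?_
    gcongr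
    · calc ‖p.2‖ = ‖ContinuousLinearMap.id ℝ V + (p.2 - ContinuousLinearMap.id ℝ V)‖ := by
            rw [add_sub_cancel]
        _ ≤ ‖ContinuousLinearMap.id ℝ V‖ + ‖p.2 - ContinuousLinearMap.id ℝ V‖ := norm_add_le _ _
        _ ≤ 1 + 1 := add_le_add ContinuousLinearMap.norm_id_le (hp.2.2.trans hrA)
        _ = 2 := by norm_num
    · refine ((hal r hr hr1 uy p.1).1).trans ?_
      gcongr
      exact le_add_of_nonneg_right (sq_nonneg _)
  have hval : q (T.h z) (S.reg r (L.alX r uy) z) = ∫ p, q h' (G p) ∂m := by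
    rw [← S.toGeo.q_formIn hzs (T.h z) (S.reg r (L.alX r uy)),
      heq _ (L.smooth_alX hr uy), integral_congr_ae hae, q_integral hGi]
  rw [hval]
  have hqi : Integrable (fun p => q h' (G p)) m := by
    simp only [← qL_apply]
    exact (qL h').integrable_comp hGi
  calc 4 / (2 * (2 * K) ^ 5) ^ 2 * (r ^ 2 / (r ^ 2 + D ^ 2) ^ 2) - E * (2 * K) ^ 2 / (r + D)
      = ∫ _p, (4 / (2 * (2 * K) ^ 5) ^ 2 * (r ^ 2 / (r ^ 2 + D ^ 2) ^ 2) -
          E * (2 * K) ^ 2 / (r + D)) ∂m := by simp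
    _ ≤ _ := integral_mono_ae (integrable_const _) hqi ?_
  filter_upwards [hsupp] with p hp
  set d' := dist0 (p.1 - uy)
  have hd0 : 0 ≤ d := dist0_nonneg _
  have hd0' : 0 ≤ d' := dist0_nonneg _
  have hdp : dist0 (p.1 - uz) ≤ C4 * Ca * r :=
    (hnorm _).trans ((mul_le_mul_of_nonneg_left hp.2.1 hC4.le).trans_eq (by ring))
  have hdp' : dist0 (uz - p.1) ≤ C4 * Ca * r :=
    (hnorm _).trans ((mul_le_mul_of_nonneg_left ((norm_sub_rev _ _).trans_le hp.2.1) hC4.le).trans_eq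
      (by ring))
  have hCC : 0 ≤ C4 * Ca := by positivity
  have hk1 : d' ≤ K * (r + d) := by
    refine (le_of_eq (by rw [sub_add_sub_cancel])).trans
      ((htri (p.1 - uz) (uz - uy)).trans ?_)
    calc C3 * (dist0 (p.1 - uz) + d) ≤ C3 * (1 + C4 * Ca) * (r + d) := by
          rw [mul_assoc]; gcongr; nlinarith
      _ ≤ _ := by
          gcongr
          rw [hKdef]
          linarith
  have hk2 : d ≤ K * (r + d') := by
    refine (le_of_eq (by rw [sub_add_sub_cancel])).trans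
      ((htri (uz - p.1) (p.1 - uy)).trans ?_)
    calc C3 * (dist0 (uz - p.1) + d') ≤ C3 * (1 + C4 * Ca) * (r + d') := by
          rw [mul_assoc]; gcongr; nlinarith
      _ ≤ _ := by
          gcongr
          rw [hKdef]
          linarith
  have hKd : Cd ≤ K := by
    have : 0 ≤ C3 * (1 + C4 * Ca) := by positivity
    linarith
  have hKρ : Cρ ≤ K := by
    have : 0 ≤ C3 * (1 + C4 * Ca) := by positivity
    linarith
  obtain ⟨hmain, herr, herr2⟩ := weights_compare hK hr (L.loc.rho2_nonneg p.1 (p.1 - uy)) hd0 hd0'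
    hD ((hρ p.1 (p.1 - uy)).2.trans (mul_le_mul_of_nonneg_right hKρ (sq_nonneg _))) hk1 hk2
    (hd2.trans (mul_le_mul_of_nonneg_right hKd hD))
    (hd1.trans (mul_le_mul_of_nonneg_right hKd hd0))
  have hlow := htest r hr hr1 uy p.1 uz h' hpsd htr
  have hpull : |q h' (G p - L.loc.al r uy p.1)| ≤
      6 * N * (216 * Ca) * Cl * (r / (r ^ 2 + d' ^ 2)) := by
    refine (abs_q_le _ _).trans ?_
    calc 6 * (‖h'‖ * ‖G p - L.loc.al r uy p.1‖)
        ≤ 6 * (N * (216 * (Ca * r) * (Cl / (r ^ 2 + d' ^ 2)))) := by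
          gcongr
          refine (norm_pull_sub_le hp.2.2 hrA _).trans ?_
          gcongr
          exact (hal r hr hr1 uy p.1).1
      _ = _ := by ring
  rw [q_sub_right] at hpull
  obtain ⟨hp1, -⟩ := abs_le.1 hpull
  have he : dist0 (p.1 - uz) / (r ^ 2 + d' ^ 2) ≤ C4 * Ca * (r / (r ^ 2 + d' ^ 2)) :=
    (div_le_div_of_nonneg_right hdp (by positivity)).trans_eq (by ring)
  have k1 : Ct * (1 / (r + d') + dist0 (p.1 - uz) / (r ^ 2 + d' ^ 2)) +
      6 * N * (216 * Ca) * Cl * (r / (r ^ 2 + d' ^ 2)) ≤ E * (1 / (r + d')) := by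
    calc _ ≤ Ct * (1 / (r + d') + C4 * Ca * (2 * (1 / (r + d')))) +
          6 * N * (216 * Ca) * Cl * (2 * (1 / (r + d'))) := by
          gcongr
          exact he.trans (mul_le_mul_of_nonneg_left herr2 hCC)
      _ = _ := by rw [hE]; ring
  have k2 : E * (1 / (r + d')) ≤ E * (2 * K) ^ 2 / (r + D) :=
    (mul_le_mul_of_nonneg_left herr (by positivity)).trans_eq (by ring)
  linarith

/-- At any point of `X`. -/
lemma exists_reg_lower (hA : AvgRep S.toGeo) {i : Fin S.n} (L : LocalChart S i) :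
    ∃ C c ε₁, 0 < C ∧ 0 < c ∧ 0 < ε₁ ∧ ε₁ ≤ 1 ∧ ∀ (T : Positive S) r, 0 < r → r ≤ ε₁ →
      ∀ y, 1 / (S.n : ℝ) ≤ S.ψ i y → ∀ z,
        c * (r ^ 2 / (r ^ 2 + S.dX z y ^ 2) ^ 2) - C / (r + S.dX z y) ≤
          q (T.h z) (S.reg r (L.alX r (S.φ i y)) z) := by
  obtain ⟨C1, c, e0, hC1, hc, he0, hnear⟩ := exists_reg_lower_near hA L
  choose Ca ca ea hCa hca hea hrep using fun j => hA.rep j (S.coreSet j) (core_compact S.toGeo j)
    (fun x hx => core_source S.toGeo hx) fun z hz => core_one S.toGeo hz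
  choose δ Cn hδ hCn hnhd using fun j => exists_core_nhd S.toGeo j
  obtain ⟨N, hN, hNb⟩ := exists_formIn_bound (S := S)
  obtain ⟨Cal, hCal, hal⟩ := exists_alX_le L
  have hdT : ∀ j, ∃ C, 0 < C ∧ ∀ x, x ∈ (S.φ j).symm '' tsupport (S.χ j) → ∀ β,
      ‖pull (S.dT j x) β‖ ≤ C * ‖β‖ := fun j => by
    obtain ⟨C, hC, h⟩ := exists_dT_bounds S.toGeo
      ((S.χ_cpt j).isCompact.image_of_continuousOn ((S.φ j).continuousOn_symm.mono (S.χ_supp j)))
      (Set.image_subset_iff.2 fun u hu => (S.φ j).map_target (S.χ_supp j hu))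
    exact ⟨C, hC, fun x hx β => (h x hx β).1⟩
  choose Ct hCt hpull using hdT
  have : Nonempty (Fin S.n) := ⟨i⟩
  have hn : 0 < (S.n : ℝ) := by
    have := i.pos
    exact_mod_cast this
  set e1 : Fin S.n → ℝ := fun j => min (ea j) (min (δ j / Ca j)
    (min (1 / Ca j) (1 / (4 * S.n * (Cn j * Ca j)))))
  have he1 : ∀ j, 0 < e1 j := fun j => by
    have := hea j; have := hδ j; have := hCa j; have := hCn j
    simp only [e1]; positivity
  set B := ∑ j, 6 * N * (72 * 2 ^ 2 * (Ct j * (Cal * (4 * (S.n : ℝ)) ^ 2))) with hB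
  have hB0 : 0 ≤ B := Finset.sum_nonneg fun j _ => by have := hCt j; positivity
  refine ⟨max C1 ((c * (2 * (S.n : ℝ)) ^ 4 + B + 1) * (3 * S.n + 1)), c,
    min e0 (min 1 (Finset.univ.inf' Finset.univ_nonempty e1)), lt_max_of_lt_left hC1, hc,
    lt_min he0 (lt_min one_pos ((Finset.lt_inf'_iff _).2 fun j _ => he1 j)),
    (min_le_right _ _).trans (min_le_left _ _), fun T r hr hr0 y hy z => ?_⟩
  obtain ⟨hre, hr1, hre1⟩ : r ≤ e0 ∧ r ≤ 1 ∧ r ≤ Finset.univ.inf' Finset.univ_nonempty e1 := by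
    simpa only [le_min_iff, and_assoc] using hr0
  have hyc : y ∈ S.coreSet i := le_trans (by gcongr; linarith) hy
  have hD : 0 ≤ S.dX z y := S.toGeo.dX_nonneg _ _
  by_cases hz : z ∈ S.coreSet i
  · refine le_trans ?_ (hnear T r hr hre y hyc z hz)
    gcongr
    exact le_max_left _ _
  set D := S.dX z y with hDdef
  have hDlow : 1 / (2 * (S.n : ℝ)) ≤ D := by
    have hzl : S.ψ i z < 1 / (2 * (S.n : ℝ)) := not_le.1 hz
    have h2 : 1 / (S.n : ℝ) = 2 * (1 / (2 * (S.n : ℝ))) := by field_simp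
    calc 1 / (2 * (S.n : ℝ)) ≤ |S.ψ i z - S.ψ i y| := by
          rw [abs_sub_comm]
          exact le_trans (by linarith) (le_abs_self _)
      _ ≤ |S.ψ i z - S.ψ i y| + ‖S.ψ i z • S.φ i z - S.ψ i y • S.φ i y‖ :=
          le_add_of_nonneg_right (norm_nonneg _)
      _ ≤ D := Finset.single_le_sum
          (f := fun k => |S.ψ k z - S.ψ k y| + ‖S.ψ k z • S.φ k z - S.ψ k y • S.φ k y‖)
          (fun _ _ => add_nonneg (abs_nonneg _) (norm_nonneg _)) (Finset.mem_univ i)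
  obtain ⟨j, hj⟩ := exists_core S.toGeo z
  obtain ⟨hra, hrd, hrC, hrn⟩ : r ≤ ea j ∧ r ≤ δ j / Ca j ∧ r ≤ 1 / Ca j ∧
      r ≤ 1 / (4 * S.n * (Cn j * Ca j)) := by
    have := hre1.trans (Finset.inf'_le e1 (Finset.mem_univ j))
    simpa only [e1, le_min_iff, and_assoc] using this
  rw [le_div_iff₀' (hCa j)] at hrd hrC
  obtain ⟨m, hm, hsupp, -, -, heq⟩ := hrep j z hj r hr hra
  have hzj := core_source S.toGeo hj
  have hbound : |q (T.h z) (S.reg r (L.alX r (S.φ i y)) z)| ≤ B := by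
    rw [← S.toGeo.q_formIn hzj (T.h z) (S.reg r (L.alX r (S.φ i y))),
      heq _ (L.smooth_alX hr _)]
    refine (abs_q_le _ _).trans (le_trans ?_ (Finset.single_le_sum
      (f := fun j => 6 * N * (72 * 2 ^ 2 * (Ct j * (Cal * (4 * (S.n : ℝ)) ^ 2))))
      (fun j _ => by have := hCt j; positivity) (Finset.mem_univ j)))
    have hcst : 0 ≤ 72 * 2 ^ 2 * (Ct j * (Cal * (4 * (S.n : ℝ)) ^ 2)) := by
      have := hCt j; positivity
    have hint := norm_integral_le_of_norm_le_const (μ := m)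
      (f := fun p => pull p.2 (S.rep2 j (L.alX r (S.φ i y)) p.1))
      (C := 72 * 2 ^ 2 * (Ct j * (Cal * (4 * (S.n : ℝ)) ^ 2))) (by
        filter_upwards [hsupp] with p hp
        obtain ⟨ht, h1, hdist⟩ := hnhd j z hj p.1 (hp.2.1.trans hrd)
        set x' := (S.φ j).symm p.1
        have hx' : x' ∈ (S.φ j).symm '' tsupport (S.χ j) :=
          ⟨p.1, subset_tsupport _ (by rw [Function.mem_support, h1.self_of_nhds]; norm_num), rfl⟩
        have hfar : 1 / (4 * (S.n : ℝ)) ≤ S.dX x' y := by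
          have h5 : S.dX x' z ≤ 1 / (4 * (S.n : ℝ)) := by
            refine hdist.trans ((mul_le_mul_of_nonneg_left hp.2.1 (hCn j).le).trans ?_)
            have := mul_le_mul_of_nonneg_left hrn (mul_nonneg (hCn j).le (hCa j).le)
            refine (le_of_eq (by ring)).trans (this.trans (le_of_eq ?_))
            have := (hCa j).ne'; have := (hCn j).ne'
            field_simp
          have h6 := S.toGeo.dX_triangle z x' y
          rw [S.toGeo.dX_comm z x'] at h6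
          have h2 : 1 / (2 * (S.n : ℝ)) = 2 * (1 / (4 * (S.n : ℝ))) := by field_simp; ring
          linarith
        have hrep' : ‖S.rep2 j (L.alX r (S.φ i y)) p.1‖ ≤
            Ct j * (Cal * (4 * (S.n : ℝ)) ^ 2) := by
          rw [← (S.φ j).right_inv ht, S.toGeo.rep2_apply _ ((S.φ j).map_target ht)]
          refine (hpull j x' hx' _).trans (mul_le_mul_of_nonneg_left ?_ (hCt j).le)
          refine (hal r hr hr1 y hyc x').trans ?_
          calc Cal / (r ^ 2 + S.dX x' y ^ 2) ≤ Cal / (1 / (4 * (S.n : ℝ))) ^ 2 := by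
                gcongr
                exact (pow_le_pow_left₀ (by positivity) hfar 2).trans
                  (le_add_of_nonneg_left (sq_nonneg r))
            _ = _ := by field_simp
        refine (norm_pull_le _ _).trans ?_
        gcongr
        calc ‖p.2‖ = ‖ContinuousLinearMap.id ℝ V + (p.2 - ContinuousLinearMap.id ℝ V)‖ := by
              rw [add_sub_cancel]
          _ ≤ ‖ContinuousLinearMap.id ℝ V‖ + ‖p.2 - ContinuousLinearMap.id ℝ V‖ :=
              norm_add_le _ _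
          _ ≤ 1 + 1 := add_le_add ContinuousLinearMap.norm_id_le (hp.2.2.trans hrC)
          _ = 2 := by norm_num)
    rw [probReal_univ, mul_one] at hint
    calc 6 * (‖S.formIn j z (T.h z)‖ * ‖∫ p, pull p.2 (S.rep2 j (L.alX r (S.φ i y)) p.1) ∂m‖)
        ≤ 6 * (N * (72 * 2 ^ 2 * (Ct j * (Cal * (4 * (S.n : ℝ)) ^ 2)))) := by
          gcongr
          exact hNb T j z hj
      _ = _ := by ring
  have hmain : r ^ 2 / (r ^ 2 + D ^ 2) ^ 2 ≤ (2 * (S.n : ℝ)) ^ 4 := by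
    calc r ^ 2 / (r ^ 2 + D ^ 2) ^ 2 ≤ 1 / ((1 / (2 * (S.n : ℝ))) ^ 2) ^ 2 := by
          gcongr
          · exact pow_le_one₀ hr.le hr1
          · exact (pow_le_pow_left₀ (by positivity) hDlow 2).trans
              (le_add_of_nonneg_left (sq_nonneg r))
      _ = _ := by field_simp
  set C2 := (c * (2 * (S.n : ℝ)) ^ 4 + B + 1) * (3 * S.n + 1)
  have hM : c * (2 * (S.n : ℝ)) ^ 4 + B ≤ max C1 C2 / (r + D) := by
    rw [le_div_iff₀ (by positivity)]
    refine le_trans ?_ (le_max_right _ _)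
    have hDu : D ≤ 3 * S.n := S.toGeo.dX_le_bound _ _
    have h0 : 0 ≤ c * (2 * (S.n : ℝ)) ^ 4 + B := by positivity
    calc (c * (2 * (S.n : ℝ)) ^ 4 + B) * (r + D) ≤ (c * (2 * (S.n : ℝ)) ^ 4 + B) * (3 * S.n + 1) :=
          mul_le_mul_of_nonneg_left (by linarith) h0
      _ ≤ _ := by
          refine mul_le_mul_of_nonneg_right ?_ (by positivity)
          linarith
  have hm' := mul_le_mul_of_nonneg_left hmain hc.le
  obtain ⟨hl, -⟩ := abs_le.1 hbound
  linarith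

end Vale.Agent.P204.Gen.LC
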