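import Mathlib

/-!
P204, general four-manifold: calculus of the averages `x ↦ ∫ G (a, x) φ (Φ (a, x)) da`.

`Φ` is a family of maps whose derivative in the parameter has the right inverse `Ξ` on a compact set.
A derivative in `x` then becomes, after integrating by parts in `a`, an operation on `G` alone, so
kernels at scale `e` lose one power of `e` for each derivative and are bounded on `L²`.
-/

open MeasureTheory Set
open scoped ContDiff

namespace Vale.Agent.P204.Gen.Param

variable {N d : ℕ}

/-- The parameters and the base point together. -/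
abbrev Joint (N d : ℕ) := (Fin N → ℝ) × (Fin d → ℝ)

/-- The unit vector of the parameter `k`. -/
def pdir (d : ℕ) (k : Fin N) : Joint N d := (Pi.single k 1, 0)

/-- The unit vector of the base direction `i`. -/
def xdir (N : ℕ) (i : Fin d) : Joint N d := (0, Pi.single i 1)

/-- A smooth family of maps with a right inverse of the parameter derivative on `K`. -/
structure Fam (N d : ℕ) where
  /-- The family. -/
  Φ : Joint N d → (Fin d → ℝ)
  /-- The compact set where kernels live. -/
  K : Set (Joint N d)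
  /-- The right inverse. -/
  Ξ : Fin d → Fin N → Joint N d → ℝ
  smooth : ContDiff ℝ ∞ Φ
  compact : IsCompact K
  Ξ_smooth : ∀ i k, ContDiff ℝ ∞ (Ξ i k)
  Ξ_supp : ∀ i k, HasCompactSupport (Ξ i k)
  right_inv : ∀ i, ∀ p ∈ K, fderiv ℝ Φ p (xdir N i) = ∑ k, Ξ i k p • fderiv ℝ Φ p (pdir d k)

/-- A partial derivative on the base. -/
noncomputable def dir (i : Fin d) (f : (Fin d → ℝ) → ℝ) (x : Fin d → ℝ) : ℝ :=
  fderiv ℝ f x (Pi.single i 1)

/-- Iterated partial derivatives on the base. -/
noncomputable def dirs : List (Fin d) → ((Fin d → ℝ) → ℝ) → (Fin d → ℝ) → ℝ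
  | [], f => f
  | i :: l, f => dir i (dirs l f)

namespace Fam

variable (F : Fam N d)

/-- The average of `φ` along the family with weight `G`. -/
noncomputable def avg (G : Joint N d → ℝ) (φ : (Fin d → ℝ) → ℝ) (x : Fin d → ℝ) : ℝ :=
  ∫ a : Fin N → ℝ, G (a, x) * φ (F.Φ (a, x))

/-- A kernel living on `K`. -/
structure Adm (G : Joint N d → ℝ) : Prop where
  smooth : ContDiff ℝ ∞ G
  supp : tsupport G ⊆ F.K

/-- The effect of a derivative in the direction `i` on a kernel. -/
noncomputable def step (i : Fin d) (G : Joint N d → ℝ) (p : Joint N d) : ℝ :=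
  fderiv ℝ G p (xdir N i) - ∑ k, fderiv ℝ (fun q => G q * F.Ξ i k q) p (pdir d k)

/-- The iterated effect of derivatives. -/
noncomputable def steps : List (Fin d) → (Joint N d → ℝ) → Joint N d → ℝ
  | [], G => G
  | i :: l, G => F.step i (steps l G)

variable {F}

lemma Adm.compactSupport {G : Joint N d → ℝ} (hG : F.Adm G) : HasCompactSupport G :=
  F.compact.of_isClosed_subset (isClosed_tsupport _) hG.supp

lemma tsupport_fderiv_apply_subset' {G : Joint N d → ℝ} (v : Joint N d) :
    tsupport (fun p => fderiv ℝ G p v) ⊆ tsupport G :=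
  closure_minimal (fun p hp => support_fderiv_subset ℝ (fun h => hp (by simp [h])))
    (isClosed_tsupport _)

lemma Adm.step {G : Joint N d → ℝ} (hG : F.Adm G) (i : Fin d) : F.Adm (F.step i G) := by
  constructor
  · refine ((hG.smooth.fderiv_right (m := ∞) (by simp)).clm_apply contDiff_const).sub
      (ContDiff.sum fun k _ => ?_)
    exact ((hG.smooth.mul (F.Ξ_smooth i k)).fderiv_right (m := ∞) (by simp)).clm_apply
      contDiff_const
  · refine closure_minimal (fun p hp => ?_) F.compact.isClosed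
    by_contra hK
    have h1 : p ∉ tsupport G := fun h => hK (hG.supp h)
    have h2 : ∀ k, p ∉ tsupport fun q => G q * F.Ξ i k q := fun k h =>
      h1 (tsupport_mul_subset_left h)
    refine hp ?_
    rw [Fam.step, fderiv_of_notMem_tsupport ℝ h1]
    simp [fderiv_of_notMem_tsupport ℝ (h2 _)]

lemma Adm.steps {G : Joint N d → ℝ} (hG : F.Adm G) : ∀ l, F.Adm (F.steps l G)
  | [] => hG
  | i :: l => (hG.steps l).step i

lemma Adm.zero_of_notMem {G : Joint N d → ℝ} (hG : F.Adm G) {p : Joint N d} (hp : p ∉ F.K) :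
    G p = 0 := image_eq_zero_of_notMem_tsupport fun h => hp (hG.supp h)

lemma hasCompactSupport_fst {f : (Fin N → ℝ) → ℝ} {G : Joint N d → ℝ} (hG : F.Adm G)
    (x : Fin d → ℝ) (h : ∀ a, G (a, x) = 0 → f a = 0) : HasCompactSupport f :=
  HasCompactSupport.intro (F.compact.image continuous_fst) fun a ha =>
    h a (hG.zero_of_notMem fun hm => ha ⟨_, hm, rfl⟩)

section Deriv

variable {G : Joint N d → ℝ} {φ : (Fin d → ℝ) → ℝ}

lemma integrable_avg (hG : F.Adm G) (hφ : Continuous φ) (x : Fin d → ℝ) :
    Integrable fun a => G (a, x) * φ (F.Φ (a, x)) := by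
  refine Continuous.integrable_of_hasCompactSupport ?_
    (hasCompactSupport_fst hG x fun a ha => by simp [ha])
  have h : Continuous fun a : Fin N → ℝ => (a, x) := by fun_prop
  exact (hG.smooth.continuous.comp h).mul (hφ.comp (F.smooth.continuous.comp h))

lemma hasFDerivAt_avg (hG : F.Adm G) (hφ : ContDiff ℝ 1 φ) (x : Fin d → ℝ) :
    HasFDerivAt (F.avg G φ) (∫ a : Fin N → ℝ,
      (fderiv ℝ (fun p => G p * φ (F.Φ p)) (a, x)).comp
        (ContinuousLinearMap.inr ℝ (Fin N → ℝ) (Fin d → ℝ))) x := by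
  set H : Joint N d → ℝ := fun p => G p * φ (F.Φ p) with hH
  have hH1 : ContDiff ℝ 1 H :=
    (hG.smooth.of_le (by simp)).mul (hφ.comp (F.smooth.of_le (by simp)))
  have hsupp : ∀ p, p ∉ F.K → fderiv ℝ H p = 0 := fun p hp =>
    fderiv_of_notMem_tsupport ℝ fun h => hp (hG.supp (tsupport_mul_subset_left h))
  have hcd : Continuous fun p => (fderiv ℝ H p).comp
      (ContinuousLinearMap.inr ℝ (Fin N → ℝ) (Fin d → ℝ)) :=
    (hH1.continuous_fderiv one_ne_zero).clm_comp continuous_const
  have hcs : HasCompactSupport fun p => (fderiv ℝ H p).comp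
      (ContinuousLinearMap.inr ℝ (Fin N → ℝ) (Fin d → ℝ)) :=
    HasCompactSupport.intro F.compact fun p hp => by simp [hsupp p hp]
  obtain ⟨B, hB⟩ := hcs.exists_bound_of_continuous hcd
  have hpx : ∀ y : Fin d → ℝ, Continuous fun a : Fin N → ℝ => (a, y) := fun y => by fun_prop
  refine hasFDerivAt_integral_of_dominated_of_fderiv_le
    (F := fun y a => H (a, y))
    (F' := fun y a => (fderiv ℝ H (a, y)).comp
      (ContinuousLinearMap.inr ℝ (Fin N → ℝ) (Fin d → ℝ)))
    (bound := fun a => (Prod.fst '' F.K).indicator (fun _ => B) a) Filter.univ_mem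
    (Filter.Eventually.of_forall fun y => (hH1.continuous.comp (hpx y)).aestronglyMeasurable)
    (integrable_avg hG hφ.continuous x) (hcd.comp (hpx x)).aestronglyMeasurable
    (Filter.Eventually.of_forall fun a y _ => ?_) ?_ (Filter.Eventually.of_forall fun a y _ => ?_)
  · by_cases ha : a ∈ Prod.fst '' F.K
    · rw [indicator_of_mem ha]; exact hB (a, y)
    · rw [indicator_of_notMem ha, hsupp (a, y) fun h => ha ⟨_, h, rfl⟩]; simp
  · have hc := F.compact.image (continuous_fst (X := Fin N → ℝ) (Y := Fin d → ℝ))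
    exact (integrableOn_const hc.measure_lt_top.ne).integrable_indicator hc.measurableSet
  · exact ((hH1.differentiable one_ne_zero) (a, y)).hasFDerivAt.comp y
      (hasFDerivAt_prodMk_right a y)

/-- A derivative of an average is an average of the same function. -/
theorem dir_avg (hG : F.Adm G) (hφ : ContDiff ℝ 1 φ) (i : Fin d) (x : Fin d → ℝ) :
    dir i (F.avg G φ) x = F.avg (F.step i G) φ x := by
  set g : Joint N d → ℝ := fun p => φ (F.Φ p) with hgdef
  have hg : ContDiff ℝ 1 g := hφ.comp (F.smooth.of_le (by simp))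
  have hGd : Differentiable ℝ G := hG.smooth.differentiable (by simp)
  have hgd : Differentiable ℝ g := hg.differentiable one_ne_zero
  set Z : Fin N → Joint N d → ℝ := fun k q => G q * F.Ξ i k q with hZdef
  have hZ : ∀ k, ContDiff ℝ ∞ (Z k) := fun k => hG.smooth.mul (F.Ξ_smooth i k)
  have hpx : Continuous fun a : Fin N → ℝ => (a, x) := by fun_prop
  have hchain : ∀ p, G p * fderiv ℝ g p (xdir N i) = ∑ k, Z k p * fderiv ℝ g p (pdir d k) := by
    intro p
    by_cases hp : p ∈ F.K
    · have hc : ∀ v, fderiv ℝ g p v = fderiv ℝ φ (F.Φ p) (fderiv ℝ F.Φ p v) := fun v => by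
        rw [hgdef, fderiv_fun_comp p (hφ.differentiable one_ne_zero _)
          (F.smooth.differentiable (by simp) p)]
        rfl
      rw [hc, F.right_inv i p hp, map_sum, Finset.mul_sum]
      refine Finset.sum_congr rfl fun k _ => ?_
      rw [map_smul, hc, smul_eq_mul, hZdef]
      ring
    · simp [hZdef, hG.zero_of_notMem hp]
  -- the partial derivatives along the fibre
  have hline : ∀ k a, fderiv ℝ (fun b => Z k (b, x)) a (Pi.single k 1) =
      fderiv ℝ (Z k) (a, x) (pdir d k) := fun k a => by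
    rw [fderiv_fun_comp a ((hZ k).differentiable (by simp) _) (hasFDerivAt_prodMk_left a x).differentiableAt,
      (hasFDerivAt_prodMk_left a x).fderiv]
    rfl
  have hline' : ∀ k a, fderiv ℝ (fun b => g (b, x)) a (Pi.single k 1) =
      fderiv ℝ g (a, x) (pdir d k) := fun k a => by
    rw [fderiv_fun_comp a (hgd _) (hasFDerivAt_prodMk_left a x).differentiableAt,
      (hasFDerivAt_prodMk_left a x).fderiv]
    rfl
  have hI : ∀ {f : Joint N d → ℝ}, Continuous f → (∀ p, p ∉ F.K → f p = 0) →
      Integrable fun a : Fin N → ℝ => f (a, x) := fun hf hz =>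
    (hf.comp hpx).integrable_of_hasCompactSupport
      (HasCompactSupport.intro (F.compact.image continuous_fst) fun a ha =>
        hz _ fun hm => ha ⟨_, hm, rfl⟩)
  have hdg : ∀ v, Continuous fun p => fderiv ℝ g p v := fun v =>
    (hg.continuous_fderiv one_ne_zero).clm_apply continuous_const
  have hdZ : ∀ k v, Continuous fun p => fderiv ℝ (Z k) p v := fun k v =>
    ((hZ k).continuous_fderiv (by simp)).clm_apply continuous_const
  have hdG : ∀ v, Continuous fun p => fderiv ℝ G p v := fun v =>
    (hG.smooth.continuous_fderiv (by simp)).clm_apply continuous_const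
  have hZs : ∀ k p, p ∉ F.K → Z k p = 0 := fun k p hp => by simp [hZdef, hG.zero_of_notMem hp]
  have hdZs : ∀ k v p, p ∉ F.K → fderiv ℝ (Z k) p v = 0 := fun k v p hp => by
    rw [fderiv_of_notMem_tsupport ℝ fun h => hp (hG.supp (tsupport_mul_subset_left h))]; rfl
  have iz1 : ∀ k, Integrable fun a : Fin N → ℝ =>
      fderiv ℝ (Z k) (a, x) (pdir d k) * g (a, x) := fun k =>
    hI (f := fun p => fderiv ℝ (Z k) p (pdir d k) * g p) ((hdZ k _).mul hg.continuous)
      fun p hp => by simp [hdZs k _ p hp]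
  have iz2 : ∀ k, Integrable fun a : Fin N → ℝ =>
      Z k (a, x) * fderiv ℝ g (a, x) (pdir d k) := fun k =>
    hI (f := fun p => Z k p * fderiv ℝ g p (pdir d k)) ((hZ k).continuous.mul (hdg _))
      fun p hp => by simp [hZs k p hp]
  have hibp : ∀ k, ∫ a : Fin N → ℝ, Z k (a, x) * fderiv ℝ g (a, x) (pdir d k) =
      -∫ a : Fin N → ℝ, fderiv ℝ (Z k) (a, x) (pdir d k) * g (a, x) := by
    intro k
    simp only [← hline, ← hline']
    refine integral_mul_fderiv_eq_neg_fderiv_mul_of_integrable ?_ ?_ ?_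
      (fun a _ => ((hZ k).differentiable (by simp) _).comp a
        (hasFDerivAt_prodMk_left a x).differentiableAt)
      (fun a _ => (hgd _).comp a (hasFDerivAt_prodMk_left a x).differentiableAt)
    · simpa only [hline] using iz1 k
    · simpa only [hline'] using iz2 k
    · exact hI (f := fun p => Z k p * g p) ((hZ k).continuous.mul hg.continuous)
        fun p hp => by simp [hZs k p hp]
  have e1 : dir i (F.avg G φ) x = ∫ a : Fin N → ℝ,
      (fderiv ℝ G (a, x) (xdir N i) * g (a, x) +
        ∑ k, Z k (a, x) * fderiv ℝ g (a, x) (pdir d k)) := by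
    rw [dir, (hasFDerivAt_avg hG hφ x).fderiv, ContinuousLinearMap.integral_apply]
    · refine integral_congr_ae (Filter.Eventually.of_forall fun a => ?_)
      simp only [← hchain]
      rw [fderiv_fun_mul (hGd _) (hgd _)]
      simp [xdir, hgdef]
      ring
    · refine Continuous.integrable_of_hasCompactSupport ?_
        (HasCompactSupport.intro (F.compact.image continuous_fst) fun a ha => ?_)
      · exact ((((hG.smooth.of_le (by simp)).mul hg).continuous_fderiv one_ne_zero).comp
          hpx).clm_comp continuous_const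
      · have hp : (a, x) ∉ tsupport fun p => G p * φ (F.Φ p) := fun h =>
          ha ⟨_, hG.supp (tsupport_mul_subset_left h), rfl⟩
        simp [fderiv_of_notMem_tsupport ℝ hp]
  have iG : Integrable fun a : Fin N → ℝ => fderiv ℝ G (a, x) (xdir N i) * g (a, x) :=
    hI (f := fun p => fderiv ℝ G p (xdir N i) * g p) ((hdG _).mul hg.continuous) fun p hp => by
      simp [fderiv_of_notMem_tsupport ℝ (fun h => hp (hG.supp h))]
  rw [e1, integral_add iG (integrable_finsetSum _ fun k _ => iz2 k),
    integral_finsetSum _ fun k _ => iz2 k]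
  simp only [hibp, Finset.sum_neg_distrib]
  rw [avg]
  simp only [step, sub_mul, Finset.sum_mul]
  rw [integral_sub iG (integrable_finsetSum _ fun k _ => iz1 k),
    integral_finsetSum _ fun k _ => iz1 k]
  rfl

/-- All derivatives of an average. -/
theorem dirs_avg (hG : F.Adm G) (hφ : ContDiff ℝ 1 φ) :
    ∀ l, dirs l (F.avg G φ) = F.avg (F.steps l G) φ
  | [] => rfl
  | i :: l => by
    funext x
    rw [dirs, dirs_avg hG hφ l]
    exact dir_avg (hG.steps l) hφ i x

end Deriv

variable (F) in
/-- A family of kernels of order `m` at the scales `e ∈ (0, 1]`. -/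
structure IsScale (G : ℝ → Joint N d → ℝ) (Λ : ℝ) (m : ℤ) : Prop where
  adm : ∀ e, 0 < e → e ≤ 1 → F.Adm (G e)
  small : ∀ e, 0 < e → e ≤ 1 → ∀ p, G e p ≠ 0 → ‖p.1‖ ≤ Λ * e
  bound : ∀ n : ℕ, ∃ C, 0 ≤ C ∧ ∀ e, 0 < e → e ≤ 1 → ∀ p,
    ‖iteratedFDeriv ℝ n (G e) p‖ ≤ C * e ^ (m - N - n)

/-- One derivative loses one power of `e`. -/
theorem IsScale.step {G : ℝ → Joint N d → ℝ} {Λ : ℝ} {m : ℤ} (h : F.IsScale G Λ m) (i : Fin d) :
    F.IsScale (fun e => F.step i (G e)) Λ (m - 1) := by
  refine ⟨fun e he he1 => (h.adm e he he1).step i, fun e he he1 p hp => ?_, fun n => ?_⟩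
  · by_contra hc
    have h1 : p ∉ tsupport (G e) := by
      intro ht
      have : tsupport (G e) ⊆ {q : Joint N d | ‖q.1‖ ≤ Λ * e} :=
        closure_minimal (fun q hq => h.small e he he1 q hq)
          (isClosed_le continuous_fst.norm continuous_const)
      exact hc (this ht)
    have h2 : ∀ k, p ∉ tsupport fun q => G e q * F.Ξ i k q := fun k ht =>
      h1 (tsupport_mul_subset_left ht)
    refine hp ?_
    show fderiv ℝ (G e) p (xdir N i) - _ = 0
    rw [fderiv_of_notMem_tsupport ℝ h1]
    simp [fderiv_of_notMem_tsupport ℝ (h2 _)]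
  · choose C hC0 hC using h.bound
    have hX : ∀ k j, ∃ M, 0 ≤ M ∧ ∀ p, ‖iteratedFDeriv ℝ j (F.Ξ i k) p‖ ≤ M := by
      intro k j
      have hc := (F.Ξ_smooth i k).continuous_iteratedFDeriv (m := j) (by exact_mod_cast le_top)
      obtain ⟨M, hM⟩ := ((F.Ξ_supp i k).iteratedFDeriv j).exists_bound_of_continuous hc
      exact ⟨M, (norm_nonneg _).trans (hM 0), hM⟩
    choose M hM0 hM using hX
    refine ⟨‖xdir N i‖ * C (n + 1) + ∑ k, ‖pdir d k‖ *
      ∑ j ∈ Finset.range (n + 2), ((n + 1).choose j : ℝ) * C j * M k (n + 1 - j),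
      add_nonneg (mul_nonneg (norm_nonneg _) (hC0 _)) (Finset.sum_nonneg fun k _ =>
        mul_nonneg (norm_nonneg _) (Finset.sum_nonneg fun j _ =>
          mul_nonneg (mul_nonneg (Nat.cast_nonneg _) (hC0 _)) (hM0 _ _))), fun e he he1 p => ?_⟩
    have hs := (h.adm e he he1).smooth
    have hn : ∀ j : ℕ, (j : WithTop ℕ∞) ≤ ∞ := fun j => by exact_mod_cast le_top
    have hd1 : ∀ {f : Joint N d → ℝ} (v : Joint N d), ContDiff ℝ ∞ f →
        ‖iteratedFDeriv ℝ n (fun q => fderiv ℝ f q v) p‖ ≤
          ‖v‖ * ‖iteratedFDeriv ℝ (n + 1) f p‖ := fun v hf => by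
      refine (norm_iteratedFDeriv_clm_apply_const
        (hf.fderiv_right (m := ∞) (by simp)).contDiffAt (hn n)).trans ?_
      rw [norm_iteratedFDeriv_fderiv]
    have hcd : ∀ k, ContDiff ℝ ∞ fun q =>
        fderiv ℝ (fun q => G e q * F.Ξ i k q) q (pdir d k) := fun k =>
      ((hs.mul (F.Ξ_smooth i k)).fderiv_right (m := ∞) (by simp)).clm_apply contDiff_const
    have e1 : iteratedFDeriv ℝ n (F.step i (G e)) p =
        iteratedFDeriv ℝ n (fun q => fderiv ℝ (G e) q (xdir N i)) p -
          ∑ k, iteratedFDeriv ℝ n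
            (fun q => fderiv ℝ (fun q => G e q * F.Ξ i k q) q (pdir d k)) p := by
      rw [← iteratedFDeriv_sum_apply (fun k _ => ((hcd k).of_le (hn n)).contDiffAt),
        ← iteratedFDeriv_sub_apply]
      · congr 1
        funext q
        simp [Fam.step, Finset.sum_apply]
      · exact ((((hs.fderiv_right (m := ∞) (by simp)).clm_apply contDiff_const)).of_le
          (hn n)).contDiffAt
      · rw [Finset.sum_fn]
        exact ((ContDiff.sum fun k _ => hcd k).of_le (hn n)).contDiffAt
    rw [e1]
    have hp1 : e ^ (m - N - (n + 1 : ℕ)) = e ^ (m - 1 - N - n) := by congr 1; push_cast; ring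
    refine (norm_sub_le _ _).trans ?_
    rw [add_mul, Finset.sum_mul]
    refine add_le_add ?_ ((norm_sum_le _ _).trans (Finset.sum_le_sum fun k _ => ?_))
    · refine (hd1 _ hs).trans ?_
      rw [← hp1, mul_assoc]
      exact mul_le_mul_of_nonneg_left (hC _ e he he1 p) (norm_nonneg _)
    · refine (hd1 _ (hs.mul (F.Ξ_smooth i k))).trans ?_
      rw [← hp1, mul_assoc, Finset.sum_mul]
      refine mul_le_mul_of_nonneg_left ((norm_iteratedFDeriv_mul_le hs (F.Ξ_smooth i k) p
        (hn _)).trans (Finset.sum_le_sum fun j hj => ?_)) (norm_nonneg _)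
      have hj' : j ≤ n + 1 := Nat.lt_succ_iff.1 (Finset.mem_range.1 hj)
      have h1 : ‖iteratedFDeriv ℝ j (G e) p‖ ≤ C j * e ^ (m - N - (n + 1 : ℕ)) :=
        (hC j e he he1 p).trans (mul_le_mul_of_nonneg_left
          (zpow_le_zpow_right_of_le_one₀ he he1 (by omega)) (hC0 j))
      calc ((n + 1).choose j : ℝ) * ‖iteratedFDeriv ℝ j (G e) p‖ *
            ‖iteratedFDeriv ℝ (n + 1 - j) (F.Ξ i k) p‖
          ≤ ((n + 1).choose j : ℝ) * (C j * e ^ (m - N - (n + 1 : ℕ))) * M k (n + 1 - j) := by
            refine mul_le_mul (mul_le_mul_of_nonneg_left h1 (Nat.cast_nonneg _)) (hM _ _ _)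
              (norm_nonneg _) ?_
            exact mul_nonneg (Nat.cast_nonneg _) (mul_nonneg (hC0 _) (zpow_nonneg he.le _))
        _ = _ := by ring

/-- Several derivatives lose as many powers. -/
theorem IsScale.steps {G : ℝ → Joint N d → ℝ} {Λ : ℝ} {m : ℤ} (h : F.IsScale G Λ m) :
    ∀ l : List (Fin d), F.IsScale (fun e => F.steps l (G e)) Λ (m - l.length)
  | [] => by simpa [Fam.steps] using h
  | i :: l => by
    have := (h.steps l).step i
    rwa [show m - (((i :: l).length : ℕ) : ℤ) = m - (l.length : ℤ) - 1 by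
      rw [List.length_cons]; push_cast; ring]

variable (F) in
/-- The substitution `x ↦ Φ (a, x)` does not concentrate mass, for small `a`. -/
def Cover (r Cv : ℝ) : Prop :=
  ∀ a : Fin N → ℝ, ‖a‖ ≤ r → ∀ u : (Fin d → ℝ) → ℝ, Continuous u → (∀ z, 0 ≤ u z) →
    Integrable u → ∫ x in {x | (a, x) ∈ F.K}, u (F.Φ (a, x)) ≤ Cv * ∫ z, u z

/-- A kernel of order `m` gives an operator of norm `O (e ^ m)` on `L²`. -/
theorem IsScale.exists_l2_bound {G : ℝ → Joint N d → ℝ} {Λ Cv : ℝ} {m : ℤ}
    (h : F.IsScale G Λ m) (hΛ : 0 ≤ Λ) (hC : F.Cover Λ Cv) :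
    ∃ C, 0 ≤ C ∧ ∀ e, 0 < e → e ≤ 1 → ∀ φ : (Fin d → ℝ) → ℝ, Continuous φ →
      Integrable (fun z => φ z ^ 2) →
        ∫ x, F.avg (G e) φ x ^ 2 ≤ C * (e ^ m) ^ 2 * ∫ z, φ z ^ 2 := by
  obtain ⟨C₀, hC₀, hb⟩ := h.bound 0
  set W : ℝ := (2 * Λ) ^ N * C₀
  refine ⟨W ^ 2 * max Cv 0, by positivity, fun e he he1 φ hφ hint => ?_⟩
  have hG := h.adm e he he1
  set b := C₀ * e ^ (m - N)
  have hb0 : 0 ≤ b := mul_nonneg hC₀ (zpow_nonneg he.le _)
  have hGb : ∀ p, |G e p| ≤ b := fun p => by simpa [b] using hb e he he1 p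
  set S : Set (Fin N → ℝ) := Metric.closedBall 0 (Λ * e)
  have hS : volume.real S = (2 * (Λ * e)) ^ N := by
    simp [S, measureReal_def, Real.volume_pi_closedBall _ (mul_nonneg hΛ he.le)]
    positivity
  have hpx : ∀ x : Fin d → ℝ, Continuous fun a : Fin N → ℝ => (a, x) := fun x => by fun_prop
  have hzero : ∀ p : Joint N d, p.1 ∉ S → G e p = 0 := fun p hp => by
    by_contra hc
    exact hp (mem_closedBall_zero_iff.2 (h.small e he he1 p hc))
  have hSint : IntegrableOn (fun _ => b) S := integrableOn_const measure_closedBall_lt_top.ne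
  -- the total mass
  have hM : ∀ x, ∫ a, |G e (a, x)| ≤ b * (2 * (Λ * e)) ^ N := fun x => by
    calc ∫ a, |G e (a, x)| ≤ ∫ a, S.indicator (fun _ => b) a := by
          refine integral_mono_of_nonneg (Filter.Eventually.of_forall fun a => abs_nonneg _)
            (hSint.integrable_indicator measurableSet_closedBall)
            (Filter.Eventually.of_forall fun a => ?_)
          by_cases ha : a ∈ S
          · simpa [indicator_of_mem ha] using hGb (a, x)
          · simp [indicator_of_notMem ha, hzero (a, x) ha]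
      _ = b * (2 * (Λ * e)) ^ N := by
          rw [integral_indicator measurableSet_closedBall, setIntegral_const, hS, smul_eq_mul]
          ring
  set M := b * (2 * (Λ * e)) ^ N with hMdef
  have hM0 : 0 ≤ M := mul_nonneg hb0 (by positivity)
  set H : Joint N d → ℝ := fun p => |G e p| * φ (F.Φ p) ^ 2 with hHdef
  have hHc : Continuous H := hG.smooth.continuous.abs.mul ((hφ.comp F.smooth.continuous).pow 2)
  have hHs : HasCompactSupport H :=
    HasCompactSupport.intro F.compact fun p hp => by simp [hHdef, hG.zero_of_notMem hp]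
  have hHi : Integrable H (volume.prod volume) := hHc.integrable_of_hasCompactSupport hHs
  -- Cauchy–Schwarz in the parameter
  have hCS : ∀ x, F.avg (G e) φ x ^ 2 ≤ M * ∫ a, H (a, x) := fun x => by
    set I := F.avg (G e) φ x
    have i0 : Integrable fun a : Fin N → ℝ => |G e (a, x)| :=
      (hG.smooth.continuous.abs.comp (hpx x)).integrable_of_hasCompactSupport
        (hasCompactSupport_fst hG x fun a ha => by simp [ha])
    have i1 := integrable_avg hG hφ x
    have i2 : Integrable fun a : Fin N → ℝ => H (a, x) :=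
      (hHc.comp (hpx x)).integrable_of_hasCompactSupport
        (hasCompactSupport_fst hG x fun a ha => by simp [hHdef, ha])
    rcases eq_or_lt_of_le hM0 with h0 | hpos
    · have hI : I = 0 := by
        have : ∫ a, |G e (a, x)| = 0 :=
          le_antisymm (h0 ▸ hM x) (integral_nonneg fun a => abs_nonneg _)
        have h1 := (integral_eq_zero_iff_of_nonneg (fun a => abs_nonneg _) i0).1 this
        refine integral_eq_zero_of_ae (h1.mono fun a ha => ?_)
        simp only [Pi.zero_apply, abs_eq_zero] at ha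
        simp [ha]
      rw [hI, ← h0]; simp
    · have key : ∀ a, 2 * |I| * |G e (a, x) * φ (F.Φ (a, x))| ≤
          M * H (a, x) + I ^ 2 / M * |G e (a, x)| := fun a => by
        rw [abs_mul]
        have h1 := mul_nonneg (abs_nonneg (G e (a, x)))
          (sq_nonneg (M * |φ (F.Φ (a, x))| - |I|))
        have e2 : I ^ 2 / M * |G e (a, x)| = |I| ^ 2 * |G e (a, x)| / M := by rw [sq_abs]; ring
        have hsq : φ (F.Φ (a, x)) ^ 2 = |φ (F.Φ (a, x))| ^ 2 := (sq_abs _).symm
        rw [e2, hHdef, ← sub_nonneg]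
        simp only [hsq]
        have e3 : M * (|G e (a, x)| * |φ (F.Φ (a, x))| ^ 2) + |I| ^ 2 * |G e (a, x)| / M -
            2 * |I| * (|G e (a, x)| * |φ (F.Φ (a, x))|) =
            |G e (a, x)| * (M * |φ (F.Φ (a, x))| - |I|) ^ 2 / M := by field_simp; ring
        rw [e3]
        exact div_nonneg h1 hpos.le
      have h2 : 2 * |I| * |I| ≤ M * (∫ a, H (a, x)) + I ^ 2 / M * M := by
        calc 2 * |I| * |I| ≤ 2 * |I| * ∫ a, |G e (a, x) * φ (F.Φ (a, x))| :=
              mul_le_mul_of_nonneg_left abs_integral_le_integral_abs (by positivity)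
          _ = ∫ a, 2 * |I| * |G e (a, x) * φ (F.Φ (a, x))| := (integral_const_mul _ _).symm
          _ ≤ ∫ a, (M * H (a, x) + I ^ 2 / M * |G e (a, x)|) :=
              integral_mono (i1.abs.const_mul _) ((i2.const_mul _).add (i0.const_mul _)) key
          _ ≤ _ := by
              rw [integral_add (i2.const_mul _) (i0.const_mul _), integral_const_mul,
                integral_const_mul]
              gcongr
              exact hM x
      rw [div_mul_cancel₀ _ hpos.ne', mul_assoc, ← sq, sq_abs] at h2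
      linarith
  have hIx : ∀ a, ∫ x, H (a, x) ≤ S.indicator (fun _ => b * (max Cv 0 * ∫ z, φ z ^ 2)) a := by
    intro a
    by_cases ha : a ∈ S
    · rw [indicator_of_mem ha]
      have hK : IsCompact {x : Fin d → ℝ | (a, x) ∈ F.K} :=
        (F.compact.image continuous_snd).of_isClosed_subset
          (F.compact.isClosed.preimage (by fun_prop)) fun x hx => ⟨_, hx, rfl⟩
      have hax : Continuous fun x : Fin d → ℝ => φ (F.Φ (a, x)) ^ 2 :=
        (hφ.comp (F.smooth.continuous.comp (by fun_prop))).pow 2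
      have hHz : ∀ x, x ∉ {x : Fin d → ℝ | (a, x) ∈ F.K} → H (a, x) = 0 := fun x hx => by
        simp [hHdef, hG.zero_of_notMem hx]
      rw [← setIntegral_eq_integral_of_forall_compl_eq_zero hHz]
      calc ∫ x in {x | (a, x) ∈ F.K}, H (a, x) ≤ ∫ x in {x | (a, x) ∈ F.K},
            b * φ (F.Φ (a, x)) ^ 2 :=
            setIntegral_mono_on
              ((hHc.comp (by fun_prop : Continuous fun x : Fin d → ℝ => (a, x))).continuousOn
                |>.integrableOn_compact hK)
              ((continuous_const.mul hax).continuousOn.integrableOn_compact hK) hK.measurableSet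
              fun x _ => mul_le_mul_of_nonneg_right (hGb _) (sq_nonneg _)
        _ ≤ b * (max Cv 0 * ∫ z, φ z ^ 2) := by
            rw [integral_const_mul]
            refine mul_le_mul_of_nonneg_left ?_ hb0
            refine (hC a ?_ _ (hφ.pow 2) (fun z => sq_nonneg _) hint).trans
              (mul_le_mul_of_nonneg_right (le_max_left _ _) (integral_nonneg fun z => sq_nonneg _))
            exact (mem_closedBall_zero_iff.1 ha).trans (mul_le_of_le_one_right hΛ he1)
    · rw [indicator_of_notMem ha]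
      exact (integral_eq_zero_of_ae (Filter.Eventually.of_forall fun x => by
        simp [hHdef, hzero (a, x) ha])).le
  calc ∫ x, F.avg (G e) φ x ^ 2 ≤ ∫ x, M * ∫ a, H (a, x) :=
        integral_mono_of_nonneg (Filter.Eventually.of_forall fun x => sq_nonneg _)
          ((hHi.integral_prod_right).const_mul M) (Filter.Eventually.of_forall hCS)
    _ = M * ∫ a, ∫ x, H (a, x) := by rw [integral_const_mul, ← integral_integral_swap hHi]
    _ ≤ M * ∫ a, S.indicator (fun _ => b * (max Cv 0 * ∫ z, φ z ^ 2)) a := by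
        refine mul_le_mul_of_nonneg_left (integral_mono hHi.integral_prod_left ?_ hIx) hM0
        exact (integrableOn_const measure_closedBall_lt_top.ne).integrable_indicator
          measurableSet_closedBall
    _ = W ^ 2 * max Cv 0 * (e ^ m) ^ 2 * ∫ z, φ z ^ 2 := by
        rw [integral_indicator measurableSet_closedBall, setIntegral_const, hS, smul_eq_mul]
        have hW : M = W * e ^ m := by
          simp only [hMdef, b, W, zpow_sub₀ he.ne', zpow_natCast, mul_pow]
          field_simp
        rw [show (2 * (Λ * e)) ^ N * (b * (max Cv 0 * ∫ z, φ z ^ 2)) =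
          M * (max Cv 0 * ∫ z, φ z ^ 2) by rw [hMdef]; ring, hW]
        ring

/-- Each derivative of an average of order `m` costs one power of `e` on `L²`. -/
theorem IsScale.exists_dirs_bound {G : ℝ → Joint N d → ℝ} {Λ Cv : ℝ} {m : ℤ}
    (h : F.IsScale G Λ m) (hΛ : 0 ≤ Λ) (hC : F.Cover Λ Cv) (l : List (Fin d)) :
    ∃ C, 0 ≤ C ∧ ∀ e, 0 < e → e ≤ 1 → ∀ φ : (Fin d → ℝ) → ℝ, ContDiff ℝ 1 φ →
      Integrable (fun z => φ z ^ 2) →
        ∫ x, dirs l (F.avg (G e) φ) x ^ 2 ≤ C * (e ^ (m - l.length)) ^ 2 * ∫ z, φ z ^ 2 := by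
  obtain ⟨C, hC0, hC'⟩ := (h.steps l).exists_l2_bound hΛ hC
  exact ⟨C, hC0, fun e he he1 φ hφ hint => by
    rw [dirs_avg (h.adm e he he1) hφ l]
    exact hC' e he he1 φ hφ.continuous hint⟩

end Fam

end Vale.Agent.P204.Gen.Param
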