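import Vale.Agent.P204.Gen.GPairAlg
import Vale.Agent.P204.Gen.GeoDist
import Vale.Agent.P204.Gen.PointRepDef
import Vale.Agent.P204.Torus.Phase1Aux

/-!
P204, general four-manifold: tools for the pointwise representation of a regularised current
(helper51): congruences near the identity, test forms of a chart, averages of congruent forms.
-/

open MeasureTheory Filter Topology Set
open scoped BigOperators ContDiff

namespace Vale.Agent.P204.Gen

open Vale.Agent.P204.Torus

namespace PairAux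

lemma norm_pull_le_sq (A : V →L[ℝ] V) (α : Form) : ‖pull A α‖ ≤ 72 * ‖A‖ ^ 2 * ‖α‖ := by
  refine (norm_le_of_ev (K := 12 * ‖A‖ ^ 2 * ‖α‖) fun i j => ?_).trans (le_of_eq (by ring))
  rw [ev_pull]
  refine (abs_ev_le _ _ _).trans ?_
  have h1 := A.le_opNorm (e i)
  have h2 := A.le_opNorm (e j)
  rw [norm_e, mul_one] at h1 h2
  calc 12 * (‖α‖ * (‖A (e i)‖ * ‖A (e j)‖)) ≤ 12 * (‖α‖ * (‖A‖ * ‖A‖)) := by gcongr
    _ = 12 * ‖A‖ ^ 2 * ‖α‖ := by ring

/-- A measurable inverse of congruences near the identity. -/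
lemma exists_near_inverse : ∃ (R : (V →L[ℝ] V) → V →L[ℝ] V) (ρ : ℝ), 0 < ρ ∧ Measurable R ∧
    ∀ A, ‖A - 1‖ ≤ ρ → A.det ≠ 0 ∧ 1 / 2 ≤ A.det ∧ A.det ≤ 2 ∧ R A = A.inverse ∧
      ‖R A - 1‖ ≤ 2 * ‖A - 1‖ := by
  classical
  have hd : ContinuousAt (fun A : V →L[ℝ] V => A.det) 1 := contDiff_det.continuous.continuousAt
  have hu : IsUnit (1 : V →L[ℝ] V) := isUnit_one
  have hinv : ContinuousAt (Ring.inverse : (V →L[ℝ] V) → _) 1 := by
    simpa using NormedRing.inverse_continuousAt (1 : (V →L[ℝ] V)ˣ)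
  have h1 : (1 : V →L[ℝ] V).det = 1 := by
    show LinearMap.det _ = 1
    exact LinearMap.det_id
  have e0 : ∀ᶠ A in 𝓝 (1 : V →L[ℝ] V),
      A.det ∈ Ioo (1 / 2 : ℝ) 2 ∧ ‖Ring.inverse A‖ < 2 ∧ IsUnit A := by
    refine (hd.eventually_mem (isOpen_Ioo.mem_nhds ?_)).and ((Filter.Tendsto.eventually_lt_const
      ?_ hinv.norm).and (Units.isOpen.mem_nhds hu))
    · rw [h1]; norm_num
    · simp only [Ring.inverse_one]
      exact lt_of_le_of_lt ContinuousLinearMap.norm_id_le one_lt_two
  obtain ⟨ρ, hρ, hb⟩ := Metric.nhds_basis_closedBall.mem_iff.1 e0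
  set s := Metric.closedBall (1 : V →L[ℝ] V) ρ
  refine ⟨s.piecewise Ring.inverse fun _ => 1, ρ, hρ, ?_, fun A hA => ?_⟩
  · refine ContinuousOn.measurable_piecewise (fun A hA => ?_) continuousOn_const
      Metric.isClosed_closedBall.measurableSet
    obtain ⟨u, hu'⟩ := (hb hA).2.2
    exact (hu' ▸ NormedRing.inverse_continuousAt u).continuousWithinAt
  have hmem : A ∈ s := by rwa [Metric.mem_closedBall, dist_eq_norm]
  obtain ⟨hdet, hn, hun⟩ := hb hmem
  have hne : A.det ≠ 0 := ne_of_gt (lt_trans (by norm_num) hdet.1)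
  have hR : s.piecewise Ring.inverse (fun _ => 1) A = A.inverse := by
    rw [Set.piecewise_eq_of_mem _ _ _ hmem, ContinuousLinearMap.ringInverse_eq_inverse]
  refine ⟨hne, hdet.1.le, hdet.2.le, hR, ?_⟩
  rw [Set.piecewise_eq_of_mem _ _ _ hmem,
    show Ring.inverse A - 1 = Ring.inverse A * (1 - A) by
      rw [mul_sub, mul_one, Ring.inverse_mul_cancel A hun]]
  exact (norm_mul_le _ _).trans (le_trans (mul_le_mul_of_nonneg_right hn.le (norm_nonneg _))
    (le_of_eq (by rw [norm_sub_rev])))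

/-- `q` moves congruences to the other side. -/
lemma q_pull_right {A : V →L[ℝ] V} (hA : A.det ≠ 0) (a b : Form) :
    q a (pull A b) = A.det * q (pull A.inverse a) b := by
  conv_lhs => rw [← pull_inverse_pull hA a]
  rw [q_pull]

/-- A one-form with constant differential. -/
noncomputable def linPrim (β : Form) (x : V) : V := (1 / 2 : ℝ) • iota x β

lemma contDiff_linPrim (β : Form) : ContDiff ℝ ∞ (linPrim β) := by
  refine contDiff_pi.2 fun j => ?_
  have h : ∀ i, ContDiff ℝ ∞ fun x : V => x i := fun i => contDiff_apply ℝ ℝ i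
  simp only [linPrim, iota, Pi.smul_apply, smul_eq_mul, ev_def]
  fun_prop

lemma d1_linPrim (β : Form) (x : V) : d1 (linPrim β) x = β := by
  set L : V →L[ℝ] V := LinearMap.toContinuousLinearMap
    { toFun := linPrim β
      map_add' := fun u v => by
        funext j; simp only [linPrim, iota, Pi.smul_apply, Pi.add_apply, smul_eq_mul, ev_add_left]
        ring
      map_smul' := fun t u => by
        funext j
        simp only [linPrim, iota, Pi.smul_apply, smul_eq_mul, ev_smul_left, RingHom.id_apply]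
        ring } with hL
  have h : fderiv ℝ (linPrim β) x = L := by
    rw [show linPrim β = ⇑L from rfl]; exact L.fderiv
  refine form_ext fun u v => ?_
  rw [ev_d1, h]
  show pair (linPrim β u) v - pair (linPrim β v) u = _
  have hp : ∀ a b, pair (linPrim β a) b = 1 / 2 * ev β a b := fun a b => by
    rw [← pair_iota]; simp only [pair, linPrim, Pi.smul_apply, smul_eq_mul, Finset.mul_sum]
    exact Finset.sum_congr rfl fun i _ => by ring
  rw [hp, hp, ev_skew β v u]
  ring

/-- The coordinate paired with `j` by `q`. -/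
def swIx : Fin 6 → Fin 6 := ![3, 4, 5, 0, 1, 2]

/-- The form with given pairings with the basis. -/
noncomputable def ofPairs (f : Fin 6 → ℝ) : Form := WithLp.toLp 2 f

lemma q_single_swap (α : Form) (j : Fin 6) :
    q α (EuclideanSpace.single (swIx j) 1) = α j := by
  fin_cases j <;> simp [q, swIx]

lemma norm_ofPairs_le {f : Fin 6 → ℝ} {K : ℝ} (h : ∀ j, |f j| ≤ K) : ‖ofPairs f‖ ≤ 6 * K :=
  (norm_le_sum _).trans ((Finset.sum_le_sum fun j _ => h j).trans (le_of_eq (by simp)))

end PairAux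

open PairAux

namespace Geo

variable {X : Type*} [TopologicalSpace X] [MeasurableSpace X] (G : Geo X)

lemma n_pos (x : X) : 0 < (G.n : ℝ) := by
  exact_mod_cast Nat.pos_of_ne_zero fun h => by
    have := G.tr x
    rw [h] at this
    exact this.elim0

lemma exists_inv_n_le (x : X) : ∃ i, 1 / (G.n : ℝ) ≤ G.ψ i x := by
  have hn := G.n_pos x
  by_contra h
  push Not at h
  have h1 := Finset.sum_lt_sum_of_nonempty (s := (Finset.univ : Finset (Fin G.n)))
    ⟨G.tr x, Finset.mem_univ _⟩ fun i _ => h i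
  rw [G.ψ_sum, Finset.sum_const, Finset.card_univ, Fintype.card_fin, nsmul_eq_mul,
    mul_one_div_cancel hn.ne'] at h1
  exact lt_irrefl _ h1

/-- A part of `X` where `ψ i` is bounded below. -/
def lowSet (i : Fin G.n) (a : ℝ) : Set X := {x | a ≤ G.ψ i x}

lemma lowSet_subset_tsupport {i : Fin G.n} {a : ℝ} (ha : 0 < a) :
    G.lowSet i a ⊆ tsupport (G.ψ i) := fun _ hx =>
  subset_tsupport _ (ha.trans_le hx).ne'

lemma lowSet_subset_source {i : Fin G.n} {a : ℝ} (ha : 0 < a) :
    G.lowSet i a ⊆ (G.φ i).source :=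
  (G.lowSet_subset_tsupport ha).trans (G.ψ_supp i)

lemma isCompact_lowSet [CompactSpace X] (i : Fin G.n) (a : ℝ) : IsCompact (G.lowSet i a) :=
  (isClosed_le continuous_const (G.ψ_cont i)).isCompact

lemma abs_psi_sub_le (i : Fin G.n) (x y : X) : |G.ψ i x - G.ψ i y| ≤ G.dX x y :=
  (le_add_of_nonneg_right (norm_nonneg _)).trans (Finset.single_le_sum
    (f := fun j : Fin G.n => |G.ψ j x - G.ψ j y| + ‖G.ψ j x • G.φ j x - G.ψ j y • G.φ j y‖)
    (fun j _ => add_nonneg (abs_nonneg _) (norm_nonneg _)) (Finset.mem_univ i))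

/-- The image of a compact part of a chart, thickened inside the chart. -/
lemma exists_room [CompactSpace X] [T2Space X] (i : Fin G.n) {a : ℝ} (ha : 0 < a) :
    ∃ η C : ℝ, 0 < η ∧ 0 < C ∧ ∀ u ∈ G.φ i '' G.lowSet i a, ∀ v, ‖v - u‖ ≤ η →
      v ∈ (G.φ i).target ∧ (∀ᶠ v' in 𝓝 v, G.χ i v' = 1) ∧
      G.dX ((G.φ i).symm u) ((G.φ i).symm v) ≤ C * ‖u - v‖ := by
  have hK : IsCompact (G.φ i '' G.lowSet i a) :=
    (G.isCompact_lowSet i a).image_of_continuousOn
      ((G.φ i).continuousOn.mono (G.lowSet_subset_source ha))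
  set U := (G.φ i).target ∩ interior {v | G.χ i v = 1}
  have hU : IsOpen U := (G.φ i).open_target.inter isOpen_interior
  have hKU : G.φ i '' G.lowSet i a ⊆ U := by
    rintro _ ⟨x, hx, rfl⟩
    exact ⟨(G.φ i).map_source (G.lowSet_subset_source ha hx),
      mem_interior_iff_mem_nhds.2 (G.χ_one i x (G.lowSet_subset_tsupport ha hx))⟩
  obtain ⟨η, hη, hsub⟩ := hK.exists_cthickening_subset_open hU hKU
  set K' := Metric.cthickening η (G.φ i '' G.lowSet i a)
  have hK' : IsCompact K' := hK.cthickening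
  have hKX : IsCompact ((G.φ i).symm '' K') :=
    hK'.image_of_continuousOn ((G.φ i).continuousOn_symm.mono fun v hv => (hsub hv).1)
  obtain ⟨C, hC, hdX⟩ := G.exists_dX_le hKX
    (image_subset_iff.2 fun v hv => (G.φ i).map_target (hsub hv).1)
  refine ⟨η, C, hη, hC, fun u hu v hv => ?_⟩
  have hu' : u ∈ K' := Metric.self_subset_cthickening _ hu
  have hv' : v ∈ K' := Metric.mem_cthickening_of_dist_le v u η _ hu (by rwa [dist_eq_norm])
  refine ⟨(hsub hv').1, mem_interior_iff_mem_nhds.1 (hsub hv').2, ?_⟩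
  have := hdX _ (mem_image_of_mem _ hu') _ (mem_image_of_mem _ hv')
  rwa [(G.φ i).right_inv (hsub hu').1, (G.φ i).right_inv (hsub hv').1] at this

/-- A multiple `g` of a constant two-form in the chart `i`, as a two-form on `X`. -/
noncomputable def testForm (i : Fin G.n) (g : V → ℝ) (β : Form) (x : X) : Form :=
  G.fromChart0 i g x • G.d (G.fromChart1 i (linPrim β)) x

lemma smooth_testForm [T2Space X] {i : Fin G.n} {g : V → ℝ} (hg : ContDiff ℝ ∞ g)
    (hc : HasCompactSupport g) (hs : tsupport g ⊆ (G.φ i).target) (β : Form) :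
    G.Smooth2 (G.testForm i g β) :=
  (G.smooth0_fromChart0 hg hc hs).smul2
    (G.smooth2_d (G.smooth1_fromChart1 (contDiff_linPrim β).contDiffOn))

lemma rep2_testForm [T2Space X] {i : Fin G.n} {g : V → ℝ} (β : Form)
    (h1 : ∀ v, g v ≠ 0 → v ∈ (G.φ i).target ∧ ∀ᶠ v' in 𝓝 v, G.χ i v' = 1) (v : V) :
    G.rep2 i (G.testForm i g β) v = g v • β := by
  by_cases hv : v ∈ (G.φ i).target
  · unfold testForm
    rw [G.rep2_fsmul]
    have h0 : G.rep0 i (G.fromChart0 i g) v = g v := by
      simp [rep0, hv, fromChart0, (G.φ i).map_target hv, (G.φ i).right_inv hv]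
    rw [h0]
    by_cases hg : g v = 0
    · simp [hg]
    rw [G.rep2_d (G.smooth1_fromChart1 (contDiff_linPrim β).contDiffOn) hv]
    congr 1
    have he : G.rep1 i (G.fromChart1 i (linPrim β)) =ᶠ[𝓝 v] linPrim β := by
      filter_upwards [(G.φ i).open_target.mem_nhds hv, (h1 v hg).2] with w hw hw1
      rw [G.rep1_fromChart1 _ hw, hw1, one_smul]
    conv_rhs => rw [← d1_linPrim β v]
    refine form_ext fun a b => ?_
    rw [ev_d1, ev_d1, he.fderiv_eq]
  · have hg : g v = 0 := by_contra fun h => hv (h1 v h).1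
    rw [G.rep2_of_notMem _ hv, hg, zero_smul]

lemma testForm_eq_zero {i : Fin G.n} {g : V → ℝ} (β : Form) {x : X}
    (h : x ∉ (G.φ i).source ∨ g (G.φ i x) = 0) : G.testForm i g β x = 0 := by
  rw [testForm, fromChart0]
  split_ifs with hx
  · rw [h.resolve_left (fun h' => h' hx), zero_smul]
  · rw [zero_smul]

end Geo

namespace PairAux

/-- A measure on congruences realising an average tested against a constant form. -/
lemma exists_congr_measure (m : Measure (V × (V →L[ℝ] V))) [IsProbabilityMeasure m] (H : Form)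
    {g : V → ℝ} (hg : Continuous g) (hg0 : ∀ v, 0 ≤ g v) {Kg : ℝ} (hgK : ∀ v, g v ≤ Kg)
    {R : (V →L[ℝ] V) → V →L[ℝ] V} {ρ δ : ℝ} (hR : Measurable R)
    (hRp : ∀ A, ‖A - 1‖ ≤ ρ → A.det ≠ 0 ∧ 1 / 2 ≤ A.det ∧ A.det ≤ 2 ∧ R A = A.inverse ∧
      ‖R A - 1‖ ≤ 2 * ‖A - 1‖) (hδ : δ ≤ ρ) (hae : ∀ᵐ p ∂m, ‖p.2 - 1‖ ≤ δ) :
    ∃ M : Measure (V →L[ℝ] V), IsFiniteMeasure M ∧
      M.real univ ≤ 2 * ∫ p, g p.1 ∂m ∧ (∫ p, g p.1 ∂m) / 2 ≤ M.real univ ∧
      (M ≠ 0 → ∃ᵐ p ∂m, g p.1 ≠ 0) ∧ (∀ᵐ L ∂M, ‖L - 1‖ ≤ 2 * δ) ∧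
      ∀ β, ∫ p, q H (pull p.2 (g p.1 • β)) ∂m = q (∫ L, pull L H ∂M) β := by
  set t : (V × (V →L[ℝ] V)) → ℝ := fun p => g p.1 * p.2.det with ht
  have htc : Continuous t := (hg.comp continuous_fst).mul
    (contDiff_det.continuous.comp continuous_snd)
  have hRm : Measurable fun p : V × (V →L[ℝ] V) => R p.2 := hR.comp measurable_snd
  have hms : MeasurableSet {L : V →L[ℝ] V | ‖L - 1‖ ≤ 2 * δ} :=
    measurableSet_le (measurable_id.sub_const _).norm measurable_const
  have htm : Measurable fun p => ENNReal.ofReal (t p) := htc.measurable.ennreal_ofReal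
  set M := (m.withDensity fun p => ENNReal.ofReal (t p)).map fun p => R p.2 with hM
  have hbd : ∀ᵐ p ∂m, 0 ≤ t p ∧ t p ≤ 2 * g p.1 ∧ g p.1 / 2 ≤ t p ∧ t p ≤ 2 * Kg := by
    filter_upwards [hae] with p hp
    obtain ⟨-, h1, h2, -, -⟩ := hRp p.2 (hp.trans hδ)
    have := hg0 p.1; have := hgK p.1
    simp only [ht]
    refine ⟨by positivity, ?_, ?_, ?_⟩ <;> nlinarith
  have hit : Integrable t m := Integrable.of_bound htc.aestronglyMeasurable (2 * Kg) (by
    filter_upwards [hbd] with p hp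
    rw [Real.norm_eq_abs, abs_of_nonneg hp.1]; exact hp.2.2.2)
  have hig : Integrable (fun p : V × (V →L[ℝ] V) => g p.1) m :=
    Integrable.of_bound (hg.comp continuous_fst).aestronglyMeasurable Kg
      (Eventually.of_forall fun p => by rw [Real.norm_eq_abs, abs_of_nonneg (hg0 _)]; exact hgK _)
  have hfin : IsFiniteMeasure (m.withDensity fun p => ENNReal.ofReal (t p)) :=
    isFiniteMeasure_withDensity_ofReal hit.2
  have hMf : IsFiniteMeasure M := by rw [hM]; infer_instance
  have huniv : M.real univ = ∫ p, t p ∂m := by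
    rw [hM, measureReal_def, Measure.map_apply hRm MeasurableSet.univ,
      preimage_univ, withDensity_apply _ MeasurableSet.univ, Measure.restrict_univ,
      integral_eq_lintegral_of_nonneg_ae (hbd.mono fun p hp => hp.1) htc.aestronglyMeasurable]
  have haeM : ∀ᵐ L ∂M, ‖L - 1‖ ≤ 2 * δ := by
    rw [hM, ae_map_iff hRm.aemeasurable hms]
    refine (withDensity_absolutelyContinuous m _).ae_le ?_
    filter_upwards [hae] with p hp
    obtain ⟨-, -, -, -, h⟩ := hRp p.2 (hp.trans hδ)
    show ‖R p.2 - 1‖ ≤ 2 * δ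
    linarith
  refine ⟨M, hMf, ?_, ?_, fun hne => ?_, haeM, fun β => ?_⟩
  · rw [huniv, ← integral_const_mul]
    exact integral_mono_ae hit (hig.const_mul 2) (hbd.mono fun p hp => hp.2.1)
  · rw [huniv, ← integral_div]
    exact integral_mono_ae (hig.div_const 2) hit (hbd.mono fun p hp => hp.2.2.1)
  · by_contra h
    rw [Filter.not_frequently] at h
    refine hne (Measure.measure_univ_eq_zero.1 ?_)
    rw [hM, Measure.map_apply hRm MeasurableSet.univ, preimage_univ,
      withDensity_apply _ MeasurableSet.univ, Measure.restrict_univ,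
      lintegral_eq_zero_iff htm]
    filter_upwards [h] with p hp
    simp only [ne_eq, not_not] at hp
    simp [ht, hp]
  · have hc : Continuous fun L : V →L[ℝ] V => pull L H :=
      contDiff_pull.continuous.comp (continuous_id.prodMk continuous_const)
    have hi : Integrable (fun L => pull L H) M := by
      refine Integrable.of_bound hc.aestronglyMeasurable (72 * (1 + 2 * δ) ^ 2 * ‖H‖) ?_
      filter_upwards [haeM] with L hL
      refine (norm_pull_le_sq L H).trans ?_
      gcongr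
      calc ‖L‖ = ‖(L - 1) + 1‖ := by rw [sub_add_cancel]
        _ ≤ ‖L - 1‖ + ‖(1 : V →L[ℝ] V)‖ := norm_add_le _ _
        _ ≤ 1 + 2 * δ := by
          rw [add_comm (1 : ℝ)]
          exact add_le_add hL ContinuousLinearMap.norm_id_le
    have hq : Continuous fun L : V →L[ℝ] V => q β (pull L H) :=
      Setup.continuous_q continuous_const hc
    rw [q_comm (∫ L, pull L H ∂M) β, q_integral hi, hM,
      integral_map hRm.aemeasurable hq.aestronglyMeasurable,
      integral_withDensity_eq_integral_toReal_smul htm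
        (Eventually.of_forall fun p => ENNReal.ofReal_lt_top)]
    refine integral_congr_ae ?_
    filter_upwards [hbd, hae] with p hp hp'
    obtain ⟨hne, -, -, hRA, -⟩ := hRp p.2 (hp'.trans hδ)
    simp only [Function.comp_apply, smul_eq_mul, ENNReal.toReal_ofReal hp.1]
    rw [pull_smul, q_smul_right, q_pull_right hne, hRA, q_comm β]
    simp only [ht]
    ring

end PairAux

end Vale.Agent.P204.Gen
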