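import Vale.Agent.P204.Gen.AvgBase

/-!
P204, general four-manifold: pointwise semiclassical Sobolev densities.

`psq k ε f u` is the integrand of the norm `hsq k ε f`. The composition with a smooth family of maps
and coefficients is bounded pointwise by the same density at the image point, and averages are
bounded by averages (Jensen), so no integral enters the bounds on the derivatives of the regulariser.
-/

open MeasureTheory Set Filter Topology
open scoped ContDiff

namespace Vale.Agent.P204.Gen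

variable {d : ℕ} {F G : Type*} [NormedAddCommGroup F] [NormedSpace ℝ F] [NormedAddCommGroup G]
  [NormedSpace ℝ G]

/-- A partial derivative. -/
noncomputable def pd (l : Fin d) (f : (Fin d → ℝ) → F) (u : Fin d → ℝ) : F :=
  fderiv ℝ f u (Pi.single l 1)

/-- The semiclassical Sobolev density of order `k`. -/
noncomputable def psq : ℕ → ℝ → ((Fin d → ℝ) → F) → (Fin d → ℝ) → ℝ
  | 0, _, f, u => ‖f u‖ ^ 2
  | k + 1, ε, f, u => psq k ε f u + ε ^ 2 * ∑ l, psq k ε (pd l f) u

lemma psq_nonneg : ∀ (k : ℕ) (ε : ℝ) (f : (Fin d → ℝ) → F) (u : Fin d → ℝ), 0 ≤ psq k ε f u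
  | 0, _, _, _ => sq_nonneg _
  | k + 1, ε, f, u => add_nonneg (psq_nonneg k ε f u)
      (mul_nonneg (sq_nonneg ε) (Finset.sum_nonneg fun l _ => psq_nonneg k ε _ u))

lemma psq_congr : ∀ (k : ℕ) (ε : ℝ) {f g : (Fin d → ℝ) → F} {u : Fin d → ℝ}, f =ᶠ[𝓝 u] g →
    psq k ε f u = psq k ε g u
  | 0, _, _, _, _, h => by simp only [psq, h.eq_of_nhds]
  | k + 1, ε, f, g, u, h => by
    simp only [psq, psq_congr k ε h]
    congr 2
    refine Finset.sum_congr rfl fun l _ => psq_congr k ε ?_
    filter_upwards [h.fderiv (𝕜 := ℝ)] with y hy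
    simp [pd, hy]

lemma pd_contDiffOn {l : Fin d} {f : (Fin d → ℝ) → F} {U : Set (Fin d → ℝ)} (hU : IsOpen U)
    (hf : ContDiffOn ℝ ∞ f U) : ContDiffOn ℝ ∞ (pd l f) U :=
  (hf.fderiv_of_isOpen hU (by simp)).clm_apply contDiffOn_const

lemma psq_le_succ (k : ℕ) (ε : ℝ) (f : (Fin d → ℝ) → F) (u : Fin d → ℝ) :
    psq k ε f u ≤ psq (k + 1) ε f u :=
  le_add_of_nonneg_right (mul_nonneg (sq_nonneg ε) (Finset.sum_nonneg fun _ _ => psq_nonneg k ε _ u))

lemma psq_mono {k n : ℕ} (h : k ≤ n) (ε : ℝ) (f : (Fin d → ℝ) → F) (u : Fin d → ℝ) :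
    psq k ε f u ≤ psq n ε f u := by
  induction n, h using Nat.le_induction with
  | base => rfl
  | succ n _ ih => exact ih.trans (psq_le_succ n ε f u)

lemma psq_pd_le (k : ℕ) (l : Fin d) (f : (Fin d → ℝ) → F) (u : Fin d → ℝ) :
    psq k 1 (pd l f) u ≤ psq (k + 1) 1 f u := by
  show psq k 1 (pd l f) u ≤ psq k 1 f u + 1 ^ 2 * _
  rw [one_pow, one_mul]
  exact (Finset.single_le_sum (fun l _ => psq_nonneg k 1 (pd l f) u) (Finset.mem_univ l)).trans
    (le_add_of_nonneg_left (psq_nonneg k 1 f u))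

lemma psq_scale_le (k : ℕ) {ε : ℝ} (hε : 0 ≤ ε) (hε1 : ε ≤ 1) : ∀ (f : (Fin d → ℝ) → F)
    (u : Fin d → ℝ), (ε ^ k) ^ 2 * psq k 1 f u ≤ psq k ε f u ∧ psq k ε f u ≤ psq k 1 f u := by
  induction k with
  | zero => intro f u; simp [psq]
  | succ k ih =>
    intro f u
    have hs1 : ε ^ 2 ≤ 1 := pow_le_one₀ hε hε1
    simp only [psq, one_pow, one_mul]
    constructor
    · rw [mul_add, show (ε ^ (k + 1)) ^ 2 = (ε ^ k) ^ 2 * ε ^ 2 by ring]
      refine add_le_add ?_ ?_
      · calc (ε ^ k) ^ 2 * ε ^ 2 * psq k 1 f u ≤ (ε ^ k) ^ 2 * 1 * psq k 1 f u :=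
              mul_le_mul_of_nonneg_right (mul_le_mul_of_nonneg_left hs1 (sq_nonneg _)) (psq_nonneg _ _ _ _)
          _ ≤ _ := by rw [mul_one]; exact (ih f u).1
      · rw [mul_comm ((ε ^ k) ^ 2), mul_assoc, Finset.mul_sum]
        exact mul_le_mul_of_nonneg_left (Finset.sum_le_sum fun l _ => (ih _ u).1) (sq_nonneg _)
    · refine add_le_add (ih f u).2 ?_
      calc ε ^ 2 * ∑ l, psq k ε (pd l f) u ≤ 1 * ∑ l, psq k 1 (pd l f) u :=
            mul_le_mul hs1 (Finset.sum_le_sum fun l _ => (ih _ u).2)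
              (Finset.sum_nonneg fun l _ => psq_nonneg _ _ _ _) zero_le_one
        _ = _ := one_mul _

lemma continuousOn_psq (k : ℕ) (ε : ℝ) {U : Set (Fin d → ℝ)} (hU : IsOpen U) :
    ∀ (f : (Fin d → ℝ) → F), ContDiffOn ℝ ∞ f U → ContinuousOn (psq k ε f) U := by
  induction k with
  | zero => exact fun f hf => hf.continuousOn.norm.pow 2
  | succ k ih =>
    exact fun f hf => (ih f hf).add (continuousOn_const.mul
      (continuousOn_finsetSum _ fun l _ => ih (pd l f) (pd_contDiffOn hU hf)))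

/-- The density at scale `s` against the unscaled ones. -/
lemma psq_le_sum (k : ℕ) (s : ℝ) : ∀ (f : (Fin d → ℝ) → F) (u : Fin d → ℝ),
    psq k s f u ≤ 2 ^ k * ∑ j ∈ Finset.range (k + 1), (s ^ j) ^ 2 * psq j 1 f u := by
  induction k with
  | zero => intro f u; simp [psq]
  | succ k ih =>
    intro f u
    set S := fun n (g : (Fin d → ℝ) → F) => ∑ j ∈ Finset.range n, (s ^ j) ^ 2 * psq j 1 g u
    have h0 : ∀ n g, 0 ≤ S n g := fun n g =>
      Finset.sum_nonneg fun j _ => mul_nonneg (sq_nonneg _) (psq_nonneg _ _ _ _)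
    have e1 : S (k + 1) f ≤ S (k + 2) f :=
      Finset.sum_le_sum_of_subset_of_nonneg (Finset.range_mono (Nat.le_succ _))
        fun j _ _ => mul_nonneg (sq_nonneg _) (psq_nonneg _ _ _ _)
    have e2 : s ^ 2 * ∑ l, S (k + 1) (pd l f) ≤ S (k + 2) f := by
      calc s ^ 2 * ∑ l, S (k + 1) (pd l f)
          = ∑ j ∈ Finset.range (k + 1), (s ^ (j + 1)) ^ 2 * ∑ l, psq j 1 (pd l f) u := by
            simp only [S, Finset.mul_sum]
            rw [Finset.sum_comm]
            exact Finset.sum_congr rfl fun j _ => Finset.sum_congr rfl fun l _ => by ring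
        _ ≤ ∑ j ∈ Finset.range (k + 1), (s ^ (j + 1)) ^ 2 * psq (j + 1) 1 f u := by
            refine Finset.sum_le_sum fun j _ => mul_le_mul_of_nonneg_left ?_ (sq_nonneg _)
            simp only [psq, one_pow, one_mul]
            exact le_add_of_nonneg_left (psq_nonneg _ _ _ _)
        _ ≤ S (k + 2) f := by
            simp only [S]
            rw [Finset.sum_range_succ' _ (k + 1)]
            exact le_add_of_nonneg_right (mul_nonneg (sq_nonneg _) (psq_nonneg _ _ _ _))
    calc psq (k + 1) s f u ≤ 2 ^ k * S (k + 1) f + s ^ 2 * ∑ l, 2 ^ k * S (k + 1) (pd l f) :=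
          add_le_add (ih f u) (mul_le_mul_of_nonneg_left (Finset.sum_le_sum fun l _ => ih _ u)
            (sq_nonneg _))
      _ = 2 ^ k * S (k + 1) f + 2 ^ k * (s ^ 2 * ∑ l, S (k + 1) (pd l f)) := by
          rw [← Finset.mul_sum]; ring
      _ ≤ 2 ^ k * S (k + 2) f + 2 ^ k * S (k + 2) f := by gcongr
      _ = 2 ^ (k + 1) * S (k + 2) f := by rw [pow_succ]; ring

/-- A linear family of sums: the density of a sum against the densities of its terms. -/
lemma psq_sum_le {ι : Type*} (k : ℕ) (ε : ℝ) {U : Set (Fin d → ℝ)} (hU : IsOpen U) (s : Finset ι) :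
    ∀ (f : ι → (Fin d → ℝ) → F), (∀ i ∈ s, ContDiffOn ℝ ∞ (f i) U) → ∀ u ∈ U,
      psq k ε (fun v => ∑ i ∈ s, f i v) u ≤ s.card * ∑ i ∈ s, psq k ε (f i) u := by
  induction k with
  | zero =>
    intro f _ u _
    simp only [psq]
    calc ‖∑ i ∈ s, f i u‖ ^ 2 ≤ (∑ i ∈ s, ‖f i u‖) ^ 2 :=
          pow_le_pow_left₀ (norm_nonneg _) (norm_sum_le _ _) 2
      _ ≤ _ := sq_sum_le_card_mul_sum_sq
  | succ k ih =>
    intro f hf u hu
    have hpd : ∀ l, psq k ε (pd l fun v => ∑ i ∈ s, f i v) u =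
        psq k ε (fun v => ∑ i ∈ s, pd l (f i) v) u := fun l => by
      refine psq_congr k ε ?_
      filter_upwards [hU.mem_nhds hu] with v hv
      simp only [pd]
      rw [fderiv_fun_sum fun i hi => ((hf i hi).differentiableOn (by simp)).differentiableAt
        (hU.mem_nhds hv)]
      simp
    simp only [psq, hpd, Finset.sum_add_distrib, mul_add, ← Finset.mul_sum]
    refine add_le_add (ih f hf u hu) ?_
    calc ε ^ 2 * ∑ l, psq k ε (fun v => ∑ i ∈ s, pd l (f i) v) u
        ≤ ε ^ 2 * ∑ l, (s.card : ℝ) * ∑ i ∈ s, psq k ε (pd l (f i)) u :=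
          mul_le_mul_of_nonneg_left (Finset.sum_le_sum fun l _ =>
            ih (fun i => pd l (f i)) (fun i hi => pd_contDiffOn hU (hf i hi)) u hu) (sq_nonneg ε)
      _ = _ := by
          rw [← Finset.mul_sum, Finset.sum_comm]
          ring

lemma psq_add_le (k : ℕ) (ε : ℝ) {U : Set (Fin d → ℝ)} (hU : IsOpen U) {f g : (Fin d → ℝ) → F}
    (hf : ContDiffOn ℝ ∞ f U) (hg : ContDiffOn ℝ ∞ g U) {u : Fin d → ℝ} (hu : u ∈ U) :
    psq k ε (fun v => f v + g v) u ≤ 2 * (psq k ε f u + psq k ε g u) := by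
  have h := psq_sum_le k ε hU (Finset.univ : Finset (Fin 2)) ![f, g]
    (fun i _ => by fin_cases i <;> simpa) u hu
  simpa [Fin.sum_univ_two] using h

lemma psq_smul (k : ℕ) (ε c : ℝ) {U : Set (Fin d → ℝ)} (hU : IsOpen U) :
    ∀ (f : (Fin d → ℝ) → F), ContDiffOn ℝ ∞ f U → ∀ u ∈ U,
      psq k ε (fun v => c • f v) u = c ^ 2 * psq k ε f u := by
  induction k with
  | zero => intro f _ u _; simp [psq, norm_smul, mul_pow]
  | succ k ih =>
    intro f hf u hu
    have hpd : ∀ l, psq k ε (pd l fun v => c • f v) u = c ^ 2 * psq k ε (pd l f) u := fun l => by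
      rw [← ih (pd l f) (pd_contDiffOn hU hf) u hu]
      refine psq_congr k ε ?_
      filter_upwards [hU.mem_nhds hu] with v hv
      simp only [pd]
      rw [fderiv_fun_const_smul ((hf.differentiableOn (by simp)).differentiableAt (hU.mem_nhds hv))]
      rfl
    simp only [psq, hpd, ih f hf u hu, ← Finset.mul_sum]
    ring

section Comp

variable {P : Type*} [NormedAddCommGroup P] [NormedSpace ℝ P]

/-- The derivative of a composed family. -/
lemma pd_comp {W : Set (P × (Fin d → ℝ))} (hW : IsOpen W) {M : P × (Fin d → ℝ) → F →L[ℝ] G}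
    {σ : P × (Fin d → ℝ) → (Fin d → ℝ)} (hM : ContDiffOn ℝ ∞ M W) (hσ : ContDiffOn ℝ ∞ σ W)
    {β : (Fin d → ℝ) → F} {U : Set (Fin d → ℝ)} (hU : IsOpen U) (hβ : ContDiffOn ℝ ∞ β U) {a : P}
    {u : Fin d → ℝ} (hau : (a, u) ∈ W) (hu : σ (a, u) ∈ U) (l : Fin d) :
    pd l (fun v => M (a, v) (β (σ (a, v)))) u = (fderiv ℝ M (a, u) (0, Pi.single l 1)) (β (σ (a, u)))
      + ∑ c, fderiv ℝ σ (a, u) (0, Pi.single l 1) c • M (a, u) (pd c β (σ (a, u))) := by
  have hMd := ((hM.differentiableOn (by simp)).differentiableAt (hW.mem_nhds hau)).hasFDerivAt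
  have hσd := ((hσ.differentiableOn (by simp)).differentiableAt (hW.mem_nhds hau)).hasFDerivAt
  have hβd := ((hβ.differentiableOn (by simp)).differentiableAt (hU.mem_nhds hu)).hasFDerivAt
  have h1 := hMd.comp u (hasFDerivAt_prodMk_right a u)
  have h2 := hβd.comp u (hσd.comp u (hasFDerivAt_prodMk_right a u))
  rw [pd, show fderiv ℝ (fun v => M (a, v) (β (σ (a, v)))) u = _ from (h1.clm_apply h2).fderiv]
  simp only [Function.comp_apply, add_apply, ContinuousLinearMap.coe_comp,
    ContinuousLinearMap.flip_apply, ContinuousLinearMap.inr_apply, pd]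
  rw [add_comm]
  congr 1
  conv_lhs => rw [pi_eq_sum_univ' (fderiv ℝ σ (a, u) (0, Pi.single l 1)), map_sum, map_sum]
  exact Finset.sum_congr rfl fun c _ => by rw [map_smul, map_smul]

/-- Composition with a smooth family is bounded at the image point. -/
theorem exists_psq_comp {W : Set (P × (Fin d → ℝ))} (hW : IsOpen W)
    {σ : P × (Fin d → ℝ) → (Fin d → ℝ)} (hσ : ContDiffOn ℝ ∞ σ W) {K : Set (P × (Fin d → ℝ))}
    (hK : IsCompact K) (hKW : K ⊆ W) (k : ℕ) :
    ∀ M : P × (Fin d → ℝ) → F →L[ℝ] G, ContDiffOn ℝ ∞ M W → ∃ C, 0 ≤ C ∧ ∀ p ∈ K, ∀ ε : ℝ,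
      0 ≤ ε → ε ≤ 1 → ∀ (β : (Fin d → ℝ) → F) (U : Set (Fin d → ℝ)), IsOpen U →
        ContDiffOn ℝ ∞ β U → σ p ∈ U →
          psq k ε (fun u => M (p.1, u) (β (σ (p.1, u)))) p.2 ≤ C * psq k ε β (σ p) := by
  induction k with
  | zero =>
    intro M hM
    obtain ⟨B, hB⟩ := hK.exists_bound_of_continuousOn (hM.continuousOn.mono hKW)
    refine ⟨(max B 0) ^ 2, sq_nonneg _, fun p hp ε _ _ β U _ _ _ => ?_⟩
    simp only [psq, ← mul_pow, Prod.mk.eta]
    refine pow_le_pow_left₀ (norm_nonneg _) (((M p).le_opNorm _).trans ?_) 2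
    exact mul_le_mul_of_nonneg_right ((hB p hp).trans (le_max_left _ _)) (norm_nonneg _)
  | succ k ih =>
    intro M hM
    set A : Fin d → P × (Fin d → ℝ) → F →L[ℝ] G := fun l p => fderiv ℝ M p (0, Pi.single l 1)
    set B : Fin d → Fin d → P × (Fin d → ℝ) → F →L[ℝ] G :=
      fun l c p => fderiv ℝ σ p (0, Pi.single l 1) c • M p
    have hA : ∀ l, ContDiffOn ℝ ∞ (A l) W := fun l =>
      (hM.fderiv_of_isOpen hW (by simp)).clm_apply contDiffOn_const
    have hB : ∀ l c, ContDiffOn ℝ ∞ (B l c) W := fun l c => ((contDiff_apply ℝ ℝ c).comp_contDiffOn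
      ((hσ.fderiv_of_isOpen hW (by simp)).clm_apply contDiffOn_const)).smul hM
    obtain ⟨C0, hC0, h0⟩ := ih M hM
    choose C1 hC1 h1 using fun l => ih (A l) (hA l)
    choose C2 hC2 h2 using fun l c => ih (B l c) (hB l c)
    refine ⟨C0 + 2 * ∑ l, C1 l + 2 * d * ∑ l, ∑ c, C2 l c,
      add_nonneg (add_nonneg hC0 (mul_nonneg two_pos.le (Finset.sum_nonneg fun l _ => hC1 l)))
        (mul_nonneg (by positivity) (Finset.sum_nonneg fun l _ => Finset.sum_nonneg fun c _ => hC2 l c)),
      fun p hp ε hε hε1 β U hU hβ hσp => ?_⟩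
    obtain ⟨a, u⟩ := p
    set O : Set (Fin d → ℝ) := {v | (a, v) ∈ W ∧ σ (a, v) ∈ U}
    have hO : IsOpen O := by
      have hslice : IsOpen {v : Fin d → ℝ | (a, v) ∈ W} := hW.preimage (by fun_prop)
      exact ((hσ.continuousOn.comp (by fun_prop : Continuous fun v : Fin d → ℝ => (a, v)).continuousOn
        fun v hv => hv).isOpen_inter_preimage hslice hU)
    have huO : u ∈ O := ⟨hKW hp, hσp⟩
    have hpair : ContDiff ℝ ∞ fun v : Fin d → ℝ => (a, v) := contDiff_const.prodMk contDiff_id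
    have hcomp : ∀ {N : P × (Fin d → ℝ) → F →L[ℝ] G}, ContDiffOn ℝ ∞ N W →
        ∀ {γ : (Fin d → ℝ) → F}, ContDiffOn ℝ ∞ γ U →
          ContDiffOn ℝ ∞ (fun v => N (a, v) (γ (σ (a, v)))) O := fun hN γ hγ =>
      (hN.comp hpair.contDiffOn fun v hv => hv.1).clm_apply
        (hγ.comp (hσ.comp hpair.contDiffOn fun v hv => hv.1) fun v hv => hv.2)
    have hd0 : 0 ≤ psq k ε β (σ (a, u)) := psq_nonneg _ _ _ _
    have hstep : ∀ l, psq k ε (pd l fun v => M (a, v) (β (σ (a, v)))) u ≤
        2 * C1 l * psq k ε β (σ (a, u)) +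
          2 * d * ∑ c, C2 l c * psq k ε (pd c β) (σ (a, u)) := by
      intro l
      have e1 : psq k ε (pd l fun v => M (a, v) (β (σ (a, v)))) u =
          psq k ε (fun v => A l (a, v) (β (σ (a, v))) +
            ∑ c, B l c (a, v) (pd c β (σ (a, v)))) u := by
        refine psq_congr k ε ?_
        filter_upwards [hO.mem_nhds huO] with v hv
        rw [pd_comp hW hM hσ hU hβ hv.1 hv.2 l]
        simp [A, B]
      rw [e1]
      refine (psq_add_le k ε hO (hcomp (hA l) hβ)
        (ContDiffOn.sum fun c _ => hcomp (hB l c) (pd_contDiffOn hU hβ)) huO).trans ?_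
      rw [mul_add, mul_assoc, mul_assoc]
      refine add_le_add (mul_le_mul_of_nonneg_left (h1 l (a, u) hp ε hε hε1 β U hU hβ hσp) two_pos.le)
        (mul_le_mul_of_nonneg_left ?_ two_pos.le)
      refine (psq_sum_le k ε hO Finset.univ _ (fun c _ => hcomp (hB l c) (pd_contDiffOn hU hβ)) u
        huO).trans ?_
      simp only [Finset.card_univ, Fintype.card_fin]
      exact mul_le_mul_of_nonneg_left (Finset.sum_le_sum fun c _ =>
        h2 l c (a, u) hp ε hε hε1 (pd c β) U hU (pd_contDiffOn hU hβ) hσp) (Nat.cast_nonneg d)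
    set Q := psq (k + 1) ε β (σ (a, u))
    have hQ0 : psq k ε β (σ (a, u)) ≤ Q := psq_le_succ _ _ _ _
    have hQ1 : ∀ c, ε ^ 2 * psq k ε (pd c β) (σ (a, u)) ≤ Q := fun c => by
      refine le_trans ?_ (le_add_of_nonneg_left hd0)
      exact mul_le_mul_of_nonneg_left (Finset.single_le_sum (f := fun c => psq k ε (pd c β) (σ (a, u)))
        (fun c _ => psq_nonneg k ε _ _) (Finset.mem_univ c)) (sq_nonneg ε)
    have hε2 : ε ^ 2 * psq k ε β (σ (a, u)) ≤ Q :=
      (mul_le_of_le_one_left hd0 (pow_le_one₀ hε hε1)).trans hQ0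
    show psq k ε (fun v => M (a, v) (β (σ (a, v)))) u +
      ε ^ 2 * ∑ l, psq k ε (pd l fun v => M (a, v) (β (σ (a, v)))) u ≤ _
    refine (add_le_add ((h0 (a, u) hp ε hε hε1 β U hU hβ hσp).trans
      (mul_le_mul_of_nonneg_left hQ0 hC0))
      (mul_le_mul_of_nonneg_left (Finset.sum_le_sum fun l _ => hstep l) (sq_nonneg ε))).trans ?_
    rw [add_mul, add_mul, Finset.sum_add_distrib, mul_add, add_assoc]
    refine add_le_add le_rfl (add_le_add ?_ ?_)
    · rw [← Finset.sum_mul, ← Finset.mul_sum]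
      calc ε ^ 2 * (2 * (∑ l, C1 l) * psq k ε β (σ (a, u)))
          = 2 * (∑ l, C1 l) * (ε ^ 2 * psq k ε β (σ (a, u))) := by ring
        _ ≤ _ := mul_le_mul_of_nonneg_left hε2
            (mul_nonneg two_pos.le (Finset.sum_nonneg fun l _ => hC1 l))
    · rw [← Finset.mul_sum]
      calc ε ^ 2 * (2 * (d : ℝ) * ∑ l, ∑ c, C2 l c * psq k ε (pd c β) (σ (a, u)))
          = 2 * (d : ℝ) * ∑ l, ∑ c, C2 l c * (ε ^ 2 * psq k ε (pd c β) (σ (a, u))) := by
            simp only [Finset.mul_sum]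
            exact Finset.sum_congr rfl fun l _ => Finset.sum_congr rfl fun c _ => by ring
        _ ≤ 2 * (d : ℝ) * ∑ l, ∑ c, C2 l c * Q := mul_le_mul_of_nonneg_left
            (Finset.sum_le_sum fun l _ => Finset.sum_le_sum fun c _ =>
              mul_le_mul_of_nonneg_left (hQ1 c) (hC2 l c)) (by positivity)
        _ = _ := by simp only [Finset.sum_mul, Finset.mul_sum]; exact
              Finset.sum_congr rfl fun l _ => Finset.sum_congr rfl fun c _ => by ring

end Comp

section Average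

variable {P : Type*} [NormedAddCommGroup P] [NormedSpace ℝ P] [FiniteDimensional ℝ P]
  [MeasurableSpace P] [BorelSpace P] {μ : Measure P} [IsFiniteMeasureOnCompacts μ]
  [CompleteSpace F] {S : Set P} {W : Set (P × (Fin d → ℝ))}

omit [NormedSpace ℝ P] [FiniteDimensional ℝ P] [MeasurableSpace P] [BorelSpace P] [NormedSpace ℝ F]
  [CompleteSpace F] in
lemma continuousOn_slice {E : Type*} [TopologicalSpace E] {g : P × (Fin d → ℝ) → E}
    (hg : ContinuousOn g W) {u : Fin d → ℝ} (hu : ∀ t ∈ S, (t, u) ∈ W) :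
    ContinuousOn (fun t => g (t, u)) S :=
  hg.comp (by fun_prop : Continuous fun t : P => (t, u)).continuousOn fun t ht => hu t ht

omit [CompleteSpace F] in
/-- An average may be differentiated under the integral. -/
lemma hasFDerivAt_average (hS : IsCompact S) (hW : IsOpen W) {w : P → ℝ} (hw : Continuous w)
    {g : P × (Fin d → ℝ) → F} (hg : ContDiffOn ℝ ∞ g W) {u : Fin d → ℝ}
    (hu : ∀ t ∈ S, (t, u) ∈ W) :
    HasFDerivAt (fun v => ∫ t in S, w t • g (t, v) ∂μ)
      (∫ t in S, w t • (fderiv ℝ g (t, u)).comp (ContinuousLinearMap.inr ℝ P (Fin d → ℝ)) ∂μ) u := by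
  have hev : ∀ᶠ v in 𝓝 u, ∀ t ∈ S, (t, v) ∈ W := hS.eventually_forall_of_forall_eventually
    fun t ht => (Continuous.tendsto (by fun_prop : Continuous fun z : (Fin d → ℝ) × P => (z.2, z.1))
      (u, t)).eventually (hW.eventually_mem (hu t ht))
  obtain ⟨r, hr, hball⟩ := Metric.nhds_basis_closedBall.mem_iff.1 hev
  have hg' := hg.continuousOn_fderiv_of_isOpen hW (by simp)
  have hsub : S ×ˢ Metric.closedBall u r ⊆ W := fun p hp => hball hp.2 p.1 hp.1
  obtain ⟨B, hB⟩ := (hS.prod (isCompact_closedBall u r)).exists_bound_of_continuousOn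
    ((hw.comp continuous_fst).continuousOn.smul
      ((hg'.mono hsub).clm_comp (g := fun p => fderiv ℝ g p)
        (f := fun _ : P × (Fin d → ℝ) => ContinuousLinearMap.inr ℝ P (Fin d → ℝ)) continuousOn_const))
  have hmeas : ∀ {E : Type _} [NormedAddCommGroup E] [SecondCountableTopologyEither P E] {h : P → E},
      ContinuousOn h S → AEStronglyMeasurable h (μ.restrict S) :=
    fun hh => hh.aestronglyMeasurable hS.measurableSet
  refine hasFDerivAt_integral_of_dominated_of_fderiv_le (bound := fun _ => B)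
    (F' := fun v t => w t • (fderiv ℝ g (t, v)).comp (ContinuousLinearMap.inr ℝ P (Fin d → ℝ)))
    (Metric.closedBall_mem_nhds u hr) ?_ ?_ ?_ ?_ ?_ ?_
  · filter_upwards [hev] with v hv
    exact hmeas (hw.continuousOn.smul (continuousOn_slice hg.continuousOn hv))
  · exact (hw.continuousOn.smul (continuousOn_slice hg.continuousOn hu)).integrableOn_compact hS
  · exact hmeas (hw.continuousOn.smul
      ((continuousOn_slice hg' hu).clm_comp continuousOn_const))
  · filter_upwards [ae_restrict_mem hS.measurableSet] with t ht v hv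
    exact hB (t, v) ⟨ht, hv⟩
  · exact integrableOn_const hS.measure_lt_top.ne
  · filter_upwards [ae_restrict_mem hS.measurableSet] with t ht v hv
    exact (((hg.differentiableOn (by simp)).differentiableAt
      (hW.mem_nhds (hsub ⟨ht, hv⟩))).hasFDerivAt.comp v (hasFDerivAt_prodMk_right t v)).const_smul
        (w t)

/-- A derivative of an average. -/
lemma pd_average (hS : IsCompact S) (hW : IsOpen W) {w : P → ℝ} (hw : Continuous w)
    {g : P × (Fin d → ℝ) → F} (hg : ContDiffOn ℝ ∞ g W) {u : Fin d → ℝ}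
    (hu : ∀ t ∈ S, (t, u) ∈ W) (l : Fin d) :
    pd l (fun v => ∫ t in S, w t • g (t, v) ∂μ) u =
      ∫ t in S, w t • fderiv ℝ g (t, u) (0, Pi.single l 1) ∂μ := by
  have hg' := hg.continuousOn_fderiv_of_isOpen hW (by simp)
  have hi : IntegrableOn
      (fun t => w t • (fderiv ℝ g (t, u)).comp (ContinuousLinearMap.inr ℝ P (Fin d → ℝ))) S μ :=
    (hw.continuousOn.smul ((continuousOn_slice hg' hu).clm_comp continuousOn_const)
      ).integrableOn_compact hS
  rw [pd, (hasFDerivAt_average hS hW hw hg hu).fderiv, ContinuousLinearMap.integral_apply hi]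
  rfl

/-- An average of smooth functions is smooth. -/
theorem contDiffOn_average (hS : IsCompact S) (hW : IsOpen W) {w : P → ℝ} (hw : Continuous w)
    {g : P × (Fin d → ℝ) → F} (hg : ContDiffOn ℝ ∞ g W) {O : Set (Fin d → ℝ)} (hO : IsOpen O)
    (hOW : ∀ u ∈ O, ∀ t ∈ S, (t, u) ∈ W) :
    ContDiffOn ℝ ∞ (fun v => ∫ t in S, w t • g (t, v) ∂μ) O := by
  refine contDiffOn_infty.2 fun n => ?_
  induction n generalizing F g with
  | zero =>
    refine contDiffOn_zero.2 fun u hu => ?_
    exact (hasFDerivAt_average hS hW hw hg (hOW u hu)).continuousAt.continuousWithinAt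
  | succ n ih =>
    rw [Nat.cast_succ, contDiffOn_succ_iff_fderiv_of_isOpen hO]
    refine ⟨fun u hu => (hasFDerivAt_average hS hW hw hg (hOW u hu)).differentiableAt.differentiableWithinAt,
      by simp, (ih (g := fun p => (fderiv ℝ g p).comp (ContinuousLinearMap.inr ℝ P (Fin d → ℝ)))
        ((hg.fderiv_of_isOpen hW (by simp)).clm_comp contDiffOn_const)).congr
          fun u hu => (hasFDerivAt_average hS hW hw hg (hOW u hu)).fderiv⟩

/-- Jensen: the density of an average is at most the average of the densities. -/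
theorem psq_average_le (hS : IsCompact S) (hW : IsOpen W) {w : P → ℝ} (hw : Continuous w)
    (hw0 : ∀ t, 0 ≤ w t) (k : ℕ) (ε : ℝ) : ∀ g : P × (Fin d → ℝ) → F, ContDiffOn ℝ ∞ g W →
      ∀ u, (∀ t ∈ S, (t, u) ∈ W) →
        IntegrableOn (fun t => w t * psq k ε (fun v => g (t, v)) u) S μ ∧
        psq k ε (fun v => ∫ t in S, w t • g (t, v) ∂μ) u ≤
          (∫ t in S, w t ∂μ) * ∫ t in S, w t * psq k ε (fun v => g (t, v)) u ∂μ := by
  induction k with
  | zero =>
    intro g hg u hu
    have hc := continuousOn_slice hg.continuousOn hu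
    have i2 : IntegrableOn (fun t => w t * ‖g (t, u)‖ ^ 2) S μ :=
      (hw.continuousOn.mul (hc.norm.pow 2)).integrableOn_compact hS
    refine ⟨by simpa [psq] using i2, ?_⟩
    simp only [psq]
    set m := ∫ t in S, w t ∂μ
    set J := ∫ t in S, w t * ‖g (t, u)‖ ∂μ
    set Q := ∫ t in S, w t * ‖g (t, u)‖ ^ 2 ∂μ
    have i0 : IntegrableOn w S μ := hw.continuousOn.integrableOn_compact hS
    have i1 : IntegrableOn (fun t => w t * ‖g (t, u)‖) S μ :=
      (hw.continuousOn.mul hc.norm).integrableOn_compact hS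
    have h1 : ‖∫ t in S, w t • g (t, u) ∂μ‖ ≤ J :=
      (norm_integral_le_integral_norm _).trans_eq (integral_congr_ae (Eventually.of_forall fun t => by
        simp [norm_smul, abs_of_nonneg (hw0 t)]))
    have hm : 0 ≤ m := integral_nonneg hw0
    have hQ : 0 ≤ Q := integral_nonneg fun t => mul_nonneg (hw0 t) (sq_nonneg _)
    have hquad : 0 ≤ m ^ 2 * Q - 2 * m * J * J + J ^ 2 * m := by
      have h : 0 ≤ ∫ t in S, w t * (m * ‖g (t, u)‖ - J) ^ 2 ∂μ :=
        integral_nonneg fun t => mul_nonneg (hw0 t) (sq_nonneg _)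
      have i12 : IntegrableOn
          (fun t => m ^ 2 * (w t * ‖g (t, u)‖ ^ 2) - 2 * m * J * (w t * ‖g (t, u)‖)) S μ :=
        (i2.const_mul _).sub (i1.const_mul _)
      rw [show (fun t => w t * (m * ‖g (t, u)‖ - J) ^ 2) = fun t =>
          m ^ 2 * (w t * ‖g (t, u)‖ ^ 2) - 2 * m * J * (w t * ‖g (t, u)‖) + J ^ 2 * w t from
        funext fun t => by ring] at h
      rw [integral_add i12 (i0.const_mul _), integral_sub (i2.const_mul _) (i1.const_mul _),
        integral_const_mul, integral_const_mul, integral_const_mul] at h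
      exact h
    refine (pow_le_pow_left₀ (norm_nonneg _) h1 2).trans ?_
    rcases hm.eq_or_lt with hm0 | hm0
    · have hJ : J = 0 := by
        have hw' : w =ᵐ[μ.restrict S] 0 := (integral_eq_zero_iff_of_nonneg hw0 i0).1 hm0.symm
        exact integral_eq_zero_of_ae (hw'.mono fun t ht => by simp only [Pi.zero_apply] at ht ⊢; simp [ht])
      rw [hJ, ← hm0]; simp
    · have : 0 ≤ m * (m * Q - J ^ 2) := by nlinarith
      linarith [nonneg_of_mul_nonneg_right this hm0]
  | succ k ih =>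
    intro g hg u hu
    set g' : Fin d → P × (Fin d → ℝ) → F := fun l p => fderiv ℝ g p (0, Pi.single l 1)
    have hg' : ∀ l, ContDiffOn ℝ ∞ (g' l) W := fun l =>
      (hg.fderiv_of_isOpen hW (by simp)).clm_apply contDiffOn_const
    obtain ⟨i0, h0⟩ := ih g hg u hu
    choose il hl using fun l => ih (g' l) (hg' l) u hu
    have hev : ∀ᶠ v in 𝓝 u, ∀ t ∈ S, (t, v) ∈ W := hS.eventually_forall_of_forall_eventually
      fun t ht => (Continuous.tendsto
        (by fun_prop : Continuous fun z : (Fin d → ℝ) × P => (z.2, z.1)) (u, t)).eventually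
          (hW.eventually_mem (hu t ht))
    have e1 : ∀ l, psq k ε (pd l fun v => ∫ t in S, w t • g (t, v) ∂μ) u =
        psq k ε (fun v => ∫ t in S, w t • g' l (t, v) ∂μ) u := fun l =>
      psq_congr k ε (by filter_upwards [hev] with v hv; exact pd_average hS hW hw hg hv l)
    have e2 : ∀ l, ∀ t ∈ S, psq k ε (pd l fun v => g (t, v)) u =
        psq k ε (fun v => g' l (t, v)) u := fun l t ht => psq_congr k ε (by
      filter_upwards [hev] with v hv
      exact congrArg (fun L : (Fin d → ℝ) →L[ℝ] F => L (Pi.single l 1))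
        (((hg.differentiableOn (by simp)).differentiableAt (hW.mem_nhds (hv t ht))).hasFDerivAt.comp
          v (hasFDerivAt_prodMk_right t v)).fderiv)
    have isum : IntegrableOn (fun t => ε ^ 2 * ∑ l, w t * psq k ε (fun v => g' l (t, v)) u) S μ :=
      (integrable_finsetSum _ fun l _ => il l).const_mul _
    have hfun : EqOn (fun t => w t * psq (k + 1) ε (fun v => g (t, v)) u)
        (fun t => w t * psq k ε (fun v => g (t, v)) u +
          ε ^ 2 * ∑ l, w t * psq k ε (fun v => g' l (t, v)) u) S := fun t ht => by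
      simp only [psq]
      rw [Finset.sum_congr rfl fun l _ => e2 l t ht, ← Finset.mul_sum]
      ring
    refine ⟨(i0.add isum).congr_fun (fun t ht => (hfun ht).symm) hS.measurableSet, ?_⟩
    rw [setIntegral_congr_fun hS.measurableSet hfun, integral_add i0 isum, integral_const_mul,
      integral_finsetSum _ fun l _ => il l, mul_add]
    show psq k ε _ u + ε ^ 2 * _ ≤ _
    refine add_le_add h0 ?_
    rw [mul_left_comm, Finset.mul_sum Finset.univ _ (∫ t in S, w t ∂μ)]
    refine mul_le_mul_of_nonneg_left (Finset.sum_le_sum fun l _ => ?_) (sq_nonneg ε)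
    rw [e1 l]
    exact hl l

end Average

end Vale.Agent.P204.Gen
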