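import Vale.Agent.P204.Gen.Integral
import Vale.Agent.P204.Gen.PointSob
import Vale.Agent.P204.Gen.SobTorus

/-!
P204 on a closed four-manifold, module RegEst: the norm `sob` against integrals of the Sobolev
densities over compact parts of the charts.
-/

open MeasureTheory Set Filter Topology
open scoped ContDiff

namespace Vale.Agent.P204.Gen

open Vale.Agent.P204.Torus

lemma psq_eq_zero_of_notMem {d : ℕ} {F : Type*} [NormedAddCommGroup F] [NormedSpace ℝ F] :
    ∀ (k : ℕ) (ε : ℝ) {f : (Fin d → ℝ) → F} {u : Fin d → ℝ}, u ∉ tsupport f → psq k ε f u = 0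
  | 0, _, f, u, h => by simp [psq, image_eq_zero_of_notMem_tsupport h]
  | k + 1, ε, f, u, h => by
    simp only [psq, psq_eq_zero_of_notMem k ε h, zero_add, mul_eq_zero]
    refine Or.inr (Finset.sum_eq_zero fun l _ => psq_eq_zero_of_notMem k ε fun hl => h ?_)
    exact tsupport_fderiv_apply_subset (𝕜 := ℝ) (Pi.single l 1) hl

/-- The torus norm of a field supported in the cube is the integral of its density. -/
theorem hsq_pext {L : Set V} (hL : IsCompact L) (hLQ : L ⊆ Q0) (k : ℕ) (ε : ℝ) :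
    ∀ f : V → Form, ContDiff ℝ ∞ f → tsupport f ⊆ L →
      hsq k ε (pext f) = ∫ u in L, psq k ε f u := by
  have hcube : MeasurableSet cube := MeasurableSet.univ_pi fun _ => measurableSet_Ico
  induction k with
  | zero =>
    intro f _ hs
    simp only [hsq, psq]
    rw [setIntegral_congr_fun hcube (g := fun u => ‖f u‖ ^ 2) fun u hu => by
      simp only [pext_eq_self f hu]]
    refine setIntegral_eq_of_subset_of_forall_sdiff_eq_zero hcube (hLQ.trans Q0_subset_cube)
      fun u hu => ?_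
    simp [image_eq_zero_of_notMem_tsupport fun h => hu.2 (hs h)]
  | succ k ih =>
    intro f hf hs
    have hc : HasCompactSupport f := hL.of_isClosed_subset (isClosed_tsupport _) hs
    have hpd : ∀ l : Fin 4, ContDiff ℝ ∞ (pd l f) := fun l =>
      (hf.fderiv_right (m := ∞) (by simp)).clm_apply contDiff_const
    have hint : ∀ g : V → Form, ContDiff ℝ ∞ g → IntegrableOn (psq k ε g) L := fun g hg =>
      ((continuousOn_psq k ε isOpen_univ g hg.contDiffOn).mono
        (subset_univ _)).integrableOn_compact hL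
    have e1 : ∀ l : Fin 4, (fun u => fderiv ℝ (pext f) u (e l)) = pext (pd l f) := fun l =>
      funext fun u => fderiv_pext hc (hs.trans hLQ) u (e l)
    have hsum : IntegrableOn (fun u => ε ^ 2 * ∑ l, psq k ε (pd l f) u) L :=
      (integrable_finsetSum _ fun l _ => hint _ (hpd l)).const_mul _
    simp only [hsq, psq, e1]
    rw [integral_add (hint f hf) hsum, integral_const_mul,
      integral_finsetSum _ fun l _ => hint _ (hpd l), ih f hf hs]
    congr 1
    congr 1
    exact Finset.sum_congr rfl fun l _ => ih _ (hpd l)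
      ((tsupport_fderiv_apply_subset (𝕜 := ℝ) (Pi.single l 1)).trans hs)

namespace Geo

variable {X : Type*} [TopologicalSpace X] [MeasurableSpace X] [BorelSpace X] [T2Space X]
  [CompactSpace X] {G : Geo X}

/-- The semiclassical square norm over a part of a chart. -/
noncomputable def lsq (G : Geo X) (k : ℕ) (s : ℝ) (i : Fin G.n) (K : Set V) (α : X → Form) : ℝ :=
  ∫ u in K, psq k s (G.rep2 i α) u

/-- The part of the chart `i` seen by the partition of unity. -/
def psiSet (G : Geo X) (i : Fin G.n) : Set V := G.φ i '' tsupport (G.ψ i)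

omit [BorelSpace X] [T2Space X] [CompactSpace X] in
lemma integrableOn_psq_rep2 {α : X → Form} (hα : G.Smooth2 α) (k : ℕ) (s : ℝ) {i : Fin G.n}
    {K : Set V} (hK : IsCompact K) (hKi : K ⊆ (G.φ i).target) :
    IntegrableOn (psq k s (G.rep2 i α)) K :=
  ((continuousOn_psq k s (G.φ i).open_target _ (hα i)).mono hKi).integrableOn_compact hK

omit [BorelSpace X] [T2Space X] [CompactSpace X] in
lemma lsq_nonneg (k : ℕ) (s : ℝ) (i : Fin G.n) (K : Set V) (α : X → Form) :
    0 ≤ G.lsq k s i K α :=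
  integral_nonneg fun _ => psq_nonneg _ _ _ _

omit [BorelSpace X] [T2Space X] [CompactSpace X] in
lemma lsq_mono {α : X → Form} (hα : G.Smooth2 α) (k : ℕ) (s : ℝ) {i : Fin G.n} {K K' : Set V}
    (hK' : IsCompact K') (hK'i : K' ⊆ (G.φ i).target) (h : K ⊆ K') :
    G.lsq k s i K α ≤ G.lsq k s i K' α :=
  setIntegral_mono_set (integrableOn_psq_rep2 hα k s hK' hK'i)
    (Eventually.of_forall fun _ => psq_nonneg _ _ _ _) (Eventually.of_forall fun _ hu => h hu)

omit [BorelSpace X] [T2Space X] in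
lemma isCompact_psiSet (i : Fin G.n) : IsCompact (G.psiSet i) :=
  (isClosed_tsupport _).isCompact.image_of_continuousOn ((G.φ i).continuousOn.mono (G.ψ_supp i))

omit [BorelSpace X] [T2Space X] [CompactSpace X] in
lemma psiSet_subset (i : Fin G.n) : G.psiSet i ⊆ (G.φ i).target :=
  image_subset_iff.2 fun _ hx => (G.φ i).map_source (G.ψ_supp i hx)

omit [BorelSpace X] [T2Space X] in
lemma psi_smul_chart {α : X → Form} (hα : G.Smooth2 α) (i : Fin G.n) :
    ContDiff ℝ ∞ (G.rep2 i fun x => G.ψ i x • α x) ∧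
      tsupport (G.rep2 i fun x => G.ψ i x • α x) ⊆ G.psiSet i :=
  ⟨(G.smooth_pext_rep2 ((smooth0_psi i).smul2 hα) (G.tsupport_psi_smul i α)).1,
    (G.tsupport_rep2_subset (G.tsupport_psi_smul i α)).1.trans
      (image_mono (tsupport_smul_subset_left (G.ψ i) α))⟩

omit [BorelSpace X] [T2Space X] in
theorem hsq_locF {α : X → Form} (hα : G.Smooth2 α) (k : ℕ) (ε : ℝ) (i : Fin G.n) :
    hsq k ε (G.locF i α) = ∫ u in G.psiSet i, psq k ε (G.rep2 i fun x => G.ψ i x • α x) u :=
  hsq_pext (G.isCompact_psiSet i) ((G.psiSet_subset i).trans (G.target_sub i)) k ε _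
    (psi_smul_chart hα i).1 (psi_smul_chart hα i).2

omit [BorelSpace X] [T2Space X] [CompactSpace X] in
lemma sob_sq (k : ℕ) (ε : ℝ) (α : X → Form) :
    G.sob k ε α ^ 2 = ∑ i, hsq k ε (G.locF i α) :=
  Real.sq_sqrt (Finset.sum_nonneg fun j _ => hsq_nonneg k ε (G.locF j α))

omit [BorelSpace X] [T2Space X] [CompactSpace X] in
lemma sob_nonneg' (k : ℕ) (ε : ℝ) (α : X → Form) : 0 ≤ G.sob k ε α := Real.sqrt_nonneg _

omit [BorelSpace X] [T2Space X] in
/-- The norm is bounded by the densities on the supports of the partition of unity. -/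
theorem exists_sob_le_lsq (G : Geo X) (k : ℕ) :
    ∃ C, 0 ≤ C ∧ ∀ s : ℝ, 0 ≤ s → s ≤ 1 → ∀ α, G.Smooth2 α →
      G.sob k s α ^ 2 ≤ C * ∑ i, G.lsq k s i (G.psiSet i) α := by
  have h : ∀ i : Fin G.n, ∃ C, 0 ≤ C ∧ ∀ s : ℝ, 0 ≤ s → s ≤ 1 → ∀ α, G.Smooth2 α →
      ∀ u ∈ G.psiSet i,
        psq k s (G.rep2 i fun x => G.ψ i x • α x) u ≤ C * psq k s (G.rep2 i α) u := by
    intro i
    set W : Set (ℝ × V) := univ ×ˢ (G.φ i).target
    obtain ⟨C, hC, h⟩ := exists_psq_comp (F := Form) (G := Form) (W := W)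
      (isOpen_univ.prod (G.φ i).open_target) (σ := Prod.snd) contDiff_snd.contDiffOn
      (K := {(0 : ℝ)} ×ˢ G.psiSet i) (isCompact_singleton.prod (G.isCompact_psiSet i))
      (prod_mono (subset_univ _) (G.psiSet_subset i)) k
      (fun p => G.ψ i ((G.φ i).symm p.2) • ContinuousLinearMap.id ℝ Form)
      (((G.ψ_smooth i i).comp contDiff_snd.contDiffOn fun p hp => hp.2).smul contDiffOn_const)
    refine ⟨C, hC, fun s hs hs1 α hα u hu => ?_⟩
    refine le_of_eq_of_le (psq_congr k s ?_) (h (0, u) ⟨rfl, hu⟩ s hs hs1 (G.rep2 i α)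
      (G.φ i).target (G.φ i).open_target (hα i) (G.psiSet_subset i hu))
    filter_upwards [(G.φ i).open_target.mem_nhds (G.psiSet_subset i hu)] with v hv
    simp [rep2_fsmul, rep0, hv]
  choose C hC h using h
  refine ⟨∑ i, C i, Finset.sum_nonneg fun j _ => hC j, fun s hs hs1 α hα => ?_⟩
  rw [sob_sq, Finset.mul_sum]
  refine Finset.sum_le_sum fun i _ => ?_
  rw [hsq_locF hα, lsq, ← integral_const_mul]
  refine setIntegral_mono_on
    (((continuousOn_psq k s isOpen_univ _ (psi_smul_chart hα i).1.contDiffOn).mono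
      (subset_univ _)).integrableOn_compact (G.isCompact_psiSet i))
    ((integrableOn_psq_rep2 hα k s (G.isCompact_psiSet i) (G.psiSet_subset i)).const_mul _)
    (G.isCompact_psiSet i).measurableSet fun u hu => (h i s hs hs1 α hα u hu).trans ?_
  exact mul_le_mul_of_nonneg_right
    (Finset.single_le_sum (fun j _ => hC j) (Finset.mem_univ i)) (psq_nonneg _ _ _ _)

omit [BorelSpace X] [T2Space X] in
/-- The densities on a compact part of a chart are bounded by the norm. -/
theorem exists_lsq_le_sob (G : Geo X) (k : ℕ) (i : Fin G.n) {K : Set V} (hK : IsCompact K)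
    (hKi : K ⊆ (G.φ i).target) :
    ∃ C, 0 ≤ C ∧ ∀ s : ℝ, 0 ≤ s → s ≤ 1 → ∀ α, G.Smooth2 α →
      G.lsq k s i K α ≤ C * G.sob k s α ^ 2 := by
  set Kj : Fin G.n → Set V := fun j => K ∩ (G.φ i).symm ⁻¹' tsupport (G.ψ j)
  have hKjc : ∀ j, IsCompact (Kj j) := fun j => hK.of_isClosed_subset
    (((G.φ i).continuousOn_symm.mono hKi).preimage_isClosed_of_isClosed hK.isClosed
      (isClosed_tsupport _)) inter_subset_left
  have hKjd : ∀ j, Kj j ⊆ G.tdom i j := fun j u hu =>
    G.mem_tdom.2 ⟨hKi hu.1, G.ψ_supp j hu.2⟩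
  -- the pieces
  have h : ∀ j : Fin G.n, ∃ C, 0 ≤ C ∧ ∀ s : ℝ, 0 ≤ s → s ≤ 1 → ∀ α, G.Smooth2 α →
      ∫ u in K, psq k s (G.rep2 i fun x => G.ψ j x • α x) u ≤ C * hsq k s (G.locF j α) := by
    intro j
    have hT : ContDiffOn ℝ ∞ (G.tc i j) (G.tdom i j) := G.trans_smooth i j
    set DT : V → V →L[ℝ] V := fderiv ℝ (G.tc i j)
    have hDT : ContDiffOn ℝ ∞ DT (G.tdom i j) :=
      hT.fderiv_of_isOpen (G.isOpen_tdom i j) le_rfl
    have hM : ContDiffOn ℝ ∞ (fun p : ℝ × V => pullL (DT p.2)) (univ ×ˢ G.tdom i j) := by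
      refine contDiffOn_clm_apply.2 fun γ => ?_
      simp only [pullL_apply]
      exact ((contDiffOn_pull (f := fun _ => γ) hDT contDiffOn_const)).comp
        contDiff_snd.contDiffOn fun p hp => hp.2
    obtain ⟨C₁, hC₁, h₁⟩ := exists_psq_comp (F := Form) (G := Form)
      (W := (univ : Set ℝ) ×ˢ G.tdom i j) (isOpen_univ.prod (G.isOpen_tdom i j))
      (σ := fun p => G.tc i j p.2) (hT.comp contDiff_snd.contDiffOn fun p hp => hp.2)
      (K := {(0 : ℝ)} ×ˢ Kj j) (isCompact_singleton.prod (hKjc j))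
      (prod_mono (subset_univ _) (hKjd j)) k _ hM
    have hdc : ContinuousOn (fun u => ((DT u).det)⁻¹) (Kj j) :=
      ((ContinuousLinearMap.continuous_det.comp_continuousOn hDT.continuousOn).mono
        (hKjd j)).inv₀ fun u hu => (G.trans_pos i j u (hKjd j hu)).ne'
    obtain ⟨B, hB⟩ := (hKjc j).exists_bound_of_continuousOn hdc
    refine ⟨C₁ * max B 0, mul_nonneg hC₁ (le_max_right _ _), fun s hs hs1 α hα => ?_⟩
    set g := G.rep2 j fun x => G.ψ j x • α x
    obtain ⟨hg, hgs⟩ := psi_smul_chart hα j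
    have hgi := smooth0_psi (G := G) j |>.smul2 hα
    -- off `Kj` the piece vanishes near the point
    have e1 : ∫ u in K, psq k s (G.rep2 i fun x => G.ψ j x • α x) u =
        ∫ u in Kj j, psq k s (G.rep2 i fun x => G.ψ j x • α x) u := by
      refine setIntegral_eq_of_subset_of_forall_sdiff_eq_zero hK.measurableSet inter_subset_left
        fun u hu => ?_
      have hx : (G.φ i).symm u ∉ tsupport (G.ψ j) := fun h => hu.2 ⟨hu.1, h⟩
      refine (psq_congr k s (g := fun _ => (0 : Form)) ?_).trans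
        (psq_eq_zero_of_notMem k s (by simp [tsupport]))
      filter_upwards [(G.φ i).open_target.mem_nhds (hKi hu.1),
        ((G.φ i).continuousAt_symm (hKi hu.1)).eventually_mem
          ((isClosed_tsupport _).isOpen_compl.mem_nhds hx)] with v hv hvx
      simp [rep2_fsmul, rep0, hv, image_eq_zero_of_notMem_tsupport hvx]
    have hpt : ∀ u ∈ Kj j, psq k s (G.rep2 i fun x => G.ψ j x • α x) u ≤
        C₁ * max B 0 * (|(DT u).det| • psq k s g (G.tc i j u)) := by
      intro u hu
      have hle := h₁ (0, u) ⟨rfl, hu⟩ s hs hs1 g univ isOpen_univ hg.contDiffOn (mem_univ _)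
      have e2 : psq k s (G.rep2 i fun x => G.ψ j x • α x) u =
          psq k s (fun v => pullL (DT v) (g (G.tc i j v))) u := by
        refine psq_congr k s ?_
        filter_upwards [(G.isOpen_tdom i j).mem_nhds (hKjd j hu)] with v hv
        rw [G.rep2_change _ hv, pullL_apply]
      rw [e2]
      refine hle.trans ?_
      have hd := G.trans_pos i j u (hKjd j hu)
      have h1 : 1 ≤ max B 0 * |(DT u).det| := by
        have h2 := (hB u hu).trans (le_max_left B 0)
        rw [norm_inv, Real.norm_eq_abs] at h2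
        exact (inv_mul_cancel₀ (abs_ne_zero.2 hd.ne')).ge.trans
          (mul_le_mul_of_nonneg_right h2 (abs_nonneg _))
      calc C₁ * psq k s g (G.tc i j u)
          ≤ C₁ * psq k s g (G.tc i j u) * (max B 0 * |(DT u).det|) :=
            le_mul_of_one_le_right (mul_nonneg hC₁ (psq_nonneg _ _ _ _)) h1
        _ = _ := by rw [smul_eq_mul]; ring
    have hinj : InjOn (G.tc i j) (Kj j) := fun u hu v hv he => by
      have := congrArg (G.φ j).symm he
      simp only [tc, (G.φ j).left_inv (G.mem_tdom.1 (hKjd j hu)).2,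
        (G.φ j).left_inv (G.mem_tdom.1 (hKjd j hv)).2] at this
      rw [← (G.φ i).right_inv (hKi hu.1), this, (G.φ i).right_inv (hKi hv.1)]
    have himg : G.tc i j '' Kj j ⊆ G.psiSet j := by
      rintro _ ⟨u, hu, rfl⟩
      exact ⟨_, hu.2, rfl⟩
    have hgc : ContinuousOn (psq k s g) univ := continuousOn_psq k s isOpen_univ g hg.contDiffOn
    have hri : IntegrableOn (fun u => |(DT u).det| • psq k s g (G.tc i j u)) (Kj j) :=
      (((ContinuousLinearMap.continuous_det.comp_continuousOn hDT.continuousOn).abs.smul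
        (hgc.comp hT.continuousOn fun _ _ => mem_univ _)).mono (hKjd j)).integrableOn_compact (hKjc j)
    calc ∫ u in K, psq k s (G.rep2 i fun x => G.ψ j x • α x) u
        = ∫ u in Kj j, psq k s (G.rep2 i fun x => G.ψ j x • α x) u := e1
      _ ≤ ∫ u in Kj j, C₁ * max B 0 * (|(DT u).det| • psq k s g (G.tc i j u)) :=
          setIntegral_mono_on (integrableOn_psq_rep2 hgi k s (hKjc j) (inter_subset_left.trans hKi))
            (hri.const_mul _) (hKjc j).measurableSet hpt
      _ = C₁ * max B 0 * ∫ z in G.tc i j '' Kj j, psq k s g z := by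
          rw [integral_const_mul, ← integral_image_eq_integral_abs_det_fderiv_smul volume
            (hKjc j).measurableSet (fun u hu =>
              ((hT.differentiableOn (by simp)).differentiableAt
                ((G.isOpen_tdom i j).mem_nhds (hKjd j hu))).hasFDerivAt.hasFDerivWithinAt) hinj]
      _ ≤ C₁ * max B 0 * hsq k s (G.locF j α) := by
          rw [hsq_locF hα]
          exact mul_le_mul_of_nonneg_left (setIntegral_mono_set
            ((hgc.mono (subset_univ _)).integrableOn_compact (G.isCompact_psiSet j))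
            (Eventually.of_forall fun _ => psq_nonneg _ _ _ _)
            (Eventually.of_forall fun _ hz => himg hz)) (mul_nonneg hC₁ (le_max_right _ _))
  choose C hC h using h
  refine ⟨G.n * ∑ j, C j, mul_nonneg (Nat.cast_nonneg _) (Finset.sum_nonneg fun j _ => hC j),
    fun s hs hs1 α hα => ?_⟩
  set β : Fin G.n → X → Form := fun j x => G.ψ j x • α x
  have hβ : ∀ j, G.Smooth2 (β j) := fun j => (smooth0_psi j).smul2 hα
  have hint : ∀ j, IntegrableOn (psq k s (G.rep2 i (β j))) K := fun j =>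
    integrableOn_psq_rep2 (hβ j) k s hK hKi
  calc G.lsq k s i K α ≤ ∫ u in K, (G.n : ℝ) * ∑ j, psq k s (G.rep2 i (β j)) u := by
        refine setIntegral_mono_on (integrableOn_psq_rep2 hα k s hK hKi)
          ((integrable_finsetSum _ fun j _ => hint j).const_mul _) hK.measurableSet fun u hu => ?_
        refine le_of_eq_of_le (psq_congr k s (g := fun v => ∑ j, G.rep2 i (β j) v) ?_)
          (by simpa using psq_sum_le k s (G.φ i).open_target Finset.univ
                (fun j => G.rep2 i (β j)) (fun j _ => hβ j i) u (hKi hu))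
        filter_upwards [(G.φ i).open_target.mem_nhds (hKi hu)] with v hv
        simp [β, rep2_fsmul, rep0, hv, ← Finset.sum_smul, G.ψ_sum]
    _ = G.n * ∑ j, ∫ u in K, psq k s (G.rep2 i (β j)) u := by
        rw [integral_const_mul, integral_finsetSum _ fun j _ => hint j]
    _ ≤ G.n * ((∑ j, C j) * ∑ j, hsq k s (G.locF j α)) := by
        refine mul_le_mul_of_nonneg_left ?_ (Nat.cast_nonneg _)
        rw [Finset.mul_sum]
        exact Finset.sum_le_sum fun j _ => (h j s hs hs1 α hα).trans (mul_le_mul_of_nonneg_right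
          (Finset.single_le_sum (fun l _ => hC l) (Finset.mem_univ j)) (hsq_nonneg _ _ _))
    _ = _ := by rw [sob_sq]; ring

/-- The norm of order zero against the square norm. -/
theorem exists_sob_zero (G : Geo X) : ∃ C, 0 ≤ C ∧ ∀ (s : ℝ) (α : X → Form), G.Smooth2 α →
    G.sob 0 s α ≤ C * G.n2 α ∧ G.n2 α ≤ C * G.sob 0 s α := by
  obtain ⟨C, hC, h⟩ := exists_sob_zero_equiv G
  exact ⟨C, hC.le, fun s α hα => h s α (memLp_smooth2 hα)⟩

omit [BorelSpace X] [T2Space X] [CompactSpace X] in
lemma locF_add (i : Fin G.n) (α β : X → Form) :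
    G.locF i (α + β) = fun u => G.locF i α u + G.locF i β u := by
  funext u
  simp only [locF, pext, Pi.add_apply, smul_add]
  exact congrFun (G.rep2_add i (fun x => G.ψ i x • α x) fun x => G.ψ i x • β x) _

omit [BorelSpace X] [T2Space X] [CompactSpace X] in
lemma sob_smul_eq (k : ℕ) (ε c : ℝ) (α : X → Form) (h : ∀ i, Smooth (G.locF i α)) :
    G.sob k ε (c • α) ^ 2 = c ^ 2 * G.sob k ε α ^ 2 := by
  simp only [sob_sq, Finset.mul_sum]
  refine Finset.sum_congr rfl fun i _ => ?_
  rw [← hsq_smul k ε c (h i)]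
  congr 1
  funext u
  simp only [locF, pext, Pi.smul_apply, smul_comm _ c]
  exact congrFun (G.rep2_smul i c fun x => G.ψ i x • α x) _

omit [BorelSpace X] [T2Space X] in
lemma sob_add_sq_le (k : ℕ) (ε : ℝ) {α β : X → Form} (hα : G.Smooth2 α) (hβ : G.Smooth2 β) :
    G.sob k ε (α + β) ^ 2 ≤ 2 * G.sob k ε α ^ 2 + 2 * G.sob k ε β ^ 2 := by
  simp only [sob_sq, Finset.mul_sum, ← Finset.sum_add_distrib]
  refine Finset.sum_le_sum fun i _ => ?_
  rw [locF_add]
  exact hsq_add_le k ε (G.smooth_locF i hα) (G.smooth_locF i hβ)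

omit [BorelSpace X] [T2Space X] in
lemma sob_add_le' (k : ℕ) (ε : ℝ) {α β : X → Form} (hα : G.Smooth2 α) (hβ : G.Smooth2 β) :
    G.sob k ε (α + β) ≤ 2 * (G.sob k ε α + G.sob k ε β) := by
  have h := sob_add_sq_le k ε hα hβ
  have h1 := sob_nonneg' (G := G) k ε α
  have h2 := sob_nonneg' (G := G) k ε β
  refine (sq_le_sq₀ (sob_nonneg' _ _ _) (by positivity)).1 (h.trans ?_)
  nlinarith [mul_nonneg h1 h2]

omit [BorelSpace X] [T2Space X] in
lemma sob_psq_eq (k : ℕ) (ε : ℝ) {α : X → Form} (hα : G.Smooth2 α) :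
    G.sob k ε α ^ 2 = ∑ i, ∫ u in G.psiSet i, psq k ε (G.rep2 i fun x => G.ψ i x • α x) u := by
  rw [sob_sq]
  exact Finset.sum_congr rfl fun i _ => hsq_locF hα k ε i

omit [BorelSpace X] [T2Space X] in
/-- The unscaled norm against the scaled one. -/
lemma sob_scale_le (k : ℕ) {ε : ℝ} (hε : 0 ≤ ε) (hε1 : ε ≤ 1) {α : X → Form} (hα : G.Smooth2 α) :
    ε ^ k * G.sob k 1 α ≤ G.sob k ε α := by
  refine (sq_le_sq₀ (mul_nonneg (pow_nonneg hε k) (sob_nonneg' _ _ _)) (sob_nonneg' _ _ _)).1 ?_
  rw [mul_pow, sob_psq_eq k 1 hα, sob_psq_eq k ε hα, Finset.mul_sum]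
  refine Finset.sum_le_sum fun i _ => ?_
  have hint : ∀ a, IntegrableOn (psq k a (G.rep2 i fun x => G.ψ i x • α x)) (G.psiSet i) := fun a =>
    ((continuousOn_psq k a isOpen_univ _ (psi_smul_chart hα i).1.contDiffOn).mono
      (subset_univ _)).integrableOn_compact (G.isCompact_psiSet i)
  rw [← integral_const_mul]
  exact integral_mono ((hint 1).const_mul _) (hint ε) fun u => (psq_scale_le k hε hε1 _ u).1

omit [BorelSpace X] [T2Space X] in
/-- The scaled norm against the unscaled ones. -/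
lemma sob_le_sum (k : ℕ) (s : ℝ) {α : X → Form} (hα : G.Smooth2 α) :
    G.sob k s α ^ 2 ≤ 2 ^ k * ∑ j ∈ Finset.range (k + 1), (s ^ j) ^ 2 * G.sob j 1 α ^ 2 := by
  have hint : ∀ (j : ℕ) (a : ℝ) i,
      IntegrableOn (psq j a (G.rep2 i fun x => G.ψ i x • α x)) (G.psiSet i) := fun j a i =>
    ((continuousOn_psq j a isOpen_univ _ (psi_smul_chart hα i).1.contDiffOn).mono
      (subset_univ _)).integrableOn_compact (G.isCompact_psiSet i)
  simp only [sob_psq_eq _ _ hα, Finset.mul_sum]
  rw [Finset.sum_comm]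
  refine Finset.sum_le_sum fun i _ => ?_
  simp only [← integral_const_mul]
  have hi : ∀ j ∈ Finset.range (k + 1), Integrable
      (fun u => (2 : ℝ) ^ k * ((s ^ j) ^ 2 * psq j 1 (G.rep2 i fun x => G.ψ i x • α x) u))
      (volume.restrict (G.psiSet i)) := fun j _ => ((hint j 1 i).const_mul _).const_mul _
  rw [← integral_finsetSum _ hi]
  exact integral_mono (hint k s i) (integrable_finsetSum _ hi) fun u =>
    (psq_le_sum k s _ u).trans_eq (Finset.mul_sum _ _ _)

omit [BorelSpace X] [T2Space X] [CompactSpace X] in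
lemma sob_mono_k {j k : ℕ} (h : j ≤ k) (s : ℝ) (α : X → Form) : G.sob j s α ≤ G.sob k s α :=
  Real.sqrt_le_sqrt (Finset.sum_le_sum fun _ _ => hsq_mono_k h s _)

end Geo

end Vale.Agent.P204.Gen
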