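import Vale.Agent.P204.Gen.RegList

/-!
P204 on a closed four-manifold, module RegEst: the estimates of the regulariser, one field of
`RegFacts` after the other (the gain, boundedness, the decomposition, the commutator, accuracy).
-/

open MeasureTheory Set Filter Topology
open scoped ContDiff

namespace Vale.Agent.P204.Gen

open Vale.Agent.P204.Torus

namespace Geo

variable {X : Type*} [TopologicalSpace X] [MeasurableSpace X] [BorelSpace X] [T2Space X]
  [CompactSpace X] {G : Geo X}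

/-- The averages of the regulariser. -/
noncomputable def fwdL (G : Geo X) : List (Fin G.n × (V → V → V)) :=
  (List.finRange G.n).map fun i => (i, G.fwd i)

/-- The averages of the transpose of the regulariser. -/
noncomputable def bwdL (G : Geo X) : List (Fin G.n × (V → V → V)) :=
  (List.finRange G.n).reverse.map fun i => (i, G.bwd i)

omit [BorelSpace X] [T2Space X] [CompactSpace X] in
lemma reg_eq_run (ε : ℝ) (α : X → Form) : G.reg ε α = G.run ε G.fwdL α := by
  simp only [reg, run, fwdL, List.foldr_map]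
  rfl

omit [BorelSpace X] [T2Space X] [CompactSpace X] in
lemma exists_good (G : Geo X) : ∃ r, 0 < r ∧ G.Good r G.fwdL ∧ G.Good r G.bwdL ∧
    ∀ ε, 0 < ε → ε ≤ r → ∀ α, G.regT ε α = G.run ε G.bwdL α := by
  obtain ⟨r, hr, hM⟩ := G.exists_moves
  refine ⟨r, hr, fun p hp => ?_, fun p hp => ?_, fun ε hε hεr α => ?_⟩
  · obtain ⟨i, -, rfl⟩ := List.mem_map.1 hp
    exact ⟨hr, (hM i).1, fwd_zero i⟩
  · obtain ⟨i, -, rfl⟩ := List.mem_map.1 hp
    exact ⟨hr, (hM i).2.1, bwd_zero hr (hM i).2.2⟩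
  · simp only [regT, run, bwdL, List.foldr_map]
    induction (List.finRange G.n).reverse with
    | nil => rfl
    | cons i l ih =>
      simp only [List.foldr_cons, ih]
      exact avgT_eq_avP (hM i).1 (hM i).2.1 (hM i).2.2 hε hεr _

omit [BorelSpace X] [CompactSpace X] in
lemma Good.com_append {r ε : ℝ} {l₁ l₂ : List (Fin G.n × (V → V → V))} (h₁ : G.Good r l₁)
    (h₂ : G.Good r l₂) {F : X → Form →L[ℝ] Form} (hF : G.SmoothOp F) (hε : 0 < ε) (hεr : ε < r)
    {α : X → Form} (hα : G.Smooth2 α) :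
    G.com F ε (l₁ ++ l₂) α = G.com F ε l₁ (G.run ε l₂ α) + G.run ε l₁ (G.com F ε l₂ α) := by
  have h := h₁.run_sub hε hεr (hF.apply (h₂.smooth hε hεr hα)) (h₂.smooth hε hεr (hF.apply hα))
  simp only [com, run_append] at h ⊢
  rw [h]
  abel

/-- The gain of the regulariser, uniformly in the order. -/
theorem exists_reg_gain (G : Geo X) :
    ∃ ε₁, 0 < ε₁ ∧ ∀ j : ℕ, ∃ C, 0 ≤ C ∧ ∀ ε, 0 < ε → ε ≤ ε₁ → ∀ α, G.Smooth2 α →
      G.sob j ε (G.reg ε α) ≤ C * G.n2 α := by
  obtain ⟨r, hr, hf, -, -⟩ := G.exists_good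
  obtain ⟨Cz, hCz, hz⟩ := G.exists_sob_zero
  have h : ∀ i : Fin G.n, ∃ e, 0 < e ∧ ∀ j : ℕ, ∃ C, 0 ≤ C ∧ ∀ ε, 0 < ε → ε ≤ e →
      ∀ α, G.Smooth2 α → G.lsq j ε i (G.psiSet i) (G.reg ε α) ≤ C * G.n2 α ^ 2 := by
    intro i
    obtain ⟨a, b, hab⟩ := List.append_of_mem (List.mem_finRange i)
    set pre := a.map fun i => (i, G.fwd i)
    set post := b.map fun i => (i, G.fwd i)
    have hL : G.fwdL = pre ++ (i, G.fwd i) :: post := by simp [fwdL, hab, pre, post]
    have hpre : G.Good r pre := fun p hp => hf p (hL ▸ List.mem_append_left _ hp)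
    have hpost : G.Good r post := fun p hp =>
      hf p (hL ▸ List.mem_append_right _ (List.mem_cons_of_mem _ hp))
    have hi : G.NearId i (G.fwd i) r :=
      hf (i, G.fwd i) (hL ▸ List.mem_append_right _ List.mem_cons_self)
    obtain ⟨K₂, hK₂, hK2, hK₂1⟩ := exists_compact_between (G.isCompact_psiSet i)
      (isOpen_interior : IsOpen (G.oneSet i)) (G.psiSet_subset_oneSet i)
    obtain ⟨K₁, hK₁, hK1, hK₁K₂⟩ := exists_compact_between (G.isCompact_psiSet i) isOpen_interior hK2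
    have hK₂i := hK₂1.trans (oneSet_subset i)
    obtain ⟨e₁, he₁, hb⟩ := hpre.exists_bound hr i _ K₁ (G.isCompact_psiSet i) hK₁ hK1
      ((hK₁K₂.trans interior_subset).trans hK₂i)
    obtain ⟨e₂, he₂, hg⟩ := (exists_gain_step hi hK₁ hK₂ hK₁K₂ hK₂1).1
    obtain ⟨e₃, he₃, hp⟩ := hpost.exists_sob_bound hr
    obtain ⟨Cp, hCp, hp⟩ := hp 0
    obtain ⟨A, hA, hA'⟩ := G.exists_lsq_le_sob 0 i hK₂ hK₂i
    refine ⟨min (min (r / 2) 1) (min e₁ (min e₂ e₃)),
      lt_min (lt_min (half_pos hr) one_pos) (lt_min he₁ (lt_min he₂ he₃)), fun j => ?_⟩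
    obtain ⟨C₁, hC₁, hb⟩ := hb j
    obtain ⟨C₂, hC₂, hg⟩ := hg j
    refine ⟨C₁ * (C₂ * (A * (Cp * Cz) ^ 2)), by positivity, fun ε hε hεle α hα => ?_⟩
    have hεr : ε < r := (hεle.trans ((min_le_left _ _).trans (min_le_left _ _))).trans_lt
      (half_lt_self hr)
    have hε1 : ε ≤ 1 := hεle.trans ((min_le_left _ _).trans (min_le_right _ _))
    have hεm := hεle.trans (min_le_right _ _)
    have hsm := hpost.smooth hε hεr hα
    rw [reg_eq_run, hL, run_append, run_cons, mul_assoc C₁]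
    refine (hb ε hε (hεm.trans (min_le_left _ _)) ε hε.le hε1 _
      (hi.move.smooth2_avP hsm hε hεr)).trans (mul_le_mul_of_nonneg_left ?_ hC₁)
    rw [mul_assoc C₂]
    refine (hg ε hε (hεm.trans ((min_le_right _ _).trans (min_le_left _ _))) _ hsm).trans
      (mul_le_mul_of_nonneg_left ((hA' 1 zero_le_one le_rfl _ hsm).trans ?_) hC₂)
    rw [mul_assoc A, ← mul_pow]
    refine mul_le_mul_of_nonneg_left (pow_le_pow_left₀ (sob_nonneg' _ _ _) ?_ 2) hA
    refine (hp ε hε (hεm.trans ((min_le_right _ _).trans (min_le_right _ _))) 1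
      ⟨zero_le_one, le_rfl⟩ α hα).trans ?_
    rw [mul_one, mul_assoc]
    exact mul_le_mul_of_nonneg_left (hz 1 α hα).1 hCp
  choose e he h using h
  obtain ⟨m, hm, hme⟩ := exists_pos_le_all e he
  refine ⟨min (min (r / 2) 1) m, lt_min (lt_min (half_pos hr) one_pos) hm, fun j => ?_⟩
  choose C hC h using fun i => h i j
  obtain ⟨C₀, hC₀, h₀⟩ := G.exists_sob_of_lsq j C
  refine ⟨C₀, hC₀, fun ε hε hεle α hα => h₀ ε hε.le
    (hεle.trans ((min_le_left _ _).trans (min_le_right _ _))) _ ?_ _ (Real.sqrt_nonneg _)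
      fun i => h i ε hε ((hεle.trans (min_le_right _ _)).trans (hme i)) α hα⟩
  rw [reg_eq_run]
  exact hf.smooth hε ((hεle.trans ((min_le_left _ _).trans (min_le_left _ _))).trans_lt
    (half_lt_self hr)) hα

omit [BorelSpace X] in
/-- The regulariser is bounded on every order, uniformly in the order. -/
theorem exists_reg_bounded (G : Geo X) :
    ∃ ε₁, 0 < ε₁ ∧ ∀ j : ℕ, ∃ C, 0 ≤ C ∧ ∀ ε, 0 < ε → ε ≤ ε₁ → ∀ α, G.Smooth2 α →
      G.sob j 1 (G.reg ε α) ≤ C * G.sob j 1 α := by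
  obtain ⟨r, hr, hf, -, -⟩ := G.exists_good
  obtain ⟨e, he, h⟩ := hf.exists_sob_bound hr
  refine ⟨e, he, fun j => ?_⟩
  obtain ⟨C, hC, h⟩ := h j
  exact ⟨C, hC, fun ε hε hεe α hα => by
    simpa [reg_eq_run] using h ε hε hεe 1 ⟨zero_le_one, le_rfl⟩ α hα⟩

/-- The commutator with a field of endomorphisms. -/
theorem exists_reg_comm (G : Geo X) {F : X → Form →L[ℝ] Form} (hF : G.SmoothOp F) :
    ∃ ε₁, 0 < ε₁ ∧ ∀ j : ℕ, ∃ C, 0 ≤ C ∧ ∀ ε, 0 < ε → ε ≤ ε₁ → ∀ α, G.Smooth2 α →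
      G.sob j ε (G.com F ε G.fwdL α) ≤ C * ε * G.n2 α := by
  obtain ⟨r, hr, hf, -, -⟩ := G.exists_good
  obtain ⟨Cz, hCz, hz⟩ := G.exists_sob_zero
  have h : ∀ i : Fin G.n, ∃ e, 0 < e ∧ ∀ j : ℕ, ∃ C, 0 ≤ C ∧ ∀ ε, 0 < ε → ε ≤ e →
      ∀ α, G.Smooth2 α →
        G.lsq j ε i (G.psiSet i) (G.com F ε G.fwdL α) ≤ C * (ε * G.n2 α) ^ 2 := by
    intro i
    obtain ⟨a, b, hab⟩ := List.append_of_mem (List.mem_finRange i)
    set pre := a.map fun i => (i, G.fwd i)
    set post := b.map fun i => (i, G.fwd i)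
    have hL : G.fwdL = pre ++ (i, G.fwd i) :: post := by simp [fwdL, hab, pre, post]
    have hpre : G.Good r pre := fun p hp => hf p (hL ▸ List.mem_append_left _ hp)
    have hl' : G.Good r ((i, G.fwd i) :: post) := fun p hp =>
      hf p (hL ▸ List.mem_append_right _ hp)
    have hpost : G.Good r post := fun p hp => hl' p (List.mem_cons_of_mem _ hp)
    have hi : G.NearId i (G.fwd i) r := hl' (i, G.fwd i) List.mem_cons_self
    have hi' : G.Good r [(i, G.fwd i)] := fun p hp => by rw [List.mem_singleton.1 hp]; exact hi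
    obtain ⟨K₂, hK₂, hK2, hK₂1⟩ := exists_compact_between (G.isCompact_psiSet i)
      (isOpen_interior : IsOpen (G.oneSet i)) (G.psiSet_subset_oneSet i)
    obtain ⟨K₁, hK₁, hK1, hK₁K₂⟩ := exists_compact_between (G.isCompact_psiSet i) isOpen_interior hK2
    have hK₂i := hK₂1.trans (oneSet_subset i)
    have hK₁i := (hK₁K₂.trans interior_subset).trans hK₂i
    have hLi := G.psiSet_subset i
    obtain ⟨e₁, he₁, hb⟩ := hpre.exists_bound hr i _ K₁ (G.isCompact_psiSet i) hK₁ hK1 hK₁i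
    obtain ⟨e₂, he₂, hc⟩ := hpre.exists_com hr hF i _ K₁ (G.isCompact_psiSet i) hK₁ hK1 hK₁i
    obtain ⟨hg, hgc⟩ := exists_gain_step hi hK₁ hK₂ hK₁K₂ hK₂1
    obtain ⟨e₃, he₃, hg⟩ := hg
    obtain ⟨e₄, he₄, hgc⟩ := hgc F hF
    obtain ⟨e₅, he₅, hp⟩ := hpost.exists_sob_bound hr
    obtain ⟨Cp, hCp, hp⟩ := hp 0
    obtain ⟨e₆, he₆, hq⟩ := hpost.exists_sob_com hr hF
    obtain ⟨Cq, hCq, hq⟩ := hq 0
    obtain ⟨A, hA, hA'⟩ := G.exists_lsq_le_sob 0 i hK₂ hK₂i
    refine ⟨min (min (r / 2) 1) (min (min e₁ e₂) (min (min e₃ e₄) (min e₅ e₆))),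
      lt_min (lt_min (half_pos hr) one_pos)
        (lt_min (lt_min he₁ he₂) (lt_min (lt_min he₃ he₄) (lt_min he₅ he₆))), fun j => ?_⟩
    obtain ⟨C₁, hC₁, hb⟩ := hb j
    obtain ⟨C₂, hC₂, hc⟩ := hc j
    obtain ⟨C₃, hC₃, hg⟩ := hg j
    obtain ⟨C₄, hC₄, hgc⟩ := hgc j
    refine ⟨2 * (C₂ * (C₃ * (A * (Cp * Cz) ^ 2)) +
      C₁ * (2 * (C₄ * (A * (Cp * Cz) ^ 2) + C₃ * (A * (Cq * Cz) ^ 2)))), by positivity,
      fun ε hε hεle α hα => ?_⟩
    have hεr : ε < r := (hεle.trans ((min_le_left _ _).trans (min_le_left _ _))).trans_lt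
      (half_lt_self hr)
    have hε1 : ε ≤ 1 := hεle.trans ((min_le_left _ _).trans (min_le_right _ _))
    have hεm := hεle.trans (min_le_right _ _)
    have h12 := hεm.trans (min_le_left _ _)
    have h34 := hεm.trans ((min_le_right _ _).trans (min_le_left _ _))
    have h56 := hεm.trans ((min_le_right _ _).trans (min_le_right _ _))
    have hsm := hpost.smooth hε hεr hα
    have hsc := hpost.smooth_com hF hε hεr hα
    have hq0 : G.lsq 0 1 i K₂ (G.run ε post α) ≤ A * (Cp * Cz) ^ 2 * G.n2 α ^ 2 := by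
      refine (hA' 1 zero_le_one le_rfl _ hsm).trans ?_
      rw [mul_assoc A, ← mul_pow]
      refine mul_le_mul_of_nonneg_left (pow_le_pow_left₀ (sob_nonneg' _ _ _) ?_ 2) hA
      refine (hp ε hε (h56.trans (min_le_left _ _)) 1 ⟨zero_le_one, le_rfl⟩ α hα).trans ?_
      rw [mul_one, mul_assoc]
      exact mul_le_mul_of_nonneg_left (hz 1 α hα).1 hCp
    have hq1 : G.lsq 0 1 i K₂ (G.com F ε post α) ≤ A * (Cq * Cz) ^ 2 * (ε * G.n2 α) ^ 2 := by
      refine (hA' 1 zero_le_one le_rfl _ hsc).trans ?_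
      rw [mul_assoc A, ← mul_pow]
      refine mul_le_mul_of_nonneg_left (pow_le_pow_left₀ (sob_nonneg' _ _ _) ?_ 2) hA
      refine (hq ε hε (h56.trans (min_le_right _ _)) 1 ⟨zero_le_one, le_rfl⟩ α hα).trans ?_
      calc Cq * ε * G.sob (0 + 0) 1 α ≤ Cq * ε * (Cz * G.n2 α) :=
            mul_le_mul_of_nonneg_left (hz 1 α hα).1 (by positivity)
        _ = _ := by ring
    rw [hL, hpre.com_append hl' hF hε hεr hα]
    refine (lsq_add_le (hpre.smooth_com hF hε hεr (hl'.smooth hε hεr hα))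
      (hpre.smooth hε hεr (hl'.smooth_com hF hε hεr hα)) j ε (G.isCompact_psiSet i) hLi).trans ?_
    have b₁ : G.lsq j ε i (G.psiSet i) (G.com F ε pre (G.run ε ((i, G.fwd i) :: post) α)) ≤
        C₂ * ε ^ 2 * (C₃ * (A * (Cp * Cz) ^ 2 * G.n2 α ^ 2)) := by
      refine (hc ε hε (h12.trans (min_le_right _ _)) ε hε.le hε1 _
        (hl'.smooth hε hεr hα)).trans (mul_le_mul_of_nonneg_left ?_ (by positivity))
      exact (hg ε hε (h34.trans (min_le_left _ _)) _ hsm).trans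
        (mul_le_mul_of_nonneg_left hq0 hC₃)
    have b₂ : G.lsq j ε i (G.psiSet i) (G.run ε pre (G.com F ε ((i, G.fwd i) :: post) α)) ≤
        C₁ * (2 * (C₄ * ε ^ 2 * (A * (Cp * Cz) ^ 2 * G.n2 α ^ 2) +
          C₃ * (A * (Cq * Cz) ^ 2 * (ε * G.n2 α) ^ 2))) := by
      refine (hb ε hε (h12.trans (min_le_left _ _)) ε hε.le hε1 _
        (hl'.smooth_com hF hε hεr hα)).trans (mul_le_mul_of_nonneg_left ?_ hC₁)
      rw [hpost.com_cons hi hF hε hεr hα]
      refine (lsq_add_le (hi'.smooth_com hF hε hεr hsm) (hi.move.smooth2_avP hsc hε hεr) j ε hK₁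
        hK₁i).trans (mul_le_mul_of_nonneg_left (add_le_add ?_ ?_) two_pos.le)
      · exact (hgc ε hε (h34.trans (min_le_right _ _)) _ hsm).trans
          (mul_le_mul_of_nonneg_left hq0 (by positivity))
      · exact (hg ε hε (h34.trans (min_le_left _ _)) _ hsc).trans
          (mul_le_mul_of_nonneg_left hq1 hC₃)
    exact (mul_le_mul_of_nonneg_left (add_le_add b₁ b₂) two_pos.le).trans (le_of_eq (by ring))
  choose e he h using h
  obtain ⟨m, hm, hme⟩ := exists_pos_le_all e he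
  refine ⟨min (min (r / 2) 1) m, lt_min (lt_min (half_pos hr) one_pos) hm, fun j => ?_⟩
  choose C hC h using fun i => h i j
  obtain ⟨C₀, hC₀, h₀⟩ := G.exists_sob_of_lsq j C
  refine ⟨C₀, hC₀, fun ε hε hεle α hα => ?_⟩
  rw [mul_assoc]
  exact h₀ ε hε.le (hεle.trans ((min_le_left _ _).trans (min_le_right _ _))) _
    (hf.smooth_com hF hε ((hεle.trans ((min_le_left _ _).trans (min_le_left _ _))).trans_lt
      (half_lt_self hr)) hα) _ (mul_nonneg hε.le (Real.sqrt_nonneg _))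
    fun i => h i ε hε ((hεle.trans (min_le_right _ _)).trans (hme i)) α hα

/-- The regulariser and its transpose are second order accurate. -/
theorem exists_reg_near (G : Geo X) {α : X → Form} (hα : G.Smooth2 α) :
    ∃ C ε₁, 0 < ε₁ ∧ ∀ ε, 0 < ε → ε ≤ ε₁ →
      G.n2 (fun x => G.regT ε α x - α x) ≤ C * ε ^ 2 ∧
      G.n2 (fun x => G.reg ε α x - α x) ≤ C * ε ^ 2 := by
  obtain ⟨r, hr, hf, hb, hT⟩ := G.exists_good
  obtain ⟨Cz, hCz, hz⟩ := G.exists_sob_zero
  obtain ⟨C₁, e₁, hC₁, he₁, h₁⟩ := hf.exists_sob_near hr hα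
  obtain ⟨C₂, e₂, hC₂, he₂, h₂⟩ := hb.exists_sob_near hr hα
  refine ⟨Cz * (C₁ + C₂), min (r / 2) (min e₁ e₂), lt_min (half_pos hr) (lt_min he₁ he₂),
    fun ε hε hεle => ?_⟩
  have hεr : ε < r := (hεle.trans (min_le_left _ _)).trans_lt (half_lt_self hr)
  have hεm := hεle.trans (min_le_right _ _)
  have key : ∀ (l : List (Fin G.n × (V → V → V))) (C : ℝ), G.Good r l → C ≤ C₁ + C₂ →
      G.sob 0 1 (G.run ε l α - α) ≤ C * ε ^ 2 →
      G.n2 (fun x => G.run ε l α x - α x) ≤ Cz * (C₁ + C₂) * ε ^ 2 := fun l C hl hCC hle => by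
    refine ((hz 1 _ ((hl.smooth hε hεr hα).sub hα)).2).trans ?_
    rw [mul_assoc]
    exact mul_le_mul_of_nonneg_left (hle.trans (mul_le_mul_of_nonneg_right hCC (sq_nonneg ε))) hCz
  refine ⟨?_, ?_⟩
  · rw [hT ε hε hεr.le α]
    exact key _ C₂ hb (le_add_of_nonneg_left hC₁) (h₂ ε hε (hεm.trans (min_le_right _ _)))
  · rw [reg_eq_run]
    exact key _ C₁ hf (le_add_of_nonneg_right hC₂) (h₁ ε hε (hεm.trans (min_le_left _ _)))

/-- The error of the regulariser. -/
noncomputable def err (G : Geo X) (ε : ℝ) (α : X → Form) : X → Form := α - G.reg ε α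

/-- The decomposition of a smooth field by the regulariser at a smaller scale. -/
theorem exists_reg_key (G : Geo X) (k : ℕ) :
    ∃ C ε₁, 0 < ε₁ ∧ ∀ l ε, 0 < l → l ≤ 1 → 0 < ε → ε ≤ ε₁ → ∀ α, G.Smooth2 α →
      ∃ γ β, G.Smooth2 γ ∧ G.Smooth2 β ∧ α = G.reg (l * ε) γ + β ∧
        G.n2 γ ≤ C * G.sob k ε α ∧ G.sob k (l * ε) β ≤ C * l ^ k * G.sob k ε α := by
  obtain ⟨r, hr, hf, -, -⟩ := G.exists_good
  obtain ⟨Cz, hCz, hz⟩ := G.exists_sob_zero
  obtain ⟨eb, heb, hb⟩ := G.exists_reg_bounded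
  obtain ⟨ed, hed, hd⟩ := hf.exists_sob_diff hr
  set e := min (min (r / 2) 1) (min eb ed)
  have he : 0 < e := lt_min (lt_min (half_pos hr) one_pos) (lt_min heb hed)
  have her : ∀ ε, ε ≤ e → ε < r := fun ε h =>
    (h.trans ((min_le_left _ _).trans (min_le_left _ _))).trans_lt (half_lt_self hr)
  have hW : ∀ ε, 0 < ε → ε ≤ e → ∀ m α, G.Smooth2 α → G.Smooth2 ((G.err ε)^[m] α) := by
    intro ε hε hεe m α hα
    induction m with
    | zero => exact hα
    | succ m ih =>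
      rw [Function.iterate_succ_apply']
      exact ih.sub (by rw [reg_eq_run]; exact hf.smooth hε (her ε hεe) ih)
  -- the powers of the error
  have hpow : ∀ m n, n ≤ m → ∀ j, ∃ C, 0 ≤ C ∧ ∀ ε, 0 < ε → ε ≤ e → ∀ α, G.Smooth2 α →
      G.sob j 1 ((G.err ε)^[m] α) ≤ C * ε ^ n * G.sob (j + n) 1 α := by
    intro m
    induction m with
    | zero =>
      intro n hn j
      obtain rfl : n = 0 := Nat.le_zero.1 hn
      exact ⟨1, zero_le_one, fun ε _ _ α _ => by simp⟩
    | succ m ih =>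
      intro n hn j
      rcases n with _ | n
      · obtain ⟨Cb, hCb, hb⟩ := hb j
        obtain ⟨C, hC, h⟩ := ih 0 (Nat.zero_le _) j
        refine ⟨2 * (1 + Cb) * C, by positivity, fun ε hε hεe α hα => ?_⟩
        have hm := hW ε hε hεe m α hα
        have hreg : G.Smooth2 (G.reg ε ((G.err ε)^[m] α)) := by
          rw [reg_eq_run]; exact hf.smooth hε (her ε hεe) hm
        rw [Function.iterate_succ_apply', err, sub_eq_add_neg, ← neg_one_smul ℝ (G.reg ε _)]
        refine (sob_add_le' j 1 hm (hreg.smul _)).trans ?_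
        have e1 : G.sob j 1 ((-1 : ℝ) • G.reg ε ((G.err ε)^[m] α)) =
            G.sob j 1 (G.reg ε ((G.err ε)^[m] α)) :=
          (sq_eq_sq₀ (sob_nonneg' _ _ _) (sob_nonneg' _ _ _)).1 (by
            rw [sob_smul_eq j 1 _ _ fun i => G.smooth_locF i hreg]; ring)
        rw [e1]
        calc 2 * (G.sob j 1 ((G.err ε)^[m] α) + G.sob j 1 (G.reg ε ((G.err ε)^[m] α)))
            ≤ 2 * (G.sob j 1 ((G.err ε)^[m] α) + Cb * G.sob j 1 ((G.err ε)^[m] α)) :=
              mul_le_mul_of_nonneg_left (add_le_add le_rfl (hb ε hε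
                (hεe.trans ((min_le_right _ _).trans (min_le_left _ _))) _ hm)) two_pos.le
          _ = 2 * (1 + Cb) * G.sob j 1 ((G.err ε)^[m] α) := by ring
          _ ≤ 2 * (1 + Cb) * (C * ε ^ 0 * G.sob (j + 0) 1 α) :=
              mul_le_mul_of_nonneg_left (h ε hε hεe α hα) (by positivity)
          _ = _ := by ring
      · obtain ⟨Cd, hCd, hd⟩ := hd j
        obtain ⟨C, hC, h⟩ := ih n (Nat.le_of_succ_le_succ hn) (j + 1)
        refine ⟨Cd * C, by positivity, fun ε hε hεe α hα => ?_⟩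
        have hm := hW ε hε hεe m α hα
        have hreg : G.Smooth2 (G.reg ε ((G.err ε)^[m] α)) := by
          rw [reg_eq_run]; exact hf.smooth hε (her ε hεe) hm
        rw [Function.iterate_succ_apply']
        have e1 : G.sob j 1 (G.err ε ((G.err ε)^[m] α)) =
            G.sob j 1 (G.reg ε ((G.err ε)^[m] α) - (G.err ε)^[m] α) := by
          refine (sq_eq_sq₀ (sob_nonneg' _ _ _) (sob_nonneg' _ _ _)).1 ?_
          rw [err, ← neg_sub (G.reg ε _) ((G.err ε)^[m] α), ← neg_one_smul ℝ (G.reg ε _ - _),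
            sob_smul_eq j 1 _ _ fun i => G.smooth_locF i (hreg.sub hm)]
          ring
        rw [e1, reg_eq_run]
        refine (hd ε hε (hεe.trans ((min_le_right _ _).trans (min_le_right _ _))) _ hm).trans ?_
        refine (mul_le_mul_of_nonneg_left (h ε hε hεe α hα) (by positivity)).trans (le_of_eq ?_)
        rw [show j + 1 + n = j + (n + 1) by ring]
        ring
  choose! C hC hpow using hpow
  obtain ⟨r', hr', hscale⟩ := G.exists_scale.imp fun ε₁ h => And.intro h.1 h.2.2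
  -- the first term
  have hγ : ∀ m, m ≤ k → ∃ B, 0 ≤ B ∧ ∀ l ε, 0 < l → l ≤ 1 → 0 < ε → ε ≤ min e r' →
      ∀ α, G.Smooth2 α → ∃ γ, G.Smooth2 γ ∧ α = G.reg (l * ε) γ + (G.err (l * ε))^[m] α ∧
        G.sob 0 1 γ ≤ B * G.sob k ε α := by
    intro m hm
    induction m with
    | zero =>
      refine ⟨0, le_rfl, fun l ε hl hl1 hε hεe α hα => ⟨0, smooth2_zero, ?_, ?_⟩⟩
      · have hlε : l * ε ≤ r' :=
          (mul_le_of_le_one_left hε.le hl1).trans (hεe.trans (min_le_right _ _))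
        have h0 := ((hscale _ (mul_pos hl hε) hlε).2.2.2.2.2.1) 0 α hα
        rw [zero_smul, zero_smul] at h0
        simp [h0]
      · have h := sob_smul_eq (G := G) 0 1 0 α fun i => G.smooth_locF i hα
        simp only [zero_smul, ne_eq, OfNat.ofNat_ne_zero, not_false_eq_true, zero_pow, zero_mul,
          sq_eq_zero_iff] at h
        simp [h]
    | succ m ih =>
      obtain ⟨B, hB, ih⟩ := ih (Nat.le_of_succ_le hm)
      refine ⟨2 * (B + C m m 0), by have := hC m m le_rfl 0; positivity,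
        fun l ε hl hl1 hε hεe α hα => ?_⟩
      have hlε : 0 < l * ε := mul_pos hl hε
      have hlee : l * ε ≤ e :=
        (mul_le_of_le_one_left hε.le hl1).trans (hεe.trans (min_le_left _ _))
      have hlεr : l * ε ≤ r' :=
        (mul_le_of_le_one_left hε.le hl1).trans (hεe.trans (min_le_right _ _))
      obtain ⟨γ, hγ, hid, hn⟩ := ih l ε hl hl1 hε hεe α hα
      have hm' := hW _ hlε hlee m α hα
      refine ⟨γ + (G.err (l * ε))^[m] α, hγ.add hm', ?_, ?_⟩
      · rw [Function.iterate_succ_apply', err, (hscale _ hlε hlεr).2.2.2.2.1 _ _ hγ hm']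
        conv_lhs => rw [hid]
        abel
      · refine (sob_add_le' 0 1 hγ hm').trans ?_
        rw [mul_assoc, add_mul]
        refine mul_le_mul_of_nonneg_left (add_le_add hn ?_) two_pos.le
        refine (hpow m m le_rfl 0 _ hlε hlee α hα).trans ?_
        rw [mul_assoc]
        refine mul_le_mul_of_nonneg_left ?_ (hC m m le_rfl 0)
        have hε1 : ε ≤ 1 :=
          hεe.trans ((min_le_left _ _).trans ((min_le_left _ _).trans (min_le_right _ _)))
        calc (l * ε) ^ m * G.sob (0 + m) 1 α ≤ ε ^ m * G.sob m 1 α := by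
              rw [zero_add]
              exact mul_le_mul_of_nonneg_right (pow_le_pow_left₀ hlε.le
                (mul_le_of_le_one_left hε.le hl1) m) (sob_nonneg' _ _ _)
          _ ≤ G.sob m ε α := sob_scale_le m hε.le hε1 hα
          _ ≤ G.sob k ε α := sob_mono_k (Nat.le_of_succ_le hm) _ _
  obtain ⟨B, hB, hγ⟩ := hγ k le_rfl
  set D := Real.sqrt (2 ^ k * ∑ j ∈ Finset.range (k + 1), C k (k - j) j ^ 2)
  refine ⟨Cz * B + D, min e r', lt_min he hr', fun l ε hl hl1 hε hεe α hα => ?_⟩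
  have hlε : 0 < l * ε := mul_pos hl hε
  have hlee : l * ε ≤ e := (mul_le_of_le_one_left hε.le hl1).trans (hεe.trans (min_le_left _ _))
  have hε1 : ε ≤ 1 :=
    hεe.trans ((min_le_left _ _).trans ((min_le_left _ _).trans (min_le_right _ _)))
  obtain ⟨γ, hγs, hid, hn⟩ := hγ l ε hl hl1 hε hεe α hα
  have hβs := hW _ hlε hlee k α hα
  refine ⟨γ, (G.err (l * ε))^[k] α, hγs, hβs, hid, ?_, ?_⟩
  · refine ((hz 1 γ hγs).2.trans (mul_le_mul_of_nonneg_left hn hCz)).trans ?_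
    rw [← mul_assoc]
    exact mul_le_mul_of_nonneg_right (le_add_of_nonneg_right (Real.sqrt_nonneg _)) (sob_nonneg' _ _ _)
  · set S := l ^ k * G.sob k ε α
    have hS : 0 ≤ S := mul_nonneg (pow_nonneg hl.le k) (sob_nonneg' _ _ _)
    have hterm : ∀ j ∈ Finset.range (k + 1),
        ((l * ε) ^ j) ^ 2 * G.sob j 1 ((G.err (l * ε))^[k] α) ^ 2 ≤ C k (k - j) j ^ 2 * S ^ 2 := by
      intro j hj
      have hjk : j ≤ k := Nat.le_of_lt_succ (Finset.mem_range.1 hj)
      rw [← mul_pow, ← mul_pow]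
      refine pow_le_pow_left₀ (mul_nonneg (pow_nonneg hlε.le j) (sob_nonneg' _ _ _)) ?_ 2
      refine (mul_le_mul_of_nonneg_left (hpow k (k - j) (Nat.sub_le k j) j _ hlε hlee α hα)
        (pow_nonneg hlε.le j)).trans ?_
      rw [Nat.add_sub_cancel' hjk]
      calc (l * ε) ^ j * (C k (k - j) j * (l * ε) ^ (k - j) * G.sob k 1 α)
          = C k (k - j) j * (((l * ε) ^ j * (l * ε) ^ (k - j)) * G.sob k 1 α) := by ring
        _ = C k (k - j) j * (l ^ k * (ε ^ k * G.sob k 1 α)) := by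
            rw [← pow_add, Nat.add_sub_cancel' hjk, mul_pow]; ring
        _ ≤ C k (k - j) j * S := mul_le_mul_of_nonneg_left (mul_le_mul_of_nonneg_left
              (sob_scale_le k hε.le hε1 hα) (pow_nonneg hl.le k)) (hC k (k - j) (Nat.sub_le k j) j)
    have hsq : G.sob k (l * ε) ((G.err (l * ε))^[k] α) ≤ D * S := by
      refine (sq_le_sq₀ (sob_nonneg' _ _ _) (mul_nonneg (Real.sqrt_nonneg _) hS)).1 ?_
      rw [mul_pow, Real.sq_sqrt (by positivity), mul_assoc, Finset.sum_mul]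
      exact (sob_le_sum k _ hβs).trans
        (mul_le_mul_of_nonneg_left (Finset.sum_le_sum hterm) (by positivity))
    refine hsq.trans ?_
    rw [mul_assoc]
    exact mul_le_mul_of_nonneg_right (le_add_of_nonneg_left (mul_nonneg hCz hB)) hS

end Geo

end Vale.Agent.P204.Gen
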