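import Vale.Agent.P204.Gen.RegLocal

/-!
P204 on a closed four-manifold, module RegEst: the gain of derivatives of an average over exact
translations, and the extra power of `ε` when the coefficient vanishes at `t = 0`.
-/

open MeasureTheory Set Filter Topology
open scoped ContDiff

namespace Vale.Agent.P204.Gen

open Vale.Agent.P204.Torus

/-- Translations. -/
def transl (p : V × V) : V := p.2 + p.1

lemma contDiff_transl : ContDiff ℝ ∞ transl := contDiff_snd.add contDiff_fst

lemma dPar_transl (x : V) : Function.Surjective (Param.dPar transl ((0 : V), x)) := by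
  have h : HasFDerivAt transl (ContinuousLinearMap.snd ℝ V V + ContinuousLinearMap.fst ℝ V V)
      ((0 : V), x) := hasFDerivAt_snd.add hasFDerivAt_fst
  intro v
  exact ⟨v, by simp [Param.dPar, h.fderiv]⟩

lemma rho_eq (ε : ℝ) (t : V) :
    rho ε t = (ε⁻¹) ^ 4 * bump.normed (volume : Measure V) (ε⁻¹ • t) := by
  simp [rho, inv_pow]

lemma scaledAvg_transl (M : V × V → ℝ) (ε : ℝ) (φ : V → ℝ) (x : V) :
    Param.scaledAvg transl (bump.normed (volume : Measure V)) M ε φ x =
      ∫ t, rho ε t * M (t, x) * φ (x + t) :=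
  integral_congr_ae (Eventually.of_forall fun t => by simp [Param.scaled, rho_eq, transl])

lemma contDiff_scaledAvg {M : V × V → ℝ} (hM : ContDiff ℝ ∞ M) {ε : ℝ} (hε : 0 < ε) {φ : V → ℝ}
    (hφ : ContDiff ℝ ∞ φ) :
    ContDiff ℝ ∞ (Param.scaledAvg transl (bump.normed (volume : Measure V)) M ε φ) := by
  rw [← contDiffOn_univ]
  refine (contDiffOn_average (μ := volume) (isCompact_closedBall (0 : V) ε) isOpen_univ
    (continuous_rho' ε) (g := fun p : V × V => M p * φ (p.2 + p.1))
    (hM.mul (hφ.comp contDiff_transl)).contDiffOn isOpen_univ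
      fun u _ t _ => mem_univ _).congr fun u _ => ?_
  rw [setIntegral_rho hε le_rfl, scaledAvg_transl]
  simp [smul_eq_mul, mul_assoc]

lemma contDiff_dirs {f : V → ℝ} (hf : ContDiff ℝ ∞ f) :
    ∀ l : List (Fin 4), ContDiff ℝ ∞ (Param.dirs l f)
  | [] => hf
  | _ :: l => ((contDiff_dirs hf l).fderiv_right (m := ∞) (by simp)).clm_apply contDiff_const

/-- The scalar bound, with derivatives taken. -/
lemma exists_dirs_psq {K K' : Set V} (hK : IsCompact K) (hK' : IsCompact K')
    (hKK' : K ⊆ interior K') {M : V × V → ℝ} (hM : ContDiff ℝ ∞ M) {m : ℕ}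
    (hm : m = 0 ∨ m = 1 ∧ ∀ x, M (0, x) = 0) :
    ∃ e₀, 0 < e₀ ∧ ∀ (k : ℕ) (l : List (Fin 4)), ∃ C, 0 ≤ C ∧ ∀ ε, 0 < ε → ε ≤ e₀ →
      ∀ φ : V → ℝ, ContDiff ℝ ∞ φ →
        ∫ x in K, psq k ε (Param.dirs l
            (Param.scaledAvg transl (bump.normed (volume : Measure V)) M ε φ)) x ≤
          C * (ε ^ ((m : ℤ) - l.length)) ^ 2 * ∫ z in K', φ z ^ 2 := by
  obtain ⟨e₀, he₀, hb⟩ := Param.exists_avg_bound contDiff_transl hK hK' hKK' isOpen_univ
    (subset_univ _) (fun x _ => by simp [transl]) (fun x _ => dPar_transl x) (bump.contDiff_normed (μ := (volume : Measure V)))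
    (bump.hasCompactSupport_normed (μ := (volume : Measure V))) hM (m := (m : ℤ)) (by
      rcases hm with h | ⟨h, h'⟩
      · exact Or.inl (by simp [h])
      · exact Or.inr ⟨by simp [h], fun x _ => h' x⟩)
  refine ⟨e₀, he₀, fun k => ?_⟩
  induction k with
  | zero =>
    intro l
    obtain ⟨C, hC, h⟩ := hb l
    refine ⟨C, hC, fun ε hε hεe φ hφ => ?_⟩
    simpa [psq, Real.norm_eq_abs, sq_abs] using (h ε hε hεe φ (hφ.of_le (by simp))).1
  | succ k ih =>
    intro l
    obtain ⟨C, hC, h⟩ := ih l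
    choose C' hC' h' using fun i : Fin 4 => ih (i :: l)
    refine ⟨C + ∑ i, C' i, add_nonneg hC (Finset.sum_nonneg fun i _ => hC' i),
      fun ε hε hεe φ hφ => ?_⟩
    set f := Param.dirs l (Param.scaledAvg transl (bump.normed (volume : Measure V)) M ε φ)
    have hf : ContDiff ℝ ∞ f := contDiff_dirs (contDiff_scaledAvg hM hε hφ) l
    have hint : ∀ g : V → ℝ, ContDiff ℝ ∞ g → IntegrableOn (psq k ε g) K := fun g hg =>
      ((continuousOn_psq k ε isOpen_univ g hg.contDiffOn).mono (subset_univ _)).integrableOn_compact hK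
    have hpd : ∀ i, ContDiff ℝ ∞ (pd i f) := fun i =>
      (hf.fderiv_right (m := ∞) (by simp)).clm_apply contDiff_const
    show ∫ x in K, (psq k ε f x + ε ^ 2 * ∑ i, psq k ε (pd i f) x) ≤ _
    rw [integral_add (hint f hf)
        ((integrable_finsetSum _ fun i _ => hint _ (hpd i)).const_mul _),
      integral_const_mul, integral_finsetSum _ fun i _ => hint _ (hpd i), add_mul, add_mul]
    refine add_le_add (h ε hε hεe φ hφ) ?_
    rw [Finset.sum_mul, Finset.sum_mul, Finset.mul_sum]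
    refine Finset.sum_le_sum fun i _ => ?_
    refine (mul_le_mul_of_nonneg_left (h' i ε hε hεe φ hφ) (sq_nonneg ε)).trans (le_of_eq ?_)
    have e : ε ^ ((m : ℤ) - ((i :: l).length : ℕ)) = ε ^ ((m : ℤ) - l.length) * ε⁻¹ := by
      rw [← zpow_neg_one, ← zpow_add₀ hε.ne']
      congr 1
      simp only [List.length_cons]
      push_cast
      ring
    rw [e]
    field_simp

/-- An average over translations gains all derivatives, and a power of `ε` if the coefficient
vanishes at `t = 0`. -/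
theorem exists_gain {M : V × V → Form →L[ℝ] Form} {W : Set (V × V)} (hW : IsOpen W)
    (hM : ContDiffOn ℝ ∞ M W) {K K' : Set V} (hK : IsCompact K) (hK' : IsCompact K')
    (hKK' : K ⊆ interior K') (hK'W : ∀ u ∈ K', ((0 : V), u) ∈ W) {m : ℕ}
    (hm : m = 0 ∨ m = 1 ∧ ∀ u, ((0 : V), u) ∈ W → M (0, u) = 0) :
    ∃ ε₁, 0 < ε₁ ∧ ∀ k : ℕ, ∃ C, 0 ≤ C ∧ ∀ ε, 0 < ε → ε ≤ ε₁ →
      ∀ (β : V → Form) (U : Set V), IsOpen U → K' ⊆ U → ContDiffOn ℝ ∞ β U →
        ∫ u in K, psq k ε (stepOp transl M ε β) u ≤ C * (ε ^ m) ^ 2 * ∫ z in K', ‖β z‖ ^ 2 := by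
  obtain ⟨δ, hδ, O, hO, hK'O, hsub⟩ := exists_prod_subset hW hK' hK'W
  obtain ⟨θ, hθ, hθc, hθW, -, hθ1⟩ := Param.exists_cut
    ((isCompact_closedBall (0 : V) (δ / 2)).prod hK') hW fun p hp => hsub
      ⟨Metric.closedBall_subset_closedBall (by linarith) hp.1, hK'O hp.2⟩
  -- the extended scalar coefficients
  set Mc : Fin 6 → Fin 6 → V × V → ℝ := fun c e p => θ p * M p (EuclideanSpace.single e 1) c
  have hMc : ∀ c e, ContDiff ℝ ∞ (Mc c e) := fun c e => contDiff_iff_contDiffAt.2 fun p => by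
    by_cases hp : p ∈ tsupport θ
    · exact hθ.contDiffAt.mul ((((EuclideanSpace.proj c : Form →L[ℝ] ℝ).contDiff).comp_contDiffOn
        (hM.clm_apply (contDiffOn_const (c := EuclideanSpace.single e (1 : ℝ))))).contDiffAt
          (hW.mem_nhds (hθW hp)))
    · refine (contDiffAt_const (c := (0 : ℝ))).congr_of_eventuallyEq ?_
      filter_upwards [notMem_tsupport_iff_eventuallyEq.1 hp] with q hq
      simp [Mc, hq]
  have hMc0 : ∀ c e, m = 0 ∨ m = 1 ∧ ∀ x, Mc c e (0, x) = 0 := fun c e => by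
    rcases hm with h | ⟨h, h'⟩
    · exact Or.inl h
    · refine Or.inr ⟨h, fun x => ?_⟩
      by_cases hx : ((0 : V), x) ∈ tsupport θ
      · simp [Mc, h' x (hθW hx)]
      · simp [Mc, image_eq_zero_of_notMem_tsupport hx]
  choose e₀ he₀ hbd using fun c e => exists_dirs_psq hK hK' hKK' (hMc c e) (hMc0 c e)
  obtain ⟨δ', hδ', hmaps⟩ : ∃ δ' > 0, ∀ t : V, ‖t‖ ≤ δ' → ∀ u ∈ K, u + t ∈ interior K' := by
    obtain ⟨r, hr, hsub'⟩ := hK.exists_cthickening_subset_open isOpen_interior hKK'
    refine ⟨r, hr, fun t ht u hu => hsub' (Metric.mem_cthickening_of_dist_le _ u r K hu ?_)⟩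
    simpa [dist_eq_norm] using ht
  obtain ⟨O₁, hO₁, hKO₁, hO₁K'⟩ : ∃ O₁, IsOpen O₁ ∧ K ⊆ O₁ ∧ ∀ t : V, ‖t‖ ≤ δ' / 2 →
      ∀ u ∈ O₁, u + t ∈ interior K' ∧ u ∈ interior K' := by
    refine ⟨Metric.thickening (δ' / 2) K, Metric.isOpen_thickening,
      Metric.self_subset_thickening (by linarith) K, fun t ht u hu => ?_⟩
    obtain ⟨z, hz, hzu⟩ := Metric.mem_thickening_iff.1 hu
    rw [dist_eq_norm] at hzu
    have h1 := hmaps (u - z + t) ((norm_add_le _ _).trans (by linarith)) z hz
    have h2 := hmaps (u - z) (by linarith) z hz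
    exact ⟨by convert h1 using 1; abel, by convert h2 using 1; abel⟩
  set e₁ : ℝ := (Finset.univ : Finset (Fin 6 × Fin 6)).inf' Finset.univ_nonempty fun p => e₀ p.1 p.2
  have he₁ : 0 < e₁ := by simp [e₁, Finset.lt_inf'_iff, he₀]
  refine ⟨min e₁ (min (δ / 2) (δ' / 2)), lt_min he₁ (lt_min (by linarith) (by linarith)),
    fun k => ?_⟩
  choose C hC hC' using fun c e => hbd c e k []
  refine ⟨36 * ∑ c, ∑ e, C c e,
    mul_nonneg (by norm_num) (Finset.sum_nonneg fun c _ => Finset.sum_nonneg fun e _ => hC c e),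
    fun ε hε hεb β U hU hK'U hβ => ?_⟩
  obtain ⟨θ', hθ', -, hθ'U, -, hθ'1⟩ := Param.exists_cut hK' hU hK'U
  set φ : Fin 6 → V → ℝ := fun e z => θ' z * β z e
  have hφ : ∀ e, ContDiff ℝ ∞ (φ e) := fun e => contDiff_iff_contDiffAt.2 fun z => by
    by_cases hz : z ∈ tsupport θ'
    · exact hθ'.contDiffAt.mul ((((EuclideanSpace.proj e : Form →L[ℝ] ℝ).contDiff).comp_contDiffOn
        hβ).contDiffAt (hU.mem_nhds (hθ'U hz)))
    · refine (contDiffAt_const (c := (0 : ℝ))).congr_of_eventuallyEq ?_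
      filter_upwards [notMem_tsupport_iff_eventuallyEq.1 hz] with q hq
      simp [φ, hq]
  set I : Fin 6 → Fin 6 → V → ℝ := fun c e =>
    Param.scaledAvg transl (bump.normed (volume : Measure V)) (Mc c e) ε (φ e)
  set L : Fin 6 → ℝ →L[ℝ] Form := fun c =>
    (1 : ℝ →L[ℝ] ℝ).smulRight (EuclideanSpace.single c (1 : ℝ))
  have hI : ∀ c e, ContDiff ℝ ∞ (I c e) := fun c e => contDiff_scaledAvg (hMc c e) hε (hφ e)
  have hεδ' : ε ≤ δ' / 2 := hεb.trans ((min_le_right _ _).trans (min_le_right _ _))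
  have hεδ : ε ≤ δ / 2 := hεb.trans ((min_le_right _ _).trans (min_le_left _ _))
  have heq : ∀ u ∈ O₁, stepOp transl M ε β u = ∑ p : Fin 6 × Fin 6, L p.1 (I p.1 p.2 u) := by
    intro u hu
    set S := Metric.closedBall (0 : V) ε
    have hmem : ∀ t ∈ S, (t, u) ∈ W ∧ u + t ∈ K' ∧ θ (t, u) = 1 := fun t ht => by
      have ht' := mem_closedBall_zero_iff.1 ht
      obtain ⟨h1, h2⟩ := hO₁K' t (ht'.trans hεδ') u hu
      have hp : ((t, u) : V × V) ∈ Metric.closedBall (0 : V) (δ / 2) ×ˢ K' :=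
        ⟨mem_closedBall_zero_iff.2 (ht'.trans hεδ), interior_subset h2⟩
      exact ⟨hsub ⟨Metric.closedBall_subset_closedBall (by linarith) hp.1, hK'O hp.2⟩,
        interior_subset h1, hθ1.self_of_nhdsSet _ hp⟩
    set g : V → Form := fun t => M (t, u) (β (u + t))
    have hg : ContinuousOn g S := (hM.continuousOn.comp
      (by fun_prop : Continuous fun t : V => (t, u)).continuousOn fun t ht => (hmem t ht).1).clm_apply
        (hβ.continuousOn.comp (continuous_const.add continuous_id).continuousOn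
          fun t ht => hK'U (hmem t ht).2.1)
    have hi : IntegrableOn (fun t => rho ε t • g t) S :=
      ((continuous_rho' ε).continuousOn.smul hg).integrableOn_compact (isCompact_closedBall _ _)
    ext c
    have hsum : (∑ p : Fin 6 × Fin 6, L p.1 (I p.1 p.2 u)) c = ∑ e, I c e u := by
      rw [Fintype.sum_prod_type, Finset.sum_comm]
      simp [L, Finset.sum_apply, Pi.single_apply]
    rw [hsum]
    show (stepOp transl M ε β u) c = _
    rw [stepOp, ← setIntegral_rho hε le_rfl]
    show (EuclideanSpace.proj c : Form →L[ℝ] ℝ) (∫ t in S, rho ε t • g t) = _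
    rw [← ContinuousLinearMap.integral_comp_comm _ hi]
    have e1 : ∀ e, I c e u = ∫ t in S, rho ε t * (Mc c e (t, u) * φ e (u + t)) := fun e => by
      rw [show I c e u = ∫ t, rho ε t • (Mc c e (t, u) * φ e (u + t)) by
        simp only [I, scaledAvg_transl, smul_eq_mul, mul_assoc], ← setIntegral_rho hε le_rfl]
      rfl
    simp only [e1]
    rw [← integral_finsetSum]
    · refine setIntegral_congr_fun measurableSet_closedBall fun t ht => ?_
      obtain ⟨-, h2, h3⟩ := hmem t ht
      simp only [map_smul, smul_eq_mul, ← Finset.mul_sum, Mc, φ, h3, hθ'1.self_of_nhdsSet _ h2,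
        one_mul, g]
      congr 1
      have hrep : β (u + t) = ∑ e, β (u + t) e • EuclideanSpace.single e (1 : ℝ) := by
        ext j; simp [Finset.sum_apply, Pi.single_apply]
      conv_lhs => rw [hrep, map_sum, map_sum]
      exact Finset.sum_congr rfl fun e _ => by
        rw [map_smul, map_smul, smul_eq_mul, mul_comm]; rfl
    · intro e _
      exact ((continuous_rho' ε).mul (((hMc c e).continuous.comp (by fun_prop)).mul
        ((hφ e).continuous.comp (by fun_prop)))).continuousOn.integrableOn_compact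
          (isCompact_closedBall _ _)
  have hLI : ∀ p : Fin 6 × Fin 6, ContDiff ℝ ∞ fun u => L p.1 (I p.1 p.2 u) := fun p =>
    (L p.1).contDiff.comp (hI p.1 p.2)
  have hL : ∀ c, ‖L c‖ ^ 2 ≤ 1 := fun c => by simp [L, ContinuousLinearMap.norm_smulRight_apply]
  have hclm : ∀ (j : ℕ) (c : Fin 6) (f : V → ℝ), ContDiff ℝ ∞ f → ∀ u,
      psq j ε (fun v => L c (f v)) u ≤ psq j ε f u := by
    intro j c
    induction j with
    | zero =>
      intro f _ u
      simp only [psq]
      calc ‖L c (f u)‖ ^ 2 ≤ (‖L c‖ * ‖f u‖) ^ 2 :=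
            pow_le_pow_left₀ (norm_nonneg _) ((L c).le_opNorm _) 2
        _ ≤ ‖f u‖ ^ 2 := by rw [mul_pow]; exact mul_le_of_le_one_left (sq_nonneg _) (hL c)
    | succ j ihj =>
      intro f hf u
      have hpd : ∀ l, pd l (fun v => L c (f v)) = fun v => L c (pd l f v) := fun l => funext fun v => by
        simp only [pd]
        rw [show fderiv ℝ (fun v => L c (f v)) v = _ from
          ((L c).hasFDerivAt.comp v (hf.differentiable (by simp) v).hasFDerivAt).fderiv]
        rfl
      simp only [psq, hpd]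
      exact add_le_add (ihj f hf u) (mul_le_mul_of_nonneg_left (Finset.sum_le_sum fun l _ =>
        ihj (pd l f) ((hf.fderiv_right (m := ∞) (by simp)).clm_apply contDiff_const) u) (sq_nonneg ε))
  have hint : ∀ c e, IntegrableOn (psq k ε (I c e)) K := fun c e =>
    ((continuousOn_psq k ε isOpen_univ _ (hI c e).contDiffOn).mono
      (subset_univ _)).integrableOn_compact hK
  have hintP : ∀ p ∈ (Finset.univ : Finset (Fin 6 × Fin 6)),
      Integrable (fun u => psq k ε (I p.1 p.2) u) (volume.restrict K) := fun p _ => hint p.1 p.2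
  calc ∫ u in K, psq k ε (stepOp transl M ε β) u
      ≤ ∫ u in K, 36 * ∑ p : Fin 6 × Fin 6, psq k ε (I p.1 p.2) u := by
        refine integral_mono_of_nonneg (Eventually.of_forall fun u => psq_nonneg _ _ _ _)
          ((integrable_finsetSum _ hintP).const_mul _) ?_
        filter_upwards [ae_restrict_mem hK.measurableSet] with u hu
        rw [psq_congr k ε (g := fun v => ∑ p : Fin 6 × Fin 6, L p.1 (I p.1 p.2 v))
          (by filter_upwards [hO₁.mem_nhds (hKO₁ hu)] with v hv using heq v hv)]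
        refine (psq_sum_le k ε isOpen_univ Finset.univ _ (fun p _ => (hLI p).contDiffOn) u
          (mem_univ u)).trans ?_
        simp only [Finset.card_univ, Fintype.card_prod, Fintype.card_fin]
        norm_num
        exact Finset.sum_le_sum fun p _ => hclm k p.1 _ (hI p.1 p.2) u
    _ = 36 * ∑ p : Fin 6 × Fin 6, ∫ u in K, psq k ε (I p.1 p.2) u := by
        rw [integral_const_mul, integral_finsetSum _ hintP]
    _ ≤ 36 * ∑ p : Fin 6 × Fin 6, C p.1 p.2 * (ε ^ m) ^ 2 * ∫ z in K', ‖β z‖ ^ 2 := by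
        refine mul_le_mul_of_nonneg_left (Finset.sum_le_sum fun p _ => ?_) (by norm_num)
        have hp : e₁ ≤ e₀ p.1 p.2 := Finset.inf'_le _ (Finset.mem_univ p)
        refine (hC' p.1 p.2 ε hε ((hεb.trans (min_le_left _ _)).trans hp) _ (hφ p.2)).trans ?_
        simp only [List.length_nil, Nat.cast_zero, sub_zero, zpow_natCast]
        refine mul_le_mul_of_nonneg_left (setIntegral_mono_on
          (((hφ p.2).continuous.pow 2).continuousOn.integrableOn_compact hK')
          (((hβ.continuousOn.mono hK'U).norm.pow 2).integrableOn_compact hK') hK'.measurableSet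
            fun z hz => ?_) (mul_nonneg (hC _ _) (sq_nonneg _))
        simp only [φ, hθ'1.self_of_nhdsSet z hz, one_mul]
        rw [EuclideanSpace.norm_sq_eq]
        exact (le_of_eq (by rw [Real.norm_eq_abs, sq_abs])).trans (Finset.single_le_sum
          (f := fun j => ‖β z j‖ ^ 2) (fun j _ => sq_nonneg _) (Finset.mem_univ p.2))
    _ = 36 * (∑ c, ∑ e, C c e) * (ε ^ m) ^ 2 * ∫ z in K', ‖β z‖ ^ 2 := by
        simp only [← Finset.sum_mul, Fintype.sum_prod_type]
        ring

end Vale.Agent.P204.Gen
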