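import Vale.Agent.P204.Gen.RegStep

/-!
P204 on a closed four-manifold, module RegEst: compositions of averages, from the local estimates of
one average to the estimates in the norms `sob`.
-/

open MeasureTheory Set Filter Topology
open scoped ContDiff

namespace Vale.Agent.P204.Gen

open Vale.Agent.P204.Torus

lemma exists_pos_le_all {ι : Type*} [Fintype ι] (e : ι → ℝ) (he : ∀ i, 0 < e i) :
    ∃ m, 0 < m ∧ ∀ i, m ≤ e i := by
  classical
  suffices h : ∀ s : Finset ι, ∃ m, 0 < m ∧ ∀ i ∈ s, m ≤ e i by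
    obtain ⟨m, hm, hle⟩ := h Finset.univ
    exact ⟨m, hm, fun i => hle i (Finset.mem_univ i)⟩
  intro s
  induction s using Finset.induction with
  | empty => exact ⟨1, one_pos, by simp⟩
  | insert a s _ ih =>
    obtain ⟨m, hm, hle⟩ := ih
    exact ⟨min m (e a), lt_min hm (he a), fun i hi => by
      rcases Finset.mem_insert.1 hi with rfl | hi
      · exact min_le_right _ _
      · exact (min_le_left _ _).trans (hle i hi)⟩

namespace Geo

variable {X : Type*} [TopologicalSpace X] [MeasurableSpace X] [BorelSpace X] [T2Space X]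
  [CompactSpace X] {G : Geo X}

/-- A composition of averages. -/
noncomputable def run (G : Geo X) (ε : ℝ) (l : List (Fin G.n × (V → V → V))) (α : X → Form) :
    X → Form :=
  l.foldr (fun p β => G.avP p.1 p.2 ε β) α

omit [BorelSpace X] [T2Space X] [CompactSpace X] in
lemma run_cons (ε : ℝ) (p : Fin G.n × (V → V → V)) (l : List (Fin G.n × (V → V → V)))
    (α : X → Form) : G.run ε (p :: l) α = G.avP p.1 p.2 ε (G.run ε l α) := rfl

omit [BorelSpace X] [T2Space X] [CompactSpace X] in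
lemma run_append (ε : ℝ) (l₁ l₂ : List (Fin G.n × (V → V → V))) (α : X → Form) :
    G.run ε (l₁ ++ l₂) α = G.run ε l₁ (G.run ε l₂ α) := List.foldr_append

/-- A list of displacements around the identity. -/
def Good (G : Geo X) (r : ℝ) (l : List (Fin G.n × (V → V → V))) : Prop :=
  ∀ p ∈ l, G.NearId p.1 p.2 r

variable {r ε : ℝ} {l : List (Fin G.n × (V → V → V))}

omit [BorelSpace X] [CompactSpace X] in
lemma Good.smooth (hl : G.Good r l) (hε : 0 < ε) (hεr : ε < r) {α : X → Form}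
    (hα : G.Smooth2 α) : G.Smooth2 (G.run ε l α) := by
  induction l with
  | nil => exact hα
  | cons p l ih =>
    exact (hl p List.mem_cons_self).move.smooth2_avP (ih fun q hq => hl q (List.mem_cons_of_mem p hq))
      hε hεr

omit [BorelSpace X] [CompactSpace X] in
lemma Good.run_add (hl : G.Good r l) (hε : 0 < ε) (hεr : ε < r) {α β : X → Form}
    (hα : G.Smooth2 α) (hβ : G.Smooth2 β) :
    G.run ε l (α + β) = G.run ε l α + G.run ε l β := by
  induction l with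
  | nil => rfl
  | cons p l ih =>
    have hl' : G.Good r l := fun q hq => hl q (List.mem_cons_of_mem p hq)
    rw [run_cons, ih hl', (hl p List.mem_cons_self).move.avP_add (hl'.smooth hε hεr hα)
      (hl'.smooth hε hεr hβ) hε hεr]
    rfl

omit [BorelSpace X] [T2Space X] [CompactSpace X] in
lemma run_smul (c : ℝ) (α : X → Form) : G.run ε l (c • α) = c • G.run ε l α := by
  induction l with
  | nil => rfl
  | cons p l ih => rw [run_cons, ih, Move.avP_smul]; rfl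

omit [BorelSpace X] [CompactSpace X] in
lemma Good.run_sub (hl : G.Good r l) (hε : 0 < ε) (hεr : ε < r) {α β : X → Form}
    (hα : G.Smooth2 α) (hβ : G.Smooth2 β) :
    G.run ε l (α - β) = G.run ε l α - G.run ε l β := by
  rw [sub_eq_add_neg, ← neg_one_smul ℝ β, hl.run_add hε hεr hα (hβ.smul _), run_smul, neg_one_smul,
    ← sub_eq_add_neg]

omit [BorelSpace X] [T2Space X] [CompactSpace X] in
lemma lsq_add_le {α β : X → Form} (hα : G.Smooth2 α) (hβ : G.Smooth2 β) (j : ℕ) (s : ℝ)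
    {k : Fin G.n} {K : Set V} (hK : IsCompact K) (hKk : K ⊆ (G.φ k).target) :
    G.lsq j s k K (α + β) ≤ 2 * (G.lsq j s k K α + G.lsq j s k K β) := by
  simp only [lsq]
  rw [← integral_add (integrableOn_psq_rep2 hα j s hK hKk) (integrableOn_psq_rep2 hβ j s hK hKk),
    ← integral_const_mul]
  refine setIntegral_mono_on (integrableOn_psq_rep2 (hα.add hβ) j s hK hKk)
    (((integrableOn_psq_rep2 hα j s hK hKk).add (integrableOn_psq_rep2 hβ j s hK hKk)).const_mul _)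
    hK.measurableSet fun u hu => ?_
  rw [G.rep2_add]
  exact psq_add_le j s (G.φ k).open_target (hα k) (hβ k) (hKk hu)

omit [BorelSpace X] [CompactSpace X] in
/-- Compositions of averages are bounded on the local norms. -/
theorem Good.exists_bound (hl : G.Good r l) (hr : 0 < r) (k : Fin G.n) :
    ∀ K K' : Set V, IsCompact K → IsCompact K' → K ⊆ interior K' → K' ⊆ (G.φ k).target →
      ∃ ε₁, 0 < ε₁ ∧ ∀ j : ℕ, ∃ C, 0 ≤ C ∧ ∀ ε, 0 < ε → ε ≤ ε₁ → ∀ s : ℝ, 0 ≤ s → s ≤ 1 →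
        ∀ α, G.Smooth2 α → G.lsq j s k K (G.run ε l α) ≤ C * G.lsq j s k K' α := by
  induction l with
  | nil =>
    intro K K' _ hK' hKK' hK'k
    exact ⟨1, one_pos, fun j => ⟨1, zero_le_one, fun ε _ _ s _ _ α hα =>
      (lsq_mono hα j s hK' hK'k (hKK'.trans interior_subset)).trans_eq (one_mul _).symm⟩⟩
  | cons p l ih =>
    intro K K' hK hK' hKK' hK'k
    have hl' : G.Good r l := fun q hq => hl q (List.mem_cons_of_mem p hq)
    obtain ⟨K₁, hK₁, hKK₁, hK₁K'⟩ := exists_compact_between hK isOpen_interior hKK'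
    obtain ⟨e₁, he₁, h₁⟩ := (hl p List.mem_cons_self).exists_bound hK hK₁ hKK₁
      ((hK₁K'.trans interior_subset).trans hK'k)
    obtain ⟨e₂, he₂, h₂⟩ := ih hl' K₁ K' hK₁ hK' hK₁K' hK'k
    refine ⟨min (r / 2) (min e₁ e₂), lt_min (half_pos hr) (lt_min he₁ he₂), fun j => ?_⟩
    obtain ⟨C₁, hC₁, h₁⟩ := h₁ j
    obtain ⟨C₂, hC₂, h₂⟩ := h₂ j
    refine ⟨C₁ * C₂, mul_nonneg hC₁ hC₂, fun ε hε hεle s hs hs1 α hα => ?_⟩
    have hεr : ε < r := (hεle.trans (min_le_left _ _)).trans_lt (half_lt_self hr)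
    rw [run_cons, mul_assoc]
    exact (h₁ ε hε (hεle.trans ((min_le_right _ _).trans (min_le_left _ _))) s hs hs1 _
      (hl'.smooth hε hεr hα)).trans (mul_le_mul_of_nonneg_left
        (h₂ ε hε (hεle.trans ((min_le_right _ _).trans (min_le_right _ _))) s hs hs1 α hα) hC₁)

/-- The commutator of a composition of averages with a field of endomorphisms. -/
noncomputable def com (G : Geo X) (F : X → Form →L[ℝ] Form) (ε : ℝ)
    (l : List (Fin G.n × (V → V → V))) (α : X → Form) : X → Form :=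
  (fun x => F x (G.run ε l α x)) - G.run ε l fun x => F x (α x)

omit [BorelSpace X] [CompactSpace X] in
lemma Good.smooth_com (hl : G.Good r l) {F : X → Form →L[ℝ] Form} (hF : G.SmoothOp F) (hε : 0 < ε)
    (hεr : ε < r) {α : X → Form} (hα : G.Smooth2 α) : G.Smooth2 (G.com F ε l α) :=
  (hF.apply (hl.smooth hε hεr hα)).sub (hl.smooth hε hεr (hF.apply hα))

omit [BorelSpace X] [CompactSpace X] in
lemma Good.com_cons {p : Fin G.n × (V → V → V)} (hp : G.NearId p.1 p.2 r) (hl : G.Good r l)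
    {F : X → Form →L[ℝ] Form} (hF : G.SmoothOp F) (hε : 0 < ε) (hεr : ε < r) {α : X → Form}
    (hα : G.Smooth2 α) :
    G.com F ε (p :: l) α = G.com F ε [p] (G.run ε l α) + G.avP p.1 p.2 ε (G.com F ε l α) := by
  have hp' : G.Good r [p] := fun q hq => by rw [List.mem_singleton.1 hq]; exact hp
  have h := hp'.run_sub hε hεr (hF.apply (hl.smooth hε hεr hα)) (hl.smooth hε hεr (hF.apply hα))
  simp only [com, run, List.foldr_cons, List.foldr_nil] at h ⊢
  rw [h]
  abel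

omit [BorelSpace X] [CompactSpace X] in
/-- The commutators are of order `ε` on the local norms. -/
theorem Good.exists_com (hl : G.Good r l) (hr : 0 < r) {F : X → Form →L[ℝ] Form}
    (hF : G.SmoothOp F) (k : Fin G.n) :
    ∀ K K' : Set V, IsCompact K → IsCompact K' → K ⊆ interior K' → K' ⊆ (G.φ k).target →
      ∃ ε₁, 0 < ε₁ ∧ ∀ j : ℕ, ∃ C, 0 ≤ C ∧ ∀ ε, 0 < ε → ε ≤ ε₁ → ∀ s : ℝ, 0 ≤ s → s ≤ 1 →
        ∀ α, G.Smooth2 α → G.lsq j s k K (G.com F ε l α) ≤ C * ε ^ 2 * G.lsq j s k K' α := by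
  induction l with
  | nil =>
    intro K K' _ _ _ _
    refine ⟨1, one_pos, fun j => ⟨0, le_rfl, fun ε _ _ s _ _ α _ => ?_⟩⟩
    have h0 : G.com F ε [] α = 0 := by simp [com, run]
    rw [h0, zero_mul, zero_mul, lsq]
    refine le_of_eq (integral_eq_zero_of_ae (Eventually.of_forall fun u => ?_))
    exact psq_eq_zero_of_notMem j s (by simp [G.rep2_zero, tsupport])
  | cons p l ih =>
    intro K K' hK hK' hKK' hK'k
    have hl' : G.Good r l := fun q hq => hl q (List.mem_cons_of_mem p hq)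
    have hp : G.NearId p.1 p.2 r := hl p List.mem_cons_self
    have hp' : G.Good r [p] := fun q hq => by rw [List.mem_singleton.1 hq]; exact hp
    obtain ⟨K₁, hK₁, hKK₁, hK₁K'⟩ := exists_compact_between hK isOpen_interior hKK'
    have hK₁k := (hK₁K'.trans interior_subset).trans hK'k
    have hKk := (hKK₁.trans interior_subset).trans hK₁k
    obtain ⟨e₁, he₁, h₁⟩ := hp.exists_comm hK hK₁ hKK₁ hK₁k hF
    obtain ⟨e₂, he₂, h₂⟩ := hl'.exists_bound hr k K₁ K' hK₁ hK' hK₁K' hK'k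
    obtain ⟨e₃, he₃, h₃⟩ := hp.exists_bound hK hK₁ hKK₁ hK₁k
    obtain ⟨e₄, he₄, h₄⟩ := ih hl' K₁ K' hK₁ hK' hK₁K' hK'k
    refine ⟨min (r / 2) (min (min e₁ e₂) (min e₃ e₄)),
      lt_min (half_pos hr) (lt_min (lt_min he₁ he₂) (lt_min he₃ he₄)), fun j => ?_⟩
    obtain ⟨C₁, hC₁, h₁⟩ := h₁ j
    obtain ⟨C₂, hC₂, h₂⟩ := h₂ j
    obtain ⟨C₃, hC₃, h₃⟩ := h₃ j
    obtain ⟨C₄, hC₄, h₄⟩ := h₄ j
    refine ⟨2 * (C₁ * C₂ + C₃ * C₄), by positivity, fun ε hε hεle s hs hs1 α hα => ?_⟩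
    have hεr : ε < r := (hεle.trans (min_le_left _ _)).trans_lt (half_lt_self hr)
    have h12 := hεle.trans ((min_le_right _ _).trans (min_le_left _ _))
    have h34 := hεle.trans ((min_le_right _ _).trans (min_le_right _ _))
    have hsm := hl'.smooth hε hεr hα
    have hsc := hl'.smooth_com hF hε hεr hα
    rw [hl'.com_cons hp hF hε hεr hα]
    refine (lsq_add_le (hp'.smooth_com hF hε hεr hsm) (hp.move.smooth2_avP hsc hε hεr) j s hK
      hKk).trans ?_
    have b₁ : G.lsq j s k K (G.com F ε [p] (G.run ε l α)) ≤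
        C₁ * ε ^ 2 * (C₂ * G.lsq j s k K' α) :=
      (h₁ ε hε (h12.trans (min_le_left _ _)) s hs hs1 _ hsm).trans (mul_le_mul_of_nonneg_left
        (h₂ ε hε (h12.trans (min_le_right _ _)) s hs hs1 α hα) (by positivity))
    have b₂ : G.lsq j s k K (G.avP p.1 p.2 ε (G.com F ε l α)) ≤
        C₃ * (C₄ * ε ^ 2 * G.lsq j s k K' α) :=
      (h₃ ε hε (h34.trans (min_le_left _ _)) s hs hs1 _ hsc).trans (mul_le_mul_of_nonneg_left
        (h₄ ε hε (h34.trans (min_le_right _ _)) s hs hs1 α hα) hC₃)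
    exact (mul_le_mul_of_nonneg_left (add_le_add b₁ b₂) two_pos.le).trans (le_of_eq (by ring))

omit [BorelSpace X] in
/-- From bounds on the supports of the partition of unity to a bound of the norm. -/
theorem exists_sob_of_lsq (G : Geo X) (j : ℕ) (C : Fin G.n → ℝ) :
    ∃ C₀, 0 ≤ C₀ ∧ ∀ s : ℝ, 0 ≤ s → s ≤ 1 → ∀ α, G.Smooth2 α → ∀ B, 0 ≤ B →
      (∀ k, G.lsq j s k (G.psiSet k) α ≤ C k * B ^ 2) → G.sob j s α ≤ C₀ * B := by
  obtain ⟨A, hA, h⟩ := G.exists_sob_le_lsq j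
  refine ⟨Real.sqrt (A * ∑ k, |C k|), Real.sqrt_nonneg _, fun s hs hs1 α hα B hB hb => ?_⟩
  rw [sob, ← Real.sqrt_sq hB, ← Real.sqrt_mul (mul_nonneg hA (Finset.sum_nonneg fun k _ => abs_nonneg _))]
  refine Real.sqrt_le_sqrt ?_
  rw [← sob_sq, mul_assoc, Finset.sum_mul]
  exact (h s hs hs1 α hα).trans (mul_le_mul_of_nonneg_left (Finset.sum_le_sum fun k _ =>
    (hb k).trans (mul_le_mul_of_nonneg_right (le_abs_self _) (sq_nonneg B))) hA)

omit [BorelSpace X] in
/-- An estimate between nested compact parts of the charts gives one in the norms `sob`. -/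
theorem exists_sob_of_local (G : Geo X) (T : ℝ → (X → Form) → X → Form) (r : ℝ) (hr : 0 < r)
    (hT : ∀ ε, 0 < ε → ε < r → ∀ α, G.Smooth2 α → G.Smooth2 (T ε α)) (c : ℝ → ℝ)
    (hc : ∀ ε, 0 < ε → 0 ≤ c ε) (d : ℕ) (S : Set ℝ) (hS : ∀ s ∈ S, 0 ≤ s ∧ s ≤ 1)
    (h : ∀ k K K', IsCompact K → IsCompact K' → K ⊆ interior K' → K' ⊆ (G.φ k).target →
      ∃ ε₁, 0 < ε₁ ∧ ∀ j : ℕ, ∃ C, 0 ≤ C ∧ ∀ ε, 0 < ε → ε ≤ ε₁ → ∀ s ∈ S, ∀ α, G.Smooth2 α →
        G.lsq j s k K (T ε α) ≤ C * c ε ^ 2 * G.lsq (j + d) s k K' α) :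
    ∃ ε₁, 0 < ε₁ ∧ ∀ j : ℕ, ∃ C, 0 ≤ C ∧ ∀ ε, 0 < ε → ε ≤ ε₁ → ∀ s ∈ S, ∀ α, G.Smooth2 α →
      G.sob j s (T ε α) ≤ C * c ε * G.sob (j + d) s α := by
  choose K' hK' hKK' hK'k using fun k : Fin G.n =>
    exists_compact_between (G.isCompact_psiSet k) (G.φ k).open_target (G.psiSet_subset k)
  choose e he h using fun k => h k (G.psiSet k) (K' k) (G.isCompact_psiSet k) (hK' k) (hKK' k) (hK'k k)
  obtain ⟨m, hm, hme⟩ := exists_pos_le_all e he
  refine ⟨min (r / 2) m, lt_min (half_pos hr) hm, fun j => ?_⟩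
  choose C hC h using fun k => h k j
  choose A hA hA' using fun k => G.exists_lsq_le_sob (j + d) k (hK' k) (hK'k k)
  obtain ⟨C₀, hC₀, h₀⟩ := G.exists_sob_of_lsq j fun k => C k * A k
  refine ⟨C₀, hC₀, fun ε hε hεle s hsS α hα => ?_⟩
  obtain ⟨hs, hs1⟩ := hS s hsS
  rw [mul_assoc]
  refine h₀ s hs hs1 _ (hT ε hε ((hεle.trans (min_le_left _ _)).trans_lt (half_lt_self hr)) α hα) _
    (mul_nonneg (hc ε hε) (sob_nonneg' _ _ _)) fun k => ?_
  refine (h k ε hε ((hεle.trans (min_le_right _ _)).trans (hme k)) s hsS α hα).trans ?_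
  calc C k * c ε ^ 2 * G.lsq (j + d) s k (K' k) α
      ≤ C k * c ε ^ 2 * (A k * G.sob (j + d) s α ^ 2) :=
        mul_le_mul_of_nonneg_left (hA' k s hs hs1 α hα) (mul_nonneg (hC k) (sq_nonneg _))
    _ = _ := by ring

omit [BorelSpace X] in
/-- Compositions of averages are bounded. -/
theorem Good.exists_sob_bound (hl : G.Good r l) (hr : 0 < r) :
    ∃ ε₁, 0 < ε₁ ∧ ∀ j : ℕ, ∃ C, 0 ≤ C ∧ ∀ ε, 0 < ε → ε ≤ ε₁ → ∀ s ∈ Icc (0 : ℝ) 1,
      ∀ α, G.Smooth2 α → G.sob j s (G.run ε l α) ≤ C * 1 * G.sob (j + 0) s α := by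
  refine G.exists_sob_of_local (fun ε => G.run ε l) r hr (fun ε hε hεr α hα => hl.smooth hε hεr hα)
    (fun _ => 1) (fun _ _ => zero_le_one) 0 (Icc 0 1) (fun s hs => hs) fun k K K' hK hK' hKK' hK'k => ?_
  obtain ⟨e, he, h⟩ := hl.exists_bound hr k K K' hK hK' hKK' hK'k
  refine ⟨e, he, fun j => ?_⟩
  obtain ⟨C, hC, h⟩ := h j
  exact ⟨C, hC, fun ε hε hεe s hs α hα => by simpa using h ε hε hεe s hs.1 hs.2 α hα⟩

omit [BorelSpace X] in
/-- The commutators are of order `ε`. -/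
theorem Good.exists_sob_com (hl : G.Good r l) (hr : 0 < r) {F : X → Form →L[ℝ] Form}
    (hF : G.SmoothOp F) :
    ∃ ε₁, 0 < ε₁ ∧ ∀ j : ℕ, ∃ C, 0 ≤ C ∧ ∀ ε, 0 < ε → ε ≤ ε₁ → ∀ s ∈ Icc (0 : ℝ) 1,
      ∀ α, G.Smooth2 α → G.sob j s (G.com F ε l α) ≤ C * ε * G.sob (j + 0) s α := by
  refine G.exists_sob_of_local (fun ε => G.com F ε l) r hr
    (fun ε hε hεr α hα => hl.smooth_com hF hε hεr hα) (fun ε => ε) (fun _ hε => hε.le) 0 (Icc 0 1)
    (fun s hs => hs) fun k K K' hK hK' hKK' hK'k => ?_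
  obtain ⟨e, he, h⟩ := hl.exists_com hr hF k K K' hK hK' hKK' hK'k
  refine ⟨e, he, fun j => ?_⟩
  obtain ⟨C, hC, h⟩ := h j
  exact ⟨C, hC, fun ε hε hεe s hs α hα => h ε hε hεe s hs.1 hs.2 α hα⟩

omit [BorelSpace X] in
/-- Compositions of averages differ from the identity by one derivative. -/
theorem Good.exists_sob_diff (hl : G.Good r l) (hr : 0 < r) :
    ∃ ε₁, 0 < ε₁ ∧ ∀ j : ℕ, ∃ C, 0 ≤ C ∧ ∀ ε, 0 < ε → ε ≤ ε₁ → ∀ α, G.Smooth2 α →
      G.sob j 1 (G.run ε l α - α) ≤ C * ε * G.sob (j + 1) 1 α := by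
  induction l with
  | nil =>
    refine ⟨1, one_pos, fun j => ⟨0, le_rfl, fun ε _ _ α _ => ?_⟩⟩
    have h0 : G.sob j 1 (0 : X → Form) = 0 := by
      have h := sob_smul_eq (G := G) j 1 0 (0 : X → Form) fun i => G.smooth_locF i smooth2_zero
      simpa using h
    simp [run, h0]
  | cons p l ih =>
    have hl' : G.Good r l := fun q hq => hl q (List.mem_cons_of_mem p hq)
    have hp : G.NearId p.1 p.2 r := hl p List.mem_cons_self
    obtain ⟨e₁, he₁, h₁⟩ := G.exists_sob_of_local (fun ε β => G.avP p.1 p.2 ε β - β) r hr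
      (fun ε hε hεr α hα => (hp.move.smooth2_avP hα hε hεr).sub hα) (fun ε => ε) (fun _ hε => hε.le)
      1 {1} (fun s hs => by rw [Set.mem_singleton_iff.1 hs]; exact ⟨zero_le_one, le_rfl⟩)
      fun k K K' hK hK' hKK' hK'k => by
        obtain ⟨e, he, h⟩ := hp.exists_diff (k := k) hK hK' hKK' hK'k
        refine ⟨e, he, fun j => ?_⟩
        obtain ⟨C, hC, h⟩ := h j
        exact ⟨C, hC, fun ε hε hεe s hs α hα => by
          rw [Set.mem_singleton_iff.1 hs]; exact h ε hε hεe α hα⟩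
    obtain ⟨e₂, he₂, h₂⟩ := hl'.exists_sob_bound hr
    obtain ⟨e₃, he₃, h₃⟩ := ih hl'
    refine ⟨min (r / 2) (min e₁ (min e₂ e₃)),
      lt_min (half_pos hr) (lt_min he₁ (lt_min he₂ he₃)), fun j => ?_⟩
    obtain ⟨C₁, hC₁, h₁⟩ := h₁ j
    obtain ⟨C₂, hC₂, h₂⟩ := h₂ (j + 1)
    obtain ⟨C₃, hC₃, h₃⟩ := h₃ j
    refine ⟨2 * (C₁ * C₂ + C₃), by positivity, fun ε hε hεle α hα => ?_⟩
    have hεr : ε < r := (hεle.trans (min_le_left _ _)).trans_lt (half_lt_self hr)
    have h23 := hεle.trans ((min_le_right _ _).trans (min_le_right _ _))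
    have hsm := hl'.smooth hε hεr hα
    have e0 : G.run ε (p :: l) α - α =
        (G.avP p.1 p.2 ε (G.run ε l α) - G.run ε l α) + (G.run ε l α - α) := by
      rw [run_cons]; abel
    rw [e0]
    refine (sob_add_le' j 1 ((hp.move.smooth2_avP hsm hε hεr).sub hsm) (hsm.sub hα)).trans ?_
    have b₁ : G.sob j 1 (G.avP p.1 p.2 ε (G.run ε l α) - G.run ε l α) ≤
        C₁ * ε * (C₂ * G.sob (j + 1) 1 α) :=
      (h₁ ε hε (hεle.trans ((min_le_right _ _).trans (min_le_left _ _))) 1 rfl _ hsm).trans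
        (mul_le_mul_of_nonneg_left (by
          simpa using h₂ ε hε (h23.trans (min_le_left _ _)) 1 ⟨zero_le_one, le_rfl⟩ α hα)
          (by positivity))
    exact (mul_le_mul_of_nonneg_left (add_le_add b₁ (h₃ ε hε (h23.trans (min_le_right _ _)) α hα))
      two_pos.le).trans (le_of_eq (by ring))

omit [BorelSpace X] in
/-- Compositions of averages are second order accurate on a smooth field. -/
theorem Good.exists_sob_near (hl : G.Good r l) (hr : 0 < r) {α : X → Form} (hα : G.Smooth2 α) :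
    ∃ C ε₁, 0 ≤ C ∧ 0 < ε₁ ∧ ∀ ε, 0 < ε → ε ≤ ε₁ →
      G.sob 0 1 (G.run ε l α - α) ≤ C * ε ^ 2 := by
  induction l with
  | nil =>
    refine ⟨0, 1, le_rfl, one_pos, fun ε _ _ => ?_⟩
    have h0 : G.sob 0 1 (0 : X → Form) = 0 := by
      have h := sob_smul_eq (G := G) 0 1 0 (0 : X → Form) fun i => G.smooth_locF i smooth2_zero
      simpa using h
    simp [run, h0]
  | cons p l ih =>
    have hl' : G.Good r l := fun q hq => hl q (List.mem_cons_of_mem p hq)
    have hp : G.NearId p.1 p.2 r := hl p List.mem_cons_self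
    have hp' : G.Good r [p] := fun q hq => by rw [List.mem_singleton.1 hq]; exact hp
    choose C e hC he hn using fun k : Fin G.n =>
      hp.exists_near (k := k) (G.isCompact_psiSet k) (G.psiSet_subset k) hα
    obtain ⟨m, hm, hme⟩ := exists_pos_le_all e he
    obtain ⟨C₀, hC₀, h₀⟩ := G.exists_sob_of_lsq 0 C
    obtain ⟨e₂, he₂, h₂⟩ := hp'.exists_sob_bound hr
    obtain ⟨C₂, hC₂, h₂⟩ := h₂ 0
    obtain ⟨C₃, e₃, hC₃, he₃, h₃⟩ := ih hl'
    refine ⟨2 * (C₂ * C₃ + C₀), min (r / 2) (min m (min e₂ e₃)), by positivity,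
      lt_min (half_pos hr) (lt_min hm (lt_min he₂ he₃)), fun ε hε hεle => ?_⟩
    have hεr : ε < r := (hεle.trans (min_le_left _ _)).trans_lt (half_lt_self hr)
    have hεm := hεle.trans (min_le_right _ _)
    have hsm := hl'.smooth hε hεr hα
    have e0 : G.run ε (p :: l) α - α =
        G.run ε [p] (G.run ε l α - α) + (G.avP p.1 p.2 ε α - α) := by
      rw [hp'.run_sub hε hεr hsm hα]
      simp only [run, List.foldr_cons, List.foldr_nil]
      abel
    rw [e0]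
    refine (sob_add_le' 0 1 (hp'.smooth hε hεr (hsm.sub hα))
      ((hp.move.smooth2_avP hα hε hεr).sub hα)).trans ?_
    have b₁ : G.sob 0 1 (G.run ε [p] (G.run ε l α - α)) ≤ C₂ * (C₃ * ε ^ 2) := by
      refine (h₂ ε hε (hεm.trans ((min_le_right _ _).trans (min_le_left _ _))) 1
        ⟨zero_le_one, le_rfl⟩ _ (hsm.sub hα)).trans ?_
      rw [mul_one]
      exact mul_le_mul_of_nonneg_left
        (h₃ ε hε (hεm.trans ((min_le_right _ _).trans (min_le_right _ _)))) hC₂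
    have b₂ : G.sob 0 1 (G.avP p.1 p.2 ε α - α) ≤ C₀ * ε ^ 2 :=
      h₀ 1 zero_le_one le_rfl _ ((hp.move.smooth2_avP hα hε hεr).sub hα) _ (sq_nonneg ε)
        fun k => hn k ε hε ((hεm.trans (min_le_left _ _)).trans (hme k))
    exact (mul_le_mul_of_nonneg_left (add_le_add b₁ b₂) two_pos.le).trans (le_of_eq (by ring))

end Geo

end Vale.Agent.P204.Gen
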