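import Vale.Agent.P204.Gen.Core
import Vale.Agent.P204.Gen.PointSob
import Vale.Agent.P204.Gen.AvgComm

/-!
P204 on a closed four-manifold, module RegEst: one averaging step in one chart.

`stepOp σ M ε β u = ∫ rho ε t • M (t, u) (β (σ (t, u))) dt`, with `σ (0, u) = u`. It is bounded on
every local semiclassical norm, differs from the identity by `O (ε)` with one derivative more and by
`O (ε²)` on smooth fields, and gains all derivatives when `σ (t, u) = u + t`.
-/

open MeasureTheory Set Filter Topology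
open scoped ContDiff

namespace Vale.Agent.P204.Gen

open Vale.Agent.P204.Torus

/-! ## The mollifier -/

lemma rho_nonneg' (ε : ℝ) (t : V) : 0 ≤ rho ε t :=
  mul_nonneg (by positivity) (bump.nonneg_normed _)

lemma continuous_rho' (ε : ℝ) : Continuous (rho ε) :=
  continuous_const.mul (bump.continuous_normed.comp (continuous_const_smul _))

lemma norm_lt_of_rho_ne {ε : ℝ} (hε : 0 < ε) {t : V} (h : rho ε t ≠ 0) : ‖t‖ < ε := by
  have h' : ε⁻¹ • t ∈ Function.support (bump.normed (volume : Measure V)) :=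
    fun h0 => h (by simp [rho, h0])
  rw [bump.support_normed_eq, mem_ball_zero_iff] at h'
  rw [norm_smul, norm_inv, Real.norm_eq_abs, abs_of_pos hε, inv_mul_lt_iff₀ hε] at h'
  simpa [bump] using h'

lemma rho_neg' (ε : ℝ) (t : V) : rho ε (-t) = rho ε t := by simp [rho, bump.normed_neg]

lemma integral_rho' {ε : ℝ} (hε : 0 < ε) : ∫ t, rho ε t = 1 := by
  simp only [rho]
  rw [integral_const_mul, Measure.integral_comp_inv_smul_of_nonneg volume _ hε.le, bump.integral_normed]
  simp [hε.ne']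

lemma setIntegral_rho {F : Type*} [NormedAddCommGroup F] [NormedSpace ℝ F] {ε δ : ℝ} (hε : 0 < ε)
    (hδ : ε ≤ δ) (g : V → F) :
    ∫ t in Metric.closedBall (0 : V) δ, rho ε t • g t = ∫ t, rho ε t • g t := by
  refine setIntegral_eq_integral_of_forall_compl_eq_zero fun t ht => ?_
  by_contra h
  have hne : rho ε t ≠ 0 := fun h0 => h (by simp [h0])
  exact ht (mem_closedBall_zero_iff.2 ((norm_lt_of_rho_ne hε hne).le.trans hδ))

lemma setIntegral_rho_one {ε δ : ℝ} (hε : 0 < ε) (hδ : ε ≤ δ) :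
    ∫ t in Metric.closedBall (0 : V) δ, rho ε t = 1 := by
  have h := setIntegral_rho hε hδ (fun _ : V => (1 : ℝ))
  simpa [integral_rho' hε] using h

/-- One averaging step. -/
noncomputable def stepOp (σ : V × V → V) (M : V × V → Form →L[ℝ] Form) (ε : ℝ) (β : V → Form)
    (u : V) : Form :=
  ∫ t, rho ε t • M (t, u) (β (σ (t, u)))

/-- A neighbourhood of `{0} × K` contains a product. -/
lemma exists_prod_subset {W : Set (V × V)} (hW : IsOpen W) {K : Set V} (hK : IsCompact K)
    (h : ∀ u ∈ K, ((0 : V), u) ∈ W) :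
    ∃ δ > 0, ∃ O : Set V, IsOpen O ∧ K ⊆ O ∧ Metric.closedBall (0 : V) δ ×ˢ O ⊆ W := by
  obtain ⟨A, O, hA, hO, hA0, hKO, hAO⟩ := generalized_tube_lemma (isCompact_singleton (x := (0 : V)))
    hK hW (by rintro ⟨a, u⟩ ⟨rfl, hu⟩; exact h u hu)
  obtain ⟨δ, hδ, hball⟩ := Metric.nhds_basis_closedBall.mem_iff.1
    (hA.mem_nhds (hA0 (mem_singleton 0)))
  exact ⟨δ, hδ, O, hO, hKO, (prod_mono hball subset_rfl).trans hAO⟩

/-- The data of a step near `K`: smooth maps on `W`, the identity at `t = 0`. -/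
structure StepData (σ : V × V → V) (M : V × V → Form →L[ℝ] Form) (W : Set (V × V)) (K : Set V) :
    Prop where
  isOpen : IsOpen W
  compact : IsCompact K
  mem : ∀ u ∈ K, ((0 : V), u) ∈ W
  σ_smooth : ContDiffOn ℝ ∞ σ W
  M_smooth : ContDiffOn ℝ ∞ M W
  σ_zero : ∀ u, ((0 : V), u) ∈ W → σ (0, u) = u

variable {σ : V × V → V} {M : V × V → Form →L[ℝ] Form} {W : Set (V × V)} {K K' : Set V}

namespace StepData

variable (D : StepData σ M W K)
include D

lemma exists_maps (hKK' : K ⊆ interior K') :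
    ∃ δ > 0, ∃ O : Set V, IsOpen O ∧ K ⊆ O ∧
      ∀ t ∈ Metric.closedBall (0 : V) δ, ∀ u ∈ O, (t, u) ∈ W ∧ σ (t, u) ∈ interior K' := by
  have hop : IsOpen (W ∩ σ ⁻¹' interior K') :=
    D.σ_smooth.continuousOn.isOpen_inter_preimage D.isOpen isOpen_interior
  obtain ⟨δ, hδ, O, hO, hKO, h⟩ := exists_prod_subset hop D.compact fun u hu =>
    ⟨D.mem u hu, by rw [mem_preimage, D.σ_zero u (D.mem u hu)]; exact hKK' hu⟩
  exact ⟨δ, hδ, O, hO, hKO, fun t ht u hu => h (show (t, u) ∈ _ ×ˢ O from ⟨ht, hu⟩)⟩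

/-- A small step does not concentrate mass. -/
theorem exists_cover (hK' : IsCompact K') (hKK' : K ⊆ interior K') :
    ∃ δ > 0, ∀ t, ‖t‖ ≤ δ → ∀ f : V → ℝ, ContinuousOn f K' → (∀ z ∈ K', 0 ≤ f z) →
      IntegrableOn (fun u => f (σ (t, u))) K ∧ ∫ u in K, f (σ (t, u)) ≤ 2 * ∫ z in K', f z := by
  have hK := D.compact
  obtain ⟨ε, hε, hnear⟩ := Param.exists_near_id 4
  obtain ⟨δ₀, hδ₀, O, hO, hKO, hmap⟩ := D.exists_maps hKK'
  obtain ⟨θ, hθ, -, hθW, -, hθ1⟩ := Param.exists_cut (isCompact_singleton (x := (0 : V)) |>.prod hK)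
    D.isOpen (by rintro ⟨a, u⟩ ⟨rfl, hu⟩; exact D.mem u hu)
  set Φ : V × V → V := fun p => p.2 + θ p • (σ p - p.2) with hΦ
  have hΦs : ContDiff ℝ ∞ Φ := by
    refine contDiff_iff_contDiffAt.2 fun p => contDiffAt_snd.add ?_
    by_cases hp : p ∈ tsupport θ
    · exact hθ.contDiffAt.smul ((D.σ_smooth.contDiffAt (D.isOpen.mem_nhds (hθW hp))).sub contDiffAt_snd)
    · refine (contDiffAt_const (c := (0 : V))).congr_of_eventuallyEq ?_
      filter_upwards [notMem_tsupport_iff_eventuallyEq.1 hp] with q hq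
      simp [hq]
  have hΦ0 : ∀ u, Φ (0, u) = u := fun u => by
    by_cases hp : ((0 : V), u) ∈ tsupport θ
    · simp [hΦ, D.σ_zero u (hθW hp)]
    · simp [hΦ, image_eq_zero_of_notMem_tsupport hp]
  obtain ⟨R, hR⟩ := hK.isBounded.subset_closedBall 0
  set B := Metric.closedBall (0 : V) R
  have hev : ∀ᶠ t in 𝓝 (0 : V), (∀ u ∈ B,
      ‖Param.dBase Φ (t, u) - ContinuousLinearMap.id ℝ V‖ < ε) ∧ ∀ u ∈ K, θ (t, u) = 1 := by
    refine (IsCompact.eventually_forall_of_forall_eventually (isCompact_closedBall _ _)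
      fun u _ => ?_).and (hK.eventually_forall_of_forall_eventually fun u hu => ?_)
    · have hc : ContinuousAt
          (fun z : V × V => ‖Param.dBase Φ z - ContinuousLinearMap.id ℝ V‖) (0, u) :=
        ((Param.contDiff_dBase hΦs).continuous.sub continuous_const).norm.continuousAt
      refine hc.eventually (gt_mem_nhds ?_)
      simp [Param.dBase_zero hΦs isOpen_univ (fun y _ => hΦ0 y) (mem_univ u), hε]
    · exact eventually_nhdsSet_iff_forall.1 hθ1 (0, u) ⟨rfl, hu⟩
  obtain ⟨δ₁, hδ₁, hb⟩ := Metric.eventually_nhds_iff.1 hev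
  refine ⟨min δ₀ (δ₁ / 2), lt_min hδ₀ (by linarith), fun t ht f hf hf0 => ?_⟩
  have htd : t ∈ Metric.closedBall (0 : V) δ₀ :=
    mem_closedBall_zero_iff.2 (ht.trans (min_le_left _ _))
  have hin : MapsTo (fun u => σ (t, u)) K K' := fun u hu =>
    interior_subset (hmap t htd u (hKO hu)).2
  have hcont : ContinuousOn (fun u => f (σ (t, u))) K :=
    hf.comp (D.σ_smooth.continuousOn.comp (by fun_prop : Continuous fun u : V => (t, u)).continuousOn
      fun u hu => (hmap t htd u (hKO hu)).1) hin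
  refine ⟨hcont.integrableOn_compact hK, ?_⟩
  obtain ⟨h1, h2⟩ := hb (y := t) (by
    rw [dist_zero_right]; linarith [ht.trans (min_le_right δ₀ (δ₁ / 2))])
  set g := fun u => Φ (t, u)
  have hg : ContDiff ℝ 1 g := (hΦs.of_le (by simp)).comp (contDiff_const.prodMk contDiff_id)
  set f' := K'.indicator f
  have hf'0 : ∀ z, 0 ≤ f' z := fun z => indicator_nonneg hf0 z
  have hgB : ∀ u ∈ B, ‖fderiv ℝ g u - ContinuousLinearMap.id ℝ V‖ ≤ ε := fun u hu => by
    have hd : HasFDerivAt g (Param.dBase Φ (t, u)) u :=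
      ((hΦs.differentiable (by simp)) (t, u)).hasFDerivAt.comp u (hasFDerivAt_prodMk_right t u)
    rw [hd.fderiv]
    exact (h1 u hu).le
  obtain ⟨-, h3⟩ := hnear g B K (convex_closedBall _ _) hR hK.measurableSet hg hgB f' hf'0
    ((hf.integrableOn_compact hK').integrable_indicator hK'.measurableSet)
  rw [show ∫ z, f' z = ∫ z in K', f z from integral_indicator hK'.measurableSet] at h3
  refine le_of_eq_of_le (setIntegral_congr_fun hK.measurableSet fun u hu => ?_) h3
  have hgu : g u = σ (t, u) := by simp [g, hΦ, h2 u hu]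
  simp [f', hgu, indicator_of_mem (hin hu)]

omit D in
lemma smooth_integrand (hW : IsOpen W) (hσ : ContDiffOn ℝ ∞ σ W) (hM : ContDiffOn ℝ ∞ M W)
    {β : V → Form} {U : Set V} (hU : IsOpen U) (hβ : ContDiffOn ℝ ∞ β U) :
    IsOpen (W ∩ σ ⁻¹' U) ∧ ContDiffOn ℝ ∞ (fun p => M p (β (σ p))) (W ∩ σ ⁻¹' U) :=
  ⟨hσ.continuousOn.isOpen_inter_preimage hW hU,
    (hM.mono inter_subset_left).clm_apply (hβ.comp (hσ.mono inter_subset_left) fun _ hp => hp.2)⟩

/-- A step keeps smoothness. -/
theorem exists_step_smooth (hKK' : K ⊆ interior K') :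
    ∃ O : Set V, ∃ ε₁, IsOpen O ∧ K ⊆ O ∧ 0 < ε₁ ∧ ∀ ε, 0 < ε → ε ≤ ε₁ →
      ∀ (β : V → Form) (U : Set V), IsOpen U → K' ⊆ U → ContDiffOn ℝ ∞ β U →
        ContDiffOn ℝ ∞ (stepOp σ M ε β) O := by
  obtain ⟨δ, hδ, O, hO, hKO, hmap⟩ := D.exists_maps hKK'
  refine ⟨O, δ, hO, hKO, hδ, fun ε hε hεδ β U hU hK'U hβ => ?_⟩
  obtain ⟨hW', hg⟩ := smooth_integrand D.isOpen D.σ_smooth D.M_smooth hU hβ
  refine (contDiffOn_average (μ := volume) (isCompact_closedBall (0 : V) δ) hW' (continuous_rho' ε)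
    hg hO fun u hu t ht => ⟨(hmap t ht u hu).1, hK'U (interior_subset (hmap t ht u hu).2)⟩).congr
      fun u _ => ?_
  exact (setIntegral_rho hε hεδ fun t => M (t, u) (β (σ (t, u)))).symm

/-- A pointwise bound on the integrand bounds the step in square mean. -/
theorem exists_step_int (hK' : IsCompact K') (hKK' : K ⊆ interior K') :
    ∃ δ > 0, ∃ O : Set V, IsOpen O ∧ K ⊆ O ∧
      (∀ t ∈ Metric.closedBall (0 : V) δ, ∀ u ∈ O, (t, u) ∈ W ∧ σ (t, u) ∈ interior K') ∧
      ∀ (k : ℕ) (ε : ℝ), 0 < ε → ε ≤ δ → ∀ (s Ce : ℝ), 0 ≤ Ce →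
        ∀ (β : V → Form) (U : Set V), IsOpen U → K' ⊆ U → ContDiffOn ℝ ∞ β U →
          (∀ t, ‖t‖ ≤ ε → ∀ u ∈ K,
            psq k s (fun v => M (t, v) (β (σ (t, v)))) u ≤ Ce * psq k s β (σ (t, u))) →
          ∫ u in K, psq k s (stepOp σ M ε β) u ≤ Ce * 2 * ∫ z in K', psq k s β z := by
  have hK := D.compact
  obtain ⟨δ₀, hδ₀, O, hO, hKO, hmap⟩ := D.exists_maps hKK'
  obtain ⟨δ₁, hδ₁, hcov⟩ := D.exists_cover hK' hKK'
  set δ := min δ₀ δ₁
  set S := Metric.closedBall (0 : V) δ
  have hmapS : ∀ t ∈ S, ∀ u ∈ O, (t, u) ∈ W ∧ σ (t, u) ∈ interior K' := fun t ht u hu =>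
    hmap t (Metric.closedBall_subset_closedBall (min_le_left _ _) ht) u hu
  refine ⟨δ, lt_min hδ₀ hδ₁, O, hO, hKO, hmapS,
    fun k ε hε hεδ s Ce hCe β U hU hK'U hβ hpw => ?_⟩
  obtain ⟨hW', hg⟩ := smooth_integrand D.isOpen D.σ_smooth D.M_smooth hU hβ
  have hsl : ∀ u ∈ K, ∀ t ∈ S, (t, u) ∈ W ∩ σ ⁻¹' U := fun u hu t ht =>
    ⟨(hmapS t ht u (hKO hu)).1, hK'U (interior_subset (hmapS t ht u (hKO hu)).2)⟩
  set F : V → V → ℝ := fun u t => rho ε t * psq k s β (σ (t, u))
  have hFc : ContinuousOn (Function.uncurry F) (K ×ˢ S) := by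
    have h1 : ContinuousOn (fun p : V × V => psq k s β (σ (p.2, p.1))) (K ×ˢ S) :=
      (continuousOn_psq k s hU β hβ).comp (D.σ_smooth.continuousOn.comp
        (by fun_prop : Continuous fun p : V × V => (p.2, p.1)).continuousOn
          fun p hp => (hsl p.1 hp.1 p.2 hp.2).1) fun p hp => (hsl p.1 hp.1 p.2 hp.2).2
    exact ((continuous_rho' ε).comp continuous_snd).continuousOn.mul h1
  have hFi : IntegrableOn (Function.uncurry F) (K ×ˢ S) :=
    hFc.integrableOn_compact (hK.prod (isCompact_closedBall _ _))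
  rw [IntegrableOn, Measure.volume_eq_prod, ← Measure.prod_restrict] at hFi
  have hpt : ∀ u ∈ K, psq k s (stepOp σ M ε β) u ≤ Ce * ∫ t in S, F u t := fun u hu => by
    obtain ⟨hi, hj⟩ := psq_average_le (μ := volume) (isCompact_closedBall (0 : V) δ) hW'
      (continuous_rho' ε) (rho_nonneg' ε) k s _ hg u (hsl u hu)
    have e1 : stepOp σ M ε β = fun v => ∫ t in S, rho ε t • M (t, v) (β (σ (t, v))) :=
      funext fun v => (setIntegral_rho hε hεδ _).symm
    rw [e1, ← integral_const_mul]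
    refine hj.trans ?_
    rw [setIntegral_rho_one hε hεδ, one_mul]
    refine setIntegral_mono_on hi ?_ measurableSet_closedBall fun t _ => ?_
    · exact (continuousOn_const.mul (hFc.comp
        (by fun_prop : Continuous fun t : V => (u, t)).continuousOn fun t ht => ⟨hu, ht⟩)
        ).integrableOn_compact (isCompact_closedBall _ _)
    · by_cases hr : rho ε t = 0
      · simp [hr, F]
      · calc rho ε t * psq k s (fun v => M (t, v) (β (σ (t, v)))) u
            ≤ rho ε t * (Ce * psq k s β (σ (t, u))) := mul_le_mul_of_nonneg_left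
              (hpw t (norm_lt_of_rho_ne hε hr).le u hu) (rho_nonneg' ε t)
          _ = Ce * F u t := by simp only [F]; ring
  calc ∫ u in K, psq k s (stepOp σ M ε β) u ≤ ∫ u in K, Ce * ∫ t in S, F u t :=
        integral_mono_of_nonneg (Eventually.of_forall fun u => psq_nonneg k s _ u)
          (hFi.integral_prod_left.const_mul Ce) ((ae_restrict_mem hK.measurableSet).mono hpt)
    _ = Ce * ∫ t in S, ∫ u in K, F u t := by rw [integral_const_mul, integral_integral_swap hFi]
    _ ≤ Ce * ∫ t in S, rho ε t * (2 * ∫ z in K', psq k s β z) := by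
        refine mul_le_mul_of_nonneg_left (setIntegral_mono_on hFi.integral_prod_right
          (((continuous_rho' ε).mul continuous_const).continuousOn.integrableOn_compact
            (isCompact_closedBall _ _)) measurableSet_closedBall fun t ht => ?_) hCe
        simp only [F]
        rw [integral_const_mul]
        exact mul_le_mul_of_nonneg_left (hcov t ((mem_closedBall_zero_iff.1 ht).trans
          (min_le_right _ _)) _ ((continuousOn_psq k s hU β hβ).mono hK'U)
            fun z _ => psq_nonneg k s β z).2 (rho_nonneg' ε t)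
    _ = Ce * 2 * ∫ z in K', psq k s β z := by
        rw [integral_mul_const, setIntegral_rho_one hε hεδ]; ring

/-- A step is bounded on every local semiclassical norm. -/
theorem exists_step_bound (hK' : IsCompact K') (hKK' : K ⊆ interior K') :
    ∃ ε₁, 0 < ε₁ ∧ ∀ k : ℕ, ∃ C, 0 ≤ C ∧ ∀ ε, 0 < ε → ε ≤ ε₁ → ∀ s : ℝ, 0 ≤ s → s ≤ 1 →
      ∀ (β : V → Form) (U : Set V), IsOpen U → K' ⊆ U → ContDiffOn ℝ ∞ β U →
        ∫ u in K, psq k s (stepOp σ M ε β) u ≤ C * ∫ z in K', psq k s β z := by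
  obtain ⟨δ, hδ, O, hO, hKO, hmap, hint⟩ := D.exists_step_int hK' hKK'
  refine ⟨δ, hδ, fun k => ?_⟩
  obtain ⟨C, hC, hcomp⟩ := exists_psq_comp D.isOpen D.σ_smooth
    ((isCompact_closedBall (0 : V) δ).prod D.compact)
    (fun p hp => (hmap p.1 hp.1 p.2 (hKO hp.2)).1) k M D.M_smooth
  refine ⟨C * 2, by positivity, fun ε hε hεδ s hs hs1 β U hU hK'U hβ =>
    hint k ε hε hεδ s C hC β U hU hK'U hβ fun t ht u hu => ?_⟩
  have htS : t ∈ Metric.closedBall (0 : V) δ := mem_closedBall_zero_iff.2 (ht.trans hεδ)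
  exact hcomp (t, u) ⟨htS, hu⟩ s hs hs1 β U hU hβ
    (hK'U (interior_subset (hmap t htS u (hKO hu)).2))

/-- A step is close to the identity, with one derivative more. -/
theorem exists_step_diff (hK' : IsCompact K') (hKK' : K ⊆ interior K')
    (hM0 : ∀ u, ((0 : V), u) ∈ W → M (0, u) = ContinuousLinearMap.id ℝ Form) :
    ∃ ε₁, 0 < ε₁ ∧ ∀ k : ℕ, ∃ C, 0 ≤ C ∧ ∀ ε, 0 < ε → ε ≤ ε₁ →
      ∀ (β : V → Form) (U : Set V), IsOpen U → K' ⊆ U → ContDiffOn ℝ ∞ β U →
        ∫ u in K, psq k 1 (fun v => stepOp σ M ε β v - β v) u ≤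
          C * ε ^ 2 * ∫ z in K', psq (k + 1) 1 β z := by
  have hK := D.compact
  obtain ⟨δ₀, hδ₀, O, hO, hKO, hmap⟩ := D.exists_maps hKK'
  obtain ⟨δ₁, hδ₁, hcov⟩ := D.exists_cover hK' hKK'
  set δ := min δ₀ δ₁
  set S := Metric.closedBall (0 : V) δ
  have hSK : S ×ˢ K ⊆ W := fun p hp =>
    (hmap p.1 (Metric.closedBall_subset_closedBall (min_le_left _ _) hp.1) p.2 (hKO hp.2)).1
  set A : Fin 4 → V × V → Form →L[ℝ] Form := fun c p => fderiv ℝ M p (Pi.single c 1, 0)
  set B : Fin 4 → Fin 4 → V × V → Form →L[ℝ] Form :=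
    fun c e p => fderiv ℝ σ p (Pi.single c 1, 0) e • M p
  have hA : ∀ c, ContDiffOn ℝ ∞ (A c) W := fun c =>
    (D.M_smooth.fderiv_of_isOpen D.isOpen (by simp)).clm_apply contDiffOn_const
  have hB : ∀ c e, ContDiffOn ℝ ∞ (B c e) W := fun c e =>
    ((contDiff_apply ℝ ℝ e).comp_contDiffOn ((D.σ_smooth.fderiv_of_isOpen D.isOpen
      (by simp)).clm_apply contDiffOn_const)).smul D.M_smooth
  refine ⟨δ, lt_min hδ₀ hδ₁, fun k => ?_⟩
  choose CA hCA hcA using fun c => exists_psq_comp D.isOpen D.σ_smooth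
    ((isCompact_closedBall 0 δ).prod hK) hSK k (A c) (hA c)
  choose CB hCB hcB using fun c e => exists_psq_comp D.isOpen D.σ_smooth
    ((isCompact_closedBall 0 δ).prod hK) hSK k (B c e) (hB c e)
  set Cp : ℝ := 4 * ∑ c : Fin 4, (2 * CA c + 8 * ∑ e : Fin 4, CB c e)
  have hCp : 0 ≤ Cp := mul_nonneg (by norm_num) (Finset.sum_nonneg fun c _ =>
    add_nonneg (mul_nonneg two_pos.le (hCA c))
      (mul_nonneg (by norm_num) (Finset.sum_nonneg fun e _ => hCB c e)))
  refine ⟨Cp * 2, by positivity, fun ε hε hεδ β U hU hK'U hβ => ?_⟩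
  obtain ⟨hW', hg⟩ := smooth_integrand D.isOpen D.σ_smooth D.M_smooth hU hβ
  have hsl : ∀ u ∈ O, ∀ t ∈ S, (t, u) ∈ W ∩ σ ⁻¹' U := fun u hu t ht =>
    have h := hmap t (Metric.closedBall_subset_closedBall (min_le_left _ _) ht) u hu
    ⟨h.1, hK'U (interior_subset h.2)⟩
  have hθS : ∀ t ∈ S, ∀ θ ∈ Icc (0 : ℝ) 1, θ • t ∈ S := fun t ht θ hθ => by
    rw [mem_closedBall_zero_iff] at ht ⊢
    rw [norm_smul, Real.norm_eq_abs, abs_of_nonneg hθ.1]
    exact (mul_le_of_le_one_left (norm_nonneg t) hθ.2).trans ht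
  -- the derivative in the parameter
  set H : Fin 4 → V × V → Form := fun c p =>
    A c p (β (σ p)) + ∑ e : Fin 4, B c e p (pd e β (σ p))
  have hH : ∀ c, ContDiffOn ℝ ∞ (H c) (W ∩ σ ⁻¹' U) := fun c =>
    (smooth_integrand D.isOpen D.σ_smooth (hA c) hU hβ).2.add (ContDiffOn.sum fun e _ =>
      (smooth_integrand D.isOpen D.σ_smooth (hB c e) hU (pd_contDiffOn hU hβ)).2)
  have hder : ∀ p ∈ W ∩ σ ⁻¹' U, ∀ t : V,
      fderiv ℝ (fun p => M p (β (σ p))) p (t, 0) = ∑ c, t c • H c p := by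
    intro p hp t
    have h1 := ((D.M_smooth.differentiableOn (by simp)).differentiableAt
      (D.isOpen.mem_nhds hp.1)).hasFDerivAt
    have h2 := ((hβ.differentiableOn (by simp)).differentiableAt (hU.mem_nhds hp.2)).hasFDerivAt
    have h3 := ((D.σ_smooth.differentiableOn (by simp)).differentiableAt
      (D.isOpen.mem_nhds hp.1)).hasFDerivAt
    rw [show fderiv ℝ (fun p => M p (β (σ p))) p = _ from (h1.clm_apply (h2.comp p h3)).fderiv]
    have ht : ((t, 0) : V × V) = ∑ c, t c • ((Pi.single c 1, 0) : V × V) := by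
      refine Prod.ext ?_ ?_
      · simp only [Prod.fst_sum, Prod.smul_fst]
        exact pi_eq_sum_univ' t
      · simp [Prod.snd_sum]
    conv_lhs => rw [ht, map_sum]
    refine Finset.sum_congr rfl fun c _ => ?_
    rw [map_smul]
    congr 1
    simp only [Function.comp_apply, add_apply, ContinuousLinearMap.coe_comp,
      ContinuousLinearMap.flip_apply, H, A, B]
    rw [add_comm]
    congr 1
    conv_lhs => rw [pi_eq_sum_univ' (fderiv ℝ σ p (Pi.single c 1, 0)), map_sum, map_sum]
    simp [pd]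
  set S' : Set (V × ℝ) := S ×ˢ Icc (0 : ℝ) 1
  have hS' : IsCompact S' := (isCompact_closedBall _ _).prod isCompact_Icc
  set ι : (V × ℝ) × V → V × V := fun q => (q.1.2 • q.1.1, q.2)
  have hι : ContDiff ℝ ∞ ι := (contDiff_fst.snd.smul contDiff_fst.fst).prodMk contDiff_snd
  set G : (V × ℝ) × V → Form := fun q => ∑ c, q.1.1 c • H c (ι q)
  set W'' : Set ((V × ℝ) × V) := ι ⁻¹' (W ∩ σ ⁻¹' U)
  have hW'' : IsOpen W'' := hW'.preimage hι.continuous
  have hG : ContDiffOn ℝ ∞ G W'' := ContDiffOn.sum fun c _ =>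
    ((contDiff_apply ℝ ℝ c).comp contDiff_fst.fst).contDiffOn.smul
      ((hH c).comp hι.contDiffOn fun q hq => hq)
  have hsl' : ∀ u ∈ O, ∀ p ∈ S', (p, u) ∈ W'' := fun u hu p hp =>
    hsl u hu _ (hθS p.1 hp.1 p.2 hp.2)
  set w : V × ℝ → ℝ := fun p => rho ε p.1
  have hwc : Continuous w := (continuous_rho' ε).comp continuous_fst
  have hwm : ∫ p in S', w p = 1 := by
    rw [Measure.volume_eq_prod, setIntegral_prod _
      ((hwc.continuousOn.integrableOn_compact hS'))]
    simp only [w, setIntegral_const, smul_eq_mul]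
    simpa using setIntegral_rho_one hε hεδ
  have heq : ∀ u ∈ O, stepOp σ M ε β u - β u = ∫ p in S', w p • G (p, u) := by
    intro u hu
    have hGu : ContinuousOn (fun p : V × ℝ => w p • G (p, u)) S' :=
      hwc.continuousOn.smul (hG.continuousOn.comp (by fun_prop : Continuous fun p : V × ℝ => (p, u)).continuousOn
        (hsl' u hu))
    rw [Measure.volume_eq_prod, setIntegral_prod _ (hGu.integrableOn_compact hS')]
    set g : V → Form := fun t => M (t, u) (β (σ (t, u)))
    have hgc : ContinuousOn g S := hg.continuousOn.comp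
      (by fun_prop : Continuous fun t : V => (t, u)).continuousOn fun t ht => hsl u hu t ht
    have hg0 : g 0 = β u := by
      have h0 : ((0 : V), u) ∈ W := (hsl u hu 0 (Metric.mem_closedBall_self (le_min hδ₀.le hδ₁.le))).1
      simp [g, hM0 u h0, D.σ_zero u h0]
    have hftc : ∀ t ∈ S, ∫ θ in Icc (0 : ℝ) 1, G ((t, θ), u) = g t - g 0 := by
      intro t ht
      rw [integral_Icc_eq_integral_Ioc, ← intervalIntegral.integral_of_le zero_le_one]
      have hd : ∀ θ ∈ uIcc (0 : ℝ) 1, HasDerivAt (fun θ : ℝ => g (θ • t)) (G ((t, θ), u)) θ := by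
        intro θ hθ
        rw [uIcc_of_le zero_le_one] at hθ
        have hmem := hsl u hu _ (hθS t ht θ hθ)
        have hin : HasDerivAt (fun θ : ℝ => ((θ • t, u) : V × V)) ((t, 0) : V × V) θ := by
          have h := (hasDerivAt_id θ).smul_const t
          simp only [id, one_smul] at h
          exact h.prodMk (hasDerivAt_const θ u)
        have h := ((hg.differentiableOn (by simp)).differentiableAt
          (hW'.mem_nhds hmem)).hasFDerivAt.comp_hasDerivAt θ hin
        rw [hder _ hmem t] at h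
        exact h
      have hci : IntervalIntegrable (fun θ => G ((t, θ), u)) volume 0 1 := by
        refine (hG.continuousOn.comp (by fun_prop : Continuous fun θ : ℝ => ((t, θ), u)).continuousOn
          fun θ hθ => hsl' u hu (t, θ) ⟨ht, ?_⟩).intervalIntegrable
        rwa [uIcc_of_le zero_le_one] at hθ
      rw [intervalIntegral.integral_eq_sub_of_hasDerivAt hd hci, one_smul, zero_smul]
    calc stepOp σ M ε β u - β u = (∫ t in S, rho ε t • g t) - ∫ t in S, rho ε t • g 0 := by
          rw [setIntegral_rho hε hεδ, integral_smul_const, setIntegral_rho_one hε hεδ, one_smul, hg0]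
          rfl
      _ = ∫ t in S, rho ε t • (g t - g 0) := by
          rw [← integral_sub]
          · simp only [smul_sub]
          · exact ((continuous_rho' ε).continuousOn.smul hgc).integrableOn_compact
              (isCompact_closedBall _ _)
          · exact ((continuous_rho' ε).continuousOn.smul continuousOn_const).integrableOn_compact
              (isCompact_closedBall _ _)
      _ = _ := setIntegral_congr_fun measurableSet_closedBall fun t ht => by
          simp only [w, ← hftc t ht, integral_smul]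
  set F : V → V × ℝ → ℝ := fun u p => w p * psq (k + 1) 1 β (σ (ι (p, u)))
  have hFc : ContinuousOn (Function.uncurry F) (K ×ˢ S') := by
    have h1 : ContinuousOn (fun q : V × (V × ℝ) => psq (k + 1) 1 β (σ (ι (q.2, q.1)))) (K ×ˢ S') :=
      (continuousOn_psq _ 1 hU β hβ).comp (D.σ_smooth.continuousOn.comp
        (hι.continuous.comp (by fun_prop : Continuous fun q : V × (V × ℝ) => (q.2, q.1))).continuousOn
          fun q hq => (hsl' q.1 (hKO hq.1) q.2 hq.2).1) fun q hq => (hsl' q.1 (hKO hq.1) q.2 hq.2).2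
    exact (hwc.comp continuous_snd).continuousOn.mul h1
  have hFi : IntegrableOn (Function.uncurry F) (K ×ˢ S') := hFc.integrableOn_compact (hK.prod hS')
  rw [IntegrableOn, Measure.volume_eq_prod, ← Measure.prod_restrict] at hFi
  have hpt : ∀ u ∈ K, psq k 1 (fun v => stepOp σ M ε β v - β v) u ≤
      Cp * ε ^ 2 * ∫ p in S', F u p := by
    intro u hu
    obtain ⟨hi, hj⟩ := psq_average_le (μ := volume) hS' hW'' hwc (fun p => rho_nonneg' ε p.1) k 1
      G hG u (hsl' u (hKO hu))
    rw [psq_congr k 1 (f := fun v => stepOp σ M ε β v - β v)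
      (g := fun v => ∫ p in S', w p • G (p, v))
      (by filter_upwards [hO.mem_nhds (hKO hu)] with v hv using heq v hv), ← integral_const_mul]
    refine hj.trans ?_
    rw [hwm, one_mul]
    refine setIntegral_mono_on hi ?_ hS'.measurableSet fun p hp => ?_
    · exact (continuousOn_const.mul (hFc.comp
        (by fun_prop : Continuous fun p : V × ℝ => (u, p)).continuousOn fun p hp => ⟨hu, hp⟩)
        ).integrableOn_compact hS'
    · obtain ⟨t, θ⟩ := p
      by_cases hr : rho ε t = 0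
      · simp [w, F, hr]
      have htε : ∀ c, |t c| ≤ ε := fun c =>
        (Real.norm_eq_abs (t c) ▸ norm_le_pi_norm t c).trans (norm_lt_of_rho_ne hε hr).le
      have hq : (θ • t, u) ∈ S ×ˢ K := ⟨hθS t hp.1 θ hp.2, hu⟩
      set Q := psq (k + 1) 1 β (σ (θ • t, u))
      have hmem := hsl u (hKO hu) _ hq.1
      set O' : Set V := {v | (θ • t, v) ∈ W ∩ σ ⁻¹' U}
      have hO' : IsOpen O' := hW'.preimage (by fun_prop : Continuous fun v : V => (θ • t, v))
      have hHs : ∀ c, ContDiffOn ℝ ∞ (fun v => H c (θ • t, v)) O' := fun c =>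
        (hH c).comp (contDiff_const.prodMk contDiff_id).contDiffOn fun v hv => hv
      have hH1 : ∀ c, psq k 1 (fun v => H c (θ • t, v)) u ≤ (2 * CA c + 8 * ∑ e, CB c e) * Q := by
        intro c
        refine (psq_add_le k 1 hO'
          (f := fun v => A c (θ • t, v) (β (σ (θ • t, v))))
          (g := fun v => ∑ e, B c e (θ • t, v) (pd e β (σ (θ • t, v))))
          ((smooth_integrand D.isOpen D.σ_smooth (hA c) hU hβ).2.comp
            (contDiff_const.prodMk contDiff_id).contDiffOn fun v hv => hv)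
          (ContDiffOn.sum fun e _ => (smooth_integrand D.isOpen D.σ_smooth (hB c e) hU
            (pd_contDiffOn hU hβ)).2.comp (contDiff_const.prodMk contDiff_id).contDiffOn
              fun v hv => hv) hmem).trans ?_
        have h1 : psq k 1 (fun v => A c (θ • t, v) (β (σ (θ • t, v)))) u ≤ CA c * Q :=
          (hcA c (θ • t, u) hq 1 zero_le_one le_rfl β U hU hβ hmem.2).trans
            (mul_le_mul_of_nonneg_left (psq_le_succ _ _ _ _) (hCA c))
        have h2 : psq k 1 (fun v => ∑ e, B c e (θ • t, v) (pd e β (σ (θ • t, v)))) u ≤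
            4 * ((∑ e, CB c e) * Q) := by
          refine (psq_sum_le k 1 hO' Finset.univ _ (fun e _ =>
            (smooth_integrand D.isOpen D.σ_smooth (hB c e) hU (pd_contDiffOn hU hβ)).2.comp
              (contDiff_const.prodMk contDiff_id).contDiffOn fun v hv => hv) u hmem).trans ?_
          simp only [Finset.card_univ, Fintype.card_fin, Nat.cast_ofNat, Finset.sum_mul]
          refine mul_le_mul_of_nonneg_left (Finset.sum_le_sum fun e _ => ?_) (by norm_num)
          exact (hcB c e (θ • t, u) hq 1 zero_le_one le_rfl (pd e β) U hU (pd_contDiffOn hU hβ)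
            hmem.2).trans (mul_le_mul_of_nonneg_left (psq_pd_le _ _ _ _) (hCB c e))
        linarith
      have hs : psq k 1 (fun v => G ((t, θ), v)) u ≤ Cp * ε ^ 2 * Q := by
        refine (psq_sum_le k 1 hO' Finset.univ (fun c v => t c • H c (θ • t, v))
          (fun c _ => (hHs c).const_smul (t c)) u hmem).trans ?_
        simp only [Finset.card_univ, Fintype.card_fin, Nat.cast_ofNat, Cp]
        rw [mul_assoc, mul_assoc, Finset.sum_mul]
        refine mul_le_mul_of_nonneg_left (Finset.sum_le_sum fun c _ => ?_) (by norm_num)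
        rw [psq_smul k 1 (t c) hO' _ (hHs c) u hmem]
        calc t c ^ 2 * psq k 1 (fun v => H c (θ • t, v)) u ≤ ε ^ 2 * ((2 * CA c + 8 * ∑ e, CB c e) * Q) :=
              mul_le_mul (by rw [← sq_abs]; exact pow_le_pow_left₀ (abs_nonneg _) (htε c) 2) (hH1 c)
                (psq_nonneg _ _ _ _) (sq_nonneg ε)
          _ = _ := by ring
      calc w (t, θ) * psq k 1 (fun v => G ((t, θ), v)) u ≤ w (t, θ) * (Cp * ε ^ 2 * Q) :=
            mul_le_mul_of_nonneg_left hs (rho_nonneg' ε t)
        _ = Cp * ε ^ 2 * F u (t, θ) := by simp only [F, Q, ι]; ring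
  have hb0 : 0 ≤ Cp * ε ^ 2 := by positivity
  calc ∫ u in K, psq k 1 (fun v => stepOp σ M ε β v - β v) u
      ≤ ∫ u in K, Cp * ε ^ 2 * ∫ p in S', F u p :=
        integral_mono_of_nonneg (Eventually.of_forall fun u => psq_nonneg k 1 _ u)
          (hFi.integral_prod_left.const_mul _) ((ae_restrict_mem hK.measurableSet).mono hpt)
    _ = Cp * ε ^ 2 * ∫ p in S', ∫ u in K, F u p := by
        rw [integral_const_mul, integral_integral_swap hFi]
    _ ≤ Cp * ε ^ 2 * ∫ p in S', w p * (2 * ∫ z in K', psq (k + 1) 1 β z) := by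
        refine mul_le_mul_of_nonneg_left (setIntegral_mono_on hFi.integral_prod_right
          ((hwc.mul continuous_const).continuousOn.integrableOn_compact hS') hS'.measurableSet
            fun p hp => ?_) hb0
        simp only [F]
        rw [integral_const_mul]
        exact mul_le_mul_of_nonneg_left (hcov _ ((mem_closedBall_zero_iff.1
          (hθS p.1 hp.1 p.2 hp.2)).trans (min_le_right _ _)) _
            ((continuousOn_psq _ 1 hU β hβ).mono hK'U) fun z _ => psq_nonneg _ 1 β z).2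
              (rho_nonneg' ε p.1)
    _ = Cp * 2 * ε ^ 2 * ∫ z in K', psq (k + 1) 1 β z := by
        rw [integral_mul_const, hwm]; ring

/-- A step differs from the identity by `O (ε²)` on a smooth field. -/
theorem exists_step_near (hKK' : K ⊆ interior K')
    (hM0 : ∀ u, ((0 : V), u) ∈ W → M (0, u) = ContinuousLinearMap.id ℝ Form) {β : V → Form}
    {U : Set V} (hU : IsOpen U) (hK'U : K' ⊆ U) (hβ : ContDiffOn ℝ ∞ β U) :
    ∃ C ε₁, 0 < ε₁ ∧ ∀ ε, 0 < ε → ε ≤ ε₁ → ∀ u ∈ K, ‖stepOp σ M ε β u - β u‖ ≤ C * ε ^ 2 := by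
  have hK := D.compact
  obtain ⟨δ, hδ, O, hO, hKO, hmap⟩ := D.exists_maps hKK'
  obtain ⟨hW', hg⟩ := smooth_integrand D.isOpen D.σ_smooth D.M_smooth hU hβ
  set G : V × V → Form := fun p => M p (β (σ p))
  set S := Metric.closedBall (0 : V) δ
  have hsl : ∀ u ∈ K, ∀ t ∈ S, (t, u) ∈ W ∩ σ ⁻¹' U := fun u hu t ht =>
    ⟨(hmap t ht u (hKO hu)).1, hK'U (interior_subset (hmap t ht u (hKO hu)).2)⟩
  have hG' := hg.fderiv_of_isOpen hW' (m := ∞) (by simp)
  obtain ⟨B, hB⟩ := ((isCompact_closedBall (0 : V) δ).prod hK).exists_bound_of_continuousOn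
    ((hG'.continuousOn_fderiv_of_isOpen hW' (by simp)).mono fun p hp => hsl p.2 hp.2 p.1 hp.1)
  refine ⟨max B 0, δ, hδ, fun ε hε hεδ u hu => ?_⟩
  set g : V → Form := fun t => G (t, u)
  have h0S : (0 : V) ∈ S := Metric.mem_closedBall_self hδ.le
  have h0 := hsl u hu 0 h0S
  set L : V →L[ℝ] Form := (fderiv ℝ G (0, u)).comp (ContinuousLinearMap.inl ℝ V V)
  have hgd : ∀ t ∈ S, HasFDerivAt g ((fderiv ℝ G (t, u)).comp (ContinuousLinearMap.inl ℝ V V)) t :=
    fun t ht => HasFDerivAt.comp (g := G) (f := fun s => (s, u)) t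
      ((hg.differentiableOn (by simp)).differentiableAt
        (hW'.mem_nhds (hsl u hu t ht))).hasFDerivAt (hasFDerivAt_prodMk_left t u)
  have hG'd : ∀ t ∈ S, DifferentiableAt ℝ (fderiv ℝ G) (t, u) := fun t ht =>
    (hG'.differentiableOn (by simp)).differentiableAt (hW'.mem_nhds (hsl u hu t ht))
  have hlip : ∀ t ∈ S, ‖fderiv ℝ G (t, u) - fderiv ℝ G (0, u)‖ ≤ max B 0 * ‖t‖ := by
    intro t ht
    have h := (convex_closedBall (0 : V) δ).norm_image_sub_le_of_norm_hasFDerivWithin_le
      (f := fun s => fderiv ℝ G (s, u))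
      (fun s hs => ((hG'd s hs).hasFDerivAt.comp s (hasFDerivAt_prodMk_left s u)).hasFDerivWithinAt)
      (fun s hs => (ContinuousLinearMap.opNorm_comp_le _ _).trans
        ((mul_le_of_le_one_right (norm_nonneg _) (ContinuousLinearMap.norm_inl_le_one ℝ V V)).trans
          ((hB (s, u) ⟨hs, hu⟩).trans (le_max_left B 0)))) h0S ht
    simpa using h
  have hrem : ∀ t ∈ S, ‖t‖ ≤ ε → ‖g t - g 0 - L t‖ ≤ max B 0 * ε ^ 2 := by
    intro t ht htε
    have hsub : Metric.closedBall (0 : V) ‖t‖ ⊆ S :=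
      Metric.closedBall_subset_closedBall (mem_closedBall_zero_iff.1 ht)
    have h := (convex_closedBall (0 : V) ‖t‖).norm_image_sub_le_of_norm_hasFDerivWithin_le'
      (f := g) (φ := L) (fun s hs => (hgd s (hsub hs)).hasFDerivWithinAt) (C := max B 0 * ‖t‖)
      (fun s hs => ?_) (Metric.mem_closedBall_self (norm_nonneg t))
      (mem_closedBall_zero_iff.2 le_rfl)
    · rw [sub_zero] at h
      refine h.trans ?_
      rw [sq, mul_assoc]
      exact mul_le_mul_of_nonneg_left (mul_self_le_mul_self (norm_nonneg t) htε) (le_max_right B 0)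
    · simp only [L, ← ContinuousLinearMap.sub_comp]
      refine (ContinuousLinearMap.opNorm_comp_le _ _).trans
        ((mul_le_of_le_one_right (norm_nonneg _) (ContinuousLinearMap.norm_inl_le_one ℝ V V)).trans
          ((hlip s (hsub hs)).trans ?_))
      exact mul_le_mul_of_nonneg_left (mem_closedBall_zero_iff.1 hs) (le_max_right B 0)
  have hgc : ContinuousOn g S := fun t ht => (hgd t ht).continuousAt.continuousWithinAt
  have hg0 : g 0 = β u := by simp [g, G, hM0 u h0.1, D.σ_zero u h0.1]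
  have hodd : ∫ t, rho ε t • L t = 0 := by
    have h := integral_neg_eq_self (fun t : V => rho ε t • L t) volume
    simp only [rho_neg', map_neg, smul_neg, integral_neg] at h
    have h2 : (2 : ℝ) • ∫ t, rho ε t • L t = 0 := by
      rw [two_smul]
      nth_rewrite 2 [← h]
      exact add_neg_cancel _
    exact (smul_eq_zero.1 h2).resolve_left two_ne_zero
  have hint : ∀ {φ : V → Form}, ContinuousOn φ S → IntegrableOn (fun t => rho ε t • φ t) S :=
    fun hφ => ((continuous_rho' ε).continuousOn.smul hφ).integrableOn_compact (isCompact_closedBall _ _)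
  calc ‖stepOp σ M ε β u - β u‖ = ‖∫ t in S, rho ε t • (g t - g 0 - L t)‖ := by
        simp only [smul_sub]
        rw [integral_sub (by exact (hint hgc).sub (hint continuousOn_const))
          (hint L.continuous.continuousOn), integral_sub (hint hgc) (hint continuousOn_const),
          setIntegral_rho hε hεδ g, setIntegral_rho hε hεδ (fun t => L t), hodd, sub_zero,
          integral_smul_const, setIntegral_rho_one hε hεδ, one_smul, hg0]
        rfl
    _ ≤ ∫ t in S, rho ε t * (max B 0 * ε ^ 2) := by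
        refine norm_integral_le_of_norm_le
          (((continuous_rho' ε).mul continuous_const).continuousOn.integrableOn_compact
            (isCompact_closedBall _ _)) ?_
        filter_upwards [ae_restrict_mem measurableSet_closedBall] with t ht
        rw [norm_smul, Real.norm_eq_abs, abs_of_nonneg (rho_nonneg' ε t)]
        by_cases hr : rho ε t = 0
        · simp [hr]
        · exact mul_le_mul_of_nonneg_left (hrem t ht (norm_lt_of_rho_ne hε hr).le) (rho_nonneg' ε t)
    _ = max B 0 * ε ^ 2 := by rw [integral_mul_const, setIntegral_rho_one hε hεδ, one_mul]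

end StepData

end Vale.Agent.P204.Gen
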