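import Vale.Agent.P204.Gen.RegLocal

/-!
P204 on a closed four-manifold, module RegEst: a step whose coefficient vanishes at `t = 0` is
`O (ε)` on every local semiclassical norm. This is the commutator of a step with a coefficient.
-/

open MeasureTheory Set Filter Topology
open scoped ContDiff

namespace Vale.Agent.P204.Gen

open Vale.Agent.P204.Torus

namespace StepData

variable {σ : V × V → V} {M : V × V → Form →L[ℝ] Form} {W : Set (V × V)} {K K' : Set V}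
  (D : StepData σ M W K)
include D

theorem exists_step_small (hK' : IsCompact K') (hKK' : K ⊆ interior K')
    (hM0 : ∀ u, ((0 : V), u) ∈ W → M (0, u) = 0) :
    ∃ ε₁, 0 < ε₁ ∧ ∀ k : ℕ, ∃ C, 0 ≤ C ∧ ∀ ε, 0 < ε → ε ≤ ε₁ → ∀ s : ℝ, 0 ≤ s → s ≤ 1 →
      ∀ (β : V → Form) (U : Set V), IsOpen U → K' ⊆ U → ContDiffOn ℝ ∞ β U →
        ∫ u in K, psq k s (stepOp σ M ε β) u ≤ C * ε ^ 2 * ∫ z in K', psq k s β z := by
  obtain ⟨δ, hδ, O, hO, hKO, hmap, hint⟩ := D.exists_step_int hK' hKK'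
  refine ⟨δ, hδ, fun k => ?_⟩
  set S := Metric.closedBall (0 : V) δ
  have hθS : ∀ t ∈ S, ∀ θ ∈ Icc (0 : ℝ) 1, θ • t ∈ S := fun t ht θ hθ => by
    rw [mem_closedBall_zero_iff] at ht ⊢
    rw [norm_smul, Real.norm_eq_abs, abs_of_nonneg hθ.1]
    exact (mul_le_of_le_one_left (norm_nonneg t) hθ.2).trans ht
  set A : Fin 4 → V × V → Form →L[ℝ] Form := fun c p => fderiv ℝ M p (Pi.single c 1, 0)
  set ι₁ : (V × ℝ) × V → V × V := fun q => (q.1.1, q.2)
  set ι₂ : (V × ℝ) × V → V × V := fun q => (q.1.2 • q.1.1, q.2)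
  have hι₁ : ContDiff ℝ ∞ ι₁ := contDiff_fst.fst.prodMk contDiff_snd
  have hι₂ : ContDiff ℝ ∞ ι₂ := (contDiff_fst.snd.smul contDiff_fst.fst).prodMk contDiff_snd
  set W'' : Set ((V × ℝ) × V) := ι₁ ⁻¹' W ∩ ι₂ ⁻¹' W
  have hW'' : IsOpen W'' :=
    (D.isOpen.preimage hι₁.continuous).inter (D.isOpen.preimage hι₂.continuous)
  set σ'' : (V × ℝ) × V → V := fun q => σ (ι₁ q)
  have hσ'' : ContDiffOn ℝ ∞ σ'' W'' := D.σ_smooth.comp hι₁.contDiffOn fun q hq => hq.1
  set N : Fin 4 → (V × ℝ) × V → Form →L[ℝ] Form := fun c q => A c (ι₂ q)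
  have hN : ∀ c, ContDiffOn ℝ ∞ (N c) W'' := fun c =>
    ((D.M_smooth.fderiv_of_isOpen D.isOpen (by simp)).clm_apply contDiffOn_const).comp
      hι₂.contDiffOn fun q hq => hq.2
  have hKW : (S ×ˢ Icc (0 : ℝ) 1) ×ˢ K ⊆ W'' := fun q hq =>
    ⟨(hmap _ hq.1.1 _ (hKO hq.2)).1, (hmap _ (hθS _ hq.1.1 _ hq.1.2) _ (hKO hq.2)).1⟩
  choose CN hCN hcN using fun c => exists_psq_comp hW'' hσ''
    (((isCompact_closedBall (0 : V) δ).prod isCompact_Icc).prod D.compact) hKW k (N c) (hN c)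
  refine ⟨4 * (∑ c, CN c) * 2,
    mul_nonneg (mul_nonneg (by norm_num) (Finset.sum_nonneg fun c _ => hCN c)) two_pos.le,
    fun ε hε hεδ s hs hs1 β U hU hK'U hβ => ?_⟩
  refine (hint k ε hε hεδ s (4 * (∑ c, CN c) * ε ^ 2)
    (mul_nonneg (mul_nonneg (by norm_num) (Finset.sum_nonneg fun c _ => hCN c)) (sq_nonneg ε))
    β U hU hK'U hβ fun t ht u hu => ?_).trans (le_of_eq (by ring))
  have htS : t ∈ S := mem_closedBall_zero_iff.2 (ht.trans hεδ)
  -- the integrand as an average over the segment from `0` to `t`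
  set ι₃ : ℝ × V → (V × ℝ) × V := fun q => ((t, q.1), q.2)
  have hι₃ : ContDiff ℝ ∞ ι₃ := (contDiff_const.prodMk contDiff_fst).prodMk contDiff_snd
  obtain ⟨hW₂, hg₂⟩ : IsOpen (W'' ∩ σ'' ⁻¹' U) ∧ ∀ c,
      ContDiffOn ℝ ∞ (fun q => N c q (β (σ'' q))) (W'' ∩ σ'' ⁻¹' U) :=
    ⟨hσ''.continuousOn.isOpen_inter_preimage hW'' hU, fun c => ((hN c).mono inter_subset_left).clm_apply
      (hβ.comp (hσ''.mono inter_subset_left) fun _ hq => hq.2)⟩
  set W₃ : Set (ℝ × V) := ι₃ ⁻¹' (W'' ∩ σ'' ⁻¹' U)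
  have hW₃ : IsOpen W₃ := hW₂.preimage hι₃.continuous
  set g : ℝ × V → Form := fun q => ∑ c, t c • N c (ι₃ q) (β (σ'' (ι₃ q)))
  have hgc : ∀ c, ContDiffOn ℝ ∞ (fun q : ℝ × V => N c (ι₃ q) (β (σ'' (ι₃ q)))) W₃ := fun c =>
    (hg₂ c).comp hι₃.contDiffOn fun q hq => hq
  have hg : ContDiffOn ℝ ∞ g W₃ := ContDiffOn.sum fun c _ => (hgc c).const_smul (t c)
  have hsl : ∀ v ∈ O, ∀ θ ∈ Icc (0 : ℝ) 1, (θ, v) ∈ W₃ := fun v hv θ hθ =>
    ⟨⟨(hmap t htS v hv).1, (hmap _ (hθS t htS θ hθ) v hv).1⟩,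
      hK'U (interior_subset (hmap t htS v hv).2)⟩
  have heq : ∀ v ∈ O, M (t, v) (β (σ (t, v))) = ∫ θ in Icc (0 : ℝ) 1, (1 : ℝ) • g (θ, v) := by
    intro v hv
    set b := β (σ (t, v))
    rw [integral_Icc_eq_integral_Ioc, ← intervalIntegral.integral_of_le zero_le_one]
    have hd : ∀ θ ∈ uIcc (0 : ℝ) 1,
        HasDerivAt (fun θ : ℝ => M (θ • t, v) b) ((1 : ℝ) • g (θ, v)) θ := by
      intro θ hθ
      rw [uIcc_of_le zero_le_one] at hθ
      have hin : HasDerivAt (fun θ : ℝ => ((θ • t, v) : V × V)) ((t, 0) : V × V) θ := by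
        have h := (hasDerivAt_id θ).smul_const t
        simp only [id, one_smul] at h
        exact h.prodMk (hasDerivAt_const θ v)
      have h := ((D.M_smooth.differentiableOn (by simp)).differentiableAt
        (D.isOpen.mem_nhds (hmap _ (hθS t htS θ hθ) v hv).1)).hasFDerivAt.comp_hasDerivAt θ hin
      have h2 := (ContinuousLinearMap.apply ℝ Form b).hasFDerivAt.comp_hasDerivAt θ h
      refine h2.congr_deriv ?_
      have htb : ((t, 0) : V × V) = ∑ c, t c • ((Pi.single c 1, 0) : V × V) := by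
        refine Prod.ext ?_ ?_
        · simp only [Prod.fst_sum, Prod.smul_fst]
          exact pi_eq_sum_univ' t
        · simp [Prod.snd_sum]
      rw [one_smul]
      conv_lhs => rw [htb]
      simp only [map_sum, map_smul, ContinuousLinearMap.apply_apply, g, N, A, ι₂, ι₃, σ'', ι₁, b]
    have hci : IntervalIntegrable (fun θ => (1 : ℝ) • g (θ, v)) volume 0 1 := by
      simp only [one_smul]
      refine (hg.continuousOn.comp (by fun_prop : Continuous fun θ : ℝ => (θ, v)).continuousOn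
        fun θ hθ => hsl v hv θ ?_).intervalIntegrable
      rwa [uIcc_of_le zero_le_one] at hθ
    rw [intervalIntegral.integral_eq_sub_of_hasDerivAt hd hci, one_smul, zero_smul,
      hM0 v (hmap 0 (Metric.mem_closedBall_self hδ.le) v hv).1, zero_apply,
      sub_zero]
  rw [psq_congr k s (g := fun v => ∫ θ in Icc (0 : ℝ) 1, (1 : ℝ) • g (θ, v))
    (by filter_upwards [hO.mem_nhds (hKO hu)] with v hv using heq v hv)]
  obtain ⟨hi, hj⟩ := psq_average_le (μ := volume) isCompact_Icc hW₃ continuous_const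
    (fun _ : ℝ => zero_le_one) k s g hg u (hsl u (hKO hu))
  have hone : ∫ _θ in Icc (0 : ℝ) 1, (1 : ℝ) = 1 := by simp
  rw [hone, one_mul] at hj
  refine hj.trans ((setIntegral_mono_on hi
    (continuousOn_const.integrableOn_compact isCompact_Icc) measurableSet_Icc fun θ hθ => ?_).trans
      (le_of_eq (by simp : ∫ _θ in Icc (0 : ℝ) 1, 4 * (∑ c, CN c) * ε ^ 2 * psq k s β (σ (t, u)) =
        4 * (∑ c, CN c) * ε ^ 2 * psq k s β (σ (t, u)))))
  rw [one_mul]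
  set O' : Set V := {v | (θ, v) ∈ W₃}
  have hO' : IsOpen O' := hW₃.preimage (by fun_prop : Continuous fun v : V => (θ, v))
  have hfs : ∀ c, ContDiffOn ℝ ∞ (fun v : V => N c (ι₃ (θ, v)) (β (σ'' (ι₃ (θ, v))))) O' :=
    fun c => (hgc c).comp (contDiff_const.prodMk contDiff_id).contDiffOn fun v hv => hv
  have hu' : u ∈ O' := hsl u (hKO hu) θ hθ
  refine (psq_sum_le k s hO' Finset.univ (fun c v => t c • N c (ι₃ (θ, v)) (β (σ'' (ι₃ (θ, v)))))
    (fun c _ => (hfs c).const_smul (t c)) u hu').trans ?_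
  simp only [Finset.card_univ, Fintype.card_fin, Nat.cast_ofNat]
  rw [mul_assoc, mul_assoc, Finset.sum_mul]
  refine mul_le_mul_of_nonneg_left (Finset.sum_le_sum fun c _ => ?_) (by norm_num)
  rw [psq_smul k s (t c) hO' _ (hfs c) u hu']
  calc t c ^ 2 * psq k s (fun v => N c (ι₃ (θ, v)) (β (σ'' (ι₃ (θ, v))))) u
      ≤ ε ^ 2 * (CN c * psq k s β (σ (t, u))) := by
        refine mul_le_mul ?_ (hcN c ((t, θ), u) ⟨⟨htS, hθ⟩, hu⟩ s hs hs1 β U hU hβ hu'.2)
          (psq_nonneg _ _ _ _) (sq_nonneg ε)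
        rw [← sq_abs]
        exact pow_le_pow_left₀ (abs_nonneg _)
          ((Real.norm_eq_abs (t c) ▸ norm_le_pi_norm t c).trans ht) 2
    _ = CN c * (ε ^ 2 * psq k s β (σ (t, u))) := by ring

end StepData

end Vale.Agent.P204.Gen
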