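import Vale.Agent.P204.Gen.ShiftX
import Vale.Agent.P204.Gen.RegBridge
import Vale.Agent.P204.Gen.RegSmall
import Vale.Agent.P204.Gen.RegGain

/-!
P204 on a closed four-manifold, module RegEst: one average read in a chart, and its local estimates:
boundedness, closeness to the identity, commutators and, over exact translations, the gain.
-/

open MeasureTheory Set Filter Topology
open scoped ContDiff

namespace Vale.Agent.P204.Gen

open Vale.Agent.P204.Torus

namespace Geo

variable {X : Type*} [TopologicalSpace X] [MeasurableSpace X] [BorelSpace X] [T2Space X]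
  [CompactSpace X] {G : Geo X}

/-- A family of displacements around the identity. -/
structure NearId (G : Geo X) (i : Fin G.n) (P : V → V → V) (r : ℝ) : Prop where
  pos : 0 < r
  move : G.Move i r P
  zero : ∀ w, P 0 w = w

/-- A displacement read in the chart `k`. -/
noncomputable def stσ (G : Geo X) (i k : Fin G.n) (P : V → V → V) (p : V × V) : V :=
  G.φ k (G.lift i P p.1 ((G.φ k).symm p.2))

/-- The pull back by a displacement read in the chart `k`. -/
noncomputable def stM (G : Geo X) (i k : Fin G.n) (P : V → V → V) (p : V × V) : Form →L[ℝ] Form :=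
  pullL (HD (G.stσ i k P) p)

/-- Where a displacement is read in the chart `k`. -/
def stW (G : Geo X) (i k : Fin G.n) (P : V → V → V) (r : ℝ) : Set (V × V) :=
  {p | ‖p.1‖ < r ∧ p.2 ∈ (G.φ k).target ∧ G.lift i P p.1 ((G.φ k).symm p.2) ∈ (G.φ k).source}

/-- A field of endomorphisms in a chart, as linear maps. -/
noncomputable def opC (G : Geo X) (F : X → Form →L[ℝ] Form) (k : Fin G.n) (u : V) :
    Form →L[ℝ] Form :=
  (pullL (G.dT k ((G.φ k).symm u))).comp
    ((F ((G.φ k).symm u)).comp (pullL (G.dT k ((G.φ k).symm u)).inverse))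

omit [BorelSpace X] [T2Space X] [CompactSpace X] in
lemma opC_apply (F : X → Form →L[ℝ] Form) (k : Fin G.n) (u : V) (β : Form) :
    G.opC F k u β = G.repOp k F u β := rfl

omit [BorelSpace X] [T2Space X] [CompactSpace X] in
lemma contDiffOn_opC {F : X → Form →L[ℝ] Form} (hF : G.SmoothOp F) (k : Fin G.n) :
    ContDiffOn ℝ ∞ (G.opC F k) (G.φ k).target :=
  contDiffOn_clm_apply.2 fun β => hF k β

/-- Where the cut-off of the chart `i` is one. -/
def oneSet (G : Geo X) (i : Fin G.n) : Set V := interior {u | G.χ i u = 1}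

omit [BorelSpace X] [T2Space X] [CompactSpace X] in
lemma oneSet_subset (i : Fin G.n) : G.oneSet i ⊆ (G.φ i).target := fun u hu =>
  G.χ_supp i (subset_tsupport _ (by
    have := interior_subset hu
    simp only [mem_ofPred_eq] at this
    simp [this]))

omit [BorelSpace X] [T2Space X] [CompactSpace X] in
lemma psiSet_subset_oneSet (i : Fin G.n) : G.psiSet i ⊆ G.oneSet i := by
  rintro _ ⟨x, hx, rfl⟩
  exact mem_interior_iff_mem_nhds.2 (G.χ_one i x hx)

variable {i k : Fin G.n} {P : V → V → V} {r : ℝ} (h : G.NearId i P r)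
include h

omit [BorelSpace X] [T2Space X] [CompactSpace X] in
lemma NearId.lift_zero (x : X) : G.lift i P 0 x = x := by
  by_cases hi : x ∈ (G.φ i).source
  · rw [lift_apply P 0 hi, h.zero, (G.φ i).left_inv hi]
  · exact lift_of_notMem P 0 hi

omit [BorelSpace X] [CompactSpace X] in
lemma NearId.isOpen_stW : IsOpen (G.stW i k P r) := isOpen_iff_mem_nhds.2 fun p hp => by
  obtain ⟨t, u⟩ := p
  have h' := h.move.eventually_source hp.1 ((G.φ k).map_target hp.2.1) hp.2.2
  rw [(G.φ k).right_inv hp.2.1] at h'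
  exact h'

omit [BorelSpace X] [CompactSpace X] in
lemma NearId.contDiffOn_stσ : ContDiffOn ℝ ∞ (G.stσ i k P) (G.stW i k P r) := by
  rintro ⟨t, u⟩ hp
  have h' := h.move.contDiffAt_map hp.1 ((G.φ k).map_target hp.2.1) hp.2.2
  rw [(G.φ k).right_inv hp.2.1] at h'
  exact h'.contDiffWithinAt

omit [BorelSpace X] [CompactSpace X] in
lemma NearId.contDiffOn_stM : ContDiffOn ℝ ∞ (G.stM i k P) (G.stW i k P r) := by
  refine contDiffOn_clm_apply.2 fun β q hq => ?_
  simp only [stM, pullL_apply]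
  exact (contDiffAt_pull (((h.contDiffOn_stσ.contDiffAt (h.isOpen_stW.mem_nhds hq)).fderiv_right
    (m := ∞) le_rfl).clm_comp contDiffAt_const) contDiffAt_const).contDiffWithinAt

omit [BorelSpace X] [T2Space X] [CompactSpace X] in
lemma NearId.stσ_zero {u : V} (hu : u ∈ (G.φ k).target) : G.stσ i k P (0, u) = u := by
  simp [stσ, h.lift_zero, (G.φ k).right_inv hu]

omit [BorelSpace X] [CompactSpace X] in
lemma NearId.stepData {K : Set V} (hK : IsCompact K) (hKk : K ⊆ (G.φ k).target) :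
    StepData (G.stσ i k P) (G.stM i k P) (G.stW i k P r) K where
  isOpen := h.isOpen_stW
  compact := hK
  mem u hu := ⟨by simpa using h.pos, hKk hu, by rw [h.lift_zero]; exact (G.φ k).map_target (hKk hu)⟩
  σ_smooth := h.contDiffOn_stσ
  M_smooth := h.contDiffOn_stM
  σ_zero _ hu := h.stσ_zero hu.2.1

omit [BorelSpace X] [CompactSpace X] in
lemma NearId.hasFDerivAt_slice {p : V × V} (hp : p ∈ G.stW i k P r) :
    HasFDerivAt (fun v => G.stσ i k P (p.1, v)) (HD (G.stσ i k P) p) p.2 :=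
  HasFDerivAt.comp (g := G.stσ i k P) (f := fun v => (p.1, v)) p.2
    ((h.contDiffOn_stσ.differentiableOn (by simp)).differentiableAt
      (h.isOpen_stW.mem_nhds hp)).hasFDerivAt (hasFDerivAt_prodMk_right p.1 p.2)

omit [BorelSpace X] [CompactSpace X] in
lemma NearId.stM_zero {u : V} (hu : ((0 : V), u) ∈ G.stW i k P r) :
    G.stM i k P (0, u) = ContinuousLinearMap.id ℝ Form := by
  have h1 : HasFDerivAt (fun v => G.stσ i k P (0, v)) (ContinuousLinearMap.id ℝ V) u :=
    (hasFDerivAt_id u).congr_of_eventuallyEq (by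
      filter_upwards [(G.φ k).open_target.mem_nhds hu.2.1] with v hv using h.stσ_zero hv)
  ext1 β
  simp [stM, (h.hasFDerivAt_slice hu).unique h1, pullL_apply, pull_id]

omit [BorelSpace X] [CompactSpace X] in
/-- An average read in a chart. -/
theorem NearId.exists_rep2_eq {K : Set V} (hK : IsCompact K) (hKk : K ⊆ (G.φ k).target) :
    ∃ δ > 0, ∃ O : Set V, IsOpen O ∧ K ⊆ O ∧ O ⊆ (G.φ k).target ∧
      (∀ t : V, ‖t‖ ≤ δ → ∀ u ∈ O, (t, u) ∈ G.stW i k P r) ∧
      ∀ ε, 0 < ε → ε ≤ δ → ∀ α, G.Smooth2 α → ∀ u ∈ O,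
        G.rep2 k (G.avP i P ε α) u = stepOp (G.stσ i k P) (G.stM i k P) ε (G.rep2 k α) u := by
  obtain ⟨K₁, hK₁, hKK₁, hK₁k⟩ := exists_compact_between hK (G.φ k).open_target hKk
  obtain ⟨δ, hδ, hδr, hkeep⟩ := h.move.exists_keep h.zero h.pos hK₁ hK₁k
  refine ⟨δ / 2, half_pos hδ, interior K₁, isOpen_interior, hKK₁, interior_subset.trans hK₁k,
    fun t ht u hu => ⟨lt_of_le_of_lt ht (lt_of_lt_of_le (half_lt_self hδ) hδr),
      hK₁k (interior_subset hu), hkeep t (ht.trans_lt (half_lt_self hδ)) u (interior_subset hu)⟩,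
    fun ε hε hεδ α hα u hu => ?_⟩
  have hεr : ε < r := hεδ.trans_lt (lt_of_lt_of_le (half_lt_self hδ) hδr)
  rw [h.move.rep2_avP hα hε hεr (hK₁k (interior_subset hu)), stepOp]
  refine integral_congr_ae (Eventually.of_forall fun t => ?_)
  by_cases ht : ‖t‖ < ε
  · have hs := hkeep t ((ht.trans_le hεδ).trans (half_lt_self hδ)) u (interior_subset hu)
    simp only
    rw [h.move.rep2_pb_slice (ht.trans hεr) (hK₁k (interior_subset hu)) hs, stM, pullL_apply]
    congr 2
    exact (h.hasFDerivAt_slice (p := (t, u))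
      ⟨ht.trans hεr, hK₁k (interior_subset hu), hs⟩).fderiv
  · simp [rho_eq_zero hε (not_lt.1 ht)]

omit [BorelSpace X] [CompactSpace X] in
/-- An average is bounded on the local norms. -/
theorem NearId.exists_bound {K K' : Set V} (hK : IsCompact K) (hK' : IsCompact K')
    (hKK' : K ⊆ interior K') (hK'k : K' ⊆ (G.φ k).target) :
    ∃ ε₁, 0 < ε₁ ∧ ∀ j : ℕ, ∃ C, 0 ≤ C ∧ ∀ ε, 0 < ε → ε ≤ ε₁ → ∀ s : ℝ, 0 ≤ s → s ≤ 1 →
      ∀ α, G.Smooth2 α → G.lsq j s k K (G.avP i P ε α) ≤ C * G.lsq j s k K' α := by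
  have hKk := (hKK'.trans interior_subset).trans hK'k
  obtain ⟨δ, hδ, O, hO, hKO, -, -, heq⟩ := h.exists_rep2_eq hK hKk
  obtain ⟨e, he, hb⟩ := (h.stepData hK hKk).exists_step_bound hK' hKK'
  refine ⟨min δ e, lt_min hδ he, fun j => ?_⟩
  obtain ⟨C, hC, hb⟩ := hb j
  refine ⟨C, hC, fun ε hε hεle s hs hs1 α hα => ?_⟩
  refine le_of_eq_of_le (setIntegral_congr_fun hK.measurableSet fun u hu => ?_)
    (hb ε hε (hεle.trans (min_le_right _ _)) s hs hs1 _ _ (G.φ k).open_target hK'k (hα k))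
  exact psq_congr j s (by
    filter_upwards [hO.mem_nhds (hKO hu)] with v hv using
      heq ε hε (hεle.trans (min_le_left _ _)) α hα v hv)

omit [BorelSpace X] [CompactSpace X] in
/-- An average differs from the identity by one derivative. -/
theorem NearId.exists_diff {K K' : Set V} (hK : IsCompact K) (hK' : IsCompact K')
    (hKK' : K ⊆ interior K') (hK'k : K' ⊆ (G.φ k).target) :
    ∃ ε₁, 0 < ε₁ ∧ ∀ j : ℕ, ∃ C, 0 ≤ C ∧ ∀ ε, 0 < ε → ε ≤ ε₁ → ∀ α, G.Smooth2 α →
      G.lsq j 1 k K (G.avP i P ε α - α) ≤ C * ε ^ 2 * G.lsq (j + 1) 1 k K' α := by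
  have hKk := (hKK'.trans interior_subset).trans hK'k
  obtain ⟨δ, hδ, O, hO, hKO, -, -, heq⟩ := h.exists_rep2_eq hK hKk
  obtain ⟨e, he, hb⟩ := (h.stepData hK hKk).exists_step_diff hK' hKK' fun u hu => h.stM_zero hu
  refine ⟨min δ e, lt_min hδ he, fun j => ?_⟩
  obtain ⟨C, hC, hb⟩ := hb j
  refine ⟨C, hC, fun ε hε hεle α hα => ?_⟩
  refine le_of_eq_of_le (setIntegral_congr_fun hK.measurableSet fun u hu => ?_)
    (hb ε hε (hεle.trans (min_le_right _ _)) _ _ (G.φ k).open_target hK'k (hα k))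
  refine psq_congr j 1 ?_
  filter_upwards [hO.mem_nhds (hKO hu)] with v hv
  rw [sub_eq_add_neg, ← neg_one_smul ℝ α, G.rep2_add, G.rep2_smul, neg_one_smul, Pi.add_apply,
    Pi.neg_apply, ← sub_eq_add_neg, heq ε hε (hεle.trans (min_le_left _ _)) α hα v hv]

omit [BorelSpace X] [CompactSpace X] in
/-- An average is second order accurate on a smooth field. -/
theorem NearId.exists_near {K : Set V} (hK : IsCompact K) (hKk : K ⊆ (G.φ k).target)
    {α : X → Form} (hα : G.Smooth2 α) :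
    ∃ C ε₁, 0 ≤ C ∧ 0 < ε₁ ∧ ∀ ε, 0 < ε → ε ≤ ε₁ →
      G.lsq 0 1 k K (G.avP i P ε α - α) ≤ C * (ε ^ 2) ^ 2 := by
  obtain ⟨K', hK', hKK', hK'k⟩ := exists_compact_between hK (G.φ k).open_target hKk
  obtain ⟨δ, hδ, O, hO, hKO, -, -, heq⟩ := h.exists_rep2_eq hK hKk
  obtain ⟨C, e, he, hb⟩ := (h.stepData hK hKk).exists_step_near hKK' (fun u hu => h.stM_zero hu)
    (G.φ k).open_target hK'k (hα k)
  refine ⟨C ^ 2 * (volume K).toReal, min δ e, by positivity, lt_min hδ he,
    fun ε hε hεle => ?_⟩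
  calc G.lsq 0 1 k K (G.avP i P ε α - α)
      ≤ ∫ _u in K, (C * ε ^ 2) ^ 2 := by
        refine integral_mono_of_nonneg (Eventually.of_forall fun u => psq_nonneg _ _ _ _)
          (integrableOn_const hK.measure_lt_top.ne) ?_
        filter_upwards [ae_restrict_mem hK.measurableSet] with u hu
        simp only [psq]
        rw [sub_eq_add_neg, ← neg_one_smul ℝ α, G.rep2_add, G.rep2_smul, neg_one_smul,
          Pi.add_apply, Pi.neg_apply, ← sub_eq_add_neg,
          heq ε hε (hεle.trans (min_le_left _ _)) α hα u (hKO hu)]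
        exact pow_le_pow_left₀ (norm_nonneg _) (hb ε hε (hεle.trans (min_le_right _ _)) u hu) 2
    _ = C ^ 2 * (volume K).toReal * (ε ^ 2) ^ 2 := by
        simp [measureReal_def]; ring

/-- The commutator coefficient of an average and a field of endomorphisms. -/
noncomputable def _root_.Vale.Agent.P204.Gen.Geo.comM (G : Geo X) (F : X → Form →L[ℝ] Form)
    (i k : Fin G.n) (P : V → V → V) (p : V × V) : Form →L[ℝ] Form :=
  (G.opC F k p.2).comp (G.stM i k P p) - (G.stM i k P p).comp (G.opC F k (G.stσ i k P p))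

omit [BorelSpace X] [CompactSpace X] in
lemma NearId.contDiffOn_comM {F : X → Form →L[ℝ] Form} (hF : G.SmoothOp F) :
    ContDiffOn ℝ ∞ (G.comM F i k P) (G.stW i k P r) :=
  (((contDiffOn_opC hF k).comp contDiff_snd.contDiffOn fun _ hp => hp.2.1).clm_comp
    h.contDiffOn_stM).sub (h.contDiffOn_stM.clm_comp ((contDiffOn_opC hF k).comp h.contDiffOn_stσ
      fun _ hp => (G.φ k).map_source hp.2.2))

omit [BorelSpace X] [CompactSpace X] in
lemma NearId.comM_zero {F : X → Form →L[ℝ] Form} {u : V} (hu : ((0 : V), u) ∈ G.stW i k P r) :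
    G.comM F i k P (0, u) = 0 := by
  simp [comM, h.stM_zero hu, h.stσ_zero hu.2.1]

omit [BorelSpace X] [CompactSpace X] in
/-- A commutator read in a chart. -/
theorem NearId.exists_comm_eq {K : Set V} (hK : IsCompact K) (hKk : K ⊆ (G.φ k).target)
    {F : X → Form →L[ℝ] Form} (hF : G.SmoothOp F) :
    ∃ δ > 0, ∃ O : Set V, IsOpen O ∧ K ⊆ O ∧ ∀ ε, 0 < ε → ε ≤ δ → ∀ α, G.Smooth2 α → ∀ u ∈ O,
      G.rep2 k ((fun x => F x (G.avP i P ε α x)) - G.avP i P ε fun x => F x (α x)) u =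
        stepOp (G.stσ i k P) (G.comM F i k P) ε (G.rep2 k α) u := by
  obtain ⟨δ, hδ, O, hO, hKO, hOk, hW, heq⟩ := h.exists_rep2_eq hK hKk
  refine ⟨δ, hδ, O, hO, hKO, fun ε hε hεδ α hα u hu => ?_⟩
  rw [sub_eq_add_neg, ← neg_one_smul ℝ (G.avP i P ε fun x => F x (α x)), G.rep2_add, G.rep2_smul,
    neg_one_smul, Pi.add_apply, Pi.neg_apply, ← sub_eq_add_neg, G.rep2_op F _ (hOk hu),
    ← opC_apply, heq ε hε hεδ α hα u hu, heq ε hε hεδ _ (hF.apply hα) u hu]
  simp only [stepOp, ← setIntegral_rho hε hεδ]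
  set S := Metric.closedBall (0 : V) δ
  have hmem : ∀ t ∈ S, (t, u) ∈ G.stW i k P r := fun t ht =>
    hW t (mem_closedBall_zero_iff.1 ht) u hu
  have hc : Continuous fun t : V => (t, u) := by fun_prop
  have hg : ∀ β, G.Smooth2 β → IntegrableOn
      (fun t => rho ε t • G.stM i k P (t, u) (G.rep2 k β (G.stσ i k P (t, u)))) S := fun β hβ =>
    ((continuous_rho' ε).continuousOn.smul
      (((h.contDiffOn_stM.continuousOn.comp hc.continuousOn hmem)).clm_apply
        ((hβ k).continuousOn.comp (h.contDiffOn_stσ.continuousOn.comp hc.continuousOn hmem)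
          fun t ht => (G.φ k).map_source (hmem t ht).2.2))).integrableOn_compact
            (isCompact_closedBall _ _)
  rw [← ContinuousLinearMap.integral_comp_comm _ (hg α hα), ← integral_sub
    ((G.opC F k u).integrable_comp (hg α hα)) (hg _ (hF.apply hα))]
  refine setIntegral_congr_fun measurableSet_closedBall fun t ht => ?_
  simp only [map_smul, ← smul_sub, comM, sub_apply, ContinuousLinearMap.comp_apply]
  rw [G.rep2_op F α (show G.stσ i k P (t, u) ∈ (G.φ k).target from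
    (G.φ k).map_source (hmem t ht).2.2), ← opC_apply]

omit [BorelSpace X] [CompactSpace X] in
/-- The commutator of an average and a field of endomorphisms is of order `ε`. -/
theorem NearId.exists_comm {K K' : Set V} (hK : IsCompact K) (hK' : IsCompact K')
    (hKK' : K ⊆ interior K') (hK'k : K' ⊆ (G.φ k).target) {F : X → Form →L[ℝ] Form}
    (hF : G.SmoothOp F) :
    ∃ ε₁, 0 < ε₁ ∧ ∀ j : ℕ, ∃ C, 0 ≤ C ∧ ∀ ε, 0 < ε → ε ≤ ε₁ → ∀ s : ℝ, 0 ≤ s → s ≤ 1 →
      ∀ α, G.Smooth2 α →
        G.lsq j s k K ((fun x => F x (G.avP i P ε α x)) - G.avP i P ε fun x => F x (α x)) ≤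
          C * ε ^ 2 * G.lsq j s k K' α := by
  have hKk := (hKK'.trans interior_subset).trans hK'k
  obtain ⟨δ, hδ, O, hO, hKO, heq⟩ := h.exists_comm_eq hK hKk hF
  have D : StepData (G.stσ i k P) (G.comM F i k P) (G.stW i k P r) K :=
    { h.stepData hK hKk with M_smooth := h.contDiffOn_comM hF }
  obtain ⟨e, he, hb⟩ := D.exists_step_small hK' hKK' fun u hu => h.comM_zero hu
  refine ⟨min δ e, lt_min hδ he, fun j => ?_⟩
  obtain ⟨C, hC, hb⟩ := hb j
  refine ⟨C, hC, fun ε hε hεle s hs hs1 α hα => ?_⟩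
  refine le_of_eq_of_le (setIntegral_congr_fun hK.measurableSet fun u hu => ?_)
    (hb ε hε (hεle.trans (min_le_right _ _)) s hs hs1 _ _ (G.φ k).open_target hK'k (hα k))
  exact psq_congr j s (by
    filter_upwards [hO.mem_nhds (hKO hu)] with v hv using
      heq ε hε (hεle.trans (min_le_left _ _)) α hα v hv)

omit h in
omit [BorelSpace X] [CompactSpace X] in
lemma stσ_fwd (hf : G.Move i r (G.fwd i)) {t u : V} (ht : ‖t‖ < r) (hu : u ∈ G.oneSet i) :
    G.stσ i i (G.fwd i) (t, u) = transl (t, u) := by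
  have hui := oneSet_subset i hu
  have hχ : G.χ i u = 1 := interior_subset (s := {u | G.χ i u = 1}) hu
  simp only [stσ, transl]
  rw [hf.chart ht ((G.φ i).map_target hui), (G.φ i).right_inv hui, fwd, shift_of_eq_one t hχ]

omit h in
omit [BorelSpace X] [CompactSpace X] in
/-- Averages over exact translations gain all derivatives, and their commutators a power of `ε`. -/
theorem exists_gain_step (h : G.NearId i (G.fwd i) r) {K K' : Set V} (hK : IsCompact K)
    (hK' : IsCompact K') (hKK' : K ⊆ interior K') (hK'1 : K' ⊆ G.oneSet i) :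
    (∃ ε₁, 0 < ε₁ ∧ ∀ j : ℕ, ∃ C, 0 ≤ C ∧ ∀ ε, 0 < ε → ε ≤ ε₁ → ∀ α, G.Smooth2 α →
      G.lsq j ε i K (G.avg i ε α) ≤ C * G.lsq 0 1 i K' α) ∧
    ∀ F, G.SmoothOp F → ∃ ε₁, 0 < ε₁ ∧ ∀ j : ℕ, ∃ C, 0 ≤ C ∧ ∀ ε, 0 < ε → ε ≤ ε₁ →
      ∀ α, G.Smooth2 α →
        G.lsq j ε i K ((fun x => F x (G.avg i ε α x)) - G.avg i ε fun x => F x (α x)) ≤
          C * ε ^ 2 * G.lsq 0 1 i K' α := by
  have hK'i : K' ⊆ (G.φ i).target := hK'1.trans (oneSet_subset i)
  have hKi := (hKK'.trans interior_subset).trans hK'i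
  set W₀ : Set (V × V) := G.stW i i (G.fwd i) r ∩ univ ×ˢ G.oneSet i
  have hW₀ : IsOpen W₀ := h.isOpen_stW.inter (isOpen_univ.prod isOpen_interior)
  have hK'W : ∀ u ∈ K', ((0 : V), u) ∈ W₀ := fun u hu =>
    ⟨(h.stepData hK' hK'i).mem u hu, mem_univ _, hK'1 hu⟩
  -- replace the displacement by the translation
  have key : ∀ (M : V × V → Form →L[ℝ] Form) (ε : ℝ), 0 < ε → ε ≤ r → ∀ (β : V → Form) (u : V),
      u ∈ G.oneSet i → stepOp (G.stσ i i (G.fwd i)) M ε β u = stepOp transl M ε β u :=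
    fun M ε hε hεr β u hu => integral_congr_ae (Eventually.of_forall fun t => by
      by_cases ht : ‖t‖ < ε
      · simp only [stσ_fwd h.move (ht.trans_le hεr) hu]
      · simp [rho_eq_zero hε (not_lt.1 ht)])
  constructor
  · obtain ⟨δ, hδ, O, hO, hKO, -, -, heq⟩ := h.exists_rep2_eq hK hKi
    obtain ⟨e, he, hb⟩ := exists_gain hW₀ (h.contDiffOn_stM.mono inter_subset_left) hK hK' hKK'
      hK'W (m := 0) (Or.inl rfl)
    refine ⟨min r (min δ e), lt_min h.pos (lt_min hδ he), fun j => ?_⟩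
    obtain ⟨C, hC, hb⟩ := hb j
    refine ⟨C, hC, fun ε hε hεle α hα => ?_⟩
    refine le_of_eq_of_le (setIntegral_congr_fun hK.measurableSet fun u hu => ?_)
      ((hb ε hε (hεle.trans ((min_le_right _ _).trans (min_le_right _ _))) _ _
        (G.φ i).open_target hK'i (hα i)).trans_eq (by simp [lsq, psq]))
    refine psq_congr j ε ?_
    filter_upwards [hO.mem_nhds (hKO hu),
      isOpen_interior.mem_nhds (hK'1 (interior_subset (hKK' hu)))] with v hv hv1
    rw [avg_eq_avP, heq ε hε (hεle.trans ((min_le_right _ _).trans (min_le_left _ _))) α hα v hv,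
      key _ ε hε (hεle.trans (min_le_left _ _)) _ v hv1]
  · intro F hF
    obtain ⟨δ, hδ, O, hO, hKO, heq⟩ := h.exists_comm_eq hK hKi hF
    obtain ⟨e, he, hb⟩ := exists_gain hW₀ ((h.contDiffOn_comM hF).mono inter_subset_left) hK hK'
      hKK' hK'W (m := 1) (Or.inr ⟨rfl, fun u hu => h.comM_zero hu.1⟩)
    refine ⟨min r (min δ e), lt_min h.pos (lt_min hδ he), fun j => ?_⟩
    obtain ⟨C, hC, hb⟩ := hb j
    refine ⟨C, hC, fun ε hε hεle α hα => ?_⟩
    refine le_of_eq_of_le (setIntegral_congr_fun hK.measurableSet fun u hu => ?_)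
      ((hb ε hε (hεle.trans ((min_le_right _ _).trans (min_le_right _ _))) _ _
        (G.φ i).open_target hK'i (hα i)).trans_eq (by simp [lsq, psq]))
    refine psq_congr j ε ?_
    filter_upwards [hO.mem_nhds (hKO hu),
      isOpen_interior.mem_nhds (hK'1 (interior_subset (hKK' hu)))] with v hv hv1
    rw [avg_eq_avP, avg_eq_avP,
      heq ε hε (hεle.trans ((min_le_right _ _).trans (min_le_left _ _))) α hα v hv,
      key _ ε hε (hεle.trans (min_le_left _ _)) _ v hv1]

end Geo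

end Vale.Agent.P204.Gen
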