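import Mathlib

/-!
P204, general four-manifold: the elementary lemmas of the regulariser.

In one chart the regulariser moves `x` to `shift χ a x = x + χ x • a`, with a cut-off `χ`. For small
`a` this is a diffeomorphism which is close to the identity, and its inverse is smooth in `(a, x)`.
The last lemma is the rule which moves a derivative off `φ (Φ (a, x))` onto the weight in `a`.
-/

open scoped ContDiff NNReal
open MeasureTheory Set Filter Topology

namespace Vale.Agent.P204.Gen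

variable {E : Type*} [NormedAddCommGroup E] [NormedSpace ℝ E]

/-- The cut-off translation by `a`. -/
def shift (χ : E → ℝ) (a x : E) : E := x + χ x • a

lemma contDiff_shift {χ : E → ℝ} {n : WithTop ℕ∞} (hχ : ContDiff ℝ n χ) :
    ContDiff ℝ n fun p : E × E => shift χ p.1 p.2 :=
  contDiff_snd.add ((hχ.comp contDiff_snd).smul contDiff_fst)

lemma shift_zero (χ : E → ℝ) (x : E) : shift χ 0 x = x := by simp [shift]

lemma shift_of_notMem {χ : E → ℝ} {x : E} (a : E) (hx : x ∉ tsupport χ) : shift χ a x = x := by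
  simp [shift, image_eq_zero_of_notMem_tsupport hx]

lemma shift_of_eq_one {χ : E → ℝ} {x : E} (a : E) (hx : χ x = 1) : shift χ a x = x + a := by
  simp [shift, hx]

lemma norm_shift_sub_le {χ : E → ℝ} {C : ℝ} (hC : ∀ x, |χ x| ≤ C) (a x : E) :
    ‖shift χ a x - x‖ ≤ C * ‖a‖ := by
  simp only [shift, add_sub_cancel_left, norm_smul, Real.norm_eq_abs]
  exact mul_le_mul_of_nonneg_right (hC x) (norm_nonneg a)

lemma hasFDerivAt_shift {χ : E → ℝ} {x : E} (a : E) (hχ : DifferentiableAt ℝ χ x) :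
    HasFDerivAt (shift χ a)
      (ContinuousLinearMap.id ℝ E + (fderiv ℝ χ x).smulRight a) x :=
  (hasFDerivAt_id x).add (hχ.hasFDerivAt.smul_const a)

/-- The derivative of the shift is `1 + O(a)`. -/
lemma norm_fderiv_shift_sub_le {χ : E → ℝ} {K : ℝ≥0} (hχ : LipschitzWith K χ) (a x : E)
    (hd : DifferentiableAt ℝ χ x) :
    ‖fderiv ℝ (shift χ a) x - ContinuousLinearMap.id ℝ E‖ ≤ K * ‖a‖ := by
  rw [(hasFDerivAt_shift a hd).fderiv, add_sub_cancel_left, ContinuousLinearMap.norm_smulRight_apply]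
  exact mul_le_mul_of_nonneg_right (norm_fderiv_le_of_lipschitz ℝ hχ) (norm_nonneg a)

lemma norm_sub_le_shift {χ : E → ℝ} {K : ℝ≥0} (hχ : LipschitzWith K χ) (a x y : E) :
    (1 - K * ‖a‖) * ‖x - y‖ ≤ ‖shift χ a x - shift χ a y‖ := by
  have h1 : shift χ a x - shift χ a y = (x - y) + (χ x - χ y) • a := by
    simp only [shift, sub_smul]; abel
  have h2 : ‖(χ x - χ y) • a‖ ≤ K * ‖a‖ * ‖x - y‖ := by
    rw [norm_smul, mul_right_comm]
    exact mul_le_mul_of_nonneg_right (hχ.norm_sub_le x y) (norm_nonneg a)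
  have h3 := norm_sub_le ((x - y) + (χ x - χ y) • a) ((χ x - χ y) • a)
  rw [add_sub_cancel_right] at h3
  rw [h1]
  linarith

variable [CompleteSpace E]

/-- For small `a` the shift is a bijection. -/
lemma bijective_shift {χ : E → ℝ} {K : ℝ≥0} (hχ : LipschitzWith K χ) {a : E}
    (ha : (K : ℝ) * ‖a‖ < 1) : Function.Bijective (shift χ a) := by
  refine ⟨fun x y h => ?_, fun y => ?_⟩
  · have h1 := norm_sub_le_shift hχ a x y
    rw [h, sub_self, norm_zero] at h1
    have h2 : ‖x - y‖ ≤ 0 := nonpos_of_mul_nonpos_right h1 (by linarith)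
    exact sub_eq_zero.1 (norm_le_zero_iff.1 h2)
  · have hT : ContractingWith (K * ‖a‖₊) fun x => y - χ x • a := by
      refine ⟨by exact_mod_cast ha, LipschitzWith.of_dist_le_mul fun u v => ?_⟩
      have h : (y - χ u • a) - (y - χ v • a) = (χ v - χ u) • a := by simp [sub_smul]
      rw [dist_eq_norm, h, norm_smul, dist_eq_norm, NNReal.coe_mul, coe_nnnorm,
        mul_right_comm]
      refine mul_le_mul_of_nonneg_right ?_ (norm_nonneg a)
      rw [norm_sub_rev u v]
      exact hχ.norm_sub_le v u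
    refine ⟨hT.fixedPoint _, ?_⟩
    have h := hT.fixedPoint_isFixedPt (f := fun x => y - χ x • a)
    exact eq_sub_iff_add_eq.1 h.eq.symm

/-- The inverse of the shift. -/
noncomputable def shiftInv (χ : E → ℝ) (a y : E) : E := Function.invFun (shift χ a) y

lemma shift_shiftInv {χ : E → ℝ} {K : ℝ≥0} (hχ : LipschitzWith K χ) {a : E}
    (ha : (K : ℝ) * ‖a‖ < 1) (y : E) : shift χ a (shiftInv χ a y) = y :=
  Function.invFun_eq ((bijective_shift hχ ha).2 y)

lemma shiftInv_shift {χ : E → ℝ} {K : ℝ≥0} (hχ : LipschitzWith K χ) {a : E}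
    (ha : (K : ℝ) * ‖a‖ < 1) (x : E) : shiftInv χ a (shift χ a x) = x :=
  Function.leftInverse_invFun (bijective_shift hχ ha).1 x

variable [FiniteDimensional ℝ E]

/-- The inverse of the shift is jointly smooth for small `a`. -/
theorem contDiffAt_shiftInv {χ : E → ℝ} {K : ℝ≥0} (hK : LipschitzWith K χ) {n : WithTop ℕ∞}
    (hn : n ≠ 0) (hχ : ContDiff ℝ n χ) {a₀ y₀ : E} (ha : (K : ℝ) * ‖a₀‖ < 1) :
    ContDiffAt ℝ n (fun p : E × E => shiftInv χ p.1 p.2) (a₀, y₀) := by
  set x₀ := shiftInv χ a₀ y₀ with hx₀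
  set g : E × E → E × E := fun p => (p.1, shift χ p.1 p.2) with hg
  have hgd : ContDiff ℝ n g := contDiff_fst.prodMk (contDiff_shift hχ)
  have hd : DifferentiableAt ℝ χ x₀ := (hχ.differentiable hn) x₀
  have hder : HasFDerivAt g (fderiv ℝ g (a₀, x₀)) (a₀, x₀) :=
    ((hgd.differentiable hn) _).hasFDerivAt
  have hsh : HasFDerivAt (fun p : E × E => shift χ p.1 p.2)
      (ContinuousLinearMap.snd ℝ E E + (χ x₀ • ContinuousLinearMap.fst ℝ E E +
        ((fderiv ℝ χ x₀).comp (ContinuousLinearMap.snd ℝ E E)).smulRight a₀)) (a₀, x₀) :=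
    hasFDerivAt_snd.add ((HasFDerivAt.comp (f := Prod.snd) (a₀, x₀) hd.hasFDerivAt hasFDerivAt_snd).smul hasFDerivAt_fst)
  have heq := hder.unique (hasFDerivAt_fst.prodMk hsh)
  have hinj : Function.Injective (fderiv ℝ g (a₀, x₀)) := by
    rw [injective_iff_map_eq_zero]
    intro v hv
    rw [heq] at hv
    have h1 : v.1 = 0 := congrArg Prod.fst hv
    have h2 : v.2 + (χ x₀ • v.1 + fderiv ℝ χ x₀ v.2 • a₀) = 0 := congrArg Prod.snd hv
    rw [h1, smul_zero, zero_add] at h2
    have h3 : ‖v.2‖ = |fderiv ℝ χ x₀ v.2| * ‖a₀‖ :=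
      (congrArg norm (eq_neg_of_add_eq_zero_left h2)).trans
        (by rw [norm_neg, norm_smul, Real.norm_eq_abs])
    have h4 : |fderiv ℝ χ x₀ v.2| ≤ K * ‖v.2‖ :=
      ((fderiv ℝ χ x₀).le_opNorm v.2).trans
        (mul_le_mul_of_nonneg_right (norm_fderiv_le_of_lipschitz ℝ hK) (norm_nonneg _))
    have h5 : ‖v.2‖ ≤ K * ‖a₀‖ * ‖v.2‖ := by
      nlinarith [mul_le_mul_of_nonneg_right h4 (norm_nonneg a₀)]
    have h6 : ‖v.2‖ ≤ 0 := by nlinarith [norm_nonneg v.2]
    exact Prod.ext h1 (norm_le_zero_iff.1 h6)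
  set L : (E × E) ≃L[ℝ] (E × E) :=
    (LinearEquiv.ofInjectiveEndo (fderiv ℝ g (a₀, x₀)).toLinearMap hinj).toContinuousLinearEquiv
  have hL : HasFDerivAt g (L : (E × E) →L[ℝ] (E × E)) (a₀, x₀) :=
    hder.congr_fderiv (ContinuousLinearMap.ext fun v => rfl)
  have hga : g (a₀, x₀) = (a₀, y₀) := by simp [hg, hx₀, shift_shiftInv hK ha]
  have hloc := (hgd.contDiffAt).to_localInverse hL hn
  rw [hga] at hloc
  refine (contDiffAt_snd.comp _ hloc).congr_of_eventuallyEq ?_
  have hev := (hgd.contDiffAt.hasStrictFDerivAt' hL hn).eventually_right_inverse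
  rw [hga] at hev
  have hsmall : ∀ᶠ p : E × E in 𝓝 (a₀, y₀), (K : ℝ) * ‖p.1‖ < 1 :=
    (isOpen_lt (by fun_prop) continuous_const).mem_nhds ha
  filter_upwards [hev, hsmall] with p hp hps
  have h1 := congrArg Prod.fst hp
  have h2 := congrArg Prod.snd hp
  simp only [hg] at h1 h2
  rw [h1] at h2
  change shiftInv χ p.1 p.2 = _
  conv_lhs => rw [← h2]
  exact shiftInv_shift hK hps _

omit [CompleteSpace E] [FiniteDimensional ℝ E] in
/-- A cut-off is Lipschitz. -/
lemma exists_lipschitz {χ : E → ℝ} (hχ : ContDiff ℝ 1 χ) (hc : HasCompactSupport χ) :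
    ∃ K : ℝ≥0, LipschitzWith K χ :=
  hχ.lipschitzWith_of_hasCompactSupport hc one_ne_zero

section Parts

variable {A G : Type*} [NormedAddCommGroup A] [NormedSpace ℝ A] [FiniteDimensional ℝ A]
  [MeasurableSpace A] [BorelSpace A] [NormedAddCommGroup G] [NormedSpace ℝ G]
  {μ : Measure A} [μ.IsAddHaarMeasure] {ι : Type*} [Fintype ι]

/-- The divergence of a vector field in a basis. -/
noncomputable def divAt (b : Module.Basis ι ℝ A) (V : A → A) (a : A) : ℝ :=
  ∑ i, fderiv ℝ (fun a => b.equivFunL (V a) i) a (b i)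

/-- Integration by parts against a compactly supported vector field. -/
theorem integral_fderiv_apply_eq_neg_divAt (b : Module.Basis ι ℝ A) {V : A → A} {f : A → G}
    (hV : ContDiff ℝ 1 V) (hVc : HasCompactSupport V) (hf : ContDiff ℝ 1 f) :
    ∫ a, fderiv ℝ f a (V a) ∂μ = -∫ a, divAt b V a • f a ∂μ := by
  set W : ι → A → ℝ := fun i a => b.equivFunL (V a) i with hW
  have hWd : ∀ i, ContDiff ℝ 1 (W i) := fun i =>
    ((ContinuousLinearMap.proj i).comp (b.equivFunL : A →L[ℝ] ι → ℝ)).contDiff.comp hV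
  have hWc : ∀ i, HasCompactSupport (W i) := fun i =>
    hVc.comp_left (g := fun v => b.equivFunL v i) (by simp)
  have hf' := hf.continuous_fderiv one_ne_zero
  have hI : ∀ i, Integrable (fun a => W i a • fderiv ℝ f a (b i)) μ := fun i =>
    ((hWd i).continuous.smul (hf'.clm_apply continuous_const)).integrable_of_hasCompactSupport
      (hWc i).smul_right
  have hJ : ∀ i, Integrable (fun a => fderiv ℝ (W i) a (b i) • f a) μ := fun i =>
    ((((hWd i).continuous_fderiv one_ne_zero).clm_apply continuous_const).smul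
      hf.continuous).integrable_of_hasCompactSupport ((hWc i).fderiv_apply ℝ (b i)).smul_right
  have hK : ∀ i, Integrable (fun a => W i a • f a) μ := fun i =>
    ((hWd i).continuous.smul hf.continuous).integrable_of_hasCompactSupport (hWc i).smul_right
  have hexp : ∀ a, fderiv ℝ f a (V a) = ∑ i, W i a • fderiv ℝ f a (b i) := by
    intro a
    conv_lhs => rw [← b.sum_equivFun (V a), map_sum]
    exact Finset.sum_congr rfl fun i _ => map_smul _ _ _
  simp only [hexp, divAt, Finset.sum_smul]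
  rw [integral_finsetSum _ fun i _ => hI i, integral_finsetSum _ fun i _ => hJ i,
    ← Finset.sum_neg_distrib]
  refine Finset.sum_congr rfl fun i _ => ?_
  exact integral_smul_fderiv_eq_neg_fderiv_smul_of_integrable (hJ i) (hI i) (hK i)
    (fun x _ => ((hWd i).differentiable one_ne_zero) x)
    (fun x _ => (hf.differentiable one_ne_zero) x)

/-- The parts rule in composed form: if `D_a Φ (V a) = w a`, then `D φ (Φ a) (w a)` is moved to
the divergence of `V`. -/
theorem integral_fderiv_comp_eq_neg_divAt {E' : Type*} [NormedAddCommGroup E'] [NormedSpace ℝ E']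
    (b : Module.Basis ι ℝ A) {V : A → A} {Φ : A → E'} {φ : E' → G} {w : A → E'}
    (hV : ContDiff ℝ 1 V) (hVc : HasCompactSupport V) (hΦ : ContDiff ℝ 1 Φ) (hφ : ContDiff ℝ 1 φ)
    (hw : ∀ a, fderiv ℝ Φ a (V a) = w a) :
    ∫ a, fderiv ℝ φ (Φ a) (w a) ∂μ = -∫ a, divAt b V a • φ (Φ a) ∂μ := by
  refine Eq.trans ?_ (integral_fderiv_apply_eq_neg_divAt b hV hVc (hφ.comp hΦ))
  refine integral_congr_ae (Eventually.of_forall fun a => ?_)
  show fderiv ℝ φ (Φ a) (w a) = fderiv ℝ (φ ∘ Φ) a (V a)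
  rw [fderiv_comp a ((hφ.differentiable one_ne_zero) _) ((hΦ.differentiable one_ne_zero) a),
    ← hw a, ContinuousLinearMap.comp_apply]

end Parts

end Vale.Agent.P204.Gen
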