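import Vale.Agent.P204.Gen.ShiftAvg

/-!
P204 on a closed four-manifold, module ShiftX: the average over displacements and the average over
the inverse displacements are adjoint for the wedge pairing.
-/

open MeasureTheory Set Filter Topology
open scoped ContDiff NNReal

namespace Vale.Agent.P204.Gen

open Vale.Agent.P204.Torus

variable {P Q : V → V → V} {r : ℝ}

/-- A displacement with an inverse keeps the orientation. -/
lemma det_pos_of_moves (hP : ∀ t w, ‖t‖ < r → ContDiffAt ℝ ∞ (fun p : V × V => P p.1 p.2) (t, w))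
    (hQ : ∀ t w, ‖t‖ < r → ContDiffAt ℝ ∞ (fun p : V × V => Q p.1 p.2) (t, w))
    (hQP : ∀ t, ‖t‖ < r → ∀ w, Q t (P t w) = w) (hP0 : ∀ w, P 0 w = w) {t : V} (ht : ‖t‖ < r)
    (w : V) : 0 < (fderiv ℝ (P t) w).det := by
  have hline : ∀ s ∈ Icc (0 : ℝ) 1, ‖s • t‖ < r := fun s hs => by
    rw [norm_smul, Real.norm_of_nonneg hs.1]
    exact (mul_le_of_le_one_left (norm_nonneg t) hs.2).trans_lt ht
  have hd : ∀ {R : V → V → V}, (∀ t w, ‖t‖ < r → ContDiffAt ℝ ∞ (fun p : V × V => R p.1 p.2) (t, w)) →
      ∀ t w, ‖t‖ < r → HasFDerivAt (R t) (HD (fun p : V × V => R p.1 p.2) (t, w)) w := by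
    intro R hR t w ht
    exact HasFDerivAt.comp (g := fun p : V × V => R p.1 p.2) (f := fun v => (t, v)) w
      ((hR t w ht).differentiableAt (by simp)).hasFDerivAt (hasFDerivAt_prodMk_right t w)
  set f : ℝ → ℝ := fun s => (fderiv ℝ (P (s • t)) w).det
  have hfc : ContinuousOn f (Icc 0 1) := by
    intro s hs
    refine ContinuousAt.continuousWithinAt ?_
    have he : (fun s => (HD (fun p : V × V => P p.1 p.2) (s • t, w)).det) =ᶠ[𝓝 s] f := by
      have hev : ∀ᶠ s' in 𝓝 s, ‖s' • t‖ < r :=
        ((continuousAt_id.smul continuousAt_const).norm).eventually_lt_const (hline s hs)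
      filter_upwards [hev] with s' hs'
      exact congrArg ContinuousLinearMap.det (hd hP _ w hs').fderiv.symm
    refine ContinuousAt.congr ?_ he
    have h1 : ContinuousAt (HD fun p : V × V => P p.1 p.2) (s • t, w) :=
      (((hP _ w (hline s hs)).fderiv_right (m := ∞) le_rfl).clm_comp contDiffAt_const).continuousAt
    exact ContinuousLinearMap.continuous_det.continuousAt.comp
      (ContinuousAt.comp (f := fun s : ℝ => (s • t, w)) h1
        ((continuousAt_id.smul continuousAt_const).prodMk continuousAt_const))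
  have hne : ∀ s ∈ Icc (0 : ℝ) 1, f s ≠ 0 := by
    intro s hs h0
    have h := ((hd hQ _ (P (s • t) w) (hline s hs)).comp w (hd hP _ w (hline s hs)))
    have he : (Q (s • t) ∘ P (s • t)) = id := funext (hQP _ (hline s hs))
    rw [he] at h
    have h1 := congrArg ContinuousLinearMap.det (h.unique (hasFDerivAt_id w))
    rw [clm_det_comp] at h1
    simp only [f, (hd hP _ w (hline s hs)).fderiv] at h0
    rw [h0, mul_zero] at h1
    simp [ContinuousLinearMap.det] at h1
  have h00 : f 0 = 1 := by
    have : P ((0 : ℝ) • t) = id := funext fun v => by simp [hP0]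
    simp only [f, this, fderiv_id]
    simp [ContinuousLinearMap.det]
  by_contra hcon
  have h1 : f 1 ≤ 0 := by simpa [f] using hcon
  obtain ⟨s, hs, hs0⟩ := intermediate_value_Icc' zero_le_one hfc ⟨h1, by rw [h00]; norm_num⟩
  exact hne s hs hs0

lemma continuousOn_q {Y : Type*} [TopologicalSpace Y] {f g : Y → Form} {s : Set Y}
    (hf : ContinuousOn f s) (hg : ContinuousOn g s) : ContinuousOn (fun y => q (f y) (g y)) s :=
  (show Continuous fun p : Form × Form => q p.1 p.2 by simp only [q]; fun_prop).comp_continuousOn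
    (hf.prodMk hg)

namespace Geo

variable {X : Type*} [TopologicalSpace X] [MeasurableSpace X] (G : Geo X)

/-- The integral over the domain of a chart, read in the chart. -/
def ChartInt : Prop :=
  ∀ (i : Fin G.n) (f : X → ℝ), Integrable f G.μ →
    IntegrableOn (fun u => (G.dT i ((G.φ i).symm u)).det * f ((G.φ i).symm u)) (G.φ i).target ∧
    ∫ x in (G.φ i).source, f x ∂G.μ =
      ∫ u in (G.φ i).target, (G.dT i ((G.φ i).symm u)).det * f ((G.φ i).symm u)

variable {G} {i : Fin G.n} {r ε : ℝ} {P Q : V → V → V}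

namespace Move

variable [T2Space X]

lemma pb_chart (hP : G.Move i r P) {t : V} (ht : ‖t‖ < r) {u : V} (hu : u ∈ (G.φ i).target)
    (α : X → Form) :
    G.rep2 i (G.pb (G.lift i P t) α) u = pull (fderiv ℝ (P t) u) (G.rep2 i α (P t u)) := by
  have hi := (G.φ i).map_target hu
  have he : (fun v => G.φ i (G.lift i P t ((G.φ i).symm v))) =ᶠ[𝓝 u] P t := by
    filter_upwards [(G.φ i).open_target.mem_nhds hu] with v hv
    rw [hP.chart ht ((G.φ i).map_target hv), (G.φ i).right_inv hv]
  rw [hP.rep2_pb_slice ht hu (hP.mem_source ht hi), he.fderiv_eq, hP.chart ht hi,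
    (G.φ i).right_inv hu]

/-- Away from the moved part the average is the identity. -/
lemma avP_eq_self (hP : G.Move i r P) (hε : 0 < ε) (hεr : ε ≤ r) (α : X → Form) {x : X}
    (hx : x ∉ G.supX i) : G.avP i P ε α x = α x := by
  have h : ∀ t, rho ε t • G.pb (G.lift i P t) α x = rho ε t • α x := by
    intro t
    by_cases ht : ‖t‖ < ε
    · have htr := ht.trans_le hεr
      have hk := G.mem_ch x
      have hloc : ∀ᶠ y in 𝓝 x, G.lift i P t y = y := by
        filter_upwards [(G.isCompact_supX i).isClosed.isOpen_compl.mem_nhds hx] with y hy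
        exact hP.eq_self htr hy
      have hF : G.lift i P t x = x := hP.eq_self htr hx
      congr 1
      have hm : G.mder (G.lift i P t) x = ContinuousLinearMap.id ℝ V := by
        have hsy : Tendsto (G.ch x).symm (𝓝 (G.ch x x)) (𝓝 x) := by
          have := (G.φ (G.tr x)).continuousAt_symm ((G.φ (G.tr x)).map_source hk)
          rwa [ContinuousAt, (G.φ (G.tr x)).left_inv hk] at this
        have he : (fun u => G.ch (G.lift i P t x) (G.lift i P t ((G.ch x).symm u)))
            =ᶠ[𝓝 (G.ch x x)] id := by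
          filter_upwards [hsy.eventually hloc,
            (G.φ (G.tr x)).open_target.mem_nhds ((G.φ (G.tr x)).map_source hk)] with u hu hut
          rw [hu, hF]
          exact (G.φ (G.tr x)).right_inv hut
        rw [mder, he.fderiv_eq, fderiv_id]
      rw [pb, hm, hF, pull_id]
    · simp [rho_eq_zero hε (not_lt.1 ht)]
  simp only [avP, h]
  rw [integral_smul_const, integral_rho hε, one_smul]

/-- The core of the adjointness, in the chart. -/
lemma setIntegral_q_eq (hP : G.Move i r P) (hQ : G.Move i r Q)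
    (hPQ : ∀ t, ‖t‖ < r → ∀ w, P t (Q t w) = w ∧ Q t (P t w) = w) (hP0 : ∀ w, P 0 w = w)
    {α β : X → Form} {t : V} (ht : ‖t‖ < r) :
    ∫ u in tsupport (G.χ i), q (G.rep2 i (G.pb (G.lift i P t) α) u) (G.rep2 i β u) =
      ∫ u in tsupport (G.χ i), q (G.rep2 i α u) (G.rep2 i (G.pb (G.lift i Q t) β) u) := by
  set K := tsupport (G.χ i)
  have hKm : MeasurableSet K := (isClosed_tsupport _).measurableSet
  have hd : ∀ {R : V → V → V}, G.Move i r R → ∀ w, DifferentiableAt ℝ (R t) w := by
    intro R hR w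
    exact ((hR.smooth t w ht).comp (f := fun v => (t, v)) w
      (contDiffAt_const.prodMk contDiffAt_id)).differentiableAt (by simp)
  have himg : P t '' K = K := by
    refine Subset.antisymm (fun y ⟨w, hw, hwy⟩ => ?_) fun y hy => ⟨Q t y, ?_, (hPQ t ht y).1⟩
    · by_contra hy
      have h1 := hQ.fixed t y ht hy
      rw [← hwy, (hPQ t ht w).2] at h1
      exact hy (hwy ▸ h1 ▸ hw)
    · by_contra hc
      have h1 := hP.fixed t _ ht hc
      rw [(hPQ t ht y).1] at h1
      exact hc (h1 ▸ hy)
  have hinj : InjOn (P t) K := fun a _ b _ hab => by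
    rw [← (hPQ t ht a).2, hab, (hPQ t ht b).2]
  have h := integral_image_eq_integral_abs_det_fderiv_smul volume hKm
    (fun w _ => (hd hP w).hasFDerivAt.hasFDerivWithinAt) hinj
    fun u => q (G.rep2 i α u) (G.rep2 i (G.pb (G.lift i Q t) β) u)
  rw [himg] at h
  rw [h]
  refine setIntegral_congr_fun hKm fun u hu => ?_
  have hut := G.χ_supp i hu
  have hPu := hP.maps t u ht hut
  have hdet := det_pos_of_moves hP.smooth hQ.smooth (fun t ht w => (hPQ t ht w).2) hP0 ht u
  simp only [hP.pb_chart ht hut, hQ.pb_chart ht hPu, (hPQ t ht u).2, smul_eq_mul,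
    abs_of_pos hdet]
  rw [← q_pull (fderiv ℝ (P t) u), ← pull_comp,
    ← fderiv_comp u (hd hQ _) (hd hP u)]
  have he : Q t ∘ P t = id := funext fun w => (hPQ t ht w).2
  rw [he, fderiv_id, pull_id]

/-- The difference of the two integrands in the chart. -/
lemma continuousOn_joint (hP : G.Move i r P) {α β : X → Form} (hα : G.Smooth2 α)
    (hβ : G.Smooth2 β) (hε : 0 < ε) (hεr : ε < r) :
    ContinuousOn (fun p : V × V => q (rho ε p.1 • G.rep2 i (G.pb (G.lift i P p.1) α) p.2)
      (G.rep2 i β p.2)) (univ ×ˢ (G.φ i).target) :=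
  continuousOn_q (hP.contDiffOn_H2 hα hε hεr i).continuousOn
    ((hβ i).continuousOn.comp continuousOn_snd fun _ hp => hp.2)

lemma q_integral_left {f : V → Form} (hf : Integrable f) (b : Form) :
    q (∫ t, f t) b = ∫ t, q (f t) b := by
  set L : Form →L[ℝ] ℝ := LinearMap.toContinuousLinearMap
    { toFun := fun a => q a b
      map_add' := fun a a' => by simp only [q, PiLp.add_apply]; ring
      map_smul' := fun c a => by simp only [q, PiLp.smul_apply, smul_eq_mul, RingHom.id_apply]; ring }
  exact (L.integral_comp_comm hf).symm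

lemma q_integral_right {f : V → Form} (hf : Integrable f) (b : Form) :
    q b (∫ t, f t) = ∫ t, q b (f t) := by
  set L : Form →L[ℝ] ℝ := LinearMap.toContinuousLinearMap
    { toFun := fun a => q b a
      map_add' := fun a a' => by simp only [q, PiLp.add_apply]; ring
      map_smul' := fun c a => by simp only [q, PiLp.smul_apply, smul_eq_mul, RingHom.id_apply]; ring }
  exact (L.integral_comp_comm hf).symm

/-- The averages are adjoint. -/
theorem pairing_avP (hP : G.Move i r P) (hQ : G.Move i r Q)
    (hPQ : ∀ t, ‖t‖ < r → ∀ w, P t (Q t w) = w ∧ Q t (P t w) = w) (hP0 : ∀ w, P 0 w = w)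
    [BorelSpace X] (hint : G.ChartInt)
    (hq : ∀ α β, G.Smooth2 α → G.Smooth2 β → Integrable (fun x => q (α x) (β x)) G.μ)
    {α β : X → Form} (hα : G.Smooth2 α) (hβ : G.Smooth2 β) (hε : 0 < ε) (hεr : ε < r) :
    G.pairing (G.avP i P ε α) β = G.pairing α (G.avP i Q ε β) := by
  set K := tsupport (G.χ i) with hK
  have hKc : IsCompact K := (G.χ_cpt i).isCompact
  have hKt : K ⊆ (G.φ i).target := G.χ_supp i
  have hA := hP.smooth2_avP hα hε hεr
  have hB := hQ.smooth2_avP hβ hε hεr
  have hf := hq _ _ hA hβ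
  have hg := hq _ _ hα hB
  rw [← sub_eq_zero, pairing, pairing, ← integral_sub hf hg]
  set d : X → ℝ := fun x => q (G.avP i P ε α x) (β x) - q (α x) (G.avP i Q ε β x) with hd
  have hzero : ∀ x, x ∉ G.supX i → d x = 0 := fun x hx => by
    simp [hd, hP.avP_eq_self hε hεr.le α hx, hQ.avP_eq_self hε hεr.le β hx]
  rw [← setIntegral_eq_integral_of_forall_compl_eq_zero (s := (G.φ i).source)
    fun x hx => hzero x fun h => hx (G.supX_subset i h), (hint i d (hf.sub hg)).2]
  have hchart : ∀ u ∈ (G.φ i).target, (G.dT i ((G.φ i).symm u)).det * d ((G.φ i).symm u) =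
      q (G.rep2 i (G.avP i P ε α) u) (G.rep2 i β u) -
        q (G.rep2 i α u) (G.rep2 i (G.avP i Q ε β) u) := by
    intro u hu
    have hi := (G.φ i).map_target hu
    rw [hd, mul_sub, ← G.q_rep2 hi, ← G.q_rep2 hi, (G.φ i).right_inv hu]
  rw [setIntegral_eq_of_subset_of_forall_sdiff_eq_zero (G.φ i).open_target.measurableSet hKt
    fun u hu => by
      rw [hzero _ fun h => hu.2 ?_, mul_zero]
      obtain ⟨w, hw, hwu⟩ := h
      rwa [← (G.φ i).right_inv hu.1, ← hwu, (G.φ i).right_inv (hKt hw)]]
  rw [setIntegral_congr_fun hKc.isClosed.measurableSet fun u hu => hchart u (hKt hu)]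
  have hc1 : ContinuousOn (fun u => q (G.rep2 i (G.avP i P ε α) u) (G.rep2 i β u)) K :=
    continuousOn_q ((hA i).continuousOn.mono hKt) ((hβ i).continuousOn.mono hKt)
  have hc2 : ContinuousOn (fun u => q (G.rep2 i α u) (G.rep2 i (G.avP i Q ε β) u)) K :=
    continuousOn_q ((hα i).continuousOn.mono hKt) ((hB i).continuousOn.mono hKt)
  rw [integral_sub (hc1.integrableOn_compact hKc) (hc2.integrableOn_compact hKc), sub_eq_zero]
  set A : V → V → ℝ := fun u t =>
    q (rho ε t • G.rep2 i (G.pb (G.lift i P t) α) u) (G.rep2 i β u) with hAdef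
  set B : V → V → ℝ := fun u t =>
    q (G.rep2 i α u) (rho ε t • G.rep2 i (G.pb (G.lift i Q t) β) u) with hBdef
  have e1 : ∀ u ∈ K, q (G.rep2 i (G.avP i P ε α) u) (G.rep2 i β u) = ∫ t, A u t := by
    intro u hu
    rw [hP.rep2_avP hα hε hεr (hKt hu), q_integral_left]
    exact integrable_slice (isCompact_closedBall (0 : V) ε) (hP.contDiffOn_H2 hα hε hεr i)
      (fun t ht _ => rho_smul_eq_zero hε t ht _) (hKt hu)
  have e2 : ∀ u ∈ K, q (G.rep2 i α u) (G.rep2 i (G.avP i Q ε β) u) = ∫ t, B u t := by
    intro u hu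
    rw [hQ.rep2_avP hβ hε hεr (hKt hu), q_integral_right]
    exact integrable_slice (isCompact_closedBall (0 : V) ε) (hQ.contDiffOn_H2 hβ hε hεr i)
      (fun t ht _ => rho_smul_eq_zero hε t ht _) (hKt hu)
  rw [setIntegral_congr_fun hKc.isClosed.measurableSet e1,
    setIntegral_congr_fun hKc.isClosed.measurableSet e2]
  have hball := isCompact_closedBall (0 : V) ε
  have hint2 : ∀ f : V → V → ℝ,
      ContinuousOn (fun p : V × V => f p.2 p.1) (univ ×ˢ (G.φ i).target) →
      (∀ u t, t ∉ Metric.closedBall (0 : V) ε → f u t = 0) →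
      Integrable (fun p : V × V => f p.1 p.2) ((volume.restrict K).prod volume) := by
    intro f hfc hf0
    have hc : ContinuousOn (fun p : V × V => f p.1 p.2) (K ×ˢ Metric.closedBall (0 : V) ε) :=
      ContinuousOn.comp (f := fun p : V × V => (p.2, p.1)) hfc
        (continuous_snd.prodMk continuous_fst).continuousOn
        fun p hp => ⟨trivial, hKt hp.1⟩
    have h1 : IntegrableOn (fun p : V × V => f p.1 p.2) (K ×ˢ Metric.closedBall (0 : V) ε)
        ((volume : Measure V).prod (volume : Measure V)) := hc.integrableOn_compact (hKc.prod hball)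
    have h2 : IntegrableOn (fun p : V × V => f p.1 p.2) (K ×ˢ (univ : Set V))
        ((volume : Measure V).prod (volume : Measure V)) :=
      h1.of_forall_sdiff_eq_zero (hKc.isClosed.measurableSet.prod MeasurableSet.univ)
        fun p hp => hf0 _ _ fun h => hp.2 ⟨hp.1.1, h⟩
    rwa [IntegrableOn, ← Measure.prod_restrict, Measure.restrict_univ] at h2
  have hBc : ContinuousOn (fun p : V × V => B p.2 p.1) (univ ×ˢ (G.φ i).target) :=
    continuousOn_q ((hα i).continuousOn.comp continuousOn_snd fun _ hp => hp.2)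
      (hQ.contDiffOn_H2 hβ hε hεr i).continuousOn
  rw [integral_integral_swap (f := A) (hint2 A (hP.continuousOn_joint hα hβ hε hεr) fun u t ht => by
      show q _ _ = 0; rw [rho_smul_eq_zero hε t ht]; simp [q]),
    integral_integral_swap (f := B) (hint2 B hBc fun u t ht => by
      show q _ _ = 0; rw [rho_smul_eq_zero hε t ht]; simp [q])]
  refine integral_congr_ae (Eventually.of_forall fun t => ?_)
  by_cases ht : ‖t‖ < ε
  · simp only [hAdef, hBdef, q_smul_left, q_smul_right]
    rw [integral_const_mul, integral_const_mul,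
      setIntegral_q_eq hP hQ hPQ hP0 (ht.trans hεr)]
  · simp [hAdef, hBdef, rho_eq_zero hε (not_lt.1 ht), q]

end Move

end Geo

end Vale.Agent.P204.Gen
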