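import Vale.Agent.P204.Gen.ShiftBase

/-!
P204 on a closed four-manifold, module ShiftX: averages over displacements preserve smooth fields,
are linear and commute with `d`.
-/

open MeasureTheory Set Filter Topology
open scoped ContDiff NNReal

namespace Vale.Agent.P204.Gen

open Vale.Agent.P204.Torus

namespace Geo

variable {X : Type*} [TopologicalSpace X] [MeasurableSpace X] (G : Geo X)

/-- The average of two-forms over a family of displacements. -/
noncomputable def avP (i : Fin G.n) (P : V → V → V) (ε : ℝ) (α : X → Form) (x : X) : Form :=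
  ∫ t, rho ε t • G.pb (G.lift i P t) α x

/-- The average of one-forms over a family of displacements. -/
noncomputable def avP1 (i : Fin G.n) (P : V → V → V) (ε : ℝ) (a : X → V) (x : X) : V :=
  ∫ t, rho ε t • G.pb1 (G.lift i P t) a x

lemma avg_eq_avP (i : Fin G.n) (ε : ℝ) (α : X → Form) :
    G.avg i ε α = G.avP i (G.fwd i) ε α := rfl

lemma avg1_eq_avP1 (i : Fin G.n) (ε : ℝ) (a : X → V) :
    G.avg1 i ε a = G.avP1 i (G.fwd i) ε a := rfl

variable {G} {i : Fin G.n} {r ε : ℝ}

lemma avgT_eq_avP (hf : G.Move i r (G.fwd i)) (hb : G.Move i r (G.bwd i))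
    (hinv : ∀ t, ‖t‖ < r → ∀ w, G.fwd i t (G.bwd i t w) = w ∧ G.bwd i t (G.fwd i t w) = w)
    (hε : 0 < ε) (hεr : ε ≤ r) (α : X → Form) :
    G.avgT i ε α = G.avP i (G.bwd i) ε α := by
  funext x
  have : Nonempty X := ⟨x⟩
  simp only [avgT, avP]
  refine integral_congr_ae (Eventually.of_forall fun t => ?_)
  by_cases ht : ‖t‖ < ε
  · simp only [G.invFun_shift hf hb hinv (ht.trans_le hεr)]
  · simp [rho_eq_zero hε (not_lt.1 ht)]

lemma avgT1_eq_avP1 (hf : G.Move i r (G.fwd i)) (hb : G.Move i r (G.bwd i))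
    (hinv : ∀ t, ‖t‖ < r → ∀ w, G.fwd i t (G.bwd i t w) = w ∧ G.bwd i t (G.fwd i t w) = w)
    (hε : 0 < ε) (hεr : ε ≤ r) (a : X → V) :
    G.avgT1 i ε a = G.avP1 i (G.bwd i) ε a := by
  funext x
  have : Nonempty X := ⟨x⟩
  simp only [avgT1, avP1]
  refine integral_congr_ae (Eventually.of_forall fun t => ?_)
  by_cases ht : ‖t‖ < ε
  · simp only [G.invFun_shift hf hb hinv (ht.trans_le hεr)]
  · simp [rho_eq_zero hε (not_lt.1 ht)]

namespace Move

variable {P : V → V → V} (hP : G.Move i r P)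
include hP

variable [T2Space X]

/-- The integrand of the average in the chart `k`. -/
lemma contDiffOn_H2 {α : X → Form} (hα : G.Smooth2 α) (hε : 0 < ε) (hεr : ε < r) (k : Fin G.n) :
    ContDiffOn ℝ ∞ (fun p : V × V => rho ε p.1 • G.rep2 k (G.pb (G.lift i P p.1) α) p.2)
      (univ ×ˢ (G.φ k).target) := by
  rintro ⟨t, u⟩ ⟨-, hu⟩
  refine ContDiffAt.contDiffWithinAt ?_
  by_cases ht : ‖t‖ < r
  · have h := hP.contDiffAt_rep2_pb hα ht ((G.φ k).map_target hu)
    rw [(G.φ k).right_inv hu] at h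
    exact ((contDiff_rho ε).contDiffAt.comp (t, u) contDiffAt_fst).smul h
  · refine (contDiffAt_const (c := (0 : Form))).congr_of_eventuallyEq ?_
    have he : ∀ᶠ p : V × V in 𝓝 (t, u), ε < ‖p.1‖ :=
      continuousAt_fst.norm.eventually_const_lt (hεr.trans_le (not_lt.1 ht))
    filter_upwards [he] with p hp
    simp [rho_eq_zero hε hp.le]

lemma contDiffOn_H1 {a : X → V} (ha : G.Smooth1 a) (hε : 0 < ε) (hεr : ε < r) (k : Fin G.n) :
    ContDiffOn ℝ ∞ (fun p : V × V => rho ε p.1 • G.rep1 k (G.pb1 (G.lift i P p.1) a) p.2)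
      (univ ×ˢ (G.φ k).target) := by
  rintro ⟨t, u⟩ ⟨-, hu⟩
  refine ContDiffAt.contDiffWithinAt ?_
  by_cases ht : ‖t‖ < r
  · have h := hP.contDiffAt_rep1_pb1 ha ht ((G.φ k).map_target hu)
    rw [(G.φ k).right_inv hu] at h
    exact ((contDiff_rho ε).contDiffAt.comp (t, u) contDiffAt_fst).smul h
  · refine (contDiffAt_const (c := (0 : V))).congr_of_eventuallyEq ?_
    have he : ∀ᶠ p : V × V in 𝓝 (t, u), ε < ‖p.1‖ :=
      continuousAt_fst.norm.eventually_const_lt (hεr.trans_le (not_lt.1 ht))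
    filter_upwards [he] with p hp
    simp [rho_eq_zero hε hp.le]

omit [T2Space X] hP in
lemma rho_smul_eq_zero {F : Type*} [AddCommGroup F] [Module ℝ F] (hε : 0 < ε) (t : V)
    (ht : t ∉ Metric.closedBall (0 : V) ε) (v : F) : rho ε t • v = 0 := by
  rw [Metric.mem_closedBall, dist_zero_right, not_le] at ht
  rw [rho_eq_zero hε ht.le, zero_smul]

lemma integrable_pb {α : X → Form} (hα : G.Smooth2 α) (hε : 0 < ε) (hεr : ε < r) (x : X) :
    Integrable fun t => rho ε t • G.pb (G.lift i P t) α x := by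
  have h := integrable_slice (isCompact_closedBall (0 : V) ε) (hP.contDiffOn_H2 hα hε hεr (G.tr x))
    (fun t ht _ => rho_smul_eq_zero hε t ht _) ((G.φ (G.tr x)).map_source (G.mem_ch x))
  refine h.congr (Eventually.of_forall fun t => ?_)
  simp only
  rw [show G.φ (G.tr x) x = G.ch x x from rfl, G.rep2_tr]

lemma integrable_pb1 {a : X → V} (ha : G.Smooth1 a) (hε : 0 < ε) (hεr : ε < r) (x : X) :
    Integrable fun t => rho ε t • G.pb1 (G.lift i P t) a x := by
  have h := integrable_slice (isCompact_closedBall (0 : V) ε) (hP.contDiffOn_H1 ha hε hεr (G.tr x))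
    (fun t ht _ => rho_smul_eq_zero hε t ht _) ((G.φ (G.tr x)).map_source (G.mem_ch x))
  refine h.congr (Eventually.of_forall fun t => ?_)
  simp only
  rw [show G.φ (G.tr x) x = G.ch x x from rfl, G.rep1_tr]

lemma rep2_avP {α : X → Form} (hα : G.Smooth2 α) (hε : 0 < ε) (hεr : ε < r) {k : Fin G.n}
    {u : V} (hu : u ∈ (G.φ k).target) :
    G.rep2 k (G.avP i P ε α) u = ∫ t, rho ε t • G.rep2 k (G.pb (G.lift i P t) α) u := by
  have hk := (G.φ k).map_target hu
  have hr : ∀ β, G.rep2 k β u = pullL (G.dT k ((G.φ k).symm u)) (β ((G.φ k).symm u)) := fun β => by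
    rw [pullL_apply, ← G.rep2_apply β hk, (G.φ k).right_inv hu]
  simp only [hr, avP, ← map_smul]
  exact (ContinuousLinearMap.integral_comp_comm _ (hP.integrable_pb hα hε hεr _)).symm

lemma rep1_avP1 {a : X → V} (ha : G.Smooth1 a) (hε : 0 < ε) (hεr : ε < r) {k : Fin G.n}
    {u : V} (hu : u ∈ (G.φ k).target) :
    G.rep1 k (G.avP1 i P ε a) u = ∫ t, rho ε t • G.rep1 k (G.pb1 (G.lift i P t) a) u := by
  have hk := (G.φ k).map_target hu
  have hr : ∀ b, G.rep1 k b u = pullVL (G.dT k ((G.φ k).symm u)) (b ((G.φ k).symm u)) := fun b => by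
    rw [pullVL_apply, ← G.rep1_apply b hk, (G.φ k).right_inv hu]
  simp only [hr, avP1, ← map_smul]
  exact (ContinuousLinearMap.integral_comp_comm _ (hP.integrable_pb1 ha hε hεr _)).symm

theorem smooth2_avP {α : X → Form} (hα : G.Smooth2 α) (hε : 0 < ε) (hεr : ε < r) :
    G.Smooth2 (G.avP i P ε α) := fun k =>
  (contDiffOn_integral_slice (G.φ k).open_target (isCompact_closedBall (0 : V) ε)
    (hP.contDiffOn_H2 hα hε hεr k) fun t ht _ => rho_smul_eq_zero hε t ht _).congr
      fun _ hu => hP.rep2_avP hα hε hεr hu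

theorem smooth1_avP1 {a : X → V} (ha : G.Smooth1 a) (hε : 0 < ε) (hεr : ε < r) :
    G.Smooth1 (G.avP1 i P ε a) := fun k =>
  (contDiffOn_integral_slice (G.φ k).open_target (isCompact_closedBall (0 : V) ε)
    (hP.contDiffOn_H1 ha hε hεr k) fun t ht _ => rho_smul_eq_zero hε t ht _).congr
      fun _ hu => hP.rep1_avP1 ha hε hεr hu

theorem avP_d {a : X → V} (ha : G.Smooth1 a) (hε : 0 < ε) (hεr : ε < r) :
    G.avP i P ε (G.d a) = G.d (G.avP1 i P ε a) := by
  funext x
  set k := G.tr x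
  have hu : G.φ k x ∈ (G.φ k).target := (G.φ k).map_source (G.mem_ch x)
  have he : G.rep1 k (G.avP1 i P ε a) =ᶠ[𝓝 (G.φ k x)]
      fun v => ∫ t, rho ε t • G.rep1 k (G.pb1 (G.lift i P t) a) v := by
    filter_upwards [(G.φ k).open_target.mem_nhds hu] with v hv
    exact hP.rep1_avP1 ha hε hεr hv
  have h1 : G.d (G.avP1 i P ε a) x =
      d1 (fun v => ∫ t, rho ε t • G.rep1 k (G.pb1 (G.lift i P t) a) v) (G.φ k x) := by
    show d1 (G.rep1 k (G.avP1 i P ε a)) (G.φ k x) = _
    simp only [d1, he.fderiv_eq]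
  rw [h1, d1_integral_slice (G.φ k).open_target (isCompact_closedBall (0 : V) ε)
    (hP.contDiffOn_H1 ha hε hεr k) (fun t ht _ => rho_smul_eq_zero hε t ht _) hu]
  refine integral_congr_ae (Eventually.of_forall fun t => ?_)
  by_cases ht : ‖t‖ < ε
  · have htr := ht.trans hεr
    have hs : ContDiffAt ℝ ∞ (fun v => G.rep1 k (G.pb1 (G.lift i P t) a) v) (G.φ k x) :=
      ContDiffAt.comp (g := fun p : V × V => G.rep1 k (G.pb1 (G.lift i P p.1) a) p.2)
        (f := fun v => (t, v)) (G.φ k x) (hP.contDiffAt_rep1_pb1 ha htr (G.mem_ch x))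
        (contDiffAt_const.prodMk contDiffAt_id)
    simp only [d1_eq_dL]
    rw [fderiv_fun_const_smul (hs.differentiableAt (by simp)), map_smul, ← d1_eq_dL]
    congr 1
    exact (hP.d_pb1 htr ha x).symm
  · simp [rho_eq_zero hε (not_lt.1 ht), d1_eq_dL]

/-- Near `t = 0` a displacement keeps a compact part of a chart in the chart. -/
lemma exists_keep (hzero : ∀ w, P 0 w = w) (hr : 0 < r) {k : Fin G.n} {K : Set V}
    (hK : IsCompact K) (hKk : K ⊆ (G.φ k).target) :
    ∃ δ : ℝ, 0 < δ ∧ δ ≤ r ∧ ∀ t, ‖t‖ < δ → ∀ u ∈ K,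
      G.lift i P t ((G.φ k).symm u) ∈ (G.φ k).source := by
  have hev : ∀ᶠ t : V in 𝓝 0, ∀ u ∈ K, ‖t‖ < r ∧
      G.lift i P t ((G.φ k).symm u) ∈ (G.φ k).source := by
    refine hK.eventually_forall_of_forall_eventually fun u hu => ?_
    set x := (G.φ k).symm u
    have hk : x ∈ (G.φ k).source := (G.φ k).map_target (hKk hu)
    have h0 : G.lift i P 0 x = x := by
      by_cases hi : x ∈ (G.φ i).source
      · rw [lift_apply P 0 hi, hzero, (G.φ i).left_inv hi]
      · exact lift_of_notMem P 0 hi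
    have h := hP.eventually_source (t := 0) (by simpa using hr) hk (h0.symm ▸ hk)
    rw [(G.φ k).right_inv (hKk hu)] at h
    exact h.mono fun p hp => ⟨hp.1, hp.2.2⟩
  obtain ⟨δ, hδ, hball⟩ := Metric.eventually_nhds_iff.1 hev
  exact ⟨min δ r, lt_min hδ hr, min_le_right _ _, fun t ht u hu =>
    (hball (by simpa using ht.trans_le (min_le_left _ _)) u hu).2⟩

/-- The pull-back in one chart is the pull-back by the displacement read in that chart. -/
lemma rep2_pb_slice {t : V} (ht : ‖t‖ < r) {k : Fin G.n} {u : V} (hu : u ∈ (G.φ k).target)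
    (hj : G.lift i P t ((G.φ k).symm u) ∈ (G.φ k).source) (α : X → Form) :
    G.rep2 k (G.pb (G.lift i P t) α) u =
      pull (fderiv ℝ (fun v => G.φ k (G.lift i P t ((G.φ k).symm v))) u)
        (G.rep2 k α (G.φ k (G.lift i P t ((G.φ k).symm u)))) := by
  have h := G.rep2_pb (hP.cdiffAt ht _) ((G.φ k).map_target hu) hj α
  rwa [(G.φ k).right_inv hu] at h

omit [T2Space X] hP in
lemma pb_add (F : X → X) (α β : X → Form) (x : X) :
    G.pb F (α + β) x = G.pb F α x + G.pb F β x := by simp [pb, pull_add]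

theorem avP_add {α β : X → Form} (hα : G.Smooth2 α) (hβ : G.Smooth2 β) (hε : 0 < ε) (hεr : ε < r) :
    G.avP i P ε (α + β) = G.avP i P ε α + G.avP i P ε β := by
  funext x
  simp only [avP, Pi.add_apply, pb_add, smul_add]
  exact integral_add (hP.integrable_pb hα hε hεr x) (hP.integrable_pb hβ hε hεr x)

omit [T2Space X] hP in
theorem avP_smul (c : ℝ) (α : X → Form) : G.avP i P ε (c • α) = c • G.avP i P ε α := by
  funext x
  simp only [avP, Pi.smul_apply, pb, pull_smul, smul_comm (rho ε _) c]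
  exact integral_smul c _

end Move

end Geo

end Vale.Agent.P204.Gen
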