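import Vale.Agent.P204.Gen.ShiftParam
import Vale.Agent.P204.Gen.Shift

/-!
P204 on a closed four-manifold, module ShiftX: maps of `X` which move one chart and fix the
complement of the support of its cut-off, in particular the cut-off translations and their inverses.
-/

open MeasureTheory Set Filter Topology
open scoped ContDiff NNReal

namespace Vale.Agent.P204.Gen

open Vale.Agent.P204.Torus

namespace Geo

variable {X : Type*} [TopologicalSpace X] [MeasurableSpace X] (G : Geo X)

/-- A smooth family of displacements of the target of the chart `i`. -/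
structure Move (i : Fin G.n) (r : ℝ) (P : V → V → V) : Prop where
  smooth : ∀ t w, ‖t‖ < r → ContDiffAt ℝ ∞ (fun p : V × V => P p.1 p.2) (t, w)
  maps : ∀ t w, ‖t‖ < r → w ∈ (G.φ i).target → P t w ∈ (G.φ i).target
  fixed : ∀ t w, ‖t‖ < r → w ∉ tsupport (G.χ i) → P t w = w

open Classical in
/-- A displacement of the chart `i`, read on `X`. -/
noncomputable def lift (i : Fin G.n) (P : V → V → V) (t : V) (x : X) : X :=
  if x ∈ (G.φ i).source then (G.φ i).symm (P t (G.φ i x)) else x

/-- The forward displacement. -/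
noncomputable def fwd (i : Fin G.n) (t w : V) : V := Gen.shift (G.χ i) t w

/-- The backward displacement. -/
noncomputable def bwd (i : Fin G.n) (t w : V) : V := shiftInv (G.χ i) t w

lemma shift_eq_lift (i : Fin G.n) (t : V) : G.shift i t = G.lift i (G.fwd i) t := rfl

/-- The moved part of a chart. -/
def supX (i : Fin G.n) : Set X := (G.φ i).symm '' tsupport (G.χ i)

lemma isCompact_supX (i : Fin G.n) : IsCompact (G.supX i) :=
  (G.χ_cpt i).isCompact.image_of_continuousOn ((G.φ i).continuousOn_symm.mono (G.χ_supp i))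

lemma supX_subset (i : Fin G.n) : G.supX i ⊆ (G.φ i).source :=
  image_subset_iff.2 fun _ hw => (G.φ i).map_target (G.χ_supp i hw)

lemma notMem_tsupport_of_notMem_supX {i : Fin G.n} {x : X} (hi : x ∈ (G.φ i).source)
    (hx : x ∉ G.supX i) : G.φ i x ∉ tsupport (G.χ i) :=
  fun h => hx ⟨_, h, (G.φ i).left_inv hi⟩

variable {G} {i : Fin G.n} {r : ℝ} {P : V → V → V}

lemma lift_apply (P : V → V → V) (t : V) {x : X} (hi : x ∈ (G.φ i).source) :
    G.lift i P t x = (G.φ i).symm (P t (G.φ i x)) := if_pos hi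

lemma lift_of_notMem (P : V → V → V) (t : V) {x : X} (hi : x ∉ (G.φ i).source) :
    G.lift i P t x = x := if_neg hi

namespace Move

variable (hP : G.Move i r P)
include hP

lemma mem_source {t : V} (ht : ‖t‖ < r) {x : X} (hi : x ∈ (G.φ i).source) :
    G.lift i P t x ∈ (G.φ i).source := by
  rw [lift_apply P t hi]
  exact (G.φ i).map_target (hP.maps t _ ht ((G.φ i).map_source hi))

lemma chart {t : V} (ht : ‖t‖ < r) {x : X} (hi : x ∈ (G.φ i).source) :
    G.φ i (G.lift i P t x) = P t (G.φ i x) := by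
  rw [lift_apply P t hi, (G.φ i).right_inv (hP.maps t _ ht ((G.φ i).map_source hi))]

lemma eq_self {t : V} (ht : ‖t‖ < r) {x : X} (hx : x ∉ G.supX i) : G.lift i P t x = x := by
  by_cases hi : x ∈ (G.φ i).source
  · rw [lift_apply P t hi, hP.fixed t _ ht (G.notMem_tsupport_of_notMem_supX hi hx),
      (G.φ i).left_inv hi]
  · exact lift_of_notMem P t hi

variable [T2Space X]

lemma continuousAt {t : V} (ht : ‖t‖ < r) (x : X) : ContinuousAt (G.lift i P t) x := by
  by_cases hx : x ∈ G.supX i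
  · have hi := G.supX_subset i hx
    have h1 : ContinuousAt (fun y => (G.φ i).symm (P t (G.φ i y))) x :=
      ContinuousAt.comp (f := fun y => P t (G.φ i y))
        ((G.φ i).continuousAt_symm (hP.maps t _ ht ((G.φ i).map_source hi)))
        (ContinuousAt.comp (f := fun y => (t, G.φ i y)) (g := fun p : V × V => P p.1 p.2)
          (hP.smooth t _ ht).continuousAt
          (continuousAt_const.prodMk ((G.φ i).continuousAt hi)))
    refine h1.congr ?_
    filter_upwards [(G.φ i).open_source.mem_nhds hi] with y hy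
    exact (lift_apply P t hy).symm
  · refine continuousAt_id.congr ?_
    filter_upwards [(G.isCompact_supX i).isClosed.isOpen_compl.mem_nhds hx] with y hy
    exact (hP.eq_self ht hy).symm

/-- The displacement is smooth jointly in the parameter and the point, in any two charts. -/
theorem contDiffAt_map {t : V} (ht : ‖t‖ < r) {x : X} {k j : Fin G.n}
    (hk : x ∈ (G.φ k).source) (hj : G.lift i P t x ∈ (G.φ j).source) :
    ContDiffAt ℝ ∞ (fun p : V × V => G.φ j (G.lift i P p.1 ((G.φ k).symm p.2)))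
      (t, G.φ k x) := by
  have hu : G.φ k x ∈ (G.φ k).target := (G.φ k).map_source hk
  have hsy : ContinuousAt (fun p : V × V => (G.φ k).symm p.2) (t, G.φ k x) :=
    ContinuousAt.comp (x := (t, G.φ k x)) (f := Prod.snd) ((G.φ k).continuousAt_symm hu)
      continuousAt_snd
  have hball : ∀ᶠ p : V × V in 𝓝 (t, G.φ k x), ‖p.1‖ < r :=
    continuousAt_fst.norm.eventually_lt_const ht
  by_cases hx : x ∈ G.supX i
  · have hi := G.supX_subset i hx
    have h1 : ContDiffAt ℝ ∞ (fun p : V × V => G.tc k i p.2) (t, G.φ k x) :=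
      ContDiffAt.comp (g := G.tc k i) (f := Prod.snd) (t, G.φ k x)
        (G.contDiffAt_tc (G.chart_mem_tdom hk hi)) contDiffAt_snd
    have hw : G.tc k i (G.φ k x) = G.φ i x := G.tc_chart i hk
    have h2 : ContDiffAt ℝ ∞ (fun p : V × V => P p.1 (G.tc k i p.2)) (t, G.φ k x) := by
      have := ContDiffAt.comp (g := fun p : V × V => P p.1 p.2)
        (f := fun p : V × V => (p.1, G.tc k i p.2)) (t, G.φ k x)
        (by rw [hw]; exact hP.smooth t _ ht) (contDiffAt_fst.prodMk h1)
      exact this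
    have hPw : P t (G.φ i x) = G.φ i (G.lift i P t x) := (hP.chart ht hi).symm
    have h3 : ContDiffAt ℝ ∞ (G.tc i j) (P t (G.tc k i (G.φ k x))) := by
      rw [hw, hPw]
      exact G.contDiffAt_tc (G.chart_mem_tdom (hP.mem_source ht hi) hj)
    refine (h3.comp (t, G.φ k x) h2).congr_of_eventuallyEq ?_
    filter_upwards [hball, hsy.eventually_mem ((G.φ i).open_source.mem_nhds
      (by rw [(G.φ k).left_inv hk]; exact hi))] with p hp hpi
    simp only [Function.comp_apply, tc]
    rw [lift_apply P p.1 hpi]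
  · have hxj : x ∈ (G.φ j).source := by rwa [hP.eq_self ht hx] at hj
    refine (ContDiffAt.comp (g := G.tc k j) (f := Prod.snd) (t, G.φ k x)
      (G.contDiffAt_tc (G.chart_mem_tdom hk hxj)) contDiffAt_snd).congr_of_eventuallyEq ?_
    filter_upwards [hball, hsy.eventually_mem
      ((G.isCompact_supX i).isClosed.isOpen_compl.mem_nhds
        (by rw [(G.φ k).left_inv hk]; exact hx))] with p hp hpx
    simp only [Function.comp_apply, tc]
    rw [hP.eq_self hp hpx]

lemma contDiffAt_slice {t : V} (ht : ‖t‖ < r) {x : X} {k j : Fin G.n}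
    (hk : x ∈ (G.φ k).source) (hj : G.lift i P t x ∈ (G.φ j).source) :
    ContDiffAt ℝ ∞ (fun u => G.φ j (G.lift i P t ((G.φ k).symm u))) (G.φ k x) :=
  (hP.contDiffAt_map ht hk hj).comp (G.φ k x) (contDiffAt_const.prodMk contDiffAt_id)

lemma cdiffAt {t : V} (ht : ‖t‖ < r) (x : X) : G.CDiffAt (G.lift i P t) x :=
  (G.cdiffAt_iff (hP.continuousAt ht x) (G.mem_ch x) (G.mem_ch _)).2
    ((hP.contDiffAt_slice ht (G.mem_ch x) (G.mem_ch _)).differentiableAt (by simp))

/-- Displacements commute with `d`. -/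
lemma d_pb1 {t : V} (ht : ‖t‖ < r) {a : X → V} (ha : G.Smooth1 a) (x : X) :
    G.d (G.pb1 (G.lift i P t) a) x = G.pb (G.lift i P t) (G.d a) x :=
  G.d_pb1 ha (hP.continuousAt ht x) (Eventually.of_forall (hP.cdiffAt ht))
    ((hP.contDiffAt_slice ht (G.mem_ch x) (G.mem_ch _)).of_le (WithTop.coe_le_coe.2 le_top))

lemma eventually_source {t : V} (ht : ‖t‖ < r) {x : X} {k j : Fin G.n}
    (hk : x ∈ (G.φ k).source) (hj : G.lift i P t x ∈ (G.φ j).source) :
    ∀ᶠ p : V × V in 𝓝 (t, G.φ k x), ‖p.1‖ < r ∧ p.2 ∈ (G.φ k).target ∧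
      G.lift i P p.1 ((G.φ k).symm p.2) ∈ (G.φ j).source := by
  have hu : G.φ k x ∈ (G.φ k).target := (G.φ k).map_source hk
  have hsy : ContinuousAt (fun p : V × V => (G.φ k).symm p.2) (t, G.φ k x) :=
    ContinuousAt.comp (x := (t, G.φ k x)) (f := Prod.snd) ((G.φ k).continuousAt_symm hu)
      continuousAt_snd
  have hball : ∀ᶠ p : V × V in 𝓝 (t, G.φ k x), ‖p.1‖ < r :=
    continuousAt_fst.norm.eventually_lt_const ht
  have htgt : ∀ᶠ p : V × V in 𝓝 (t, G.φ k x), p.2 ∈ (G.φ k).target :=
    continuousAt_snd.eventually_mem ((G.φ k).open_target.mem_nhds hu)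
  by_cases hx : x ∈ G.supX i
  · have hi := G.supX_subset i hx
    have hci : ContinuousAt (fun p : V × V => G.φ i ((G.φ k).symm p.2)) (t, G.φ k x) :=
      ContinuousAt.comp (g := G.φ i) (f := fun p : V × V => (G.φ k).symm p.2)
        (by rw [(G.φ k).left_inv hk]; exact (G.φ i).continuousAt hi) hsy
    have hcP : ContinuousAt (fun p : V × V => P p.1 (G.φ i ((G.φ k).symm p.2))) (t, G.φ k x) :=
      ContinuousAt.comp (g := fun p : V × V => P p.1 p.2)
        (f := fun p : V × V => (p.1, G.φ i ((G.φ k).symm p.2)))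
        (by rw [(G.φ k).left_inv hk]; exact (hP.smooth t _ ht).continuousAt)
        (continuousAt_fst.prodMk hci)
    have hc : ContinuousAt (fun p : V × V => (G.φ i).symm (P p.1 (G.φ i ((G.φ k).symm p.2))))
        (t, G.φ k x) :=
      ContinuousAt.comp (g := (G.φ i).symm)
        (by rw [(G.φ k).left_inv hk]
            exact (G.φ i).continuousAt_symm (hP.maps t _ ht ((G.φ i).map_source hi))) hcP
    filter_upwards [hball, htgt, hsy.eventually_mem ((G.φ i).open_source.mem_nhds
        (by rw [(G.φ k).left_inv hk]; exact hi)),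
      hc.eventually_mem ((G.φ j).open_source.mem_nhds
        (by rw [(G.φ k).left_inv hk, ← lift_apply P t hi]; exact hj))] with p hp hpk hpi hpj
    exact ⟨hp, hpk, by rw [lift_apply P p.1 hpi]; exact hpj⟩
  · have hxj : x ∈ (G.φ j).source := by rwa [hP.eq_self ht hx] at hj
    filter_upwards [hball, htgt, hsy.eventually_mem
      ((G.isCompact_supX i).isClosed.isOpen_compl.mem_nhds
        (by rw [(G.φ k).left_inv hk]; exact hx)),
      hsy.eventually_mem ((G.φ j).open_source.mem_nhds
        (by rw [(G.φ k).left_inv hk]; exact hxj))] with p hp hpk hpx hpj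
    exact ⟨hp, hpk, by rw [hP.eq_self hp hpx]; exact hpj⟩

/-- A pulled back two-form is smooth jointly in the parameter and the point. -/
theorem contDiffAt_rep2_pb {α : X → Form} (hα : G.Smooth2 α) {t : V} (ht : ‖t‖ < r) {x : X}
    {k : Fin G.n} (hk : x ∈ (G.φ k).source) :
    ContDiffAt ℝ ∞ (fun p : V × V => G.rep2 k (G.pb (G.lift i P p.1) α) p.2) (t, G.φ k x) := by
  set j := G.tr (G.lift i P t x)
  have hj : G.lift i P t x ∈ (G.φ j).source := G.mem_ch _
  set M : V × V → V := fun p => G.φ j (G.lift i P p.1 ((G.φ k).symm p.2)) with hM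
  have hMd : ContDiffAt ℝ ∞ M (t, G.φ k x) := hP.contDiffAt_map ht hk hj
  have hMx : M (t, G.φ k x) = G.φ j (G.lift i P t x) := by simp [hM, (G.φ k).left_inv hk]
  have h1 : ContDiffAt ℝ ∞
      (fun p => pull (HD M p) (G.rep2 j α (M p))) (t, G.φ k x) :=
    contDiffAt_pull ((hMd.fderiv_right (m := ∞) le_rfl).clm_comp contDiffAt_const)
      (ContDiffAt.comp (g := G.rep2 j α) (t, G.φ k x)
        (by rw [hMx]; exact G.contDiffAt_rep2 hα ((G.φ j).map_source hj)) hMd)
  refine h1.congr_of_eventuallyEq ?_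
  filter_upwards [hP.eventually_source ht hk hj] with p hp
  obtain ⟨hp1, hp2, hp3⟩ := hp
  have hs : (G.φ k).symm p.2 ∈ (G.φ k).source := (G.φ k).map_target hp2
  have h := G.rep2_pb (hP.cdiffAt hp1 _) hs hp3 α
  rw [(G.φ k).right_inv hp2] at h
  rw [h]
  congr 2
  have hd : DifferentiableAt ℝ M p := by
    have := hP.contDiffAt_map hp1 hs hp3
    rw [(G.φ k).right_inv hp2] at this
    exact this.differentiableAt (by simp)
  exact (hd.hasFDerivAt.comp (f := fun v => (p.1, v)) p.2 (hasFDerivAt_prodMk_right p.1 p.2)).fderiv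

/-- A pulled back one-form is smooth jointly in the parameter and the point. -/
theorem contDiffAt_rep1_pb1 {a : X → V} (ha : G.Smooth1 a) {t : V} (ht : ‖t‖ < r) {x : X}
    {k : Fin G.n} (hk : x ∈ (G.φ k).source) :
    ContDiffAt ℝ ∞ (fun p : V × V => G.rep1 k (G.pb1 (G.lift i P p.1) a) p.2) (t, G.φ k x) := by
  set j := G.tr (G.lift i P t x)
  have hj : G.lift i P t x ∈ (G.φ j).source := G.mem_ch _
  set M : V × V → V := fun p => G.φ j (G.lift i P p.1 ((G.φ k).symm p.2)) with hM
  have hMd : ContDiffAt ℝ ∞ M (t, G.φ k x) := hP.contDiffAt_map ht hk hj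
  have hMx : M (t, G.φ k x) = G.φ j (G.lift i P t x) := by simp [hM, (G.φ k).left_inv hk]
  have h1 : ContDiffAt ℝ ∞
      (fun p => pullV (HD M p) (G.rep1 j a (M p))) (t, G.φ k x) :=
    contDiffAt_pullV ((hMd.fderiv_right (m := ∞) le_rfl).clm_comp contDiffAt_const)
      (ContDiffAt.comp (g := G.rep1 j a) (t, G.φ k x)
        (by rw [hMx]; exact G.contDiffAt_rep1 ha ((G.φ j).map_source hj)) hMd)
  refine h1.congr_of_eventuallyEq ?_
  filter_upwards [hP.eventually_source ht hk hj] with p hp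
  obtain ⟨hp1, hp2, hp3⟩ := hp
  have hs : (G.φ k).symm p.2 ∈ (G.φ k).source := (G.φ k).map_target hp2
  have h := G.rep1_pb1 (hP.cdiffAt hp1 _) hs hp3 a
  rw [(G.φ k).right_inv hp2] at h
  rw [h]
  congr 2
  have hd : DifferentiableAt ℝ M p := by
    have := hP.contDiffAt_map hp1 hs hp3
    rw [(G.φ k).right_inv hp2] at this
    exact this.differentiableAt (by simp)
  exact (hd.hasFDerivAt.comp (f := fun v => (p.1, v)) p.2 (hasFDerivAt_prodMk_right p.1 p.2)).fderiv

end Move

/-! ## The cut-off translations are moves -/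

variable (G)

/-- For small parameters the cut-off translations and their inverses are displacements. -/
theorem exists_moves : ∃ r : ℝ, 0 < r ∧ ∀ i, G.Move i r (G.fwd i) ∧ G.Move i r (G.bwd i) ∧
    ∀ t, ‖t‖ < r → ∀ w, G.fwd i t (G.bwd i t w) = w ∧ G.bwd i t (G.fwd i t w) = w := by
  have h : ∀ i, ∀ᶠ r in 𝓝[>] (0 : ℝ), G.Move i r (G.fwd i) ∧ G.Move i r (G.bwd i) ∧
      ∀ t, ‖t‖ < r → ∀ w, G.fwd i t (G.bwd i t w) = w ∧ G.bwd i t (G.fwd i t w) = w := by
    intro i
    obtain ⟨K, hK⟩ := exists_lipschitz ((G.χ_smooth i).of_le (by simp)) (G.χ_cpt i)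
    obtain ⟨δ, hδ, hδs⟩ :=
      (G.χ_cpt i).isCompact.exists_cthickening_subset_open (G.φ i).open_target (G.χ_supp i)
    have hpos : 0 < min δ (1 / ((K : ℝ) + 1)) := lt_min hδ (by positivity)
    filter_upwards [Ioo_mem_nhdsGT hpos] with r hr
    have hKt : ∀ t : V, ‖t‖ < r → (K : ℝ) * ‖t‖ < 1 := fun t ht => by
      have h1 : ‖t‖ < 1 / ((K : ℝ) + 1) := ht.trans (hr.2.trans_le (min_le_right _ _))
      rw [lt_div_iff₀ (by positivity)] at h1
      nlinarith [norm_nonneg t]
    have hmap : ∀ t w, ‖t‖ < r → w ∈ (G.φ i).target → G.fwd i t w ∈ (G.φ i).target := by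
      intro t w ht hw
      by_cases hws : w ∈ tsupport (G.χ i)
      · refine hδs (Metric.mem_cthickening_of_dist_le _ w _ _ hws ?_)
        rw [dist_eq_norm]
        refine (norm_shift_sub_le (C := 1) (fun u => ?_) t w).trans ?_
        · rw [abs_of_nonneg (G.χ_range i u).1]; exact (G.χ_range i u).2
        · rw [one_mul]; exact (ht.trans (hr.2.trans_le (min_le_left _ _))).le
      · rw [fwd, shift_of_notMem t hws]; exact hw
    have hinv : ∀ t, ‖t‖ < r → ∀ w,
        G.fwd i t (G.bwd i t w) = w ∧ G.bwd i t (G.fwd i t w) = w := fun t ht w =>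
      ⟨shift_shiftInv hK (hKt t ht) w, shiftInv_shift hK (hKt t ht) w⟩
    have hfix : ∀ t w, ‖t‖ < r → w ∉ tsupport (G.χ i) → G.bwd i t w = w := fun t w ht hws => by
      have h2 := (hinv t ht w).2
      rw [fwd, shift_of_notMem t hws] at h2
      exact h2
    refine ⟨⟨fun t w _ => (contDiff_shift (G.χ_smooth i)).contDiffAt, hmap,
      fun t w _ hws => shift_of_notMem t hws⟩, ⟨fun t w ht =>
        contDiffAt_shiftInv hK (by simp) (G.χ_smooth i) (hKt t ht), fun t w ht hw => ?_, hfix⟩,
      hinv⟩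
    by_cases hws : G.bwd i t w ∈ tsupport (G.χ i)
    · exact G.χ_supp i hws
    · have h1 := (hinv t ht w).1
      rw [fwd, shift_of_notMem t hws] at h1
      rwa [h1]
  obtain ⟨r, hr, hr0⟩ := ((eventually_all.2 h).and self_mem_nhdsWithin).exists
  exact ⟨r, hr0, hr⟩

/-- The inverse of a cut-off translation. -/
lemma invFun_shift [Nonempty X] {i : Fin G.n} {r : ℝ} (hf : G.Move i r (G.fwd i))
    (hb : G.Move i r (G.bwd i))
    (hinv : ∀ t, ‖t‖ < r → ∀ w, G.fwd i t (G.bwd i t w) = w ∧ G.bwd i t (G.fwd i t w) = w)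
    {t : V} (ht : ‖t‖ < r) : Function.invFun (G.shift i t) = G.lift i (G.bwd i) t := by
  have hl : Function.LeftInverse (G.lift i (G.bwd i) t) (G.shift i t) := fun x => by
    rw [shift_eq_lift]
    by_cases hi : x ∈ (G.φ i).source
    · rw [lift_apply _ t (hf.mem_source ht hi), hf.chart ht hi, (hinv t ht _).2,
        (G.φ i).left_inv hi]
    · rw [lift_of_notMem _ t hi, lift_of_notMem _ t hi]
  have hr : Function.RightInverse (G.lift i (G.bwd i) t) (G.shift i t) := fun x => by
    rw [shift_eq_lift]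
    by_cases hi : x ∈ (G.φ i).source
    · rw [lift_apply _ t (hb.mem_source ht hi), hb.chart ht hi, (hinv t ht _).1,
        (G.φ i).left_inv hi]
    · rw [lift_of_notMem _ t hi, lift_of_notMem _ t hi]
  funext x
  refine hl.injective.eq_iff.1 ?_
  rw [Function.invFun_eq ⟨_, hr x⟩, hr x]

end Geo

end Vale.Agent.P204.Gen
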