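import Vale.Agent.P204.Gen.Shift

/-!
P204, general four-manifold: change of variables for the cut-off translations of `Gen/Shift.lean`.
-/

open MeasureTheory Set Filter Topology
open scoped ContDiff NNReal

namespace Vale.Agent.P204.Gen

variable {d : ℕ} {χ : (Fin d → ℝ) → ℝ} {K : ℝ≥0}

/-- The Jacobian of a cut-off translation. -/
lemma det_shift (a x : Fin d → ℝ) :
    (ContinuousLinearMap.id ℝ (Fin d → ℝ) + (fderiv ℝ χ x).smulRight a).det =
      1 + fderiv ℝ χ x a := by
  set ℓ := fderiv ℝ χ x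
  show LinearMap.det
    ((ContinuousLinearMap.id ℝ (Fin d → ℝ) + ℓ.smulRight a) : (Fin d → ℝ) →ₗ[ℝ] (Fin d → ℝ)) = _
  rw [← LinearMap.det_toMatrix']
  have hM : LinearMap.toMatrix'
      ((ContinuousLinearMap.id ℝ (Fin d → ℝ) + ℓ.smulRight a) :
        (Fin d → ℝ) →ₗ[ℝ] (Fin d → ℝ)) =
      1 + Matrix.replicateCol Unit a * Matrix.replicateRow Unit (fun j => ℓ (Pi.single j 1)) := by
    ext i j
    simp [LinearMap.toMatrix'_apply, Matrix.one_apply, Matrix.mul_apply, Pi.single_apply, mul_comm]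
  rw [hM, Matrix.det_one_add_replicateCol_mul_replicateRow]
  congr 1
  conv_rhs => rw [pi_eq_sum_univ' a, map_sum]
  refine Finset.sum_congr rfl fun j _ => ?_
  rw [map_smul, smul_eq_mul, mul_comm]

lemma one_sub_le_jac (hK : LipschitzWith K χ) (a x : Fin d → ℝ) :
    1 - K * ‖a‖ ≤ 1 + fderiv ℝ χ x a := by
  have h : ‖fderiv ℝ χ x a‖ ≤ K * ‖a‖ := ((fderiv ℝ χ x).le_opNorm a).trans
    (mul_le_mul_of_nonneg_right (norm_fderiv_le_of_lipschitz ℝ hK) (norm_nonneg a))
  rw [Real.norm_eq_abs] at h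
  linarith [neg_abs_le (fderiv ℝ χ x a)]

/-- Change of variables for a small cut-off translation. -/
theorem integral_comp_shift (hK : LipschitzWith K χ) (hχ : Differentiable ℝ χ) {a : Fin d → ℝ}
    (ha : (K : ℝ) * ‖a‖ < 1) (u : (Fin d → ℝ) → ℝ) :
    ∫ x, |1 + fderiv ℝ χ x a| * u (shift χ a x) = ∫ z, u z := by
  have h := integral_image_eq_integral_abs_det_fderiv_smul volume MeasurableSet.univ
    (fun x _ => (hasFDerivAt_shift a (hχ x)).hasFDerivWithinAt) (bijective_shift hK ha).1.injOn u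
  rw [image_univ, (bijective_shift hK ha).2.range_eq] at h
  simpa [det_shift] using h.symm

lemma integrable_comp_shift (hK : LipschitzWith K χ) (hχ : Differentiable ℝ χ) {a : Fin d → ℝ}
    (ha : (K : ℝ) * ‖a‖ < 1) {u : (Fin d → ℝ) → ℝ} (hu : Integrable u) :
    Integrable fun x => |1 + fderiv ℝ χ x a| * u (shift χ a x) := by
  have h := integrableOn_image_iff_integrableOn_abs_det_fderiv_smul volume MeasurableSet.univ
    (fun x _ => (hasFDerivAt_shift a (hχ x)).hasFDerivWithinAt) (bijective_shift hK ha).1.injOn u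
  rw [image_univ, (bijective_shift hK ha).2.range_eq, integrableOn_univ, integrableOn_univ] at h
  simpa [det_shift] using h.1 hu

/-- A small cut-off translation concentrates mass at most twice. -/
theorem integral_comp_shift_le (hK : LipschitzWith K χ) (hχ : Differentiable ℝ χ)
    {a : Fin d → ℝ} (ha : (K : ℝ) * ‖a‖ ≤ 1 / 2) {u : (Fin d → ℝ) → ℝ} (hu : Integrable u)
    (hu0 : ∀ z, 0 ≤ u z) : ∫ x, u (shift χ a x) ≤ 2 * ∫ z, u z := by
  have ha1 : (K : ℝ) * ‖a‖ < 1 := by linarith
  rw [← integral_comp_shift hK hχ ha1 u, ← integral_const_mul]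
  refine integral_mono_of_nonneg (Eventually.of_forall fun x => hu0 _)
    ((integrable_comp_shift hK hχ ha1 hu).const_mul 2) (Eventually.of_forall fun x => ?_)
  have h := one_sub_le_jac hK a x
  have h2 := hu0 (shift χ a x)
  simp only []
  rw [abs_of_nonneg (by linarith)]
  nlinarith

end Vale.Agent.P204.Gen
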