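import Vale.Agent.P204.Gen.GeoSmooth

/-!
P204 on a closed four-manifold, module ShiftX: the mollifier and integrals in the translation
parameter of fields which are smooth jointly in the parameter and the point.
-/

open MeasureTheory Set Filter Topology
open scoped ContDiff

namespace Vale.Agent.P204.Gen

open Vale.Agent.P204.Torus

/-! ## The mollifier -/

lemma contDiff_rho (ε : ℝ) : ContDiff ℝ ∞ (rho ε) :=
  contDiff_const.mul (bump.contDiff_normed.comp (contDiff_const_smul _))

lemma rho_nonneg (ε : ℝ) (t : V) : 0 ≤ rho ε t :=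
  mul_nonneg (inv_nonneg.2 (by positivity)) (bump.nonneg_normed _)

lemma rho_eq_zero {ε : ℝ} (hε : 0 < ε) {t : V} (ht : ε ≤ ‖t‖) : rho ε t = 0 := by
  rw [rho, mul_eq_zero]
  refine Or.inr (Function.notMem_support.1 ?_)
  rw [bump.support_normed_eq]
  intro h
  rw [mem_ball_zero_iff, norm_smul, norm_inv, Real.norm_of_nonneg hε.le, inv_mul_lt_iff₀ hε] at h
  simp only [bump, mul_one] at h
  linarith

lemma integral_rho {ε : ℝ} (hε : 0 < ε) : ∫ t, rho ε t = 1 := by
  simp only [rho]
  rw [integral_const_mul, Measure.integral_comp_inv_smul_of_nonneg volume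
    (fun t => bump.normed volume t) hε.le, bump.integral_normed]
  simp [hε.ne']

lemma hasCompactSupport_rho {ε : ℝ} (hε : 0 < ε) : HasCompactSupport (rho ε) :=
  HasCompactSupport.intro (isCompact_closedBall (0 : V) ε) fun t ht =>
    rho_eq_zero hε (by
      rw [Metric.mem_closedBall, dist_zero_right, not_le] at ht
      exact ht.le)

/-! ## Linear algebra -/

/-- The skew part of the derivative of a one-form, as a linear map. -/
noncomputable def dL : (V →L[ℝ] V) →L[ℝ] Form :=
  LinearMap.toContinuousLinearMap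
    { toFun := fun A => ofSkew fun u v => pair (A u) v - pair (A v) u
      map_add' := fun A B => by
        ext k
        simp only [ofSkew_apply, pair, add_apply, Pi.add_apply, PiLp.add_apply, add_mul,
          Finset.sum_add_distrib]
        ring
      map_smul' := fun r A => by
        ext k
        simp only [ofSkew_apply, pair, smul_apply, Pi.smul_apply, PiLp.smul_apply, smul_eq_mul,
          mul_assoc, ← Finset.mul_sum, RingHom.id_apply]
        ring }

lemma d1_eq_dL (b : V → V) (x : V) : d1 b x = dL (fderiv ℝ b x) := rfl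

/-- Pull-back of covectors as a linear map. -/
noncomputable def pullVL (A : V →L[ℝ] V) : V →L[ℝ] V :=
  LinearMap.toContinuousLinearMap
    { toFun := pullV A, map_add' := pullV_add A, map_smul' := pullV_smul A }

@[simp] lemma pullVL_apply (A : V →L[ℝ] V) (a : V) : pullVL A a = pullV A a := rfl

lemma contDiffAt_pull {E : Type*} [NormedAddCommGroup E] [NormedSpace ℝ E] {p : E}
    {A : E → V →L[ℝ] V} (hA : ContDiffAt ℝ ∞ A p) {f : E → Form} (hf : ContDiffAt ℝ ∞ f p) :
    ContDiffAt ℝ ∞ (fun q => pull (A q) (f q)) p := by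
  refine contDiffAt_piLp' 2 fun k => ?_
  simp only [pull, ofSkew_apply, ev]
  exact ContDiffAt.sum fun l _ => ((contDiffAt_piLp (p := 2)).1 hf l).mul
    (((contDiffAt_pi.1 (hA.clm_apply contDiffAt_const) _).mul
      (contDiffAt_pi.1 (hA.clm_apply contDiffAt_const) _)).sub
      ((contDiffAt_pi.1 (hA.clm_apply contDiffAt_const) _).mul
      (contDiffAt_pi.1 (hA.clm_apply contDiffAt_const) _)))

lemma contDiffAt_pullV {E : Type*} [NormedAddCommGroup E] [NormedSpace ℝ E] {p : E}
    {A : E → V →L[ℝ] V} (hA : ContDiffAt ℝ ∞ A p) {f : E → V} (hf : ContDiffAt ℝ ∞ f p) :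
    ContDiffAt ℝ ∞ (fun q => pullV (A q) (f q)) p := by
  refine contDiffAt_pi.2 fun k => ?_
  simp only [pullV, pair]
  exact ContDiffAt.sum fun l _ => (contDiffAt_pi.1 hf l).mul
    (contDiffAt_pi.1 (hA.clm_apply contDiffAt_const) l)

/-! ## Integrals in the parameter -/

/-- The derivative in the point. -/
noncomputable def HD {F : Type*} [NormedAddCommGroup F] [NormedSpace ℝ F] (H : V × V → F)
    (p : V × V) : V →L[ℝ] F :=
  (fderiv ℝ H p).comp (ContinuousLinearMap.inr ℝ V V)

section Param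

variable {F : Type*} [NormedAddCommGroup F] [NormedSpace ℝ F] {H : V × V → F} {U : Set V}
  {K : Set V}

lemma contDiffOn_HD (hU : IsOpen U) (hH : ContDiffOn ℝ ∞ H (univ ×ˢ U)) :
    ContDiffOn ℝ ∞ (HD H) (univ ×ˢ U) :=
  (hH.fderiv_of_isOpen (isOpen_univ.prod hU) (m := ∞) le_rfl).clm_comp contDiffOn_const

lemma HD_eq_zero (hK : IsCompact K) (hz : ∀ t, t ∉ K → ∀ u, H (t, u) = 0) (t : V) (ht : t ∉ K)
    (u : V) : HD H (t, u) = 0 := by
  have he : H =ᶠ[𝓝 (t, u)] fun _ => 0 := by
    filter_upwards [(hK.isClosed.isOpen_compl.prod isOpen_univ).mem_nhds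
      (⟨ht, trivial⟩ : (t, u) ∈ Kᶜ ×ˢ univ)] with q hq
    exact hz q.1 hq.1 q.2
  simp [HD, he.fderiv_eq]

lemma hasFDerivAt_slice (hU : IsOpen U) (hH : ContDiffOn ℝ ∞ H (univ ×ˢ U)) (t : V) {u : V}
    (hu : u ∈ U) : HasFDerivAt (fun v => H (t, v)) (HD H (t, u)) u :=
  (((hH.contDiffAt ((isOpen_univ.prod hU).mem_nhds ⟨trivial, hu⟩)).differentiableAt
    (by simp)).hasFDerivAt).comp u (hasFDerivAt_prodMk_right t u)

lemma continuous_slice (hH : ContDiffOn ℝ ∞ H (univ ×ˢ U)) {u : V} (hu : u ∈ U) :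
    Continuous fun t => H (t, u) :=
  hH.continuousOn.comp_continuous (continuous_id.prodMk continuous_const) fun _ => ⟨trivial, hu⟩

lemma integrable_slice (hK : IsCompact K) (hH : ContDiffOn ℝ ∞ H (univ ×ˢ U))
    (hz : ∀ t, t ∉ K → ∀ u, H (t, u) = 0) {u : V} (hu : u ∈ U) :
    Integrable fun t => H (t, u) :=
  (continuous_slice hH hu).integrable_of_hasCompactSupport
    (HasCompactSupport.intro hK fun t ht => hz t ht u)

variable [FiniteDimensional ℝ F]

lemma hasFDerivAt_integral_slice (hU : IsOpen U) (hK : IsCompact K)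
    (hH : ContDiffOn ℝ ∞ H (univ ×ˢ U)) (hz : ∀ t, t ∉ K → ∀ u, H (t, u) = 0) {u : V}
    (hu : u ∈ U) :
    HasFDerivAt (fun v => ∫ t, H (t, v)) (∫ t, HD H (t, u)) u := by
  obtain ⟨r, hr, hrU⟩ := Metric.nhds_basis_closedBall.mem_iff.1 (hU.mem_nhds hu)
  obtain ⟨C, hC⟩ := (hK.prod (isCompact_closedBall u r)).exists_bound_of_continuousOn
    ((contDiffOn_HD hU hH).continuousOn.mono (prod_mono (subset_univ _) hrU))
  refine hasFDerivAt_integral_of_dominated_of_fderiv_le (F' := fun v t => HD H (t, v))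
    (bound := K.indicator fun _ => C) (Metric.closedBall_mem_nhds u hr) ?_
    (integrable_slice hK hH hz hu)
    (continuous_slice (contDiffOn_HD hU hH) hu).aestronglyMeasurable
    (Eventually.of_forall fun t v hv => ?_) ?_
    (Eventually.of_forall fun t v hv => hasFDerivAt_slice hU hH t (hrU hv))
  · filter_upwards [hU.mem_nhds hu] with v hv
    exact (continuous_slice hH hv).aestronglyMeasurable
  · by_cases ht : t ∈ K
    · rw [indicator_of_mem ht]; exact hC (t, v) ⟨ht, hv⟩
    · rw [indicator_of_notMem ht, HD_eq_zero hK hz t ht v]; simp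
  · exact (integrableOn_const hK.measure_lt_top.ne).integrable_indicator hK.measurableSet

end Param

lemma contDiffOn_integral_slice_nat {U K : Set V} (hU : IsOpen U) (hK : IsCompact K) (n : ℕ) :
    ∀ {F : Type} [NormedAddCommGroup F] [NormedSpace ℝ F] [FiniteDimensional ℝ F]
      {H : V × V → F}, ContDiffOn ℝ ∞ H (univ ×ˢ U) →
      (∀ t, t ∉ K → ∀ u, H (t, u) = 0) → ContDiffOn ℝ n (fun u => ∫ t, H (t, u)) U := by
  induction n with
  | zero =>
    intro F _ _ _ H hH hz
    exact contDiffOn_zero.2 fun u hu =>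
      (hasFDerivAt_integral_slice hU hK hH hz hu).continuousAt.continuousWithinAt
  | succ n ih =>
    intro F _ _ _ H hH hz
    push_cast
    rw [contDiffOn_succ_iff_fderiv_of_isOpen hU]
    refine ⟨fun u hu =>
      (hasFDerivAt_integral_slice hU hK hH hz hu).differentiableAt.differentiableWithinAt,
      fun h => absurd h (by simp), ?_⟩
    exact (ih (contDiffOn_HD hU hH) (HD_eq_zero hK hz)).congr fun u hu =>
      (hasFDerivAt_integral_slice hU hK hH hz hu).fderiv

/-- Integrals in the parameter are smooth in the point. -/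
lemma contDiffOn_integral_slice {F : Type} [NormedAddCommGroup F] [NormedSpace ℝ F]
    [FiniteDimensional ℝ F] {H : V × V → F} {U K : Set V} (hU : IsOpen U) (hK : IsCompact K)
    (hH : ContDiffOn ℝ ∞ H (univ ×ˢ U)) (hz : ∀ t, t ∉ K → ∀ u, H (t, u) = 0) :
    ContDiffOn ℝ ∞ (fun u => ∫ t, H (t, u)) U :=
  contDiffOn_infty.2 fun n => contDiffOn_integral_slice_nat hU hK n hH hz

/-- `d` passes under the integral. -/
lemma d1_integral_slice {H : V × V → V} {U K : Set V} (hU : IsOpen U) (hK : IsCompact K)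
    (hH : ContDiffOn ℝ ∞ H (univ ×ˢ U)) (hz : ∀ t, t ∉ K → ∀ u, H (t, u) = 0) {u : V}
    (hu : u ∈ U) :
    d1 (fun v => ∫ t, H (t, v)) u = ∫ t, d1 (fun v => H (t, v)) u := by
  rw [d1_eq_dL, (hasFDerivAt_integral_slice hU hK hH hz hu).fderiv,
    ← dL.integral_comp_comm (integrable_slice hK (contDiffOn_HD hU hH) (HD_eq_zero hK hz) hu)]
  exact integral_congr_ae (Eventually.of_forall fun t => by
    simp only [d1_eq_dL, (hasFDerivAt_slice hU hH t hu).fderiv])

end Vale.Agent.P204.Gen
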