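import Vale.Agent.P204.Gen.ShiftAdj
import Vale.Agent.P204.Gen.Integral

/-!
P204 on a closed four-manifold, module ShiftX: the regulariser preserves smooth fields, commutes
with `d` and has the reversed composition as its transpose (the first field of `RegFacts`).
-/

open MeasureTheory Set Filter Topology
open scoped ContDiff NNReal

namespace Vale.Agent.P204.Gen

open Vale.Agent.P204.Torus

namespace Geo

variable {X : Type*} [TopologicalSpace X] [MeasurableSpace X] {G : Geo X}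

lemma fwd_zero (i : Fin G.n) (w : V) : G.fwd i 0 w = w := shift_zero _ _

lemma bwd_zero {i : Fin G.n} {r : ℝ} (hr : 0 < r)
    (hinv : ∀ t, ‖t‖ < r → ∀ w, G.fwd i t (G.bwd i t w) = w ∧ G.bwd i t (G.fwd i t w) = w)
    (w : V) : G.bwd i 0 w = w := by
  have h := (hinv 0 (by simpa using hr) w).1
  rwa [fwd_zero] at h

/-- Integrable wedge products of smooth fields. -/
lemma integrable_q_of_basic (hB : Basic G) {α β : X → Form} (hα : G.Smooth2 α)
    (hβ : G.Smooth2 β) : Integrable (fun x => q (α x) (β x)) G.μ := by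
  have := hB.finite_μ
  obtain ⟨A, hA⟩ := hB.smooth_bound α hα
  obtain ⟨B, hB'⟩ := hB.smooth_bound β hβ
  have hcomp : ∀ (γ : Form) k, |γ k| ≤ ‖γ‖ := fun γ k => PiLp.norm_apply_le γ k
  refine Integrable.of_bound ?_ (6 * (A * B)) (Eventually.of_forall fun x => ?_)
  · exact ((show Continuous fun p : Form × Form => q p.1 p.2 by simp only [q]; fun_prop).measurable.comp
      ((hB.smooth_meas α hα).prodMk (hB.smooth_meas β hβ))).aestronglyMeasurable
  · have h : ∀ k l, |α x k * β x l| ≤ A * B := fun k l => by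
      rw [abs_mul]
      exact mul_le_mul ((hcomp _ k).trans (hA x)) ((hcomp _ l).trans (hB' x)) (abs_nonneg _)
        ((norm_nonneg _).trans (hA x))
    rw [Real.norm_eq_abs, abs_le]
    constructor <;> simp only [q] <;>
      linarith [abs_le.1 (h 0 3), abs_le.1 (h 1 4), abs_le.1 (h 2 5), abs_le.1 (h 3 0),
        abs_le.1 (h 4 1), abs_le.1 (h 5 2)]

variable [T2Space X]

/-- The facts about the regulariser which need no estimate. -/
theorem exists_scale_of_chartInt [BorelSpace X] (hB : Basic G) (hint : G.ChartInt) :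
    ∃ ε₁ : ℝ, 0 < ε₁ ∧ ε₁ ≤ 1 ∧ ∀ ε, 0 < ε → ε ≤ ε₁ →
    (∀ α, G.Smooth2 α → G.Smooth2 (G.reg ε α) ∧ G.Smooth2 (G.regT ε α)) ∧
    (∀ η, G.Smooth1 η → G.Smooth1 (G.reg1 ε η) ∧ G.reg ε (G.d η) = G.d (G.reg1 ε η)) ∧
    (∀ η, G.Smooth1 η → G.Smooth1 (G.regT1 ε η) ∧ G.regT ε (G.d η) = G.d (G.regT1 ε η)) ∧
    (∀ α, G.Smooth2 α → G.WeakClosed α → G.WeakClosed (G.reg ε α)) ∧
    (∀ α β, G.Smooth2 α → G.Smooth2 β →
      G.reg ε (α + β) = G.reg ε α + G.reg ε β) ∧
    (∀ (a : ℝ) α, G.Smooth2 α → G.reg ε (a • α) = a • G.reg ε α) ∧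
    ∀ α β, G.Smooth2 α → G.Smooth2 β → G.pairing (G.reg ε α) β = G.pairing α (G.regT ε β) := by
  obtain ⟨r, hr, hM⟩ := G.exists_moves
  refine ⟨min (r / 2) 1, lt_min (half_pos hr) one_pos, min_le_right _ _, fun ε hε hεle => ?_⟩
  have hεr : ε < r := hεle.trans_lt ((min_le_left _ _).trans_lt (half_lt_self hr))
  have hT : ∀ i (α : X → Form), G.avgT i ε α = G.avP i (G.bwd i) ε α := fun i α =>
    avgT_eq_avP (hM i).1 (hM i).2.1 (hM i).2.2 hε hεr.le α
  have hT1 : ∀ i (a : X → V), G.avgT1 i ε a = G.avP1 i (G.bwd i) ε a := fun i a =>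
    avgT1_eq_avP1 (hM i).1 (hM i).2.1 (hM i).2.2 hε hεr.le a
  have s2 : ∀ (l : List (Fin G.n)) α, G.Smooth2 α →
      G.Smooth2 (l.foldr (fun i β => G.avg i ε β) α) := by
    intro l α hα
    induction l with
    | nil => exact hα
    | cons i l ih => exact (hM i).1.smooth2_avP ih hε hεr
  have s2T : ∀ (l : List (Fin G.n)) α, G.Smooth2 α →
      G.Smooth2 (l.foldr (fun i β => G.avgT i ε β) α) := by
    intro l α hα
    induction l with
    | nil => exact hα
    | cons i l ih => rw [List.foldr_cons, hT]; exact (hM i).2.1.smooth2_avP ih hε hεr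
  have s1 : ∀ (l : List (Fin G.n)) a, G.Smooth1 a →
      G.Smooth1 (l.foldr (fun i b => G.avg1 i ε b) a) ∧
      l.foldr (fun i β => G.avg i ε β) (G.d a) = G.d (l.foldr (fun i b => G.avg1 i ε b) a) := by
    intro l a ha
    induction l with
    | nil => exact ⟨ha, rfl⟩
    | cons i l ih =>
      refine ⟨(hM i).1.smooth1_avP1 ih.1 hε hεr, ?_⟩
      simp only [List.foldr_cons]
      rw [ih.2]
      exact (hM i).1.avP_d ih.1 hε hεr
  have s1T : ∀ (l : List (Fin G.n)) a, G.Smooth1 a →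
      G.Smooth1 (l.foldr (fun i b => G.avgT1 i ε b) a) ∧
      l.foldr (fun i β => G.avgT i ε β) (G.d a) = G.d (l.foldr (fun i b => G.avgT1 i ε b) a) := by
    intro l a ha
    induction l with
    | nil => exact ⟨ha, rfl⟩
    | cons i l ih =>
      simp only [List.foldr_cons]
      rw [hT1, hT, ih.2]
      exact ⟨(hM i).2.1.smooth1_avP1 ih.1 hε hεr, (hM i).2.1.avP_d ih.1 hε hεr⟩
  have hadj : ∀ (l : List (Fin G.n)) α β, G.Smooth2 α → G.Smooth2 β →
      G.pairing (l.foldr (fun i γ => G.avg i ε γ) α) β =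
        G.pairing α (l.reverse.foldr (fun i γ => G.avgT i ε γ) β) := by
    intro l
    induction l with
    | nil => intro α β _ _; rfl
    | cons i l ih =>
      intro α β hα hβ
      simp only [List.foldr_cons, List.reverse_cons, List.foldr_append, List.foldr_nil]
      rw [← ih α _ hα (by rw [hT]; exact (hM i).2.1.smooth2_avP hβ hε hεr), hT, avg_eq_avP]
      exact (hM i).1.pairing_avP (hM i).2.1 (hM i).2.2 (fwd_zero i) hint
        (fun _ _ => integrable_q_of_basic hB) (s2 l α hα) hβ hε hεr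
  refine ⟨fun α hα => ⟨s2 (List.finRange G.n) α hα, s2T (List.finRange G.n).reverse α hα⟩,
    fun η hη => s1 (List.finRange G.n) η hη, fun η hη => s1T (List.finRange G.n).reverse η hη,
    fun α hα hc η hη => ?_, fun α β hα hβ => ?_, fun a α hα => ?_,
    fun α β hα hβ => hadj (List.finRange G.n) α β hα hβ⟩
  · have h1 := hadj (List.finRange G.n) α (G.d η) hα (G.smooth2_d hη)
    obtain ⟨h3, h2⟩ := s1T (List.finRange G.n).reverse η hη
    rw [reg, h1, h2]
    exact hc _ h3
  · have : ∀ l : List (Fin G.n), l.foldr (fun i γ => G.avg i ε γ) (α + β) =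
        l.foldr (fun i γ => G.avg i ε γ) α + l.foldr (fun i γ => G.avg i ε γ) β := by
      intro l
      induction l with
      | nil => rfl
      | cons i l ih =>
        simp only [List.foldr_cons, ih]
        exact (hM i).1.avP_add (s2 l α hα) (s2 l β hβ) hε hεr
    exact this (List.finRange G.n)
  · have : ∀ l : List (Fin G.n), l.foldr (fun i γ => G.avg i ε γ) (a • α) =
        a • l.foldr (fun i γ => G.avg i ε γ) α := by
      intro l
      induction l with
      | nil => rfl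
      | cons i l ih =>
        simp only [List.foldr_cons, ih]
        rw [avg_eq_avP, avg_eq_avP]
        exact Move.avP_smul a _
    exact this (List.finRange G.n)

omit [T2Space X] in
lemma chartInt [CompactSpace X] [BorelSpace X] (G : Geo X) : G.ChartInt := fun _ _ hf =>
  ⟨by simpa [jac] using integrable_chart hf,
    by simpa [jac] using G.integral_chart _ hf.aestronglyMeasurable⟩

/-- The first field of `RegFacts`. -/
theorem exists_scale [CompactSpace X] [BorelSpace X] (G : Geo X) :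
    ∃ ε₁ : ℝ, 0 < ε₁ ∧ ε₁ ≤ 1 ∧ ∀ ε, 0 < ε → ε ≤ ε₁ →
    (∀ α, G.Smooth2 α → G.Smooth2 (G.reg ε α) ∧ G.Smooth2 (G.regT ε α)) ∧
    (∀ η, G.Smooth1 η → G.Smooth1 (G.reg1 ε η) ∧ G.reg ε (G.d η) = G.d (G.reg1 ε η)) ∧
    (∀ η, G.Smooth1 η → G.Smooth1 (G.regT1 ε η) ∧ G.regT ε (G.d η) = G.d (G.regT1 ε η)) ∧
    (∀ α, G.Smooth2 α → G.WeakClosed α → G.WeakClosed (G.reg ε α)) ∧
    (∀ α β, G.Smooth2 α → G.Smooth2 β →
      G.reg ε (α + β) = G.reg ε α + G.reg ε β) ∧
    (∀ (a : ℝ) α, G.Smooth2 α → G.reg ε (a • α) = a • G.reg ε α) ∧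
    ∀ α β, G.Smooth2 α → G.Smooth2 β → G.pairing (G.reg ε α) β = G.pairing α (G.regT ε β) :=
  exists_scale_of_chartInt (basic G) G.chartInt

end Geo

end Vale.Agent.P204.Gen
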