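import Mathlib

/-!
P204, general four-manifold: the Hilbert space part of the operator `G`.

`H` is the space of square integrable two-forms, `L` the Hodge star, `A` the exact forms. Stokes
says `⟪a, L b⟫ = 0` on `A`, and the weakly closed forms are `closedSpace L A = (L A)ᗮ`. For a
self-dual `φ` the closed projection `c` satisfies `φ = h + a + L a` and `c = h + a`, so the
projection is coercive on self-dual forms, with constant `1 / 2`.
-/

open scoped RealInnerProductSpace

namespace Vale.Agent.P204.Gen

variable {H : Type*} [NormedAddCommGroup H] [InnerProductSpace ℝ H] [CompleteSpace H]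

/-- The hypotheses on the star and on the exact forms. -/
structure StarData (L : H →ₗᵢ[ℝ] H) (A : Submodule ℝ H) : Prop where
  invol : ∀ x, L (L x) = x
  orth : ∀ a ∈ A, ∀ b ∈ A, ⟪a, L b⟫ = 0

/-- The weakly closed forms. -/
noncomputable def closedSpace (L : H →ₗᵢ[ℝ] H) (A : Submodule ℝ H) : Submodule ℝ H := (A.map L.toLinearMap)ᗮ

/-- The projection on the weakly closed forms. -/
noncomputable def closedProj (L : H →ₗᵢ[ℝ] H) (A : Submodule ℝ H) : H →L[ℝ] H :=
  have : (closedSpace L A).HasOrthogonalProjection := by unfold closedSpace; infer_instance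
  (closedSpace L A).starProjection

variable {L : H →ₗᵢ[ℝ] H} {A : Submodule ℝ H}

omit [CompleteSpace H] in
lemma mem_closedSpace {c : H} : c ∈ closedSpace L A ↔ ∀ a ∈ A, ⟪L a, c⟫ = 0 := by
  simp [closedSpace, Submodule.mem_orthogonal]

instance : (closedSpace L A).HasOrthogonalProjection := by unfold closedSpace; infer_instance

namespace StarData

variable (D : StarData L A)
include D

omit [CompleteSpace H] in
lemma inner_swap (x y : H) : ⟪L x, y⟫ = ⟪x, L y⟫ := by
  conv_lhs => rw [← D.invol y, L.inner_map_map]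

/-- The decomposition of a self-dual form. -/
theorem swap_decomp {φ : H} (hφ : L φ = φ) :
    ∃ h a : H, φ = h + a + L a ∧ closedProj L A φ = h + a ∧ L h = h ∧ ⟪h, a⟫ = 0 ∧
      h ∈ closedSpace L A ∧ a ∈ A.topologicalClosure := by
  set c := closedProj L A φ with hc
  have hcm : c ∈ closedSpace L A := Submodule.starProjection_apply_mem _ _
  have hb : φ - c ∈ (A.map L.toLinearMap).topologicalClosure := by
    rw [← Submodule.orthogonal_orthogonal_eq_closure]
    exact Submodule.sub_starProjection_mem_orthogonal _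
  set a := L (φ - c) with ha
  have ham : a ∈ A.topologicalClosure := by
    have : φ - c ∈ closure ((fun x => L x) '' (A : Set H)) := by
      rw [← SetLike.mem_coe, Submodule.topologicalClosure_coe] at hb
      simpa using hb
    have h2 := image_closure_subset_closure_image L.continuous ⟨_, this, rfl⟩
    rw [← SetLike.mem_coe, Submodule.topologicalClosure_coe]
    simpa [Set.image_image, D.invol, ha] using h2
  have haC : a ∈ closedSpace L A := by
    refine Submodule.topologicalClosure_minimal _ (fun x hx => ?_)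
      (Submodule.isClosed_orthogonal _) ham
    exact mem_closedSpace.2 fun b hb => by rw [real_inner_comm]; exact D.orth x hx b hb
  have hLa : L a = φ - c := D.invol _
  have hCL : ∀ x ∈ closedSpace L A, ⟪x, L a⟫ = 0 := fun x hx => by
    rw [hLa, real_inner_comm]
    exact Submodule.starProjection_inner_eq_zero _ _ hx
  refine ⟨c - a, a, by rw [hLa]; abel, by rw [hc]; abel, ?_, ?_,
    Submodule.sub_mem _ hcm haC, ham⟩
  · have h := congrArg L (show φ = c + L a by rw [hLa]; abel)
    rw [map_add, D.invol, hφ] at h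
    rw [map_sub, hLa, h]
    abel
  · rw [inner_sub_left]
    have e1 : ⟪φ, a⟫ = ⟪c, a⟫ := by
      conv_lhs => rw [show φ = c + L a by rw [hLa]; abel]
      rw [inner_add_left, real_inner_comm a (L a), hCL a haC, add_zero]
    have e2 : ⟪φ, a⟫ = ⟪a, a⟫ := by
      rw [← L.inner_map_map φ a, hφ, show φ = c + L a by rw [hLa]; abel, inner_add_left,
        hCL c hcm, L.inner_map_map, zero_add]
    linarith

/-- The closed projection is coercive on self-dual forms. -/
theorem norm_sq_le_inner {φ : H} (hφ : L φ = φ) : ‖φ‖ ^ 2 ≤ 2 * ⟪closedProj L A φ, φ⟫ := by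
  obtain ⟨h, a, e, ec, hh, ho, hC, ha⟩ := D.swap_decomp hφ
  have h1 : ⟪h, L a⟫ = 0 := by rw [← D.inner_swap, hh]; exact ho
  have h2 : ⟪a, L a⟫ = 0 := by
    obtain ⟨s, hs, hlim⟩ := mem_closure_iff_seq_limit.1
      (show a ∈ closure (A : Set H) from ha)
    exact tendsto_nhds_unique (hlim.inner ((L.continuous.tendsto a).comp hlim))
      (tendsto_const_nhds.congr fun n => (D.orth _ (hs n) _ (hs n)).symm)
  rw [ec, e]
  simp only [← real_inner_self_eq_norm_sq, inner_add_left, inner_add_right, L.inner_map_map,
    real_inner_comm h a, real_inner_comm a (L a), real_inner_comm h (L a), ho, h1, h2]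
  linarith [real_inner_self_nonneg (x := h)]

/-- Every element of a closed space of self-dual forms is the projection of a weakly closed form,
with bound. -/
theorem exists_closed_lift (M : Submodule ℝ H) [CompleteSpace M]
    (hM : ∀ v ∈ M, L v = v) {η : H} (hη : η ∈ M) :
    ∃ v ∈ M, M.starProjection (closedProj L A v) = η ∧ ‖v‖ ≤ 2 * ‖η‖ := by
  have hP : ∀ v ∈ M, ‖v‖ ^ 2 ≤ 2 * ⟪closedProj L A v, v⟫ := fun v hv =>
    D.norm_sq_le_inner (hM v hv)
  set K : M →L[ℝ] M :=
    (M.orthogonalProjectionOnto).comp ((closedProj L A).comp M.subtypeL) with hK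
  have hKv : ∀ v w : M, ⟪K v, w⟫ = ⟪closedProj L A v, (w : H)⟫ := fun v w => by
    simp [hK]
  set B : M →L[ℝ] M →L[ℝ] ℝ := (innerSL ℝ).comp K
  have hB : ∀ v w, B v w = ⟪K v, w⟫ := fun v w => rfl
  have hc : IsCoercive B := ⟨1 / 2, by norm_num, fun v => by
    rw [hB, hKv]
    have := hP v v.2
    rw [Submodule.coe_norm] at *
    nlinarith⟩
  obtain ⟨v, hv⟩ := hc.continuousLinearEquivOfBilin.surjective ⟨η, hη⟩
  have hw : ∀ w : M, ⟪closedProj L A v, (w : H)⟫ = ⟪η, (w : H)⟫ := fun w => by
    rw [← hKv, ← hB, ← hc.continuousLinearEquivOfBilin_apply, hv]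
    rfl
  refine ⟨v, v.2, ?_, ?_⟩
  · exact Submodule.eq_starProjection_of_mem_of_inner_eq_zero hη fun w hw' => by
      rw [inner_sub_left, hw ⟨w, hw'⟩, sub_self]
  · have h1 := hP v v.2
    rw [hw] at h1
    have h2 := real_inner_le_norm η (v : H)
    nlinarith [norm_nonneg (v : H), norm_nonneg η]

end StarData

end Vale.Agent.P204.Gen
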